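import Vale.Agent.P237.Cal.Region

/-!
# P237: two pointwise lemmas for the second order part of the cost

With `s = T²` the cost of `PW` is `s · valQ` plus terms linear in `h` and `σ`, where
`valQ = (1 - ε σ²)/h + (1 - ε s) h - 2 + 2 ε T σ`. The circle constraint lowers `ε` at a linear
price, and where `1 - ε σ² ≥ 0` a multiple of `h - 1` can be added at a quadratic price.
-/

open Set Real

namespace Vale.Agent.P237.Cal

/-- The second order part of the cost. -/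
noncomputable def valQ (ε T σ h : ℝ) : ℝ :=
  (1 - ε * σ ^ 2) / h + (1 - ε * T ^ 2) * h - 2 + 2 * ε * T * σ

/-- The numerator of the cost through `valQ`. -/
lemma cost_valQ {ε T σ h : ℝ} (hh : h ≠ 0) :
    (T ^ 2 - ε * ((1 + T ^ 2) * h - σ * T) ^ 2) / h =
      T ^ 2 * valQ ε T σ h - (T ^ 2 + ε * (1 + 2 * T ^ 2)) * h + 2 * T ^ 2 + 2 * ε * σ * T := by
  unfold valQ
  field_simp
  ring

/-- **Tangent multiplier.** Under the circle constraint `ε` drops to `(ε - a)/(1 + a)` at a price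
linear in `σ - T` and in `Y² - 1`. -/
theorem valQ_tangent {Y T σ h ε a : ℝ} (ha : 0 ≤ a) (hR : RegT Y T σ h) :
    (1 + a) * valQ ((ε - a) / (1 + a)) T σ h - 2 * a * (σ - T) / T -
        a * (Y ^ 2 - 1) * ((1 + T ^ 2) * h - T ^ 2 / h) / T ^ 2 ≤ valQ ε T σ h := by
  have hT := hR.T_pos
  have hh := hR.h_pos
  have h1 : 0 < 1 + a := by linarith
  have key := mul_nonneg (div_nonneg ha (sq_nonneg T)) hR.circle_div
  have e : valQ ε T σ h - ((1 + a) * valQ ((ε - a) / (1 + a)) T σ h - 2 * a * (σ - T) / T -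
      a * (Y ^ 2 - 1) * ((1 + T ^ 2) * h - T ^ 2 / h) / T ^ 2) =
      a / T ^ 2 * ((1 + T ^ 2) * (Y ^ 2 - (1 + T ^ 2)) * h - T ^ 2 * (Y ^ 2 + σ ^ 2) / h +
        2 * (1 + T ^ 2) * σ * T) := by
    unfold valQ
    field_simp
    ring
  linarith

/-- **Quadratic lower bound.** The part linear in `h - 1` costs at most a square. -/
theorem valQ_quad {T σ h ε G : ℝ} (hε : 0 ≤ ε) (hh : 0 < h) (hA : 0 ≤ 1 - ε * σ ^ 2)
    (hB : 0 ≤ 1 - ε * T ^ 2 + G) (hm : 0 < 1 - ε * T * σ + G / 2) :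
    -(2 * ε * (σ - T) ^ 2 + 2 * ε * σ * (σ - T) * G + G ^ 2 / 2) / (1 - ε * T * σ + G / 2) ≤
      valQ ε T σ h + G * (h - 1) := by
  set M := 1 - ε * T * σ + G / 2 with hM
  set b := ε * (σ - T) ^ 2 + ε * σ * (σ - T) * G + G ^ 2 / 4 with hb
  have hb0 : 0 ≤ b := by
    have e : b = (G / 2 + ε * σ * (σ - T)) ^ 2 + ε * (σ - T) ^ 2 * (1 - ε * σ ^ 2) := by
      rw [hb]; ring
    rw [e]
    positivity
  have hAB : (1 - ε * σ ^ 2) * (1 - ε * T ^ 2 + G) = M ^ 2 - b := by rw [hM, hb]; ring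
  have hsq : 0 ≤ M ^ 2 - b := hAB ▸ mul_nonneg hA hB
  have h1 : M - b / M ≤ √(M ^ 2 - b) := by
    refine le_sqrt_of_sq_le ?_
    have e : (M - b / M) ^ 2 = M ^ 2 - 2 * b + b * (b / M ^ 2) := by field_simp; ring
    have h2 : b * (b / M ^ 2) ≤ b :=
      mul_le_of_le_one_right hb0 ((div_le_one (by positivity)).2 (by linarith))
    linarith
  have h3 : 2 * √(M ^ 2 - b) ≤ (1 - ε * σ ^ 2) / h + (1 - ε * T ^ 2 + G) * h := by
    rw [← hAB]
    set A := 1 - ε * σ ^ 2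
    set B := 1 - ε * T ^ 2 + G
    have hA' : 0 ≤ A / h := div_nonneg hA hh.le
    have hB' : 0 ≤ B * h := mul_nonneg hB hh.le
    rw [show A * B = A / h * (B * h) by field_simp, sqrt_mul hA']
    nlinarith [sq_nonneg (√(A / h) - √(B * h)), sq_sqrt hA', sq_sqrt hB']
  have e2 : valQ ε T σ h + G * (h - 1) =
      (1 - ε * σ ^ 2) / h + (1 - ε * T ^ 2 + G) * h - 2 * M := by
    unfold valQ; rw [hM]; ring
  have e3 : -(2 * ε * (σ - T) ^ 2 + 2 * ε * σ * (σ - T) * G + G ^ 2 / 2) / M = -2 * (b / M) := by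
    rw [hb]; ring
  rw [e2, e3]
  linarith

end Vale.Agent.P237.Cal
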