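import Vale.Agent.P237.Cal.Reduce

/-!
# P237: the convexifying relaxation of the calibration cost

The tangent of an admissible profile lies above the unit semicircle, so `(y - t d)² ≥ 1 + d²`.
Hence `1/(y - t d) ≤ z/(y - t d) + (1 - z) ((y - t d) - d²/(y - t d))` for `z ≤ 1`, and the
cost is bounded below by an expression linear in any test slope.
-/

open Set Real

namespace Vale.Agent.P237.Cal

variable {m : ℕ} {V t y d A : ℝ}

lemma Adm.pos (h : Adm m V t y d A) : 0 < y := by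
  refine lt_of_lt_of_le (sqrt_pos.2 ?_) h.semi
  nlinarith [h.mem.1, h.mem.2]

lemma Adm.den_pos (h : Adm m V t y d A) : 0 < y - t * d := by
  nlinarith [h.pos, h.slope, h.mem.1]

/-- The tangent stays outside the unit circle. -/
lemma Adm.outside (h : Adm m V t y d A) : 1 + d ^ 2 ≤ (y - t * d) ^ 2 := by
  have hd := h.den_pos
  have hs : 0 < √(1 + d ^ 2) := sqrt_pos.2 (by positivity)
  have hsq : √(1 + d ^ 2) ^ 2 = 1 + d ^ 2 := sq_sqrt (by positivity)
  suffices √(1 + d ^ 2) ≤ y - t * d by nlinarith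
  rcases h.slope.eq_or_lt with h0 | h0
  · subst h0
    simp only [mul_zero, sub_zero, ne_eq, OfNat.ofNat_ne_zero, not_false_eq_true, zero_pow,
      add_zero, sqrt_one]
    by_contra hy
    push Not at hy
    have hpos := h.pos
    obtain ⟨x, hx0, hx⟩ : ∃ x, 0 < x ∧ x ^ 2 < 1 - y ^ 2 :=
      ⟨√((1 - y ^ 2) / 2), sqrt_pos.2 (by nlinarith), by
        rw [sq_sqrt (by nlinarith)]; nlinarith⟩
    have := h.tangent x ⟨hx0, by nlinarith⟩
    rw [zero_mul, add_zero, sqrt_le_left hpos.le] at this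
    linarith
  · set s := √(1 + d ^ 2) with hsdef
    have hx : -d / s ∈ Ioo (0 : ℝ) 1 := by
      refine ⟨div_pos (neg_pos.2 h0) hs, (div_lt_one hs).2 ?_⟩
      nlinarith
    have key := h.tangent _ hx
    have e : √(1 - (-d / s) ^ 2) = 1 / s := by
      rw [div_pow, neg_sq, hsq, one_sub_div (by positivity : (1 + d ^ 2) ≠ 0), add_sub_cancel_right,
        sqrt_div zero_le_one, sqrt_one]
    rw [e] at key
    have e2 : 1 / s = s + d * (-d / s) := by field_simp; rw [hsq]; ring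
    linarith [show d * (-d / s - t) = d * (-d / s) - t * d by ring]

/-- Convexification of the perpendicular density. -/
lemma Adm.perp_le (h : Adm m V t y d A) {z : ℝ} (hz : z ≤ 1) :
    1 / (y - t * d) ≤
      z / (y - t * d) + (1 - z) * ((y - t * d) - d ^ 2 / (y - t * d)) := by
  have hd := h.den_pos
  rw [show z / (y - t * d) + (1 - z) * ((y - t * d) - d ^ 2 / (y - t * d)) =
      (z + (1 - z) * ((y - t * d) ^ 2 - d ^ 2)) / (y - t * d) by field_simp]
  gcongr
  nlinarith [h.outside]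

/-- The zero-order lower bound for the cost: relax with `z`, then complete the square with the
test slope `ψ`. The coefficient `1 + w ρ² (1 - z)` of `d²` is nonnegative. -/
theorem Adm.cost_ge (h : Adm m V t y d A) {w ρ lam z ψ : ℝ} (hw : 0 ≤ w) (hz : z ≤ 1) :
    ((m : ℝ) + 1) * y ^ m *
        ((1 + w * ρ ^ 2 * (1 - z)) * (2 * ψ * (-d) - ψ ^ 2 * (y - t * d)) -
          w * ρ ^ 2 * (z / (y - t * d) + (1 - z) * (y - t * d))) + lam * y ^ m ≤
      cost m w ρ lam t y d := by
  have hd := h.den_pos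
  have hy := pow_nonneg h.pos.le m
  have hwz : 0 ≤ w * ρ ^ 2 * (1 - z) := mul_nonneg (by positivity) (by linarith)
  have h1 : 2 * ψ * (-d) - ψ ^ 2 * (y - t * d) ≤ d ^ 2 / (y - t * d) := by
    rw [le_div_iff₀ hd]; nlinarith [sq_nonneg (ψ * (y - t * d) + d)]
  have h2 := mul_le_mul_of_nonneg_left h1 (by linarith : 0 ≤ 1 + w * ρ ^ 2 * (1 - z))
  have h3 := mul_le_mul_of_nonneg_left (h.perp_le hz) (by positivity : 0 ≤ w * ρ ^ 2)
  have key : (1 + w * ρ ^ 2 * (1 - z)) * (2 * ψ * (-d) - ψ ^ 2 * (y - t * d)) -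
      w * ρ ^ 2 * (z / (y - t * d) + (1 - z) * (y - t * d)) ≤
      d ^ 2 / (y - t * d) - w * ρ ^ 2 * (1 / (y - t * d)) := by
    linarith [show w * ρ ^ 2 * (z / (y - t * d) + (1 - z) * ((y - t * d) - d ^ 2 / (y - t * d))) =
      w * ρ ^ 2 * (z / (y - t * d) + (1 - z) * (y - t * d)) -
        w * ρ ^ 2 * (1 - z) * (d ^ 2 / (y - t * d)) by ring,
      show (1 + w * ρ ^ 2 * (1 - z)) * (d ^ 2 / (y - t * d)) =
        d ^ 2 / (y - t * d) + w * ρ ^ 2 * (1 - z) * (d ^ 2 / (y - t * d)) by ring]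
  have h4 := mul_le_mul_of_nonneg_left key (by positivity : 0 ≤ ((m : ℝ) + 1) * y ^ m)
  calc _ ≤ ((m : ℝ) + 1) * y ^ m * (d ^ 2 / (y - t * d) - w * ρ ^ 2 * (1 / (y - t * d))) +
        lam * y ^ m := by linarith
    _ = _ := by simp only [cost]; ring

end Vale.Agent.P237.Cal
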