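import Vale.Agent.P237.Cal.Values
import Vale.Agent.P237.Cal.Relax

/-!
# P237: a central value too small for the projection bound

If `projBound m V < V / Y` the potential `Φ = c A` is already a calibration, so the other
certificates may assume `V ≤ r^k Y^k V₀`, `r = P₀/V₀`, `k = m + 1`.
-/

open MeasureTheory Set Real intervalIntegral

namespace Vale.Agent.P237.Cal

open Full

variable {m : ℕ} {V ρ w Y : ℝ}

/-- A calibration for a central value below the projection bound. -/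
theorem isCalY_trivial (hw : 0 ≤ w) (hY : 1 ≤ Y) (hP : projBound m V < V / Y) :
    ∃ (lam : ℝ) (Φ : ℝ × ℝ × ℝ → ℝ) (dΦ : ℝ × ℝ × ℝ → (ℝ × ℝ × ℝ →L[ℝ] ℝ)),
      IsCalY m V ρ w Y lam Φ dΦ := by
  have hY0 : 0 < Y := by linarith
  set K := w * ((m : ℝ) + 1) * ρ ^ 2 with hK
  have hK0 : 0 ≤ K := by positivity
  set G := V / Y - projBound m V with hG
  have hG0 : 0 < G := by linarith
  set R := V - w * ((m : ℝ) + 1) * V + K * (V / Y) with hR
  set lam := max K ((|R| + 1) / G) with hlam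
  have hlamK : K ≤ lam := le_max_left _ _
  have hlamG : |R| + 1 ≤ lam * G := (div_le_iff₀ hG0).1 (le_max_right _ _)
  set c := (lam - K) / Y with hc
  have hc0 : 0 ≤ c := div_nonneg (by linarith) hY0.le
  have hcY : c * Y = lam - K := div_mul_cancel₀ _ hY0.ne'
  set L : ℝ × ℝ × ℝ →L[ℝ] ℝ :=
    c • (ContinuousLinearMap.snd ℝ ℝ ℝ).comp (ContinuousLinearMap.snd ℝ ℝ (ℝ × ℝ)) with hL
  have hLv : ∀ p : ℝ × ℝ × ℝ, L p = c * p.2.2 := fun p => rfl
  refine ⟨lam, fun p => L p, fun _ => L, ⟨hK0.trans hlamK, L.continuous.continuousOn,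
    fun t y A _ _ _ _ => L.hasFDerivAt, ?_, ?_, ?_⟩⟩
  · intro t y d A h
    have hy := h.adm.pos
    have hg := h.adm.den_pos
    have hg1 : 1 ≤ y - t * d := by nlinarith [h.adm.outside, sq_nonneg d]
    rw [hLv]
    have h1 : c * y ≤ lam - K := hcY ▸ mul_le_mul_of_nonneg_left h.lt_top.le hc0
    have h2 : w * ((m : ℝ) + 1) * ρ ^ 2 * (y ^ m / (y - t * d)) ≤ K * y ^ m :=
      mul_le_mul_of_nonneg_left (div_le_self (pow_nonneg hy.le m) hg1) hK0
    have h3 : 0 ≤ ((m : ℝ) + 1) * (y ^ m * (d ^ 2 / (y - t * d))) := by positivity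
    calc c * y ^ (m + 1) = c * y * y ^ m := by ring
      _ ≤ (lam - K) * y ^ m := mul_le_mul_of_nonneg_right h1 (pow_nonneg hy.le m)
      _ ≤ _ := by simp only [cost]; linarith
  · intro b hb _ _ _
    simp only [hLv, mul_zero, sub_zero]
    have h1 : K * (Y ^ m / Y) ≤ K * Y ^ m :=
      mul_le_mul_of_nonneg_left (div_le_self (pow_nonneg hY0.le m) hY) hK0
    rw [show c * (b * Y ^ (m + 1)) = b * (c * Y * Y ^ m) by ring, hcY]
    refine mul_le_mul_of_nonneg_left ?_ hb.le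
    simp only [cost, mul_zero, sub_zero, zero_pow two_ne_zero, zero_div]
    linarith
  · intro z hz _ _ _ _
    simp only [hLv, mul_zero, sub_zero]
    have hzp : 0 ≤ z ^ (m + 1) := pow_nonneg hz _
    have e : c * V = lam * (V / Y) - K * (V / Y) := by rw [hc]; ring
    have := le_abs_self R
    rw [e]
    rw [hG, mul_sub] at hlamG
    linarith

/-- The remaining central values: `V ≤ r^k Y^k V₀`. -/
theorem le_rr_pow (hV : 0 ≤ V) (hY : 0 < Y) (hP : ¬ projBound m V < V / Y) :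
    V ≤ rr (m + 1) ^ (m + 1) * Y ^ (m + 1) * semiMom m 1 := by
  have h0 : 0 < semiMom m 1 := by rw [semiMom_one]; exact mom_zero_pos (m + 2)
  rcases hV.eq_or_lt with hV0 | hV0
  · rw [← hV0]
    have : 0 ≤ rr (m + 1) := div_nonneg (mom_nonneg ..) (mom_nonneg ..)
    positivity
  rw [not_lt, projBound_eq hV, div_le_iff₀ hY] at hP
  set q := V / semiMom m 1 with hq
  have hq0 : 0 < q := by positivity
  have hsplit : q = q ^ ((m : ℝ) / ((m : ℝ) + 1)) * q ^ (1 / ((m : ℝ) + 1)) := by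
    rw [← rpow_add hq0, ← add_div, div_self (by positivity), rpow_one]
  have hVq : V = semiMom m 1 * q := by rw [hq]; field_simp
  have hp : 0 < q ^ ((m : ℝ) / ((m : ℝ) + 1)) := rpow_pos_of_pos hq0 _
  have h1 : q ^ (1 / ((m : ℝ) + 1)) ≤ rr (m + 1) * Y := by
    rw [rr, show m + 1 + 2 = m + 3 from rfl, show m + 1 + 3 = m + 4 from rfl, ← semiMom_one,
      div_mul_eq_mul_div, le_div_iff₀ h0]
    refine le_of_mul_le_mul_left ?_ hp
    calc q ^ ((m : ℝ) / ((m : ℝ) + 1)) * (q ^ (1 / ((m : ℝ) + 1)) * semiMom m 1)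
        = V := by rw [← mul_assoc, ← hsplit, hVq]; ring
      _ ≤ _ := hP.trans_eq (by ring)
  have h2 := pow_le_pow_left₀ (rpow_nonneg hq0.le _) h1 (m + 1)
  rw [one_div, show ((m : ℝ) + 1) = ((m + 1 : ℕ) : ℝ) by push_cast; ring,
    rpow_inv_natCast_pow hq0.le (Nat.succ_ne_zero m), mul_pow] at h2
  rw [hVq, mul_comm]
  exact mul_le_mul_of_nonneg_right h2 h0.le

/-- Either a calibration is immediate or `V ≤ r^k Y^k V₀`. -/
theorem trivial_or_le (hw : 0 ≤ w) (hY : 1 ≤ Y) (hV : 0 ≤ V) :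
    (∃ (lam : ℝ) (Φ : ℝ × ℝ × ℝ → ℝ) (dΦ : ℝ × ℝ × ℝ → (ℝ × ℝ × ℝ →L[ℝ] ℝ)),
      IsCalY m V ρ w Y lam Φ dΦ) ∨ V ≤ rr (m + 1) ^ (m + 1) * Y ^ (m + 1) * semiMom m 1 := by
  by_cases h : projBound m V < V / Y
  · exact Or.inl (isCalY_trivial hw hY h)
  · exact Or.inr (le_rr_pow hV (by linarith) h)

end Vale.Agent.P237.Cal
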