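import Vale.Agent.P237.Cal.BridgeX
import Vale.Agent.P237.Cal.Second
import Vale.Agent.P237.Cal.Trivial

/-!
# P237: calibrations from a lower bound for the second order part

With `Ψ = f(T)(σ - T) + ∫₀^T (f + c + LB) + E` the pointwise inequality of the bridge becomes
`k T² W^(-n-2) valQ + ell(T)(σ - T) - dE ≥ LB(T)`, the plateau condition becomes
`E(0,b,0) ≤ E(0,0,0)`, and the scalar condition is evaluated with the moments.
-/

open MeasureTheory Set Filter Topology Real intervalIntegral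

namespace Vale.Agent.P237.Cal

variable {m : ℕ}

/-- The coefficient of `h` in the cost. -/
noncomputable def fT (m : ℕ) (ε μ a T : ℝ) : ℝ :=
  μ / √(1 + T ^ 2) ^ (m + 1) - (a + ((m : ℝ) + 1) * (1 + 2 * ε)) / √(1 + T ^ 2) ^ (m + 2) +
    ((m : ℝ) + 1) * (1 + ε) / √(1 + T ^ 2) ^ (m + 4)

/-- The derivative of `fT`. -/
noncomputable def dfT (m : ℕ) (ε μ a T : ℝ) : ℝ :=
  -(((m : ℝ) + 1) * μ) * T / √(1 + T ^ 2) ^ (m + 3) +
    (a + ((m : ℝ) + 1) * (1 + 2 * ε)) * ((m : ℝ) + 2) * T / √(1 + T ^ 2) ^ (m + 4) -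
    ((m : ℝ) + 1) * (1 + ε) * ((m : ℝ) + 4) * T / √(1 + T ^ 2) ^ (m + 6)

/-- The weight of `σ - T`. -/
noncomputable def ell (m : ℕ) (ε μ a T : ℝ) : ℝ :=
  T * (((m : ℝ) + 1) * μ * √(1 + T ^ 2) ^ 3 -
      (((m : ℝ) + 2) * a + ((m : ℝ) + 1) * (((m : ℝ) + 2) * (1 + 2 * ε) - 2 * ε)) *
        √(1 + T ^ 2) ^ 2 +
      ((m : ℝ) + 1) * ((m : ℝ) + 4) * (1 + ε)) / √(1 + T ^ 2) ^ (m + 6)

lemma hasDerivAt_w_inv (j : ℕ) (t : ℝ) :
    HasDerivAt (fun x : ℝ => 1 / √(1 + x ^ 2) ^ j) (-((j : ℝ) * t / √(1 + t ^ 2) ^ (j + 2))) t := by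
  have hw := w_pos t
  simp only [one_div]
  refine (((hasDerivAt_w t).pow j).fun_inv (pow_ne_zero _ hw.ne')).congr_deriv ?_
  rcases j with _ | i
  · simp
  · simp only [Nat.add_sub_cancel, Pi.pow_apply]
    push_cast
    field_simp
    ring

lemma hasDerivAt_fT (ε μ a T : ℝ) : HasDerivAt (fT m ε μ a) (dfT m ε μ a T) T := by
  have h := (((hasDerivAt_w_inv (m + 1) T).const_mul μ).sub ((hasDerivAt_w_inv (m + 2) T).const_mul
    (a + ((m : ℝ) + 1) * (1 + 2 * ε)))).add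
      ((hasDerivAt_w_inv (m + 4) T).const_mul (((m : ℝ) + 1) * (1 + ε)))
  refine (h.congr_of_eventuallyEq (Filter.Eventually.of_forall fun x => ?_)).congr_deriv ?_
  · simp only [fT, Pi.add_apply, Pi.sub_apply]; ring
  · simp only [dfT, show m + 1 + 2 = m + 3 from rfl, show m + 2 + 2 = m + 4 from rfl,
      show m + 4 + 2 = m + 6 from rfl]
    push_cast; ring

/-- The right side of the pointwise inequality through `valQ`. -/
lemma rhs_eq {ε μ a T σ h : ℝ} (hh : h ≠ 0) :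
    ((m : ℝ) + 1) * (T ^ 2 - ε * ((1 + T ^ 2) * h - σ * T) ^ 2) / h / √(1 + T ^ 2) ^ (m + 4) +
        μ * h / √(1 + T ^ 2) ^ (m + 1) - a * h / √(1 + T ^ 2) ^ (m + 2) =
      dfT m ε μ a T * (σ - T) + fT m ε μ a T * h +
        2 * ((m : ℝ) + 1) * (1 + ε) * (T ^ 2 / √(1 + T ^ 2) ^ (m + 4)) +
        (((m : ℝ) + 1) * T ^ 2 / √(1 + T ^ 2) ^ (m + 4) * valQ ε T σ h +
          ell m ε μ a T * (σ - T)) := by
  rw [mul_div_assoc ((m : ℝ) + 1), cost_valQ hh]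
  set W := √(1 + T ^ 2) with hW
  have hW0 : 0 < W := w_pos T
  have hs : W ^ 2 = 1 + T ^ 2 := w_sq T
  have e1 : dfT m ε μ a T + ell m ε μ a T =
      2 * ((m : ℝ) + 1) * ε * T / W ^ (m + 4) := by
    simp only [dfT, ell, ← hW]
    field_simp
    ring
  have e2 : fT m ε μ a T = μ / W ^ (m + 1) - a / W ^ (m + 2) -
      ((m : ℝ) + 1) * (T ^ 2 + ε * (1 + 2 * T ^ 2)) / W ^ (m + 4) := by
    simp only [fT, ← hW]
    rw [show T ^ 2 + ε * (1 + 2 * T ^ 2) = (1 + 2 * ε) * W ^ 2 - (1 + ε) by rw [hs]; ring]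
    field_simp
    ring
  linear_combination (-(σ - T)) * e1 - h * e2

lemma continuous_fT (ε μ a : ℝ) : Continuous (fT m ε μ a) :=
  continuous_iff_continuousAt.2 fun T => (hasDerivAt_fT (m := m) ε μ a T).continuousAt

/-- The derivative of the free part of the potential. -/
noncomputable def g0 (m : ℕ) (ε μ a : ℝ) (LB : ℝ → ℝ) (T : ℝ) : ℝ :=
  fT m ε μ a T + 2 * ((m : ℝ) + 1) * (1 + ε) * (T ^ 2 / √(1 + T ^ 2) ^ (m + 4)) + LB T

/-- The potential. -/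
noncomputable def psiC (m : ℕ) (ε μ a : ℝ) (LB : ℝ → ℝ) (E : ℝ × ℝ × ℝ → ℝ) (p : ℝ × ℝ × ℝ) :
    ℝ :=
  fT m ε μ a p.1 * (p.2.1 - p.1) + (∫ u in (0 : ℝ)..p.1, g0 m ε μ a LB u) + E p

/-- The derivative of the potential. -/
noncomputable def dpsiC (m : ℕ) (ε μ a : ℝ) (LB : ℝ → ℝ)
    (dE : ℝ × ℝ × ℝ → (ℝ × ℝ × ℝ →L[ℝ] ℝ)) (p : ℝ × ℝ × ℝ) : ℝ × ℝ × ℝ →L[ℝ] ℝ :=
  (dfT m ε μ a p.1 * (p.2.1 - p.1) - fT m ε μ a p.1 + g0 m ε μ a LB p.1) •
      ContinuousLinearMap.fst ℝ ℝ (ℝ × ℝ) +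
    fT m ε μ a p.1 •
      (ContinuousLinearMap.fst ℝ ℝ ℝ).comp (ContinuousLinearMap.snd ℝ ℝ (ℝ × ℝ)) + dE p

lemma continuous_g0 {LB : ℝ → ℝ} (hLB : Continuous LB) (ε μ a : ℝ) :
    Continuous (g0 m ε μ a LB) :=
  (((continuous_fT (m := m) ε μ a).add ((mom_continuous 2 (m + 4)).const_smul
    (2 * ((m : ℝ) + 1) * (1 + ε)))).add hLB).congr fun T => by simp [g0]

/-- The lower bound at the points of the region gives the pointwise inequality of the bridge. -/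
lemma pwX_of_core {ε μ a T σ h X : ℝ} {LB : ℝ → ℝ}
    {dE : ℝ × ℝ × ℝ → (ℝ × ℝ × ℝ →L[ℝ] ℝ)} (hh : 0 < h)
    (hP : LB T + dE (T, σ, X) (1, h, ((m : ℝ) + 1) * σ * T / √(1 + T ^ 2) ^ (m + 4)) ≤
      ((m : ℝ) + 1) * T ^ 2 / √(1 + T ^ 2) ^ (m + 4) * valQ ε T σ h +
        ell m ε μ a T * (σ - T)) :
    PWX m ε μ a (dpsiC m ε μ a LB dE) T σ h X := by
  unfold PWX
  rw [rhs_eq hh.ne']
  simp only [dpsiC, ContinuousLinearMap.add_apply, ContinuousLinearMap.smul_apply,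
    ContinuousLinearMap.coe_fst', ContinuousLinearMap.comp_apply, ContinuousLinearMap.coe_snd',
    smul_eq_mul, mul_one, g0]
  linarith

variable {V ρ w Y ε μ a : ℝ} {LB : ℝ → ℝ} {E : ℝ × ℝ × ℝ → ℝ}
  {dE : ℝ × ℝ × ℝ → (ℝ × ℝ × ℝ →L[ℝ] ℝ)} {Einf : ℝ → ℝ}

lemma psiC_hasFDerivAt (hLB : Continuous LB)
    (hd : ∀ T σ X, 0 < T → HasFDerivAt E (dE (T, σ, X)) (T, σ, X)) (T σ X : ℝ) (hT : 0 < T) :
    HasFDerivAt (psiC m ε μ a LB E) (dpsiC m ε μ a LB dE (T, σ, X)) (T, σ, X) := by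
  have h1 : HasFDerivAt (fun p : ℝ × ℝ × ℝ => p.1) (ContinuousLinearMap.fst ℝ ℝ (ℝ × ℝ))
      (T, σ, X) := hasFDerivAt_fst
  have h2 : HasFDerivAt (fun p : ℝ × ℝ × ℝ => p.2.1)
      ((ContinuousLinearMap.fst ℝ ℝ ℝ).comp (ContinuousLinearMap.snd ℝ ℝ (ℝ × ℝ))) (T, σ, X) :=
    ((ContinuousLinearMap.fst ℝ ℝ ℝ).comp (ContinuousLinearMap.snd ℝ ℝ (ℝ × ℝ))).hasFDerivAt
  have hc := continuous_g0 (m := m) hLB ε μ a
  have hF : HasDerivAt (fun u => ∫ x in (0 : ℝ)..u, g0 m ε μ a LB x) (g0 m ε μ a LB T) T :=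
    hc.integral_hasStrictDerivAt 0 T |>.hasDerivAt
  have key := ((((hasDerivAt_fT (m := m) ε μ a T).comp_hasFDerivAt_of_eq (T, σ, X) h1 rfl).mul
    (h2.sub h1)).add (hF.comp_hasFDerivAt_of_eq (T, σ, X) h1 rfl)).add (hd T σ X hT)
  refine key.congr_fderiv ?_
  ext v <;> simp [dpsiC] <;> ring

lemma tendsto_fT_mul (hm : 1 ≤ m) (ε μ a : ℝ) :
    Tendsto (fun T => fT m ε μ a T * (T + 1)) atTop (𝓝 0) := by
  have ht : ∀ j, 2 ≤ j → Tendsto (fun T : ℝ => (T + 1) / √(1 + T ^ 2) ^ j) atTop (𝓝 0) := by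
    intro j hj
    have := (mom_tendsto (a := 1) (m := j) (by omega)).add (mom_tendsto (a := 0) (m := j) (by omega))
    simpa [add_div] using this
  have h := (((ht (m + 1) (by omega)).const_mul μ).sub ((ht (m + 2) (by omega)).const_mul
    (a + ((m : ℝ) + 1) * (1 + 2 * ε)))).add
      ((ht (m + 4) (by omega)).const_mul (((m : ℝ) + 1) * (1 + ε)))
  simp only [mul_zero, sub_zero, add_zero] at h
  refine h.congr fun T => ?_
  simp only [fT]; ring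

/-- `∫₀^∞ g0` in the moments. -/
lemma integral_g0 (hm : 1 ≤ m) (hLB : IntegrableOn LB (Ioi 0)) :
    IntegrableOn (g0 m ε μ a LB) (Ioi 0) ∧
      ∫ T in Ioi (0 : ℝ), g0 m ε μ a LB T =
        μ * (((m : ℝ) + 1) / (m : ℝ)) * mom 0 (m + 3) -
          a * (((m : ℝ) + 2) / ((m : ℝ) + 1)) * mom 0 (m + 4) +
          (1 - ((m : ℝ) + 1) * ε) * mom 0 (m + 4) + ∫ T in Ioi (0 : ℝ), LB T := by
  have i1 := (mom_integrable (a := 0) (m := m + 1) (by omega)).const_mul μ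
  have i2 := (mom_integrable (a := 0) (m := m + 2) (by omega)).const_mul
    (a + ((m : ℝ) + 1) * (1 + 2 * ε))
  have i3 := (mom_integrable (a := 0) (m := m + 4) (by omega)).const_mul (((m : ℝ) + 1) * (1 + ε))
  have i4 := (mom_integrable (a := 2) (m := m + 4) (by omega)).const_mul
    (2 * ((m : ℝ) + 1) * (1 + ε))
  have e : g0 m ε μ a LB = fun T => (((μ * (T ^ 0 / √(1 + T ^ 2) ^ (m + 1)) -
      (a + ((m : ℝ) + 1) * (1 + 2 * ε)) * (T ^ 0 / √(1 + T ^ 2) ^ (m + 2))) +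
      ((m : ℝ) + 1) * (1 + ε) * (T ^ 0 / √(1 + T ^ 2) ^ (m + 4))) +
      2 * ((m : ℝ) + 1) * (1 + ε) * (T ^ 2 / √(1 + T ^ 2) ^ (m + 4))) + LB T :=
    funext fun T => by simp only [g0, fT]; ring
  have j2 : IntegrableOn (fun T : ℝ => μ * (T ^ 0 / √(1 + T ^ 2) ^ (m + 1)) -
      (a + ((m : ℝ) + 1) * (1 + 2 * ε)) * (T ^ 0 / √(1 + T ^ 2) ^ (m + 2))) (Ioi 0) := i1.sub i2
  have j3 : IntegrableOn (fun T : ℝ => μ * (T ^ 0 / √(1 + T ^ 2) ^ (m + 1)) -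
      (a + ((m : ℝ) + 1) * (1 + 2 * ε)) * (T ^ 0 / √(1 + T ^ 2) ^ (m + 2)) +
      ((m : ℝ) + 1) * (1 + ε) * (T ^ 0 / √(1 + T ^ 2) ^ (m + 4))) (Ioi 0) := j2.add i3
  have j4 : IntegrableOn (fun T : ℝ => μ * (T ^ 0 / √(1 + T ^ 2) ^ (m + 1)) -
      (a + ((m : ℝ) + 1) * (1 + 2 * ε)) * (T ^ 0 / √(1 + T ^ 2) ^ (m + 2)) +
      ((m : ℝ) + 1) * (1 + ε) * (T ^ 0 / √(1 + T ^ 2) ^ (m + 4)) +
      2 * ((m : ℝ) + 1) * (1 + ε) * (T ^ 2 / √(1 + T ^ 2) ^ (m + 4))) (Ioi 0) := j3.add i4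
  refine ⟨e ▸ j4.add hLB, ?_⟩
  rw [e]
  beta_reduce
  rw [integral_add j4 hLB, integral_add j3 i4,
    integral_add j2 i3, integral_sub i1 i2, MeasureTheory.integral_const_mul,
    MeasureTheory.integral_const_mul, MeasureTheory.integral_const_mul,
    MeasureTheory.integral_const_mul]
  simp only [show ∀ b j : ℕ, ∫ t in Ioi (0 : ℝ), t ^ b / √(1 + t ^ 2) ^ j = mom b j from
    fun _ _ => rfl]
  have h1 : mom 0 (m + 1) = ((m : ℝ) + 1) / (m : ℝ) * mom 0 (m + 3) := by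
    have := mom_exp (a := 0) (m := m + 1) (by omega)
    push_cast at this
    have hm0 : (m : ℝ) ≠ 0 := by positivity
    field_simp
    linarith
  have h2 : mom 0 (m + 2) = ((m : ℝ) + 2) / ((m : ℝ) + 1) * mom 0 (m + 4) := by
    have := mom_exp (a := 0) (m := m + 2) (by omega)
    push_cast at this
    field_simp
    linarith
  have h3 : mom 2 (m + 4) = mom 0 (m + 4) / ((m : ℝ) + 1) := by
    have := mom_step (a := 0) (m := m + 2) (by omega)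
    push_cast at this
    rw [eq_div_iff (by positivity)]
    linarith
  rw [h1, h2, h3]
  field_simp
  ring

/-- **Assembly**: a lower bound `LB` for the second order part, a field `E` and one scalar
inequality give a calibration; here `Q = V/(Y^k V₀)` and `r = P₀/V₀`. -/
theorem isCalY_of_core (hm : 1 ≤ m) (hY : 1 ≤ Y) (hV : 0 ≤ V) (hε : w * ρ ^ 2 = ε * Y ^ 2)
    (hμ : 0 ≤ μ) (hLB : Continuous LB) (hLBi : IntegrableOn LB (Ioi 0))
    (hc : ContinuousOn E (Ici 0 ×ˢ univ)) (hi : Continuous Einf)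
    (hd : ∀ T σ X, 0 < T → HasFDerivAt E (dE (T, σ, X)) (T, σ, X))
    (hlim : ∀ X₀, Tendsto E (topX X₀) (𝓝 (Einf X₀)))
    (hP : ∀ t y d A, AdmY m V Y t y d A → d < 0 →
      ∀ T σ h X, T = Tof Y y → σ = Y * t / y → h = (y - t * d) * y * T / (Y * -d) →
        X = Xof m Y t y A → RegT Y T σ h →
        LB T + dE (T, σ, X) (1, h, ((m : ℝ) + 1) * σ * T / √(1 + T ^ 2) ^ (m + 4)) ≤
          ((m : ℝ) + 1) * T ^ 2 / √(1 + T ^ 2) ^ (m + 4) * valQ ε T σ h +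
            ell m ε μ a T * (σ - T))
    (htail : ∀ T > 0, (Y / √(1 + T ^ 2)) ^ (m + 1) ≤ V → hullMom m Y (Y / √(1 + T ^ 2)) ≤ V →
      V ≤ Y ^ (m + 1) →
      ∀ σ h X, σ = √(1 + T ^ 2) → h = T / √(1 + T ^ 2) →
      X = V / Y ^ (m + 1) - (√(1 + T ^ 2) ^ (m + 1))⁻¹ →
      LB T + dE (T, σ, X) (1, h, ((m : ℝ) + 1) * σ * T / √(1 + T ^ 2) ^ (m + 4)) ≤
        ((m : ℝ) + 1) * T ^ 2 / √(1 + T ^ 2) ^ (m + 4) * valQ ε T σ h +
          ell m ε μ a T * (σ - T))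
    (hflat : ∀ b, 0 < b → b ≤ 1 → b * Y ^ (m + 1) ≤ V → E (0, b, 0) ≤ E (0, 0, 0))
    {Q : ℝ} (hQ : Q = V / (Y ^ (m + 1) * semiMom m 1))
    (hsc : 0 < (1 - a * ((m : ℝ) + 2) / ((m : ℝ) + 1)) * (1 - Q) +
      ((m : ℝ) + 1) * (w * Q - ε) -
      μ * (((m : ℝ) + 1) / (m : ℝ)) * rr (m + 1) * (Q ^ ((m : ℝ) / ((m : ℝ) + 1)) - 1) +
      ((∫ T in Ioi (0 : ℝ), LB T) + Einf (V / Y ^ (m + 1)) - E (0, 0, 0)) / semiMom m 1) :
    ∃ (lam : ℝ) (Φ : ℝ × ℝ × ℝ → ℝ) (dΦ : ℝ × ℝ × ℝ → (ℝ × ℝ × ℝ →L[ℝ] ℝ)),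
      IsCalY m V ρ w Y lam Φ dΦ := by
  have hY0 : 0 < Y := lt_of_lt_of_le one_pos hY
  set I := ∫ T in Ioi (0 : ℝ), g0 m ε μ a LB T with hI
  have hg0c := continuous_g0 (m := m) hLB ε μ a
  obtain ⟨hgi, hIv⟩ := integral_g0 (m := m) (ε := ε) (μ := μ) (a := a) hm hLBi
  refine ⟨_, _, _, isCalY_of_pwX (a := a) (μ := μ) (Ψ := psiC m ε μ a LB E) (Ψinf := fun X => I + Einf X)
    (dΨ := dpsiC m ε μ a LB dE) hm hY hε hμ ?_ (continuous_const.add hi)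
    (psiC_hasFDerivAt hLB hd) ?_ ?_ ?_ ?_ ?_⟩
  · have h1 : Continuous fun p : ℝ × ℝ × ℝ =>
        fT m ε μ a p.1 * (p.2.1 - p.1) + ∫ u in (0 : ℝ)..p.1, g0 m ε μ a LB u :=
      (((continuous_fT ε μ a).comp continuous_fst).mul
        ((continuous_fst.comp continuous_snd).sub continuous_fst)).add
        ((continuous_primitive (fun _ _ => hg0c.intervalIntegrable _ _) 0).comp continuous_fst)
    exact h1.continuousOn.add hc
  · intro X₀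
    have h1 : Tendsto (fun p : ℝ × ℝ × ℝ => p.1) (topX X₀) atTop := tendsto_fst.mono_left inf_le_left
    have h2 : Tendsto (fun p : ℝ × ℝ × ℝ => fT m ε μ a p.1 * (p.2.1 - p.1)) (topX X₀) (𝓝 0) := by
      refine squeeze_zero_norm' (a := fun p : ℝ × ℝ × ℝ => |fT m ε μ a p.1 * (p.1 + 1)|) ?_
        (by simpa using ((tendsto_fT_mul hm ε μ a).comp h1).abs)
      filter_upwards [mem_inf_of_right (mem_principal_self _), h1 (Ici_mem_atTop 0)] with p hp hp0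
      have hp0 : (0 : ℝ) ≤ p.1 := hp0
      have hp' : 0 ≤ p.2.1 ∧ p.2.1 ≤ p.1 + 1 := hp
      rw [Real.norm_eq_abs, abs_mul, abs_mul]
      refine mul_le_mul_of_nonneg_left ?_ (abs_nonneg _)
      rw [abs_le, abs_of_nonneg (by linarith : (0 : ℝ) ≤ p.1 + 1)]
      exact ⟨by linarith [hp'.1], by linarith [hp'.2]⟩
    have h3 := (intervalIntegral_tendsto_integral_Ioi (0 : ℝ) hgi tendsto_id).comp h1
    have h4 := (h2.add h3).add (hlim X₀)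
    rw [zero_add] at h4
    exact h4
  · intro t y d A hA hd'
    have hR := regT hA
    exact pwX_of_core hR.h_pos (hP t y d A hA hd' _ _ _ _ rfl rfl rfl rfl hR)
  · intro T hT hV1 hV2 hV3
    exact pwX_of_core (div_pos hT (w_pos T)) (htail T hT hV1 hV2 hV3 _ _ _ rfl rfl rfl)
  · intro b hb hb1 hbV
    have h := hflat b hb hb1 hbV
    have e : fT m ε μ a 0 = μ - a - ((m : ℝ) + 1) * ε := by simp [fT]; ring
    simp only [psiC, intervalIntegral.integral_same, sub_zero, add_zero, e, mul_zero, zero_add]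
    linarith
  · have h0 : 0 < semiMom m 1 := by rw [semiMom_one]; exact mom_zero_pos (m + 2)
    have hYk : 0 < Y ^ (m + 1) := pow_pos hY0 _
    have e0 : psiC m ε μ a LB E (0, 0, 0) = E (0, 0, 0) := by
      simp [psiC, intervalIntegral.integral_same]
    have hVq : V / semiMom m 1 = Q * Y ^ (m + 1) := by rw [hQ]; field_simp
    have hQ0 : 0 ≤ Q := hQ ▸ by positivity
    have hr : mom 0 (m + 3) = rr (m + 1) * mom 0 (m + 4) := by
      rw [rr, show m + 1 + 2 = m + 3 from rfl, show m + 1 + 3 = m + 4 from rfl,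
        div_mul_cancel₀ _ (mom_zero_pos (m + 2)).ne']
    have hYp : (Y ^ (m + 1)) ^ ((m : ℝ) / ((m : ℝ) + 1)) = Y ^ m := by
      rw [← rpow_natCast Y (m + 1), ← rpow_mul hY0.le]
      push_cast
      rw [mul_div_cancel₀ _ (by positivity), rpow_natCast]
    have key := mul_pos hsc (mul_pos h0 hYk)
    rw [e0, projBound_eq hV, hVq, mul_rpow hQ0 hYk.le, hYp, hI, hIv, ← semiMom_one, hr, ← semiMom_one]
    have hVe : V = Q * Y ^ (m + 1) * semiMom m 1 := by rw [← hVq]; field_simp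
    clear hIv hr hVq
    generalize (∫ T in Ioi (0 : ℝ), LB T) = L at key ⊢
    generalize Einf (V / Y ^ (m + 1)) = Ei at key ⊢
    generalize E (0, 0, 0) = E0 at key ⊢
    generalize Q ^ ((m : ℝ) / ((m : ℝ) + 1)) = P at key ⊢
    subst hVe
    have hm0 : (m : ℝ) ≠ 0 := by positivity
    generalize semiMom m 1 = v at key h0 ⊢
    field_simp at key ⊢
    ring_nf at key ⊢
    linarith

/-- The multiplier `μ` with a double root of the weight at `r₁`. -/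
noncomputable def muT (m : ℕ) (ε r₁ : ℝ) : ℝ := 2 * ((m : ℝ) + 4) * (1 + ε) / r₁ ^ 3

/-- The multiplier `a` with a double root of the weight at `r₁`, shifted by `lam`. -/
noncomputable def aT (m : ℕ) (ε r₁ lam : ℝ) : ℝ :=
  ((m : ℝ) + 1) / ((m : ℝ) + 2) *
    (3 * ((m : ℝ) + 4) * (1 + ε) / r₁ ^ 2 - lam - (((m : ℝ) + 2) * (1 + 2 * ε) - 2 * ε))

/-- The weight of `σ - T` in tangency form. -/
lemma ell_tangent {ε r₁ lam : ℝ} (hr : r₁ ≠ 0) (T : ℝ) :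
    ell m ε (muT m ε r₁) (aT m ε r₁ lam) T =
      T * ((m : ℝ) + 1) * (((m : ℝ) + 4) * (1 + ε) *
          ((√(1 + T ^ 2) - r₁) ^ 2 * (2 * √(1 + T ^ 2) + r₁) / r₁ ^ 3) +
        lam * √(1 + T ^ 2) ^ 2) / √(1 + T ^ 2) ^ (m + 6) := by
  simp only [ell, muT, aT]
  congr 1
  field_simp
  ring

lemma ell_nonneg {ε r₁ lam T : ℝ} (hr : 0 < r₁) (hε : 0 ≤ ε) (hl : 0 ≤ lam) (hT : 0 ≤ T) :
    0 ≤ ell m ε (muT m ε r₁) (aT m ε r₁ lam) T := by
  rw [ell_tangent hr.ne']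
  positivity

/-- `ProfileCal` from calibrations on the central values not covered by `isCalY_trivial`. -/
theorem profileCal_of_rules
    (h : ∀ V ρ : ℝ, semiMom m 1 < V → 0 < ρ →
      Statement.ballVol (m + 2) * ρ ^ (m + 2) = 2 * Statement.ballVol (m + 1) * V →
      2 * Statement.ballVol (m + 1) * V ≤ Full.profileConst m ^ (m + 2) →
      ∃ w : ℝ, 0 ≤ w ∧ ∀ Y : ℝ, 1 ≤ Y → hullMom m Y 0 ≤ V → hullTan m Y ≤ V →
        V ≤ rr (m + 1) ^ (m + 1) * Y ^ (m + 1) * semiMom m 1 →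
        ∃ (lam : ℝ) (Φ : ℝ × ℝ × ℝ → ℝ) (dΦ : ℝ × ℝ × ℝ → (ℝ × ℝ × ℝ →L[ℝ] ℝ)),
          IsCalY m V ρ w Y lam Φ dΦ) : ProfileCal m := by
  intro V ρ hV hρ hρv hcap
  obtain ⟨w, hw, hY⟩ := h V ρ hV hρ hρv hcap
  have h0 : 0 ≤ semiMom m 1 := integral_nonneg zero_le_one fun x _ => by positivity
  exact ⟨w, hw, fun Y h1 h2 h3 =>
    (trivial_or_le hw h1 (h0.trans hV.le)).elim id (hY Y h1 h2 h3)⟩

end Vale.Agent.P237.Cal
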