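import Mathlib

/-!
# P237: kernel-checkable positivity of `c + 2 √(a b)` for sums of atoms `T ^ i / √(1 + T²) ^ j`

`Quad a b N d` is `0 ≤ N` and `|d| ≤ √N (√a + √b)`; with `N = a + b + c`, `d = a - b` it gives
`0 ≤ c + 2 √(a b)`, and it is closed under nonnegative combinations (Cauchy-Schwarz). A list of
atoms has a computable derivative, and a chord with a second derivative bound encloses it on a cell.
-/

open Real Set

namespace Vale.Agent.P237.Cal.AtomCert

/-- The quadruple form of `0 ≤ c + 2 √(a b)`. -/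
structure Quad (a b N d : ℝ) : Prop where
  ha : 0 ≤ a
  hb : 0 ≤ b
  hN : 0 ≤ N
  hd : |d| ≤ √N * (√a + √b)

theorem Quad.core {a b c : ℝ} (h : Quad a b (a + b + c) (a - b)) : 0 ≤ c + 2 * √(a * b) := by
  obtain ⟨ha, hb, hN, hd⟩ := h
  rcases eq_or_lt_of_le (add_nonneg (sqrt_nonneg a) (sqrt_nonneg b)) with h0 | h0
  · have h1 : √a = 0 := by linarith [sqrt_nonneg a, sqrt_nonneg b]
    have h2 : √b = 0 := by linarith [sqrt_nonneg a, sqrt_nonneg b]
    rw [sqrt_eq_zero ha] at h1; rw [sqrt_eq_zero hb] at h2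
    subst h1 h2
    simp at hN ⊢
    linarith
  · have e : a - b = (√a - √b) * (√a + √b) := by
      linear_combination (-1 : ℝ) * sq_sqrt ha + sq_sqrt hb
    rw [e, abs_mul, abs_of_pos h0] at hd
    have h1 := le_of_mul_le_mul_right hd h0
    have h2 := pow_le_pow_left₀ (abs_nonneg _) h1 2
    rw [sq_abs, sq_sqrt hN] at h2
    rw [sqrt_mul ha]
    nlinarith [sq_sqrt ha, sq_sqrt hb]

theorem Quad.add {a b N d a' b' N' d' : ℝ} (h : Quad a b N d) (h' : Quad a' b' N' d') :
    Quad (a + a') (b + b') (N + N') (d + d') := by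
  refine ⟨add_nonneg h.ha h'.ha, add_nonneg h.hb h'.hb, add_nonneg h.hN h'.hN, ?_⟩
  set u := √a + √b with hu
  set v := √a' + √b' with hv
  set w := √(a + a') + √(b + b') with hw
  have hu0 : 0 ≤ u := by positivity
  have hv0 : 0 ≤ v := by positivity
  have hw0 : 0 ≤ w := by positivity
  have h1 : √a * √b + √a' * √b' ≤ √(a + a') * √(b + b') := by
    refine (sq_le_sq₀ (by positivity) (by positivity)).1 ?_
    rw [mul_pow, sq_sqrt (add_nonneg h.ha h'.ha), sq_sqrt (add_nonneg h.hb h'.hb)]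
    nlinarith [sq_nonneg (√a * √b' - √a' * √b), sq_sqrt h.ha, sq_sqrt h.hb, sq_sqrt h'.ha,
      sq_sqrt h'.hb]
  have h2 : u ^ 2 + v ^ 2 ≤ w ^ 2 := by
    simp only [hu, hv, hw, add_sq, sq_sqrt h.ha, sq_sqrt h.hb, sq_sqrt h'.ha, sq_sqrt h'.hb,
      sq_sqrt (add_nonneg h.ha h'.ha), sq_sqrt (add_nonneg h.hb h'.hb)]
    linarith
  have h3 : √N * u + √N' * v ≤ √(N + N') * w := by
    refine (sq_le_sq₀ (by positivity) (by positivity)).1 ?_
    rw [mul_pow √(N + N'), sq_sqrt (add_nonneg h.hN h'.hN)]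
    have h4 : (√N * u + √N' * v) ^ 2 ≤ (N + N') * (u ^ 2 + v ^ 2) := by
      nlinarith [sq_nonneg (√N * v - √N' * u), sq_sqrt h.hN, sq_sqrt h'.hN]
    exact h4.trans (mul_le_mul_of_nonneg_left h2 (add_nonneg h.hN h'.hN))
  exact (abs_add_le d d').trans ((add_le_add h.hd h'.hd).trans h3)

theorem Quad.smul {a b N d s : ℝ} (hs : 0 ≤ s) (h : Quad a b N d) :
    Quad (s * a) (s * b) (s * N) (s * d) := by
  refine ⟨mul_nonneg hs h.ha, mul_nonneg hs h.hb, mul_nonneg hs h.hN, ?_⟩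
  rw [abs_mul, abs_of_nonneg hs, sqrt_mul hs, sqrt_mul hs, sqrt_mul hs]
  calc s * |d| ≤ s * (√N * (√a + √b)) := mul_le_mul_of_nonneg_left h.hd hs
    _ = √s * √N * (√s * √a + √s * √b) := by
        linear_combination (-(√N * (√a + √b))) * mul_self_sqrt hs

theorem Quad.mono {a b N d a' b' N' d' : ℝ} (h : Quad a b N d) (ha : a ≤ a') (hb : b ≤ b')
    (hN : N ≤ N') (hd : |d'| ≤ |d|) : Quad a' b' N' d' :=
  ⟨h.ha.trans ha, h.hb.trans hb, h.hN.trans hN, hd.trans (h.hd.trans
    (mul_le_mul (sqrt_le_sqrt hN) (add_le_add (sqrt_le_sqrt ha) (sqrt_le_sqrt hb))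
      (by positivity) (sqrt_nonneg _)))⟩

/-- Integer test for `Quad`. -/
def quadTest (a b N d : ℤ) : Bool :=
  decide (0 ≤ a) && decide (0 ≤ b) && decide (0 ≤ N) &&
    (decide (d * d ≤ N * (a + b)) ||
      decide ((d * d - N * (a + b)) * (d * d - N * (a + b)) ≤ 4 * N * N * (a * b)))

theorem quad_of_test {a b N d : ℤ} (h : quadTest a b N d = true) :
    Quad (a : ℝ) b N d := by
  simp only [quadTest, Bool.and_eq_true, Bool.or_eq_true, decide_eq_true_eq] at h
  obtain ⟨⟨⟨ha, hb⟩, hN⟩, hd⟩ := h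
  have ha' : (0 : ℝ) ≤ a := by exact_mod_cast ha
  have hb' : (0 : ℝ) ≤ b := by exact_mod_cast hb
  have hN' : (0 : ℝ) ≤ N := by exact_mod_cast hN
  refine ⟨ha', hb', hN', ?_⟩
  refine (sq_le_sq₀ (abs_nonneg _) (by positivity)).1 ?_
  rw [sq_abs, mul_pow, sq_sqrt hN', add_sq, sq_sqrt ha', sq_sqrt hb', mul_assoc 2 (√(a : ℝ)),
    ← sqrt_mul ha']
  have hp : 0 ≤ 2 * (N : ℝ) * √((a : ℝ) * b) := by positivity
  rcases hd with hd | hd
  · have : (d : ℝ) * d ≤ N * (a + b) := by exact_mod_cast hd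
    nlinarith
  · have h2 : ((d : ℝ) * d - N * (a + b)) * (d * d - N * (a + b)) ≤ 4 * N * N * (a * b) := by
      exact_mod_cast hd
    have h3 : (d : ℝ) * d - N * (a + b) ≤ 2 * N * √((a : ℝ) * b) := by
      refine le_of_abs_le ((sq_le_sq₀ (abs_nonneg _) hp).1 ?_)
      rw [sq_abs, mul_pow, sq_sqrt (mul_nonneg ha' hb')]
      nlinarith
    nlinarith

/-- `1/√(1+T²)`. -/
noncomputable def cW (T : ℝ) : ℝ := (√(1 + T ^ 2))⁻¹

lemma cW_pos (T : ℝ) : 0 < cW T := inv_pos.2 (sqrt_pos.2 (by positivity))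

lemma hasDerivAt_cW (T : ℝ) : HasDerivAt cW (-(T * cW T ^ 3)) T := by
  have h0 : 0 < 1 + T ^ 2 := by positivity
  refine (((((hasDerivAt_id T).fun_pow 2).const_add 1).sqrt h0.ne').fun_inv
    (sqrt_pos.2 h0).ne').congr_deriv ?_
  have hw := sqrt_pos.2 h0
  simp only [cW, id, Nat.cast_ofNat, Nat.add_one_sub_one, pow_one, mul_one]
  field_simp

lemma cW_anti {S T : ℝ} (hS : 0 ≤ S) (h : S ≤ T) : cW T ≤ cW S :=
  inv_anti₀ (sqrt_pos.2 (by positivity)) (sqrt_le_sqrt (by gcongr))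

/-- An atom `w T^i cW^j`. -/
abbrev Atom := ℤ × ℕ × ℕ

/-- The value of a list of atoms. -/
noncomputable def eval : List Atom → ℝ → ℝ
  | [], _ => 0
  | (w, i, j) :: l, T => (w : ℝ) * (T ^ i * cW T ^ j) + eval l T

/-- Scalar multiple. -/
def scale (s : ℤ) (l : List Atom) : List Atom := l.map fun a => (s * a.1, a.2)

/-- Product with `T^i cW^j`. -/
def shift (i j : ℕ) (l : List Atom) : List Atom := l.map fun a => (a.1, a.2.1 + i, a.2.2 + j)

lemma eval_append (l l' : List Atom) (T : ℝ) : eval (l ++ l') T = eval l T + eval l' T := by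
  induction l with
  | nil => simp [eval]
  | cons a l ih => simp only [List.cons_append, eval, ih, add_assoc]

lemma eval_scale (s : ℤ) (l : List Atom) (T : ℝ) : eval (scale s l) T = s * eval l T := by
  induction l with
  | nil => simp [scale, eval]
  | cons a l ih =>
    simp only [scale, List.map_cons, eval] at ih ⊢
    rw [ih]; push_cast; ring

lemma eval_shift (i j : ℕ) (l : List Atom) (T : ℝ) :
    eval (shift i j l) T = T ^ i * cW T ^ j * eval l T := by
  induction l with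
  | nil => simp [shift, eval]
  | cons a l ih =>
    simp only [shift, List.map_cons, eval] at ih ⊢
    rw [ih]; ring

/-- The formal derivative. -/
def deriv1 : List Atom → List Atom
  | [] => []
  | (w, i, j) :: l => (w * (i : ℤ), i - 1, j) :: (-(w * (j : ℤ)), i + 1, j + 2) :: deriv1 l

lemma hasDerivAt_eval (l : List Atom) (T : ℝ) :
    HasDerivAt (eval l) (eval (deriv1 l) T) T := by
  induction l with
  | nil => exact hasDerivAt_const T 0
  | cons a l ih =>
    obtain ⟨w, i, j⟩ := a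
    refine ((((hasDerivAt_id T).fun_pow i).fun_mul ((hasDerivAt_cW T).fun_pow j)).const_mul
      (w : ℝ) |>.add ih).congr_deriv ?_
    simp only [deriv1, eval, id]
    push_cast
    rcases j with _ | j <;> simp [pow_succ] <;> ring

lemma chord_le {l : List Atom} {p q M T : ℝ} (hM : ∀ x ∈ Icc p q, |eval (deriv1 (deriv1 l)) x| ≤ M)
    (hT : T ∈ Icc p q) (hpq : p < q) :
    |eval l T - ((q - T) / (q - p) * eval l p + (T - p) / (q - p) * eval l q)| ≤
      M * (q - p) ^ 2 / 8 := by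
  have key : ∀ s : ℝ, s = 1 ∨ s = -1 →
      s * (eval l T - ((q - T) / (q - p) * eval l p + (T - p) / (q - p) * eval l q)) ≤
        M * (q - p) ^ 2 / 8 := by
    intro s hs
    have hd : ∀ x, HasDerivAt (fun y => s * eval l y + M / 2 * y ^ 2)
        (s * eval (deriv1 l) x + M * x) x := fun x =>
      (((hasDerivAt_eval l x).const_mul s).add (((hasDerivAt_pow 2 x)).const_mul (M / 2))).congr_deriv
        (by push_cast; ring)
    have hd2 : ∀ x, HasDerivAt (fun y => s * eval (deriv1 l) y + M * y)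
        (s * eval (deriv1 (deriv1 l)) x + M) x := fun x =>
      (((hasDerivAt_eval _ x).const_mul s).add ((hasDerivAt_id x).const_mul M)).congr_deriv
        (by ring)
    have hc : ConvexOn ℝ (Icc p q) (fun y => s * eval l y + M / 2 * y ^ 2) :=
      convexOn_of_hasDerivWithinAt2_nonneg (convex_Icc p q)
        (fun x _ => (hd x).continuousAt.continuousWithinAt)
        (fun x _ => (hd x).hasDerivWithinAt) (fun x _ => (hd2 x).hasDerivWithinAt)
        (fun x hx => by
          have := abs_le.1 (hM x (interior_subset hx))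
          rcases hs with rfl | rfl <;> linarith)
    have hα : 0 ≤ (q - T) / (q - p) := div_nonneg (by linarith [hT.2]) (by linarith)
    have hβ : 0 ≤ (T - p) / (q - p) := div_nonneg (by linarith [hT.1]) (by linarith)
    have hαβ : (q - T) / (q - p) + (T - p) / (q - p) = 1 := by
      field_simp [(sub_pos.2 hpq).ne']; ring
    have hTe : (q - T) / (q - p) * p + (T - p) / (q - p) * q = T := by
      field_simp [(sub_pos.2 hpq).ne']; ring
    have := hc.2 (left_mem_Icc.2 hpq.le) (right_mem_Icc.2 hpq.le) hα hβ hαβ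
    simp only [smul_eq_mul] at this
    rw [hTe] at this
    have e : (q - T) / (q - p) * p ^ 2 + (T - p) / (q - p) * q ^ 2 - T ^ 2 = (q - T) * (T - p) := by
      field_simp [(sub_pos.2 hpq).ne']; ring
    have h4 : (q - T) * (T - p) ≤ (q - p) ^ 2 / 4 := by
      nlinarith [sq_nonneg (q + p - 2 * T)]
    have hM0 : 0 ≤ M := (abs_nonneg _).trans (hM T hT)
    nlinarith [mul_le_mul_of_nonneg_left h4 (div_nonneg hM0 (by norm_num : (0 : ℝ) ≤ 2))]
  have h1 := key 1 (Or.inl rfl)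
  have h2 := key (-1) (Or.inr rfl)
  exact abs_le.2 ⟨by linarith, by linarith⟩

/-- A node: `T = t/2^20` and `cl/2^32 ≤ cW T ≤ cu/2^32`. -/
abbrev Node := ℕ × ℕ × ℕ

/-- The test of a node. -/
def nodeTest : Node → Bool
  | (t, cl, cu) => decide (cl * cl * (2 ^ 40 + t * t) ≤ 2 ^ 104) &&
      decide (2 ^ 104 ≤ cu * cu * (2 ^ 40 + t * t))

/-- The height of a node. -/
noncomputable def nodeT (n : Node) : ℝ := (n.1 : ℝ) / 2 ^ 20

theorem nodeTest_sound {n : Node} (h : nodeTest n = true) :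
    (n.2.1 : ℝ) / 2 ^ 32 ≤ cW (nodeT n) ∧ cW (nodeT n) ≤ (n.2.2 : ℝ) / 2 ^ 32 := by
  obtain ⟨t, cl, cu⟩ := n
  simp only [nodeTest, Bool.and_eq_true, decide_eq_true_eq] at h
  have h1 : (cl : ℝ) * cl * (2 ^ 40 + t * t) ≤ 2 ^ 104 := by exact_mod_cast h.1
  have h2 : (2 : ℝ) ^ 104 ≤ (cu : ℝ) * cu * (2 ^ 40 + t * t) := by exact_mod_cast h.2
  have hc := cW_pos (nodeT (t, cl, cu))
  have e : cW (nodeT (t, cl, cu)) ^ 2 * (2 ^ 40 + (t : ℝ) * t) = 2 ^ 40 := by
    simp only [cW, nodeT, inv_pow]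
    rw [sq_sqrt (by positivity)]
    field_simp
  generalize cW (nodeT (t, cl, cu)) = c at hc e
  have h0 : (0 : ℝ) < 2 ^ 40 + (t : ℝ) * t := by positivity
  constructor
  · rw [div_le_iff₀ (by positivity)]
    refine (sq_le_sq₀ (by positivity) (by positivity)).1 ?_
    exact le_of_mul_le_mul_right (by nlinarith) h0
  · rw [le_div_iff₀ (by positivity)]
    refine (sq_le_sq₀ (by positivity) (by positivity)).1 ?_
    exact le_of_mul_le_mul_right (by nlinarith) h0

/-- The scale of an atom. -/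
def pad (I J i j : ℕ) : ℕ := 2 ^ (20 * (I - i) + 32 * (J - j))

/-- Lower end of the scaled value of a list, `t ≤ T 2^20 ≤ t'`, `cl ≤ cW 2^32 ≤ cu`. -/
def loV (I J t t' cl cu : ℕ) : List Atom → ℤ
  | [] => 0
  | (w, i, j) :: l =>
    (if 0 ≤ w then w * (t ^ i * cl ^ j * pad I J i j : ℕ)
      else w * (t' ^ i * cu ^ j * pad I J i j : ℕ)) + loV I J t t' cl cu l

/-- Upper end of the scaled value of a list. -/
def hiV (I J t t' cl cu : ℕ) : List Atom → ℤ
  | [] => 0
  | (w, i, j) :: l =>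
    (if 0 ≤ w then w * (t' ^ i * cu ^ j * pad I J i j : ℕ)
      else w * (t ^ i * cl ^ j * pad I J i j : ℕ)) + hiV I J t t' cl cu l

/-- The exponents of a list are at most `I`, `J`. -/
def fits (I J : ℕ) (l : List Atom) : Bool :=
  l.all fun a => decide (a.2.1 ≤ I) && decide (a.2.2 ≤ J)

/-- The common scale. -/
noncomputable def scl (I J : ℕ) : ℝ := 2 ^ (20 * I + 32 * J)

lemma scl_pos (I J : ℕ) : 0 < scl I J := by unfold scl; positivity

theorem value_bounds {I J t t' cl cu : ℕ} {l : List Atom} {T : ℝ} (hl : fits I J l = true)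
    (ht : (t : ℝ) / 2 ^ 20 ≤ T) (ht' : T ≤ (t' : ℝ) / 2 ^ 20)
    (hc : (cl : ℝ) / 2 ^ 32 ≤ cW T) (hc' : cW T ≤ (cu : ℝ) / 2 ^ 32) :
    (loV I J t t' cl cu l : ℝ) ≤ scl I J * eval l T ∧
      scl I J * eval l T ≤ (hiV I J t t' cl cu l : ℝ) := by
  induction l with
  | nil => simp [loV, hiV, eval]
  | cons a l ih =>
    obtain ⟨w, i, j⟩ := a
    simp only [fits, List.all_cons, Bool.and_eq_true, decide_eq_true_eq] at hl
    obtain ⟨⟨hi, hj⟩, hl⟩ := hl
    obtain ⟨ih1, ih2⟩ := ih hl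
    have e : scl I J = ((2 : ℝ) ^ 20) ^ i * ((2 : ℝ) ^ 32) ^ j * (pad I J i j : ℝ) := by
      simp only [scl, pad, Nat.cast_pow, Nat.cast_ofNat, ← pow_mul, ← pow_add]
      congr 1; omega
    have hT0 : 0 ≤ T := le_trans (by positivity) ht
    have key : ∀ {x y : ℕ}, scl I J * ((((x : ℝ)) / 2 ^ 20) ^ i * ((y : ℝ) / 2 ^ 32) ^ j) =
        ((x ^ i * y ^ j * pad I J i j : ℕ) : ℝ) := by
      intro x y
      rw [e, div_pow, div_pow]; push_cast; field_simp
    have h1 : ((t ^ i * cl ^ j * pad I J i j : ℕ) : ℝ) ≤ scl I J * (T ^ i * cW T ^ j) := by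
      rw [← key]; gcongr
      · exact (scl_pos I J).le
    have h2 : scl I J * (T ^ i * cW T ^ j) ≤ ((t' ^ i * cu ^ j * pad I J i j : ℕ) : ℝ) := by
      rw [← key]; gcongr
      · exact (scl_pos I J).le
      · exact pow_nonneg (cW_pos T).le _
      · exact (cW_pos T).le
    simp only [loV, hiV, eval]
    push_cast at h1 h2 ⊢
    split_ifs with hw
    · have hw' : (0 : ℝ) ≤ w := by exact_mod_cast hw
      have := mul_le_mul_of_nonneg_left h1 hw'
      have := mul_le_mul_of_nonneg_left h2 hw'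
      constructor <;> linarith
    · have hw' : (w : ℝ) ≤ 0 := by exact_mod_cast (not_le.1 hw).le
      have := mul_le_mul_of_nonpos_left h1 hw'
      have := mul_le_mul_of_nonpos_left h2 hw'
      constructor <;> linarith

/-- Bound of the absolute value. -/
def absV (I J t' cu : ℕ) : List Atom → ℕ
  | [] => 0
  | (w, i, j) :: l => w.natAbs * (t' ^ i * cu ^ j * pad I J i j) + absV I J t' cu l

theorem abs_bound {I J t' cu : ℕ} {l : List Atom} {T : ℝ} (hl : fits I J l = true)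
    (h0 : 0 ≤ T) (ht' : T ≤ (t' : ℝ) / 2 ^ 20) (hc' : cW T ≤ (cu : ℝ) / 2 ^ 32) :
    scl I J * |eval l T| ≤ (absV I J t' cu l : ℝ) := by
  induction l with
  | nil => simp [absV, eval]
  | cons a l ih =>
    obtain ⟨w, i, j⟩ := a
    have hl' := hl
    simp only [fits, List.all_cons, Bool.and_eq_true] at hl'
    have h2 := (value_bounds (l := [((1 : ℤ), i, j)]) (t := 0) (cl := 0)
      (by simpa [fits] using hl'.1) (by simpa using h0) ht' (by simpa using (cW_pos T).le) hc').2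
    simp only [hiV, eval, zero_le_one, if_true, Int.cast_one, one_mul, add_zero,
      Int.cast_natCast] at h2
    have hp : 0 ≤ T ^ i * cW T ^ j := mul_nonneg (pow_nonneg h0 _) (pow_nonneg (cW_pos T).le _)
    simp only [absV, eval]
    push_cast [Nat.cast_natAbs] at h2 ⊢
    calc scl I J * |(w : ℝ) * (T ^ i * cW T ^ j) + eval l T|
        ≤ scl I J * (|(w : ℝ)| * (T ^ i * cW T ^ j) + |eval l T|) := by
          refine mul_le_mul_of_nonneg_left ((abs_add_le _ _).trans ?_) (scl_pos I J).le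
          rw [abs_mul, abs_of_nonneg hp]
      _ ≤ _ := by
          rw [mul_add, ← mul_assoc, mul_comm (scl I J) |(w : ℝ)|, mul_assoc]
          exact add_le_add (mul_le_mul_of_nonneg_left h2 (abs_nonneg _)) (ih hl'.2)

/-- Four lists: `a`, `b`, `N`, `d`. -/
abbrev QList := List Atom × List Atom × List Atom × List Atom

/-- The quadruple of functions is `Quad` at `T`. -/
def QuadAt (q : QList) (T : ℝ) : Prop :=
  Quad (eval q.1 T) (eval q.2.1 T) (eval q.2.2.1 T) (eval q.2.2.2 T)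

/-- First order test on a cell. -/
def cell1 (I J : ℕ) (q : QList) (n n' : Node) : Bool :=
  decide (n.1 ≤ n'.1) && (nodeTest n && nodeTest n') &&
    (fits I J q.1 && fits I J q.2.1 && fits I J q.2.2.1 && fits I J q.2.2.2) &&
    quadTest (loV I J n.1 n'.1 n'.2.1 n.2.2 q.1) (loV I J n.1 n'.1 n'.2.1 n.2.2 q.2.1)
      (loV I J n.1 n'.1 n'.2.1 n.2.2 q.2.2.1)
      (max (hiV I J n.1 n'.1 n'.2.1 n.2.2 q.2.2.2) (-(loV I J n.1 n'.1 n'.2.1 n.2.2 q.2.2.2)))

theorem cell1_sound {I J : ℕ} {q : QList} {n n' : Node} (h : cell1 I J q n n' = true)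
    {T : ℝ} (hT : T ∈ Icc (nodeT n) (nodeT n')) : QuadAt q T := by
  simp only [cell1, Bool.and_eq_true, decide_eq_true_eq] at h
  obtain ⟨⟨⟨-, hn, hn'⟩, ⟨⟨fa, fb⟩, fN⟩, fd⟩, hq⟩ := h
  have h0 : 0 ≤ nodeT n := by simp only [nodeT]; positivity
  have hu := (cW_anti h0 hT.1).trans (nodeTest_sound hn).2
  have hl := (nodeTest_sound hn').1.trans (cW_anti (h0.trans hT.1) hT.2)
  have B := fun {l : List Atom} (f : fits I J l = true) =>
    value_bounds (l := l) f hT.1 hT.2 hl hu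
  have Q := quad_of_test hq
  have hs := scl_pos I J
  have h2 : Quad (scl I J * eval q.1 T) (scl I J * eval q.2.1 T) (scl I J * eval q.2.2.1 T)
      (scl I J * eval q.2.2.2 T) := by
    refine Q.mono (B fa).1 (B fb).1 (B fN).1 ?_
    obtain ⟨b1, b2⟩ := B fd
    push_cast
    refine (abs_le.2 ⟨?_, b2.trans (le_max_left _ _)⟩).trans (le_abs_self _)
    have := le_max_right ((hiV I J n.1 n'.1 n'.2.1 n.2.2 q.2.2.2 : ℤ) : ℝ)
      (-((loV I J n.1 n'.1 n'.2.1 n.2.2 q.2.2.2 : ℤ) : ℝ))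
    linarith
  have := h2.smul (inv_nonneg.2 hs.le)
  simpa [QuadAt, inv_mul_cancel_left₀ hs.ne'] using this

/-- Chord error of a list on a cell, in units of `1/(2^43 scl)`. -/
def errV (I J : ℕ) (n n' : Node) (l : List Atom) : ℤ :=
  (((n'.1 - n.1) * (n'.1 - n.1) * absV I J n'.1 n.2.2 (deriv1 (deriv1 l)) : ℕ) : ℤ)

/-- Lower end at a node minus the chord error. -/
def lowN (I J : ℕ) (n n' m : Node) (l : List Atom) : ℤ :=
  2 ^ 43 * loV I J m.1 m.1 m.2.1 m.2.2 l - errV I J n n' l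

/-- Upper bound of the absolute value at a node plus the chord error. -/
def highN (I J : ℕ) (n n' m : Node) (l : List Atom) : ℤ :=
  2 ^ 43 * max (hiV I J m.1 m.1 m.2.1 m.2.2 l) (-(loV I J m.1 m.1 m.2.1 m.2.2 l)) +
    errV I J n n' l

/-- The exponents of a list and of its second derivative fit. -/
def fits2 (I J : ℕ) (l : List Atom) : Bool := fits I J l && fits I J (deriv1 (deriv1 l))

/-- Second order test on a cell. -/
def cell2 (I J : ℕ) (q : QList) (n n' : Node) : Bool :=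
  decide (n.1 < n'.1) && (nodeTest n && nodeTest n') &&
    (fits2 I J q.1 && fits2 I J q.2.1 && fits2 I J q.2.2.1 && fits2 I J q.2.2.2) &&
    quadTest (lowN I J n n' n q.1) (lowN I J n n' n q.2.1) (lowN I J n n' n q.2.2.1)
      (highN I J n n' n q.2.2.2) &&
    quadTest (lowN I J n n' n' q.1) (lowN I J n n' n' q.2.1) (lowN I J n n' n' q.2.2.1)
      (highN I J n n' n' q.2.2.2)

theorem cell2_sound {I J : ℕ} {q : QList} {n n' : Node} (h : cell2 I J q n n' = true)
    {T : ℝ} (hT : T ∈ Icc (nodeT n) (nodeT n')) : QuadAt q T := by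
  simp only [cell2, Bool.and_eq_true, decide_eq_true_eq] at h
  obtain ⟨⟨⟨⟨hlt, hn, hn'⟩, ⟨⟨fa, fb⟩, fN⟩, fd⟩, hq⟩, hq'⟩ := h
  set p := nodeT n with hp
  set r := nodeT n' with hr
  have hp0 : 0 ≤ p := by simp only [hp, nodeT]; positivity
  have hpr : p < r := by
    simp only [hp, hr, nodeT]; gcongr
  set Sc := (2 : ℝ) ^ 43 * scl I J with hSc
  have hSc0 : 0 < Sc := mul_pos (by positivity) (scl_pos I J)
  set u := (r - T) / (r - p) with hu_
  set v := (T - p) / (r - p) with hv_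
  have hu0 : 0 ≤ u := div_nonneg (by linarith [hT.2]) (by linarith)
  have hv0 : 0 ≤ v := div_nonneg (by linarith [hT.1]) (by linarith)
  have huv : u + v = 1 := by
    simp only [hu_, hv_]; field_simp [(sub_pos.2 hpr).ne']; ring
  have E : ∀ {l : List Atom}, fits2 I J l = true →
      (u * (lowN I J n n' n l : ℝ) + v * (lowN I J n n' n' l : ℝ) ≤ Sc * eval l T) ∧
      (|Sc * eval l T| ≤ u * (highN I J n n' n l : ℝ) + v * (highN I J n n' n' l : ℝ)) := by
    intro l hl
    simp only [fits2, Bool.and_eq_true] at hl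
    have hb : ∀ m : Node, nodeTest m = true → _ := fun m hm =>
      value_bounds (t := m.1) (t' := m.1) (l := l) (T := nodeT m) hl.1 le_rfl le_rfl
        (nodeTest_sound hm).1 (nodeTest_sound hm).2
    set M := (absV I J n'.1 n.2.2 (deriv1 (deriv1 l)) : ℝ) / scl I J with hM
    have hMb : ∀ x ∈ Icc p r, |eval (deriv1 (deriv1 l)) x| ≤ M := fun x hx => by
      rw [hM, le_div_iff₀ (scl_pos I J), mul_comm]
      exact abs_bound hl.2 (hp0.trans hx.1) hx.2 ((cW_anti hp0 hx.1).trans (nodeTest_sound hn).2)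
    have hc := chord_le hMb hT hpr
    rw [← hu_, ← hv_] at hc
    have hE : Sc * (M * (r - p) ^ 2 / 8) = (errV I J n n' l : ℝ) := by
      simp only [hSc, hM, errV, hp, hr, nodeT]
      push_cast [Nat.cast_sub hlt.le]
      field_simp [(scl_pos I J).ne']
      ring
    obtain ⟨c1, c2⟩ := abs_le.1 hc
    obtain ⟨a1, a2⟩ := hb n hn
    obtain ⟨b1, b2⟩ := hb n' hn'
    rw [← hp] at a1 a2
    rw [← hr] at b1 b2
    have d1 := mul_le_mul_of_nonneg_left c1 hSc0.le
    have d2 := mul_le_mul_of_nonneg_left c2 hSc0.le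
    have e1 : ∀ x : ℝ, Sc * x = 2 ^ 43 * (scl I J * x) := fun x => by rw [hSc]; ring
    set E0 := (errV I J n n' l : ℝ)
    refine ⟨?_, abs_le.2 ⟨?_, ?_⟩⟩
    · simp only [lowN]; push_cast
      linear_combination d1 + hE + (2 ^ 43 * u) * a1 + (2 ^ 43 * v) * b1 - E0 * huv
    · simp only [highN]; push_cast
      linear_combination d1 + hE + (2 ^ 43 * u) * a1 + (2 ^ 43 * v) * b1 - E0 * huv +
        (2 ^ 43 * u) * le_max_right (hiV I J n.1 n.1 n.2.1 n.2.2 l : ℝ)
          (-(loV I J n.1 n.1 n.2.1 n.2.2 l : ℝ)) +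
        (2 ^ 43 * v) * le_max_right (hiV I J n'.1 n'.1 n'.2.1 n'.2.2 l : ℝ)
          (-(loV I J n'.1 n'.1 n'.2.1 n'.2.2 l : ℝ))
    · simp only [highN]; push_cast
      linear_combination d2 + hE + (2 ^ 43 * u) * a2 + (2 ^ 43 * v) * b2 - E0 * huv +
        (2 ^ 43 * u) * le_max_left (hiV I J n.1 n.1 n.2.1 n.2.2 l : ℝ)
          (-(loV I J n.1 n.1 n.2.1 n.2.2 l : ℝ)) +
        (2 ^ 43 * v) * le_max_left (hiV I J n'.1 n'.1 n'.2.1 n'.2.2 l : ℝ)
          (-(loV I J n'.1 n'.1 n'.2.1 n'.2.2 l : ℝ))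
  have Q := ((quad_of_test hq).smul hu0).add ((quad_of_test hq').smul hv0)
  have Q2 : Quad (Sc * eval q.1 T) (Sc * eval q.2.1 T) (Sc * eval q.2.2.1 T)
      (Sc * eval q.2.2.2 T) :=
    Q.mono (E fa).1 (E fb).1 (E fN).1 ((E fd).2.trans (le_abs_self _))
  have := Q2.smul (inv_nonneg.2 hSc0.le)
  simpa [QuadAt, inv_mul_cancel_left₀ hSc0.ne'] using this

/-- All cells of a chain of nodes: first order on the marked ones, second order on the others. -/
def chain (I J : ℕ) (q : QList) : List (Bool × Node) → Bool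
  | [] => true
  | [_] => true
  | (_, n) :: (f, n') :: l =>
    (if f then cell1 I J q n n' else cell2 I J q n n') && chain I J q ((f, n') :: l)

theorem chain_sound {I J : ℕ} {q : QList} :
    ∀ {l : List (Bool × Node)} (a : Bool × Node), chain I J q (a :: l) = true →
      ∀ T ∈ Icc (nodeT a.2) (nodeT ((a :: l).getLast (by simp)).2), nodeT a.2 < T → QuadAt q T
  | [], a, _, T, hT, hlt => absurd (hT.2.trans_lt hlt) (lt_irrefl _)
  | b :: l, a, h, T, hT, hlt => by
    obtain ⟨fa, n⟩ := a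
    obtain ⟨f, n'⟩ := b
    simp only [chain, Bool.and_eq_true] at h
    rcases le_or_gt T (nodeT n') with hle | hgt
    · have h1 := h.1
      split_ifs at h1
      · exact cell1_sound h1 ⟨hT.1, hle⟩
      · exact cell2_sound h1 ⟨hT.1, hle⟩
    · exact chain_sound (f, n') h.2 T ⟨hgt.le, by simpa using hT.2⟩ hgt

end Vale.Agent.P237.Cal.AtomCert
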