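import Vale.Agent.P237.Cal.AtomCert

/-!
# P237: atom lists merged in the order of their exponents

Written on plain recursors and raw operations on naturals, which the kernel evaluates quickly.
-/

namespace Vale.Agent.P237.Cal.AtomSort

open AtomCert

/-- Pass a natural number on as a literal. -/
noncomputable def litN {α : Type} (n : ℕ) (k : ℕ → α) : α :=
  @Nat.rec (fun _ => α) (k 0) (fun j _ => k (Nat.succ j)) n

/-- Pass an integer on as a literal. -/
noncomputable def litI {α : Type} (n : ℤ) (k : ℤ → α) : α :=
  @Int.rec (fun _ => α) (fun j => litN j fun j => k (Int.ofNat j))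
    (fun j => litN j fun j => k (Int.negSucc j)) n

lemma litN_eq {α : Type} (n : ℕ) (k : ℕ → α) : litN n k = k n := by cases n <;> rfl

lemma litI_eq {α : Type} (n : ℤ) (k : ℤ → α) : litI n k = k n := by
  cases n <;> simp [litI, litN_eq]

/-- Add an atom to a merged list, in the order of the exponents. -/
noncomputable def insS (w : ℤ) (i j : ℕ) (l : List Atom) : List Atom :=
  @List.rec Atom (fun _ => List Atom) [(w, i, j)]
    (fun a r ih =>
      @Bool.rec (fun _ => List Atom)
        (@Bool.rec (fun _ => List Atom) (a :: ih) ((w, i, j) :: a :: r) (Nat.ble i a.2.1))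
        (@Bool.rec (fun _ => List Atom)
          (@Bool.rec (fun _ => List Atom) (a :: ih) ((w, i, j) :: a :: r) (Nat.ble j a.2.2))
          (litI (a.1 + w) fun u => (u, i, j) :: r) (Nat.beq a.2.2 j))
        (Nat.beq a.2.1 i)) l

/-- Like atoms merged, in the order of the exponents. -/
noncomputable def srtA (l : List Atom) : List Atom :=
  @List.rec Atom (fun _ => List Atom) []
    (fun a _ ih => litI a.1 fun w => litN a.2.1 fun i => litN a.2.2 fun j => insS w i j ih) l

lemma eval_insS (T : ℝ) (w : ℤ) (i j : ℕ) :
    ∀ l : List Atom, eval (insS w i j l) T = eval ((w, i, j) :: l) T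
  | [] => rfl
  | (u, p, q) :: l => by
    have ih : eval (insS w i j l) T = eval ((w, i, j) :: l) T := eval_insS T w i j l
    show eval (@Bool.rec (fun _ => List Atom)
      (@Bool.rec (fun _ => List Atom) ((u, p, q) :: insS w i j l) ((w, i, j) :: (u, p, q) :: l)
        (Nat.ble i p))
      (@Bool.rec (fun _ => List Atom)
        (@Bool.rec (fun _ => List Atom) ((u, p, q) :: insS w i j l) ((w, i, j) :: (u, p, q) :: l)
          (Nat.ble j q))
        (litI (u + w) fun s => (s, i, j) :: l) (Nat.beq q j))
      (Nat.beq p i)) T = _
    rcases hp : Nat.beq p i with _ | _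
    · rcases Nat.ble i p with _ | _ <;> simp only [eval, ih] <;> ring
    · rcases hq : Nat.beq q j with _ | _
      · rcases Nat.ble j q with _ | _ <;> simp only [eval, ih] <;> ring
      · obtain rfl := Nat.eq_of_beq_eq_true hp
        obtain rfl := Nat.eq_of_beq_eq_true hq
        simp only [litI_eq, eval]
        push_cast; ring

lemma eval_srtA (T : ℝ) : ∀ l : List Atom, eval (srtA l) T = eval l T
  | [] => rfl
  | (w, i, j) :: l => by
    show eval (litI w fun w => litN i fun i => litN j fun j => insS w i j (srtA l)) T = _
    simp only [litI_eq, litN_eq, eval_insS, eval, eval_srtA T l]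

/-- A merged list read along a basis in the same order. -/
noncomputable def walk (B : List (ℕ × ℕ)) : List Atom → Option (List ℤ) :=
  @List.rec (ℕ × ℕ) (fun _ => List Atom → Option (List ℤ))
    (fun l => @List.rec Atom (fun _ => Option (List ℤ)) (some []) (fun _ _ _ => none) l)
    (fun k _ ih l => @List.rec Atom (fun _ => Option (List ℤ))
      (@Option.rec (List ℤ) (fun _ => Option (List ℤ)) none
        (fun v => some (Int.ofNat 0 :: v)) (ih []))
      (fun a r _ => @Bool.rec (fun _ => Option (List ℤ))
        (@Option.rec (List ℤ) (fun _ => Option (List ℤ)) none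
          (fun v => some (Int.ofNat 0 :: v)) (ih (a :: r)))
        (@Option.rec (List ℤ) (fun _ => Option (List ℤ)) none (fun v => some (a.1 :: v)) (ih r))
        (@Bool.rec (fun _ => Bool) false (Nat.beq a.2.2 k.2) (Nat.beq a.2.1 k.1))) l) B

end Vale.Agent.P237.Cal.AtomSort
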