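import Vale.Agent.P237.Cal.Tri

/-!
# P237: the cone along a polynomial, from Bernstein control triples
-/

open Set Real

namespace Vale.Agent.P237.Cal

/-- A cubic in the Bernstein basis at `u ∈ [0, 1]`. -/
def bern3 (b₀ b₁ b₂ b₃ u : ℝ) : ℝ :=
  (1 - u) ^ 3 * b₀ + 3 * u * (1 - u) ^ 2 * b₁ + 3 * u ^ 2 * (1 - u) * b₂ + u ^ 3 * b₃

/-- A quadratic in the Bernstein basis at `u ∈ [0, 1]`. -/
def bern2 (b₀ b₁ b₂ u : ℝ) : ℝ :=
  (1 - u) ^ 2 * b₀ + 2 * u * (1 - u) * b₁ + u ^ 2 * b₂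

/-- A monomial cubic on `[0, δ]` in the Bernstein basis. -/
lemma cubic_eq_bern3 (a₀ a₁ a₂ a₃ δ u : ℝ) :
    a₀ + a₁ * (δ * u) + a₂ * (δ * u) ^ 2 + a₃ * (δ * u) ^ 3 =
      bern3 a₀ (a₀ + a₁ * δ / 3) (a₀ + 2 * (a₁ * δ) / 3 + a₂ * δ ^ 2 / 3)
        (a₀ + a₁ * δ + a₂ * δ ^ 2 + a₃ * δ ^ 3) u := by
  unfold bern3; ring

/-- A monomial quadratic on `[l, h]` in the Bernstein basis. -/
lemma quad_eq_bern2 (a₀ a₁ a₂ l h u : ℝ) :
    a₀ + a₁ * ((1 - u) * l + u * h) + a₂ * ((1 - u) * l + u * h) ^ 2 =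
      bern2 (a₀ + a₁ * l + a₂ * l ^ 2) (a₀ + a₁ * (l + h) / 2 + a₂ * (l * h))
        (a₀ + a₁ * h + a₂ * h ^ 2) u := by
  unfold bern2; ring

namespace Tri

variable {u : ℝ}

/-- Four control triples give the cone along the cubic. -/
theorem bern3 {a b c : Fin 4 → ℝ} (hu : u ∈ Icc (0 : ℝ) 1) (h : ∀ i, Tri (a i) (b i) (c i)) :
    Tri (Cal.bern3 (a 0) (a 1) (a 2) (a 3) u) (Cal.bern3 (b 0) (b 1) (b 2) (b 3) u)
      (Cal.bern3 (c 0) (c 1) (c 2) (c 3) u) := by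
  have h0 := hu.1
  have h1 : 0 ≤ 1 - u := sub_nonneg.2 hu.2
  exact ((((h 0).smul (pow_nonneg h1 3)).add ((h 1).smul (by positivity : (0 : ℝ) ≤ 3 * u * (1 - u) ^ 2))).add
    ((h 2).smul (by positivity : (0 : ℝ) ≤ 3 * u ^ 2 * (1 - u)))).add ((h 3).smul (pow_nonneg h0 3))

/-- Three control triples give the cone along the quadratic. -/
theorem bern2 {a b c : Fin 3 → ℝ} (hu : u ∈ Icc (0 : ℝ) 1) (h : ∀ i, Tri (a i) (b i) (c i)) :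
    Tri (Cal.bern2 (a 0) (a 1) (a 2) u) (Cal.bern2 (b 0) (b 1) (b 2) u)
      (Cal.bern2 (c 0) (c 1) (c 2) u) := by
  have h0 := hu.1
  have h1 : 0 ≤ 1 - u := sub_nonneg.2 hu.2
  exact (((h 0).smul (pow_nonneg h1 2)).add ((h 1).smul (by positivity : (0 : ℝ) ≤ 2 * u * (1 - u)))).add
    ((h 2).smul (pow_nonneg h0 2))

end Tri

/-- A point of `[0, δ]` as `δ u`; also for `δ = 0`. -/
lemma exists_frac {δ D : ℝ} (hD : 0 ≤ D) (hδ : D ≤ δ) : ∃ u ∈ Icc (0 : ℝ) 1, D = δ * u := by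
  rcases (hD.trans hδ).eq_or_lt with h | h
  · exact ⟨0, ⟨le_rfl, zero_le_one⟩, by linarith⟩
  · exact ⟨D / δ, ⟨div_nonneg hD h.le, (div_le_one h).2 hδ⟩, by field_simp⟩

/-- The same on the negative side `[δ, 0]`. -/
lemma exists_frac_neg {δ D : ℝ} (hD : D ≤ 0) (hδ : δ ≤ D) : ∃ u ∈ Icc (0 : ℝ) 1, D = δ * u := by
  obtain ⟨u, hu, e⟩ := exists_frac (δ := -δ) (D := -D) (by linarith) (by linarith)
  exact ⟨u, hu, by linarith⟩

/-- A point of `[l, h]` as a convex combination; also for `l = h`. -/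
lemma exists_frac_Icc {l h x : ℝ} (hl : l ≤ x) (hh : x ≤ h) :
    ∃ u ∈ Icc (0 : ℝ) 1, x = (1 - u) * l + u * h := by
  obtain ⟨u, hu, e⟩ := exists_frac (δ := h - l) (D := x - l) (by linarith) (by linarith)
  exact ⟨u, hu, by linarith⟩

end Vale.Agent.P237.Cal
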