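import Vale.Agent.P237.Cal.Bump

/-!
# P237: the bump bound from the chord to a point of the circle

If the tangent at `(a, √(1 - a²))` passes below `(t, y)` then the chord from that point to `(t, y)`
exceeds the semicircle by at least `(x - a)²/2` on `[a, t]`.
-/

open MeasureTheory Set Real intervalIntegral

namespace Vale.Agent.P237.Cal

variable {m : ℕ} {V Y t y d A : ℝ}

/-- **BUMP2**: `k (1-t²)^((k-1)/2) (t-a)³/6 ≤ V - V₀` when `1 ≤ t a + y √(1-a²)`. -/
theorem bump2 (hA : AdmY m V Y t y d A) {a : ℝ} (ha : a ∈ Icc 0 t)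
    (htan : 1 ≤ t * a + y * √(1 - a ^ 2)) :
    ((m : ℝ) + 1) * √(1 - t ^ 2) ^ m * ((t - a) ^ 3 / 6) ≤ V - semiMom m 1 := by
  have ht := hA.adm.mem
  rcases ha.2.eq_or_lt with h | hat
  · rw [← h]
    have h1 := hA.adm.lower
    have h2 := hA.adm.upper
    simp
    linarith
  have h1 := hA.chordC a ⟨ha.1, hat⟩
  have h2 := hA.adm.upper
  set c := √(1 - a ^ 2) with hc
  have hc2 : c ^ 2 = 1 - a ^ 2 := sq_sqrt (by nlinarith [ha.1, ht.2])
  have hc0 : 0 < c := sqrt_pos.2 (by nlinarith [ha.1, ht.2])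
  have hc1 : c ≤ 1 := by rw [hc, sqrt_le_one]; nlinarith
  set L := fun x : ℝ => max (√(1 - x ^ 2)) (c + (y - c) * (x - a) / (t - a)) ^ (m + 1) with hL
  have hLi : IntervalIntegrable L volume a t :=
    (by simp only [hL]; fun_prop : Continuous L).intervalIntegrable _ _
  have e := integral_add_adjacent_intervals (semi_int (m := m) 0 a) (semi_int a t)
  have key : ∫ x in a..t, ((m : ℝ) + 1) * √(1 - t ^ 2) ^ m * ((x - a) ^ 2 / 2) ≤
      ∫ x in a..t, (L x - √(1 - x ^ 2) ^ (m + 1)) := by
    refine integral_mono_on hat.le (Continuous.intervalIntegrable (by fun_prop) _ _)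
      (hLi.sub (semi_int a t)) fun x hx => ?_
    have hx0 : 0 ≤ x := ha.1.trans hx.1
    have hx2 : 0 ≤ 1 - x ^ 2 := by nlinarith [hx.2, ht.2]
    refine le_trans ?_ (pow_sub_pow_ge (sqrt_nonneg _) (le_max_left (√(1 - x ^ 2))
      (c + (y - c) * (x - a) / (t - a))) m)
    refine mul_le_mul (mul_le_mul_of_nonneg_left (pow_le_pow_left₀ (sqrt_nonneg _)
      (sqrt_le_sqrt (by nlinarith [hx.2])) _) (by positivity)) ?_ (by positivity) (by positivity)
    set s := √(1 - x ^ 2) with hs
    have hs2 : s ^ 2 = 1 - x ^ 2 := sq_sqrt hx2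
    have hu : 0 ≤ (x - a) / (t - a) := div_nonneg (sub_nonneg.2 hx.1) (sub_pos.2 hat).le
    have hy : (1 - a * t) / c ≤ y := by rw [div_le_iff₀ hc0]; linarith
    have h3 := mul_le_mul_of_nonneg_left hy hu
    have e1 : c + ((1 - a * t) / c - c) * ((x - a) / (t - a)) = (1 - a * x) / c := by
      field_simp [(sub_pos.2 hat).ne']
      linear_combination (t - x) * hc2
    have h4 : s + (x - a) ^ 2 / 2 ≤ (1 - a * x) / c := by
      rw [le_div_iff₀ hc0]
      have := mul_le_mul_of_nonneg_left hc1 (div_nonneg (sq_nonneg (x - a)) zero_le_two)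
      nlinarith [sq_nonneg (s - c)]
    have e2 : c + (y - c) * (x - a) / (t - a) = c + y * ((x - a) / (t - a)) -
        c * ((x - a) / (t - a)) := by ring
    have h5 := le_max_right s (c + (y - c) * (x - a) / (t - a))
    linarith
  rw [integral_sub hLi (semi_int a t), intervalIntegral.integral_const_mul,
    intervalIntegral.integral_div, intervalIntegral.integral_comp_sub_right (fun x => x ^ 2) a,
    integral_pow] at key
  simp only [semiMom, hL] at h1 h2 e key ⊢
  norm_num at key ⊢
  linarith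

end Vale.Agent.P237.Cal
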