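import Vale.Agent.P237.Cal.Assemble

/-!
# P237: fields quadratic in `D = σ - T` and in the centred state

`E = -(g D + P D² + 2 S D Xc + U Xc²)` with `Xc = X - X₀(T)`, where `X₀` is the state of the ball,
`X₀' = k T²/W^(n+2)`. Along the curves `Xc' = mu D` with `mu = k T/W^(n+2)`, so the core inequality
becomes a bound free of the slope and quadratic in `(D, Xc)`.
-/

open MeasureTheory Set Filter Topology Real

namespace Vale.Agent.P237.Cal

variable {m : ℕ}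

/-- The weight of the state. -/
noncomputable def muX (m : ℕ) (T : ℝ) : ℝ := ((m : ℝ) + 1) * T / √(1 + T ^ 2) ^ (m + 4)

/-- The state of the ball. -/
noncomputable def X0 (m : ℕ) (T : ℝ) : ℝ :=
  ∫ u in (0 : ℝ)..T, ((m : ℝ) + 1) * (u ^ 2 / √(1 + u ^ 2) ^ (m + 4))

lemma hasDerivAt_X0 (T : ℝ) : HasDerivAt (X0 m) (muX m T * T) T := by
  refine (((mom_continuous 2 (m + 4)).const_mul ((m : ℝ) + 1)).integral_hasStrictDerivAt 0
    T).hasDerivAt.congr_deriv ?_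
  simp only [muX]
  ring

lemma continuous_X0 : Continuous (X0 m) :=
  continuous_iff_continuousAt.2 fun T => (hasDerivAt_X0 T).continuousAt

lemma X0_zero : X0 m 0 = 0 := intervalIntegral.integral_same

lemma tendsto_X0 : Tendsto (X0 m) atTop (𝓝 (semiMom m 1)) := by
  have hi := (mom_integrable (a := 2) (m := m + 4) (by omega)).const_mul ((m : ℝ) + 1)
  have h := intervalIntegral_tendsto_integral_Ioi (0 : ℝ) hi tendsto_id
  have e : ∫ u in Ioi (0 : ℝ), ((m : ℝ) + 1) * (u ^ 2 / √(1 + u ^ 2) ^ (m + 4)) =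
      semiMom m 1 := by
    have hs := mom_step (a := 0) (m := m + 2) (by omega)
    push_cast at hs
    rw [MeasureTheory.integral_const_mul, semiMom_one]
    simp only [mom] at hs ⊢
    linarith
  rw [e] at h
  exact h

/-- The field. -/
noncomputable def fieldX (m : ℕ) (g P S U : ℝ → ℝ) (p : ℝ × ℝ × ℝ) : ℝ :=
  -(g p.1 * (p.2.1 - p.1) + P p.1 * (p.2.1 - p.1) ^ 2 +
    2 * S p.1 * (p.2.1 - p.1) * (p.2.2 - X0 m p.1) + U p.1 * (p.2.2 - X0 m p.1) ^ 2)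

/-- The differential of the field. -/
noncomputable def dfieldX (m : ℕ) (g g' P P' S S' U U' : ℝ → ℝ) (p : ℝ × ℝ × ℝ) :
    ℝ × ℝ × ℝ →L[ℝ] ℝ :=
  -((g' p.1 * (p.2.1 - p.1) + P' p.1 * (p.2.1 - p.1) ^ 2 +
        2 * S' p.1 * (p.2.1 - p.1) * (p.2.2 - X0 m p.1) + U' p.1 * (p.2.2 - X0 m p.1) ^ 2 -
        (g p.1 + 2 * P p.1 * (p.2.1 - p.1) + 2 * S p.1 * (p.2.2 - X0 m p.1)) -
        muX m p.1 * p.1 *
          (2 * S p.1 * (p.2.1 - p.1) + 2 * U p.1 * (p.2.2 - X0 m p.1))) •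
      ContinuousLinearMap.fst ℝ ℝ (ℝ × ℝ) +
    (g p.1 + 2 * P p.1 * (p.2.1 - p.1) + 2 * S p.1 * (p.2.2 - X0 m p.1)) •
      (ContinuousLinearMap.fst ℝ ℝ ℝ).comp (ContinuousLinearMap.snd ℝ ℝ (ℝ × ℝ)) +
    (2 * S p.1 * (p.2.1 - p.1) + 2 * U p.1 * (p.2.2 - X0 m p.1)) •
      (ContinuousLinearMap.snd ℝ ℝ ℝ).comp (ContinuousLinearMap.snd ℝ ℝ (ℝ × ℝ)))

variable {g g' P P' S S' U U' : ℝ → ℝ}

lemma fieldX_hasFDerivAt {T σ X : ℝ} (hg : HasDerivAt g (g' T) T) (hP : HasDerivAt P (P' T) T)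
    (hS : HasDerivAt S (S' T) T) (hU : HasDerivAt U (U' T) T) :
    HasFDerivAt (fieldX m g P S U) (dfieldX m g g' P P' S S' U U' (T, σ, X)) (T, σ, X) := by
  have h1 : HasFDerivAt (fun p : ℝ × ℝ × ℝ => p.1) (ContinuousLinearMap.fst ℝ ℝ (ℝ × ℝ))
      (T, σ, X) := hasFDerivAt_fst
  have h2 : HasFDerivAt (fun p : ℝ × ℝ × ℝ => p.2.1)
      ((ContinuousLinearMap.fst ℝ ℝ ℝ).comp (ContinuousLinearMap.snd ℝ ℝ (ℝ × ℝ))) (T, σ, X) :=
    ((ContinuousLinearMap.fst ℝ ℝ ℝ).comp (ContinuousLinearMap.snd ℝ ℝ (ℝ × ℝ))).hasFDerivAt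
  have h3 : HasFDerivAt (fun p : ℝ × ℝ × ℝ => p.2.2)
      ((ContinuousLinearMap.snd ℝ ℝ ℝ).comp (ContinuousLinearMap.snd ℝ ℝ (ℝ × ℝ))) (T, σ, X) :=
    ((ContinuousLinearMap.snd ℝ ℝ ℝ).comp (ContinuousLinearMap.snd ℝ ℝ (ℝ × ℝ))).hasFDerivAt
  have hD := h2.sub h1
  have hX := h3.sub ((hasDerivAt_X0 (m := m) T).comp_hasFDerivAt_of_eq (T, σ, X) h1 rfl)
  have key := ((((hg.comp_hasFDerivAt_of_eq (T, σ, X) h1 rfl).mul hD).add
    ((hP.comp_hasFDerivAt_of_eq (T, σ, X) h1 rfl).mul (hD.pow 2))).add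
    (((hS.comp_hasFDerivAt_of_eq (T, σ, X) h1 rfl).const_mul 2).mul hD |>.mul hX)).add
    ((hU.comp_hasFDerivAt_of_eq (T, σ, X) h1 rfl).mul (hX.pow 2))
  refine key.neg.congr_fderiv ?_
  ext <;> simp [dfieldX] <;> ring

/-- The core inequality from a bound free of the slope; `G` is the coefficient of `h - 1` over the
prefactor of the second order part. -/
theorem core_of_boundX {ε μ c T σ h X LB L G : ℝ}
    (hL : L ≤ valQ ε T σ h + G * (h - 1))
    (hG : ((m : ℝ) + 1) * T ^ 2 / √(1 + T ^ 2) ^ (m + 4) * G =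
      g T + 2 * P T * (σ - T) + 2 * S T * (X - X0 m T))
    (hle : LB ≤ ((m : ℝ) + 1) * T ^ 2 / √(1 + T ^ 2) ^ (m + 4) * L +
      (σ - T) * (ell m ε μ c T + g' T) + (σ - T) ^ 2 * (P' T + 2 * muX m T * S T) +
      2 * (σ - T) * (X - X0 m T) * (S' T + muX m T * U T) + (X - X0 m T) ^ 2 * U' T) :
    LB + dfieldX m g g' P P' S S' U U' (T, σ, X)
        (1, h, ((m : ℝ) + 1) * σ * T / √(1 + T ^ 2) ^ (m + 4)) ≤
      ((m : ℝ) + 1) * T ^ 2 / √(1 + T ^ 2) ^ (m + 4) * valQ ε T σ h +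
        ell m ε μ c T * (σ - T) := by
  have hK : 0 ≤ ((m : ℝ) + 1) * T ^ 2 / √(1 + T ^ 2) ^ (m + 4) := by positivity
  have h1 := mul_le_mul_of_nonneg_left hL hK
  have e : ((m : ℝ) + 1) * σ * T / √(1 + T ^ 2) ^ (m + 4) = muX m T * σ := by
    simp only [muX]; ring
  rw [mul_add, ← mul_assoc, hG] at h1
  rw [e]
  simp only [dfieldX, neg_apply, add_apply,
    smul_apply, ContinuousLinearMap.coe_fst', ContinuousLinearMap.comp_apply,
    ContinuousLinearMap.coe_snd', smul_eq_mul, mul_one]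
  linarith

lemma continuousOn_fieldX (hg : Continuous g) (hP : Continuous P) (hS : Continuous S)
    (hU : Continuous U) : ContinuousOn (fieldX m g P S U) (Ici 0 ×ˢ univ) := by
  have h0 := continuous_X0 (m := m)
  unfold fieldX
  refine Continuous.continuousOn ?_
  fun_prop

/-- The limit of the field at infinity. -/
lemma tendsto_fieldX {uinf : ℝ} (hg : Tendsto (fun T => g T * (T + 1)) atTop (𝓝 0))
    (hP : Tendsto (fun T => P T * (T + 1) ^ 2) atTop (𝓝 0))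
    (hS : Tendsto (fun T => S T * (T + 1)) atTop (𝓝 0)) (hU : Tendsto U atTop (𝓝 uinf)) (X₀ : ℝ) :
    Tendsto (fieldX m g P S U) (topX X₀) (𝓝 (-(uinf * (X₀ - semiMom m 1) ^ 2))) := by
  have h1 : Tendsto (fun p : ℝ × ℝ × ℝ => p.1) (topX X₀) atTop :=
    tendsto_fst.mono_left inf_le_left
  have h3 : Tendsto (fun p : ℝ × ℝ × ℝ => p.2.2) (topX X₀) (𝓝 X₀) :=
    (tendsto_snd.comp tendsto_snd).mono_left inf_le_left
  have hX := h3.sub ((tendsto_X0 (m := m)).comp h1)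
  have hb : ∀ᶠ p in topX X₀, |p.2.1 - p.1| ≤ p.1 + 1 := by
    filter_upwards [mem_inf_of_right (mem_principal_self _), h1 (Ici_mem_atTop 0)] with p hp hp0
    have hp0 : (0 : ℝ) ≤ p.1 := hp0
    have hp' : 0 ≤ p.2.1 ∧ p.2.1 ≤ p.1 + 1 := hp
    rw [abs_le]
    exact ⟨by linarith [hp'.1], by linarith [hp'.2]⟩
  have small : ∀ (f : ℝ → ℝ) (j : ℕ), Tendsto (fun T => f T * (T + 1) ^ j) atTop (𝓝 0) →
      Tendsto (fun p : ℝ × ℝ × ℝ => f p.1 * (p.2.1 - p.1) ^ j) (topX X₀) (𝓝 0) := by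
    intro f j hf
    refine squeeze_zero_norm' (a := fun p : ℝ × ℝ × ℝ => |f p.1 * (p.1 + 1) ^ j|) ?_
      (by simpa using (hf.comp h1).abs)
    filter_upwards [hb] with p hp
    rw [Real.norm_eq_abs, abs_mul, abs_mul, abs_pow, abs_pow]
    refine mul_le_mul_of_nonneg_left (pow_le_pow_left₀ (abs_nonneg _) ?_ j) (abs_nonneg _)
    exact hp.trans (le_abs_self _)
  have hg' := small g 1 (by simpa using hg)
  have hP' := small P 2 hP
  have hS' := small S 1 (by simpa using hS)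
  simp only [pow_one] at hg' hS'
  have key := (((hg'.add hP').add (((hS'.const_mul 2)).mul hX)).add
    ((hU.comp h1).mul (hX.pow 2))).neg
  simp only [mul_zero, zero_mul, add_zero, zero_add] at key
  refine key.congr fun p => ?_
  simp only [fieldX, Function.comp_apply]
  ring

lemma fieldX_zero : fieldX m g P S U (0, 0, 0) = 0 := by
  simp [fieldX, X0_zero]

/-- The condition on the flat part. -/
lemma fieldX_flat (hg : g 0 = 0) (hP : 0 ≤ P 0) (b : ℝ) :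
    fieldX m g P S U (0, b, 0) ≤ fieldX m g P S U (0, 0, 0) := by
  rw [fieldX_zero]
  simp only [fieldX, X0_zero, hg, sub_zero, zero_mul, mul_zero, zero_add, add_zero, neg_nonpos,
    ne_eq, OfNat.ofNat_ne_zero, not_false_eq_true, zero_pow]
  positivity


end Vale.Agent.P237.Cal
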