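import Vale.Agent.P237.Cal.Bridge

/-!
# P237: the admissible region in the variables `(T, σ, h)`
-/

open Set Real

namespace Vale.Agent.P237.Cal

/-- The pointwise constraints on `(T, σ, h)`; `W = √(1 + T²)`. -/
structure RegT (Y T σ h : ℝ) : Prop where
  T_pos : 0 < T
  σ_pos : 0 < σ
  σ_lt : σ < √(1 + T ^ 2)
  σ_low : 1 + T ^ 2 - Y ^ 2 ≤ σ ^ 2
  h_pos : 0 < h
  h_low : T ≤ √(1 + T ^ 2) * h
  g_pos : σ * T < (1 + T ^ 2) * h
  h_top : √(1 + T ^ 2) * (√(1 + T ^ 2) - 1) * h ≤ σ * T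
  circle : Y ^ 2 * T ^ 2 + ((1 + T ^ 2) * h - σ * T) ^ 2 ≤ Y ^ 2 * (1 + T ^ 2) * h ^ 2

lemma w_sq' {T r : ℝ} (h : √(1 + T ^ 2) = r) : r ^ 2 = 1 + T ^ 2 := by
  rw [← h, sq_sqrt (by positivity)]

variable {m : ℕ} {V Y t y d A : ℝ}

/-- The admissible points lie in the region. -/
lemma regT (hA : AdmY m V Y t y d A) :
    RegT Y (Tof Y y) (Y * t / y) ((y - t * d) * y * Tof Y y / (Y * -d)) := by
  have hy := hA.adm.pos
  have ht := hA.adm.mem
  have hY : 0 < Y := lt_of_lt_of_le one_pos hA.one_le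
  have hd : 0 < -d := by nlinarith [hA.lt_top, hA.top_le, ht.1]
  have hg := hA.adm.den_pos
  have hT := Tof_pos hy hA.lt_top
  have hW := Tof_sq hy hA.lt_top.le
  have hT2 : Tof Y y ^ 2 = (Y / y) ^ 2 - 1 := by
    have := w_sq' hW; linarith
  set T := Tof Y y with hTdef
  have e : (1 + T ^ 2) * ((y - t * d) * y * T / (Y * -d)) - Y * t / y * T = T * Y / -d := by
    rw [hT2]
    have : -d ≠ 0 := hd.ne'
    have : d ≠ 0 := by linarith
    field_simp
    ring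
  have eW : √(1 + T ^ 2) * ((y - t * d) * y * T / (Y * -d)) = (y - t * d) * T / -d := by
    rw [hW]; field_simp
  refine ⟨hT, by have := ht.1; positivity, ?_, ?_, by positivity, ?_, ?_, ?_, ?_⟩
  · rw [hW]
    gcongr
    nlinarith [ht.2]
  · have h2 := pow_le_pow_left₀ (sqrt_nonneg _) hA.adm.semi 2
    rw [sq_sqrt (by nlinarith [ht.1, ht.2])] at h2
    have h3 : (Y / y) ^ 2 * (1 - y ^ 2) ≤ (Y / y) ^ 2 * t ^ 2 :=
      mul_le_mul_of_nonneg_left (by linarith) (sq_nonneg _)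
    have e1 : (Y / y) ^ 2 * (1 - y ^ 2) = 1 + T ^ 2 - Y ^ 2 := by rw [hT2]; field_simp; ring
    have e2 : (Y / y) ^ 2 * t ^ 2 = (Y * t / y) ^ 2 := by ring
    linarith
  · rw [eW, le_div_iff₀ hd]
    have : -d ≤ y - t * d := by
      have h1 := hA.adm.outside
      nlinarith
    nlinarith
  · have : 0 < T * Y / -d := by positivity
    linarith
  · rw [mul_comm _ (_ - 1), mul_assoc, eW, hW]
    have h1 : (Y - y) * (y - t * d) ≤ Y * t * -d := by
      nlinarith [hA.top_le, hA.lt_top]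
    have e1 : (Y / y - 1) * ((y - t * d) * T / -d) = (Y - y) * (y - t * d) * (T / (y * -d)) := by
      field_simp
    have e2 : Y * t / y * T = Y * t * -d * (T / (y * -d)) := by
      have hd' : d ≠ 0 := by linarith
      field_simp
    rw [e1, e2]
    exact mul_le_mul_of_nonneg_right h1 (by positivity)
  · rw [e]
    have h1 := mul_le_mul_of_nonneg_left hA.adm.outside
      (show 0 ≤ Y ^ 2 * (T / -d) ^ 2 by positivity)
    have e1 : Y ^ 2 * (1 + T ^ 2) * ((y - t * d) * y * T / (Y * -d)) ^ 2 =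
        Y ^ 2 * (T / -d) ^ 2 * (y - t * d) ^ 2 := by
      rw [← w_sq' hW]; field_simp
    have e2 : Y ^ 2 * T ^ 2 + (T * Y / -d) ^ 2 = Y ^ 2 * (T / -d) ^ 2 * (1 + d ^ 2) := by
      have : d ≠ 0 := by linarith
      field_simp
      ring
    rw [e1, e2]
    exact h1

/-- The pointwise hypothesis of `isCalY_of_pw` from the region. -/
lemma pw_of_region {ε μ a : ℝ} {dG Gam dGam : ℝ → ℝ}
    (hpw : ∀ T σ h, RegT Y T σ h → PW m ε μ a dG Gam dGam T σ h) :
    ∀ t y d A, AdmY m V Y t y d A → d < 0 → PW m ε μ a dG Gam dGam (Tof Y y) (Y * t / y)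
      ((y - t * d) * y * Tof Y y / (Y * -d)) :=
  fun _ _ _ _ hA _ => hpw _ _ _ (regT hA)

/-- The two chords through `(t, y) = (σ/W, Y/W)` carry at most the mass `V`. -/
lemma mass_le (hA : AdmY m V Y t y d A) :
    (∫ x in (0 : ℝ)..(Y * t / y) / √(1 + Tof Y y ^ 2),
        max (√(1 - x ^ 2)) (Y + (Y / √(1 + Tof Y y ^ 2) - Y) * x /
          ((Y * t / y) / √(1 + Tof Y y ^ 2))) ^ (m + 1)) +
      (∫ x in (Y * t / y) / √(1 + Tof Y y ^ 2)..1,
        max (√(1 - x ^ 2)) (Y / √(1 + Tof Y y ^ 2) * (1 - x) /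
          (1 - (Y * t / y) / √(1 + Tof Y y ^ 2))) ^ (m + 1)) ≤ V := by
  have hy := hA.adm.pos
  have hY : 0 < Y := lt_of_lt_of_le one_pos hA.one_le
  rw [Tof_sq hy hA.lt_top.le, show Y * t / y / (Y / y) = t by field_simp,
    show Y / (Y / y) = y by field_simp]
  linarith [hA.adm.chord, hA.chord0]

/-- The circle constraint divided by `h`. -/
lemma RegT.circle_div {T σ h : ℝ} (hR : RegT Y T σ h) :
    0 ≤ (1 + T ^ 2) * (Y ^ 2 - (1 + T ^ 2)) * h - T ^ 2 * (Y ^ 2 + σ ^ 2) / h +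
      2 * (1 + T ^ 2) * σ * T := by
  have hh := hR.h_pos
  have key : 0 ≤ ((1 + T ^ 2) * (Y ^ 2 - (1 + T ^ 2)) * h - T ^ 2 * (Y ^ 2 + σ ^ 2) / h +
      2 * (1 + T ^ 2) * σ * T) * h := by
    rw [add_mul, sub_mul, div_mul_cancel₀ _ hh.ne']
    linarith [hR.circle, show ((1 + T ^ 2) * h - σ * T) ^ 2 =
      (1 + T ^ 2) ^ 2 * h ^ 2 - 2 * (1 + T ^ 2) * h * (σ * T) + σ ^ 2 * T ^ 2 by ring]
  exact nonneg_of_mul_nonneg_left key hh

/-- The excess over the semicircle of the left chord is at most the excess of `V`. -/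
lemma excess_le (hA : AdmY m V Y t y d A) :
    ∫ x in (0 : ℝ)..(Y * t / y) / √(1 + Tof Y y ^ 2),
        (max (√(1 - x ^ 2)) (Y + (Y / √(1 + Tof Y y ^ 2) - Y) * x /
          ((Y * t / y) / √(1 + Tof Y y ^ 2))) ^ (m + 1) - √(1 - x ^ 2) ^ (m + 1)) ≤
      V - semiMom m 1 := by
  have hy := hA.adm.pos
  have hY : 0 < Y := lt_of_lt_of_le one_pos hA.one_le
  rw [Tof_sq hy hA.lt_top.le, show Y * t / y / (Y / y) = t by field_simp,
    show Y / (Y / y) = y by field_simp,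
    intervalIntegral.integral_sub (Continuous.intervalIntegrable (by fun_prop) _ _) (semi_int _ _)]
  have h1 := hA.chord0
  have h2 := hA.adm.upper
  simp only [semiMom] at h2 ⊢
  linarith

end Vale.Agent.P237.Cal
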