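import Vale.Agent.P237.Uniform.Wallis

/-!
# P237: moments `∫₀^∞ t^a (1+t²)^(-m/2)` and the ratio `r = P₀/V₀`

`mom a m = ∫ t in (0,∞), t^a / w^m` with `w = √(1+t²)`. For `k = n - 1` we have
`V₀ = (k/n) mom 0 n = mom 0 (k+3)`, `P₀ = ((k-1)/k) mom 0 k = mom 0 (k+2)`, so
`r = rr k = mom 0 (k+2) / mom 0 (k+3)`.
-/

open Set Real MeasureTheory Filter Topology
open Vale.Agent.P237.Uniform (S S_pos S_succ_le S_succ_succ S_mul hh S_sq_le le_S_sq)

namespace Vale.Agent.P237.Cal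

/-- The moment `∫₀^∞ t^a w^(-m)`, `w = √(1+t²)`. -/
noncomputable def mom (a m : ℕ) : ℝ := ∫ t in Ioi (0 : ℝ), t ^ a / √(1 + t ^ 2) ^ m

lemma one_le_w (t : ℝ) : 1 ≤ √(1 + t ^ 2) := one_le_sqrt.2 (by nlinarith [sq_nonneg t])

lemma w_pos (t : ℝ) : 0 < √(1 + t ^ 2) := one_pos.trans_le (one_le_w t)

lemma w_sq (t : ℝ) : √(1 + t ^ 2) ^ 2 = 1 + t ^ 2 := sq_sqrt (by positivity)

lemma le_w (t : ℝ) : t ≤ √(1 + t ^ 2) :=
  (le_abs_self t).trans (by rw [← sqrt_sq_eq_abs]; exact sqrt_le_sqrt (by linarith))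

lemma mom_continuous (a m : ℕ) : Continuous fun t : ℝ => t ^ a / √(1 + t ^ 2) ^ m :=
  Continuous.div (by fun_prop) (by fun_prop) fun t => pow_ne_zero _ (w_pos t).ne'

lemma pow_div_w_le {a m : ℕ} (j : ℕ) (h : a + j ≤ m) {t : ℝ} (ht : 0 ≤ t) :
    t ^ a / √(1 + t ^ 2) ^ m ≤ 1 / √(1 + t ^ 2) ^ j := by
  have hw := w_pos t
  rw [div_le_div_iff₀ (by positivity) (by positivity), one_mul]
  calc t ^ a * √(1 + t ^ 2) ^ j ≤ √(1 + t ^ 2) ^ a * √(1 + t ^ 2) ^ j := by
        gcongr; exact le_w t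
    _ = √(1 + t ^ 2) ^ (a + j) := (pow_add _ _ _).symm
    _ ≤ _ := pow_le_pow_right₀ (one_le_w t) h

lemma mom_integrable {a m : ℕ} (h : a + 2 ≤ m) :
    IntegrableOn (fun t : ℝ => t ^ a / √(1 + t ^ 2) ^ m) (Ioi 0) := by
  refine Integrable.mono' integrable_inv_one_add_sq.integrableOn
    (mom_continuous a m).aestronglyMeasurable.restrict ?_
  refine (ae_restrict_mem measurableSet_Ioi).mono fun t ht => ?_
  have ht : (0 : ℝ) < t := ht
  rw [norm_of_nonneg (by positivity)]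
  refine (pow_div_w_le 2 h ht.le).trans ?_
  rw [w_sq, one_div]

lemma mom_tendsto {a m : ℕ} (h : a + 1 ≤ m) :
    Tendsto (fun t : ℝ => t ^ a / √(1 + t ^ 2) ^ m) atTop (𝓝 0) := by
  refine squeeze_zero' ?_ ?_ tendsto_inv_atTop_zero
  · filter_upwards [eventually_ge_atTop 0] with t ht; positivity
  · filter_upwards [eventually_gt_atTop 0] with t ht
    refine (pow_div_w_le 1 h ht.le).trans ?_
    rw [pow_one, one_div]
    exact inv_anti₀ ht (le_w t)

lemma hasDerivAt_w (t : ℝ) : HasDerivAt (fun x : ℝ => √(1 + x ^ 2)) (t / √(1 + t ^ 2)) t := by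
  have h := (((hasDerivAt_pow 2 t).const_add 1).sqrt (by positivity))
  refine h.congr_deriv ?_
  push_cast
  have := w_pos t
  field_simp

lemma hasDerivAt_pow_div_w (a m : ℕ) (t : ℝ) :
    HasDerivAt (fun x : ℝ => x ^ (a + 1) / √(1 + x ^ 2) ^ m)
      (((a : ℝ) + 1) * (t ^ a / √(1 + t ^ 2) ^ m) -
        (m : ℝ) * (t ^ (a + 2) / √(1 + t ^ 2) ^ (m + 2))) t := by
  have hw := w_pos t
  have h := (hasDerivAt_pow (a + 1) t).div ((hasDerivAt_w t).pow m) (pow_ne_zero _ hw.ne')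
  refine h.congr_deriv ?_
  simp only [Pi.pow_apply]
  rcases m with _ | j
  · simp
  · simp only [Nat.add_sub_cancel]
    push_cast
    rw [pow_add √(1 + t ^ 2) (j + 1) 2]
    field_simp
    ring

/-- Integration by parts. -/
lemma mom_parts {a m : ℕ} (h : a + 2 ≤ m) :
    (m : ℝ) * mom (a + 2) (m + 2) = ((a : ℝ) + 1) * mom a m := by
  have i1 := (mom_integrable h).const_mul ((a : ℝ) + 1)
  have i2 := (mom_integrable (a := a + 2) (m := m + 2) (by omega)).const_mul (m : ℝ)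
  have e := integral_Ioi_of_hasDerivAt_of_tendsto' (a := (0 : ℝ))
    (fun t _ => hasDerivAt_pow_div_w a m t) (i1.sub i2)
    (mom_tendsto (a := a + 1) (by omega))
  simp only [zero_pow (Nat.succ_ne_zero a), zero_div, sub_zero] at e
  rw [integral_sub i1 i2, integral_const_mul, integral_const_mul] at e
  unfold mom
  linarith

/-- `t² = w² - 1`. -/
lemma mom_split {a m : ℕ} (h : a + 2 ≤ m) :
    mom (a + 2) (m + 2) + mom a (m + 2) = mom a m := by
  unfold mom
  rw [← integral_add (mom_integrable (by omega)) (mom_integrable (by omega))]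
  refine setIntegral_congr_fun measurableSet_Ioi fun t _ => ?_
  have hw := w_pos t
  rw [← add_div, pow_add √(1 + t ^ 2) m 2, w_sq,
    show t ^ (a + 2) + t ^ a = t ^ a * (1 + t ^ 2) by ring,
    mul_div_mul_right _ _ (by positivity)]

/-- Raising the exponent of `w` by two. -/
lemma mom_exp {a m : ℕ} (h : a + 2 ≤ m) :
    (m : ℝ) * mom a (m + 2) = ((m : ℝ) - a - 1) * mom a m := by
  linear_combination (m : ℝ) * mom_split h - mom_parts h

/-- Raising the power of `t` by two. -/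
lemma mom_step {a m : ℕ} (h : a + 2 ≤ m) :
    ((m : ℝ) - a - 1) * mom (a + 2) (m + 2) = ((a : ℝ) + 1) * mom a (m + 2) := by
  have h1 := mom_parts h
  have h2 := mom_split h
  linear_combination h1 - ((a : ℝ) + 1) * h2

lemma mom_one (m : ℕ) : mom 1 (m + 3) = 1 / ((m : ℝ) + 1) := by
  have hd : ∀ t : ℝ, HasDerivAt (fun x : ℝ => -(1 / ((m : ℝ) + 1)) * (√(1 + x ^ 2) ^ (m + 1))⁻¹)
      (t ^ 1 / √(1 + t ^ 2) ^ (m + 3)) t := fun t => by
    have hw := w_pos t
    refine ((((hasDerivAt_w t).pow (m + 1)).inv (pow_ne_zero _ hw.ne')).const_mul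
      (-(1 / ((m : ℝ) + 1)))).congr_deriv ?_
    · simp only [Nat.add_sub_cancel, Pi.pow_apply]
      push_cast
      rw [pow_add √(1 + t ^ 2) m 3, pow_succ √(1 + t ^ 2) m]
      field_simp
  have ht : Tendsto (fun x : ℝ => -(1 / ((m : ℝ) + 1)) * (√(1 + x ^ 2) ^ (m + 1))⁻¹) atTop
      (𝓝 0) := by
    have := (mom_tendsto (a := 0) (m := m + 1) (by omega)).const_mul (-(1 / ((m : ℝ) + 1)))
    simpa using this
  have e := integral_Ioi_of_hasDerivAt_of_tendsto' (a := (0 : ℝ)) (fun t _ => hd t)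
    (mom_integrable (by omega)) ht
  simp only [mom]
  rw [e]
  simp

lemma mom_zero_two : mom 0 2 = π / 2 := by
  have : mom 0 2 = ∫ t in Ioi (0 : ℝ), (1 + t ^ 2)⁻¹ :=
    setIntegral_congr_fun measurableSet_Ioi fun t _ => by simp [w_sq]
  rw [this, integral_Ioi_inv_one_add_sq, arctan_zero, sub_zero]

lemma mom_zero_three : mom 0 3 = 1 := by
  have hd : ∀ t : ℝ, HasDerivAt (fun x : ℝ => x / √(1 + x ^ 2))
      (t ^ 0 / √(1 + t ^ 2) ^ 3) t := fun t => by
    have hw := w_pos t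
    refine ((hasDerivAt_id t).div (hasDerivAt_w t) hw.ne').congr_deriv ?_
    · simp only [id]
      field_simp
      linarith [w_sq t]
  have ht : Tendsto (fun x : ℝ => x / √(1 + x ^ 2)) atTop (𝓝 1) := by
    have h1 : Tendsto (fun x : ℝ => 1 / √(x⁻¹ ^ 2 + 1)) atTop (𝓝 (1 / √(0 ^ 2 + 1))) :=
      ((continuous_const.div (by fun_prop) fun y => (sqrt_pos.2 (by positivity)).ne' :
        Continuous fun y : ℝ => 1 / √(y ^ 2 + 1)).tendsto 0).comp
        tendsto_inv_atTop_zero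
    simp only [zero_pow two_ne_zero, zero_add, sqrt_one, div_one] at h1
    refine h1.congr' ?_
    filter_upwards [eventually_gt_atTop 0] with x hx
    rw [show x⁻¹ ^ 2 + 1 = (1 + x ^ 2) / x ^ 2 by field_simp,
      sqrt_div (by positivity), sqrt_sq hx.le]
    field_simp
  have e := integral_Ioi_of_hasDerivAt_of_tendsto' (a := (0 : ℝ)) (fun t _ => hd t)
    (mom_integrable (by omega)) ht
  simp only [mom]
  rw [e]
  simp

/-- `mom 0 (j+2)` is half a Wallis integral. -/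
lemma mom_zero_wallis : ∀ j : ℕ, mom 0 (j + 2) = S j / 2
  | 0 => by rw [mom_zero_two]; simp [S]
  | 1 => by rw [mom_zero_three]; simp [S]
  | j + 2 => by
    have h := mom_exp (a := 0) (m := j + 2) (by omega)
    rw [mom_zero_wallis j] at h
    push_cast at h
    rw [S_succ_succ]
    have : (0 : ℝ) < (j : ℝ) + 2 := by positivity
    field_simp
    field_simp at h
    linarith

lemma mom_nonneg (a m : ℕ) : 0 ≤ mom a m :=
  setIntegral_nonneg measurableSet_Ioi fun t ht => by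
    have : (0 : ℝ) < t := ht
    positivity

lemma mom_zero_pos (j : ℕ) : 0 < mom 0 (j + 2) := by
  rw [mom_zero_wallis]; linarith [S_pos j]

/-- Even moments in units of `mom 0 (N+2)`. -/
lemma mom_even {N i : ℕ} (h : 2 * i ≤ N) :
    (∏ j ∈ Finset.range i, ((N : ℝ) - 1 - 2 * j)) * mom (2 * i) (N + 2) =
      (∏ j ∈ Finset.range i, (2 * (j : ℝ) + 1)) * mom 0 (N + 2) := by
  induction i with
  | zero => simp
  | succ i ih =>
    have hs := mom_step (a := 2 * i) (m := N) (by omega)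
    push_cast at hs
    rw [Finset.prod_range_succ, Finset.prod_range_succ, show 2 * (i + 1) = 2 * i + 2 by ring]
    linear_combination (∏ j ∈ Finset.range i, ((N : ℝ) - 1 - 2 * j)) * hs +
      (2 * (i : ℝ) + 1) * ih (by omega)

/-- Odd moments, exactly. -/
lemma mom_odd {N i : ℕ} (h : 2 * i + 1 ≤ N) :
    (N : ℝ) * (∏ j ∈ Finset.range i, ((N : ℝ) - 2 - 2 * j)) * mom (2 * i + 1) (N + 2) =
      ∏ j ∈ Finset.range i, (2 * (j : ℝ) + 2) := by
  induction i with
  | zero =>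
    obtain ⟨p, rfl⟩ := Nat.exists_eq_add_of_le' (by omega : 1 ≤ N)
    simp [mom_one, show p + 1 + 2 = p + 3 from rfl]
    field_simp
  | succ i ih =>
    have hs := mom_step (a := 2 * i + 1) (m := N) (by omega)
    push_cast at hs
    rw [Finset.prod_range_succ, Finset.prod_range_succ,
      show 2 * (i + 1) + 1 = 2 * i + 1 + 2 by ring]
    linear_combination (N : ℝ) * (∏ j ∈ Finset.range i, ((N : ℝ) - 2 - 2 * j)) * hs +
      (2 * (i : ℝ) + 2) * ih (by omega)

/-- A polynomial against `w^(-m)`. -/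
lemma mom_poly {d m : ℕ} (c : ℕ → ℝ) (h : d + 1 ≤ m) :
    IntegrableOn (fun t : ℝ => (∑ i ∈ Finset.range d, c i * t ^ i) / √(1 + t ^ 2) ^ m) (Ioi 0) ∧
    ∫ t in Ioi (0 : ℝ), (∑ i ∈ Finset.range d, c i * t ^ i) / √(1 + t ^ 2) ^ m =
      ∑ i ∈ Finset.range d, c i * mom i m := by
  have hi : ∀ i ∈ Finset.range d,
      IntegrableOn (fun t : ℝ => c i * (t ^ i / √(1 + t ^ 2) ^ m)) (Ioi 0) := fun i hi =>
    (mom_integrable (by have := Finset.mem_range.1 hi; omega)).const_mul _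
  have e : (fun t : ℝ => (∑ i ∈ Finset.range d, c i * t ^ i) / √(1 + t ^ 2) ^ m) =
      fun t => ∑ i ∈ Finset.range d, c i * (t ^ i / √(1 + t ^ 2) ^ m) := by
    funext t; rw [Finset.sum_div]; simp [mul_div_assoc]
  rw [e]
  refine ⟨integrable_finsetSum _ hi, ?_⟩
  rw [integral_finsetSum _ hi]
  simp [integral_const_mul, mom]

/-- Interpolation between neighbouring powers. -/
lemma mom_amgm {a m : ℕ} (h : a + 4 ≤ m) {x : ℝ} (hx : 0 < x) :
    2 * mom (a + 1) m ≤ x * mom a m + x⁻¹ * mom (a + 2) m := by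
  have i0 := (mom_integrable (a := a) (m := m) (by omega)).const_mul x
  have i1 := (mom_integrable (a := a + 1) (m := m) (by omega)).const_mul 2
  have i2 := (mom_integrable (a := a + 2) (m := m) (by omega)).const_mul x⁻¹
  simp only [mom]
  rw [← integral_const_mul, ← integral_const_mul, ← integral_const_mul, ← integral_add i0 i2]
  refine setIntegral_mono_on i1 (i0.add i2) measurableSet_Ioi fun t ht => ?_
  have ht : (0 : ℝ) < t := ht
  have hw := w_pos t
  rw [← sub_nonneg, show x * (t ^ a / √(1 + t ^ 2) ^ m) + x⁻¹ * (t ^ (a + 2) / √(1 + t ^ 2) ^ m) -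
    2 * (t ^ (a + 1) / √(1 + t ^ 2) ^ m) = t ^ a * (x - t) ^ 2 / (x * √(1 + t ^ 2) ^ m) by
      field_simp; ring]
  positivity

/-- A Markov bound on the tail. -/
lemma mom_tail {a j m : ℕ} (h : a + j + 2 ≤ m) {X : ℝ} (hX : 0 ≤ X) :
    X ^ j * ∫ t in Ioi X, t ^ a / √(1 + t ^ 2) ^ m ≤ mom (a + j) m := by
  have hsub : Ioi X ⊆ Ioi (0 : ℝ) := Ioi_subset_Ioi hX
  have i1 := ((mom_integrable (a := a) (m := m) (by omega)).mono_set hsub).const_mul (X ^ j)
  have i2 := mom_integrable (a := a + j) (m := m) (by omega)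
  rw [← integral_const_mul]
  refine le_trans (setIntegral_mono_on i1 (i2.mono_set hsub) measurableSet_Ioi fun t ht => ?_) ?_
  · have ht : X < t := ht
    have h0 : 0 ≤ t := hX.trans ht.le
    rw [pow_add, ← mul_div_assoc, mul_comm (t ^ a) (t ^ j)]
    gcongr
  · exact setIntegral_mono_set i2 ((ae_restrict_mem measurableSet_Ioi).mono fun t ht => by
      have : (0 : ℝ) < t := ht
      positivity) hsub.eventuallyLE

/-- `r = P₀ / V₀`, `k = n - 1`. -/
noncomputable def rr (k : ℕ) : ℝ := mom 0 (k + 2) / mom 0 (k + 3)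

lemma rr_eq (k : ℕ) : rr k = S k ^ 2 * ((k : ℝ) + 1) / (2 * π) := by
  rw [rr, show k + 3 = (k + 1) + 2 from rfl, mom_zero_wallis, mom_zero_wallis]
  have h1 := S_pos (k + 1)
  have h2 := S_mul k
  have h3 := pi_pos
  field_simp
  field_simp at h2
  linear_combination -(S k) * h2

/-- Two-sided bounds, sharp up to `O(1/k³)`. -/
lemma rr_bounds {k : ℕ} (hk : 1 ≤ k) :
    (2 * (k : ℝ) + 2) / (2 * k + 1 + 1 / (4 * k)) ≤ rr k ∧
      rr k ≤ (2 * (k : ℝ) + 2) / (2 * k + 1 + 1 / (4 * k + 4)) := by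
  have hk' : (1 : ℝ) ≤ k := by exact_mod_cast hk
  have hp := pi_pos
  have h0 := le_S_sq hk
  have h4 := S_sq_le k
  simp only [hh, add_zero] at h0 h4
  rw [rr_eq]
  constructor
  · rw [div_le_div_iff₀ (by positivity) (by positivity)]
    nlinarith [mul_le_mul_of_nonneg_left h0 (by positivity : (0 : ℝ) ≤ (k : ℝ) + 1)]
  · rw [div_le_div_iff₀ (by positivity) (by positivity)]
    nlinarith [mul_le_mul_of_nonneg_left h4 (by positivity : (0 : ℝ) ≤ (k : ℝ) + 1)]

lemma one_lt_rr {k : ℕ} (hk : 1 ≤ k) : 1 < rr k := by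
  have hk' : (1 : ℝ) ≤ k := by exact_mod_cast hk
  refine lt_of_lt_of_le ?_ (rr_bounds hk).1
  have : 1 / (4 * (k : ℝ)) ≤ 1 / 4 := one_div_le_one_div_of_le (by norm_num) (by linarith)
  rw [one_lt_div (by positivity)]
  linarith

lemma rr_le {k : ℕ} (hk : 1 ≤ k) : rr k ≤ 1 + 1 / (2 * (k : ℝ) + 1) := by
  refine (rr_bounds hk).2.trans ?_
  have : 0 ≤ 1 / (4 * (k : ℝ) + 4) := by positivity
  rw [show 1 + 1 / (2 * (k : ℝ) + 1) = (2 * k + 2) / (2 * k + 1) by field_simp; ring]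
  exact div_le_div_of_nonneg_left (by positivity) (by positivity) (by linarith)

end Vale.Agent.P237.Cal
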