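import Vale.Agent.P237.Cal.ProfileCal
import Vale.Agent.P237.Cal.Moments

/-!
# P237: the constants of `ProfileCal` in the moments `mom 0 j`
-/

open MeasureTheory Set Real intervalIntegral

namespace Vale.Agent.P237.Cal

open Full

lemma half_semi (k : ℕ) :
    ∫ t in Icc (-1 : ℝ) 1, √(1 - t ^ 2) ^ k = 2 * ∫ t in (0 : ℝ)..1, √(1 - t ^ 2) ^ k := by
  have hc : Continuous fun t : ℝ => √(1 - t ^ 2) ^ k := by fun_prop
  rw [integral_Icc_eq_integral_Ioc, ← intervalIntegral.integral_of_le (by norm_num),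
    ← integral_add_adjacent_intervals (b := (0 : ℝ)) (hc.intervalIntegrable _ _)
      (hc.intervalIntegrable _ _)]
  have h := intervalIntegral.integral_comp_neg (a := (0 : ℝ)) (b := 1)
    fun t : ℝ => √(1 - t ^ 2) ^ k
  simp only [neg_sq, neg_zero] at h
  rw [← h]; ring

/-- `∫₀¹ √(1-t²)^k = mom 0 (k+3)`. -/
lemma semi_eq_mom : ∀ k : ℕ, ∫ t in (0 : ℝ)..1, √(1 - t ^ 2) ^ k = mom 0 (k + 3)
  | 0 => by simp [mom_zero_three]
  | 1 => by
    have h := integral_semi_pow (k := 1) one_pos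
    rw [half_semi, show (1 : ℕ) + 1 = 2 from rfl, ballVol_one, ballVol_two] at h
    rw [show 1 + 3 = 2 + 2 from rfl, mom_zero_wallis, Uniform.S_succ_succ]
    simp only [Uniform.S, pow_zero, intervalIntegral.integral_const, sub_zero, smul_eq_mul]
    push_cast
    linarith
  | k + 2 => by
    have ih := semi_eq_mom (k + 1)
    have h1 := integral_semi_pow (Nat.succ_pos k)
    have h2 := integral_semi_pow (Nat.succ_pos (k + 1))
    simp only [Nat.succ_eq_add_one, half_semi] at h1 h2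
    rw [show k + 1 + 1 + 1 = k + 3 from rfl, ballVol_rec k] at h2
    rw [show k + 1 + 3 = k + 2 + 2 from rfl, mom_zero_wallis] at ih
    rw [show k + 2 + 3 = k + 3 + 2 from rfl, mom_zero_wallis]
    rw [← h1, ih] at h2
    have hS := Uniform.S_mul (k + 2)
    push_cast at hS h2
    have hp := Statement.ballVol (k + 1)
    have hκ : 0 < Statement.ballVol (k + 1) := ballVol_pos' (Nat.succ_pos k)
    have hs := Uniform.S_pos (k + 2)
    have key : Uniform.S (k + 2) * (∫ t in (0 : ℝ)..1, √(1 - t ^ 2) ^ (k + 2)) * 2 =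
        2 * π / ((k : ℝ) + 3) := by
      refine mul_left_cancel₀ hκ.ne' ?_
      rw [show k + 1 + 1 = k + 2 from rfl] at h2
      linear_combination h2
    rw [show k + 2 + 1 = k + 3 from rfl, show (k : ℝ) + 2 + 1 = (k : ℝ) + 3 by ring] at hS
    refine mul_left_cancel₀ hs.ne' ?_
    linarith

lemma semiMom_one (m : ℕ) : semiMom m 1 = mom 0 (m + 4) := semi_eq_mom (m + 1)

/-- The radius: `ρ^n = V / V₀`. -/
lemma rho_pow {m : ℕ} {V ρ : ℝ}
    (h : Statement.ballVol (m + 2) * ρ ^ (m + 2) = 2 * Statement.ballVol (m + 1) * V) :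
    ρ ^ (m + 2) = V / semiMom m 1 := by
  have e := integral_semi_pow (Nat.succ_pos m)
  simp only [Nat.succ_eq_add_one, half_semi] at e
  have h0 : 0 < semiMom m 1 := by rw [semiMom_one]; exact mom_zero_pos (m + 2)
  have hκ : 0 < Statement.ballVol (m + 1) := ballVol_pos' (Nat.succ_pos m)
  rw [show m + 1 + 1 = m + 2 from rfl] at e
  rw [← e] at h
  rw [eq_div_iff h0.ne']
  refine mul_left_cancel₀ (mul_ne_zero two_ne_zero hκ.ne') ?_
  simp only [semiMom]
  linear_combination h

/-- The bound for the projection moment is `P₀ (V/V₀)^(m/(m+1))`. -/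
lemma projBound_eq {m : ℕ} {V : ℝ} (hV : 0 ≤ V) :
    projBound m V = mom 0 (m + 3) * (V / semiMom m 1) ^ ((m : ℝ) / ((m : ℝ) + 1)) := by
  have h0 : 0 < semiMom m 1 := by rw [semiMom_one]; exact mom_zero_pos (m + 2)
  have hP : 0 < mom 0 (m + 3) := mom_zero_pos (m + 1)
  rw [projBound, profileConst, half_semi, half_semi, semi_eq_mom m, semi_eq_mom (m + 1),
    show m + 1 + 3 = m + 4 from rfl, ← semiMom_one, div_mul_eq_mul_div, mul_div_assoc,
    ← div_pow, mul_rpow (by positivity) (by positivity), ← rpow_natCast, ← rpow_natCast,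
    ← rpow_mul (by positivity), ← rpow_mul (by positivity)]
  push_cast
  rw [mul_inv_cancel₀ (by positivity : (m : ℝ) + 1 ≠ 0), rpow_one,
    show 2 * V / (2 * semiMom m 1) = V / semiMom m 1 by field_simp]
  rw [show (m : ℝ) * ((m : ℝ) + 1)⁻¹ = (m : ℝ) / ((m : ℝ) + 1) by rw [div_eq_mul_inv]]
  ring

end Vale.Agent.P237.Cal
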