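import Vale.Agent.P237.Cal.BridgeX
import Vale.Agent.P237.Cal.Region
import Vale.Agent.P237.Cal.Values

/-!
# P237: the crude bound on `σ` from the chord, and elementary bounds for `V₀`

The chord from `(0, Y)` to `(t, y)` already carries `σ (1 - W^(-n)) / (n (W - 1))` of the moment in
units of `Y^k`, so `σ (1 - W^(-n)) ≤ n (W - 1) V / Y^k`.
-/

open MeasureTheory Set Real intervalIntegral

namespace Vale.Agent.P237.Cal

variable {m : ℕ} {V Y t y d A : ℝ}

/-- The moment of the chord from `(0, Y)` to `(t, y)`. -/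
lemma chord_moment (ht : 0 < t) (hyY : y < Y) :
    ∫ x in (0 : ℝ)..t, (Y + (y - Y) * x / t) ^ (m + 1) =
      t * (Y ^ (m + 2) - y ^ (m + 2)) / (((m : ℝ) + 2) * (Y - y)) := by
  have hne : (y - Y) / t ≠ 0 := div_ne_zero (by linarith) ht.ne'
  simp only [show ∀ x : ℝ, (Y + (y - Y) * x / t) ^ (m + 1) = ((y - Y) / t * x + Y) ^ (m + 1) from
    fun x => by ring]
  rw [integral_comp_mul_add (fun x => x ^ (m + 1)) hne, integral_pow, div_mul_cancel₀ _ ht.ne',
    sub_add_cancel, mul_zero, zero_add, inv_div, smul_eq_mul]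
  push_cast
  have : y - Y ≠ 0 := by linarith
  have : Y - y ≠ 0 := by linarith
  field_simp
  ring

/-- The chord mass up to `t` against the moment up to `t`. -/
theorem sigma_mass_A (hA : AdmY m V Y t y d A) :
    Y * t / y * (1 - (√(1 + Tof Y y ^ 2) ^ (m + 2))⁻¹) ≤
      ((m : ℝ) + 2) * (√(1 + Tof Y y ^ 2) - 1) * (A / Y ^ (m + 1)) := by
  have hy := hA.adm.pos
  have hyY := hA.lt_top
  have hY : 0 < Y := lt_of_lt_of_le one_pos hA.one_le
  have ht := hA.adm.mem.1
  have h1 : t * (Y ^ (m + 2) - y ^ (m + 2)) / (((m : ℝ) + 2) * (Y - y)) ≤ A := by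
    rw [← chord_moment ht hyY]
    refine le_trans (integral_mono_on ht.le (Continuous.intervalIntegrable (by fun_prop) _ _)
      (Continuous.intervalIntegrable (by fun_prop) _ _) fun x hx => ?_) hA.chord0
    refine pow_le_pow_left₀ ?_ (le_max_right _ _) _
    have : (Y - y) * (x / t) ≤ Y - y :=
      mul_le_of_le_one_right (by linarith) ((div_le_one ht).2 hx.2)
    have e : (y - Y) * x / t = -((Y - y) * (x / t)) := by ring
    linarith
  rw [div_le_iff₀ (mul_pos (by positivity) (sub_pos.2 hyY))] at h1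
  rw [Tof_sq hy hyY.le, ← mul_div_assoc, le_div_iff₀ (pow_pos hY _)]
  calc Y * t / y * (1 - ((Y / y) ^ (m + 2))⁻¹) * Y ^ (m + 1)
      = t * (Y ^ (m + 2) - y ^ (m + 2)) / y := by
        rw [div_pow, inv_div, pow_succ Y (m + 1)]; field_simp
    _ ≤ A * (((m : ℝ) + 2) * (Y - y)) / y := (div_le_div_iff_of_pos_right hy).2 h1
    _ = _ := by field_simp

/-- The crude bound on `σ` from the mass. -/
theorem sigma_mass (hA : AdmY m V Y t y d A) :
    Y * t / y * (1 - (√(1 + Tof Y y ^ 2) ^ (m + 2))⁻¹) ≤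
      ((m : ℝ) + 2) * (√(1 + Tof Y y ^ 2) - 1) * (V / Y ^ (m + 1)) := by
  have hY : 0 < Y := lt_of_lt_of_le one_pos hA.one_le
  refine (sigma_mass_A hA).trans (mul_le_mul_of_nonneg_left ?_ ?_)
  · refine (div_le_div_iff_of_pos_right (pow_pos hY _)).2 ?_
    have h2 := hA.adm.upper
    have h3 : semiMom m t ≤ semiMom m 1 := by
      simp only [semiMom]
      rw [← integral_add_adjacent_intervals (semi_int (m := m) 0 t) (semi_int t 1)]
      exact le_add_of_nonneg_right (integral_nonneg hA.adm.mem.2.le fun x _ => by positivity)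
    linarith
  · have : 1 ≤ √(1 + Tof Y y ^ 2) := one_le_sqrt.2 (by nlinarith)
    exact mul_nonneg (by positivity) (by linarith)

/-- The crude bound in solved form. -/
theorem crude (hA : AdmY m V Y t y d A) :
    (Y * t / y) / √(1 + Tof Y y ^ 2) ≤
      V / Y ^ (m + 1) * ((m : ℝ) + 2) * (1 - 1 / √(1 + Tof Y y ^ 2)) /
        (1 - (√(1 + Tof Y y ^ 2) ^ (m + 2))⁻¹) := by
  have h := sigma_mass hA
  have hW1 : 1 < √(1 + Tof Y y ^ 2) := by
    rw [Tof_sq hA.adm.pos hA.lt_top.le]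
    exact (one_lt_div hA.adm.pos).2 hA.lt_top
  set W := √(1 + Tof Y y ^ 2)
  have hW : 0 < W := by linarith
  have h1 : 0 < 1 - (W ^ (m + 2))⁻¹ :=
    sub_pos.2 (inv_lt_one_of_one_lt₀ (one_lt_pow₀ hW1 (by omega)))
  rw [le_div_iff₀ h1, div_mul_eq_mul_div, div_le_iff₀ hW]
  refine h.trans_eq ?_
  field_simp

/-- The negative side of `D = σ - T`. -/
lemma RegT.sigma_below {T σ h : ℝ} (hR : RegT Y T σ h) : (T - σ) * (T + σ) ≤ Y ^ 2 - 1 := by
  linarith [hR.σ_low, show (T - σ) * (T + σ) = T ^ 2 - σ ^ 2 by ring]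

/-- A linear form of the negative side: `T - σ ≤ (Y² - 1)/T`. -/
lemma RegT.sigma_below' {T σ h : ℝ} (hY : 1 ≤ Y) (hR : RegT Y T σ h) :
    T * (T - σ) ≤ Y ^ 2 - 1 := by
  rcases le_total T σ with hle | hle
  · nlinarith [hR.T_pos]
  · nlinarith [hR.sigma_below, hR.σ_pos]

/-- `√n V₀` between elementary bounds: `π/(2n+1+1/(4n)) ≤ V₀² ≤ π/(2n+1)`. -/
lemma semiMom_sq_bounds (m : ℕ) :
    π / (2 * ((m : ℝ) + 2) + 1 + 1 / (4 * ((m : ℝ) + 2))) ≤ semiMom m 1 ^ 2 ∧
      semiMom m 1 ^ 2 ≤ π / (2 * ((m : ℝ) + 2) + 1) := by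
  rw [semiMom_one, show m + 4 = m + 2 + 2 from rfl, mom_zero_wallis]
  have h0 := Uniform.le_S_sq (k := m + 2) (by omega)
  have h4 := Uniform.S_sq_le (m + 2)
  simp only [Uniform.hh, add_zero] at h0 h4
  push_cast at h0 h4
  constructor
  · rw [div_le_iff₀ (by positivity)]
    linarith
  · rw [le_div_iff₀ (by positivity)]
    have : 0 ≤ Uniform.S (m + 2) ^ 2 * (1 / (4 * ((m : ℝ) + 2) + 4)) := by positivity
    linarith

end Vale.Agent.P237.Cal
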