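import Vale.Agent.P237.Cal.StateBounds
import Vale.Agent.P237.Cal.Mass
import Vale.Agent.P237.Cal.Bump2
import Vale.Agent.P237.Cal.FieldX

/-!
# P237: the range of the state in the variable `T`

`Xlow m Y (Y/W) = ∫₀^T muX(u) √(1 + u² - Y²) du` (the square root is `0` below the kink), so every
bound on the state is a closed integral in `T`.
-/

open MeasureTheory Set Filter Topology Real intervalIntegral

namespace Vale.Agent.P237.Cal

variable {m : ℕ} {V Y T t y d A : ℝ}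

/-- The state on the least profile as a function of `T`. -/
noncomputable def XL (m : ℕ) (Y T : ℝ) : ℝ :=
  ∫ u in (0 : ℝ)..T, muX m u * √(1 + u ^ 2 - Y ^ 2)

lemma continuous_muX : Continuous (muX m) := by
  have h : ∀ u : ℝ, √(1 + u ^ 2) ^ (m + 4) ≠ 0 := fun u => (pow_pos (w_pos u) _).ne'
  unfold muX
  fun_prop (disch := exact h)

lemma continuous_XL_integrand :
    Continuous fun u => muX m u * √(1 + u ^ 2 - Y ^ 2) :=
  continuous_muX.mul (by fun_prop)

lemma continuous_XL : Continuous (XL m Y) :=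
  continuous_primitive (fun _ _ => continuous_XL_integrand.intervalIntegrable _ _) 0

lemma XL_sub_X0 (T : ℝ) :
    XL m Y T - X0 m T = ∫ u in (0 : ℝ)..T, muX m u * (√(1 + u ^ 2 - Y ^ 2) - u) := by
  rw [XL, X0, ← intervalIntegral.integral_sub (continuous_XL_integrand.intervalIntegrable _ _)
    (((mom_continuous 2 (m + 4)).const_mul _).intervalIntegrable _ _)]
  refine integral_congr fun u _ => ?_
  simp only [muX]
  ring

lemma continuous_semiMom : Continuous (semiMom m) :=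
  continuous_primitive (fun _ _ => semi_int _ _) 0

lemma continuous_Xlow (Y : ℝ) : Continuous (Xlow m Y) := by
  have h := continuous_semiMom (m := m)
  unfold Xlow
  fun_prop

/-- `Xlow` at height `Y/W` is `XL`. -/
theorem Xlow_eq_XL (hY : 1 ≤ Y) (hT : 0 ≤ T) : Xlow m Y (Y / √(1 + T ^ 2)) = XL m Y T := by
  have hY0 : 0 < Y := lt_of_lt_of_le one_pos hY
  set F := fun u : ℝ => Xlow m Y (Y / √(1 + u ^ 2)) with hF
  have hFc : Continuous F :=
    (continuous_Xlow Y).comp (continuous_const.div (by fun_prop) fun u => (w_pos u).ne')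
  set c := √(Y ^ 2 - 1) with hc
  have hc0 : 0 ≤ c := sqrt_nonneg _
  have hc2 : c ^ 2 = Y ^ 2 - 1 := sq_sqrt (by nlinarith)
  have low : ∀ u, 0 ≤ u → u ≤ c → F u = 0 ∧ √(1 + u ^ 2 - Y ^ 2) = 0 := by
    intro u hu huc
    have h2 := pow_le_pow_left₀ hu huc 2
    have h1 : 1 ≤ (Y / √(1 + u ^ 2)) ^ 2 := by
      rw [div_pow, w_sq, one_le_div (by positivity)]; linarith
    refine ⟨?_, sqrt_eq_zero'.2 (by linarith)⟩
    simp only [hF, Xlow, sqrt_eq_zero'.2 (by linarith : 1 - (Y / √(1 + u ^ 2)) ^ 2 ≤ 0)]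
    simp [semiMom]
  have zero : ∀ b, 0 ≤ b → b ≤ c → XL m Y b = 0 := by
    intro b hb hbc
    rw [XL, integral_congr (g := fun _ => (0 : ℝ)) fun u hu => ?_]
    · simp
    · rw [uIcc_of_le hb] at hu
      simp [(low u hu.1 (hu.2.trans hbc)).2]
  rcases le_total T c with h | h
  · rw [zero T hT h]; exact (low T hT h).1
  have key : ∫ u in c..T, muX m u * √(1 + u ^ 2 - Y ^ 2) = F T - F c := by
    refine integral_eq_sub_of_hasDerivAt_of_le h hFc.continuousOn (fun u hu => ?_)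
      (continuous_XL_integrand.intervalIntegrable _ _)
    have hu0 : 0 ≤ u := hc0.trans hu.1.le
    have hu2 : Y ^ 2 < 1 + u ^ 2 := by
      have := pow_lt_pow_left₀ hu.1 hc0 two_ne_zero
      linarith
    have hW := w_pos u
    have hs : 0 < 1 - (Y / √(1 + u ^ 2)) ^ 2 := by
      rw [div_pow, w_sq, sub_pos, div_lt_one (by positivity)]; exact hu2
    have dy : HasDerivAt (fun x : ℝ => Y / √(1 + x ^ 2)) (Y * -(u / √(1 + u ^ 2) ^ 3)) u := by
      have h1 := (hasDerivAt_w_inv 1 u).const_mul Y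
      simp only [pow_one, Nat.cast_one, one_mul] at h1
      simpa only [mul_one_div] using h1
    have ds := (((hasDerivAt_const u (1 : ℝ)).sub (dy.pow 2)).sqrt hs.ne')
    have dS : HasDerivAt (semiMom m)
        (√(1 - √(1 - (Y / √(1 + u ^ 2)) ^ 2) ^ 2) ^ (m + 1))
        (√(1 - (Y / √(1 + u ^ 2)) ^ 2)) :=
      ((show Continuous fun x : ℝ => √(1 - x ^ 2) ^ (m + 1) by fun_prop).integral_hasStrictDerivAt
        0 _).hasDerivAt
    have key := ((dS.comp u ds).sub (ds.mul (dy.pow (m + 1)))).div_const (Y ^ (m + 1))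
    have e1 : √(1 - √(1 - (Y / √(1 + u ^ 2)) ^ 2) ^ 2) = Y / √(1 + u ^ 2) := by
      rw [sq_sqrt hs.le, sub_sub_cancel, sqrt_sq (by positivity)]
    have e2 : √(1 + u ^ 2 - Y ^ 2) = √(1 + u ^ 2) * √(1 - (Y / √(1 + u ^ 2)) ^ 2) := by
      rw [← sqrt_mul (by positivity)]
      congr 1
      rw [div_pow, w_sq]
      field_simp
    refine (key.congr_of_eventuallyEq (Filter.Eventually.of_forall fun x => ?_)).congr_deriv ?_
    · simp [hF, Xlow]
    · simp only [Pi.sub_apply, Pi.pow_apply] at *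
      rw [e1, e2]
      simp only [muX, Nat.add_sub_cancel, Nat.cast_ofNat, Nat.cast_add, Nat.cast_one]
      set W := √(1 + u ^ 2)
      set s := √(1 - (Y / W) ^ 2)
      have hs0 : s ≠ 0 := (sqrt_pos.2 hs).ne'
      simp only [show (2 : ℕ) - 1 = 1 from rfl, pow_one]
      rw [show (0 - 2 * (Y / W) * (Y * -(u / W ^ 3))) / (2 * s) =
        (Y / W) * Y * (u / W ^ 3) * (1 / s) by field_simp; ring]
      simp only [div_pow]
      field_simp
      ring
  have hsplit : XL m Y T = XL m Y c + ∫ u in c..T, muX m u * √(1 + u ^ 2 - Y ^ 2) :=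
    (integral_add_adjacent_intervals (continuous_XL_integrand.intervalIntegrable _ _)
      (continuous_XL_integrand.intervalIntegrable _ _)).symm
  rw [hsplit, zero c hc0 le_rfl, key, (low c hc0 le_rfl).1]
  simp [hF]

lemma tendsto_XL (hY : 1 ≤ Y) :
    Tendsto (XL m Y) atTop (𝓝 (semiMom m 1 / Y ^ (m + 1))) := by
  have h0 : Xlow m Y 0 = semiMom m 1 / Y ^ (m + 1) := by simp [Xlow]
  have h1 : Tendsto (fun u : ℝ => √(1 + u ^ 2)) atTop atTop :=
    tendsto_atTop_mono (fun u => le_sqrt_of_sq_le (show u ^ 2 ≤ 1 + u ^ 2 by linarith)) tendsto_id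
  have h2 := ((continuous_Xlow (m := m) Y).tendsto 0).comp (h1.const_div_atTop Y)
  rw [h0] at h2
  refine h2.congr' ?_
  filter_upwards [eventually_ge_atTop (0 : ℝ)] with u hu
  exact Xlow_eq_XL hY hu

lemma semiMom_le_hull (Y z : ℝ) : semiMom m 1 ≤ hullMom m Y z :=
  integral_mono_on zero_le_one (semi_int 0 1) (Continuous.intervalIntegrable (by fun_prop) _ _)
    fun _ _ => pow_le_pow_left₀ (sqrt_nonneg _) (le_max_left _ _) _

/-- The range of the state: `X` lies between `XL` and both upper bounds. -/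
structure XBox (m : ℕ) (V Y T σ X : ℝ) : Prop where
  low : XL m Y T ≤ X
  high : X ≤ XL m Y T + (V - semiMom m 1) / Y ^ (m + 1)
  top : X ≤ σ / √(1 + T ^ 2) * (1 - (√(1 + T ^ 2) ^ (m + 1))⁻¹)
  mass : σ * (1 - (√(1 + T ^ 2) ^ (m + 2))⁻¹) ≤
    ((m : ℝ) + 2) * (√(1 + T ^ 2) - 1) * (X + σ * (√(1 + T ^ 2) ^ (m + 2))⁻¹)
  bump : ∀ a ∈ Icc (0 : ℝ) (σ / √(1 + T ^ 2)),
    1 ≤ σ / √(1 + T ^ 2) * a + Y / √(1 + T ^ 2) * √(1 - a ^ 2) →
      ((m : ℝ) + 1) * √(1 - (σ / √(1 + T ^ 2)) ^ 2) ^ m * ((σ / √(1 + T ^ 2) - a) ^ 3 / 6) ≤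
        V - semiMom m 1

lemma xbox_of_admY (hA : AdmY m V Y t y d A) :
    XBox m V Y (Tof Y y) (Y * t / y) (Xof m Y t y A) := by
  have hy := hA.adm.pos
  have hY : 0 < Y := lt_of_lt_of_le one_pos hA.one_le
  have hW := Tof_sq hy hA.lt_top.le
  have hT := (Tof_pos hy hA.lt_top).le
  have e : Y / √(1 + Tof Y y ^ 2) = y := by rw [hW]; field_simp
  obtain ⟨h1, h2⟩ := Xof_bounds hA
  rw [← e, Xlow_eq_XL hA.one_le hT, e] at h1 h2
  refine ⟨h1, h2, ?_, ?_, ?_⟩
  rotate_left 2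
  · intro a ha htan
    rw [hW, show Y * t / y / (Y / y) = t by field_simp] at ha htan ⊢
    rw [show Y / (Y / y) = y by field_simp] at htan
    exact bump2 hA ha htan
  · have h3 := Xof_le_top hA
    rw [hW, ← inv_pow, inv_div, show Y * t / y / (Y / y) = t by field_simp]
    exact h3
  · refine (sigma_mass_A hA).trans_eq ?_
    simp only [Xof, hW]
    rw [← inv_pow, inv_div, div_pow]
    field_simp
    ring

lemma xbox_tail (hm : 1 ≤ m) (hY : 1 ≤ Y) (hT : 0 ≤ T) (hH : hullMom m Y (Y / √(1 + T ^ 2)) ≤ V)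
    (hV : V ≤ Y ^ (m + 1)) :
    XBox m V Y T √(1 + T ^ 2) (V / Y ^ (m + 1) - (√(1 + T ^ 2) ^ (m + 1))⁻¹) := by
  obtain ⟨h1, h2⟩ := Xtail_bounds (m := m) (T := T) hY hH
  rw [Xlow_eq_XL hY hT] at h1 h2
  refine ⟨h1, h2, ?_, ?_, fun a _ _ => ?_⟩
  rotate_left 2
  · rw [div_self (w_pos T).ne', one_pow, sub_self, sqrt_zero,
      zero_pow (show m ≠ 0 by omega), mul_zero, zero_mul]
    exact sub_nonneg.2 ((semiMom_le_hull _ _).trans hH)
  · rw [div_self (w_pos T).ne', one_mul]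
    exact Xtail_le_top hY hV
  have hY0 : 0 < Y := lt_of_lt_of_le one_pos hY
  set W := √(1 + T ^ 2) with hW
  have hW0 : 0 < W := w_pos T
  have hW1 : 1 ≤ W := one_le_sqrt.2 (by nlinarith)
  have e : W * (W ^ (m + 2))⁻¹ = (W ^ (m + 1))⁻¹ := by rw [pow_succ W (m + 1)]; field_simp
  rw [e, sub_add_cancel]
  rcases hW1.eq_or_lt with h | h
  · rw [← h]; simp
  set y := Y / W with hy
  have hyY : y < Y := div_lt_self hY0 h
  have hy0 : 0 < y := by positivity
  have hc : (Y ^ (m + 2) - y ^ (m + 2)) / (((m : ℝ) + 2) * (Y - y)) ≤ V := by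
    have := chord_moment (m := m) one_pos hyY
    simp only [div_one, one_mul] at this
    rw [← this]
    refine le_trans (integral_mono_on zero_le_one (Continuous.intervalIntegrable (by fun_prop) _ _)
      (Continuous.intervalIntegrable (by fun_prop) _ _) fun x hx => ?_) hH
    refine pow_le_pow_left₀ ?_ (le_max_right _ _) _
    have := mul_le_of_le_one_right (by linarith : (0 : ℝ) ≤ Y - y) hx.2
    linarith
  rw [div_le_iff₀ (mul_pos (by positivity) (sub_pos.2 hyY))] at hc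
  rw [← mul_div_assoc, le_div_iff₀ (pow_pos hY0 _)]
  calc W * (1 - (W ^ (m + 2))⁻¹) * Y ^ (m + 1)
      = (Y ^ (m + 2) - y ^ (m + 2)) / y := by
        rw [hy, div_pow, pow_succ Y (m + 1)]; field_simp
    _ ≤ V * (((m : ℝ) + 2) * (Y - y)) / y := (div_le_div_iff_of_pos_right hy0).2 hc
    _ = _ := by rw [hy]; field_simp

/-- The integrand of `XL` decreases in `Y`. -/
lemma XL_diff_anti {Y' U : ℝ} (hY : 1 ≤ Y) (h : Y ≤ Y') (hT : 0 ≤ T) (hU : T ≤ U) :
    XL m Y' U - XL m Y' T ≤ XL m Y U - XL m Y T := by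
  have i : ∀ (Y : ℝ) a b, IntervalIntegrable (fun u => muX m u * √(1 + u ^ 2 - Y ^ 2)) volume a b :=
    fun _ a b => continuous_XL_integrand.intervalIntegrable a b
  simp only [XL]
  rw [intervalIntegral.integral_interval_sub_left (i _ _ _) (i _ _ _),
    intervalIntegral.integral_interval_sub_left (i _ _ _) (i _ _ _)]
  refine integral_mono_on hU (i _ _ _) (i _ _ _) fun u hu => ?_
  have hu0 : 0 ≤ u := hT.trans hu.1
  refine mul_le_mul_of_nonneg_left (sqrt_le_sqrt ?_) (by unfold muX; positivity)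
  have := pow_le_pow_left₀ (by linarith : (0 : ℝ) ≤ Y) h 2
  linarith

lemma XL_anti {Y' : ℝ} (hY : 1 ≤ Y) (h : Y ≤ Y') (hT : 0 ≤ T) : XL m Y' T ≤ XL m Y T := by
  have h0 : ∀ Y : ℝ, XL m Y 0 = 0 := fun _ => intervalIntegral.integral_same
  have := XL_diff_anti (m := m) hY h le_rfl hT
  rw [h0, h0] at this
  linarith

/-- The remaining integral of the least state decreases in `Y`. -/
lemma XL_rest_anti {Y' : ℝ} (hY : 1 ≤ Y) (h : Y ≤ Y') (hT : 0 ≤ T) :
    semiMom m 1 / Y' ^ (m + 1) - XL m Y' T ≤ semiMom m 1 / Y ^ (m + 1) - XL m Y T := by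
  refine le_of_tendsto_of_tendsto ((tendsto_XL (hY.trans h)).sub_const _)
    ((tendsto_XL hY).sub_const _) ?_
  filter_upwards [eventually_ge_atTop T] with U hU
  exact XL_diff_anti hY h hT hU

/-- **The state on a box** `Y ≤ Y₁`, `Q ≤ Q₁`: closed ends which do not depend on the point. -/
theorem xbox_range {σ X Y₁ Q Q₁ : ℝ} (hY : 1 ≤ Y) (hY₁ : Y ≤ Y₁) (hT : 0 ≤ T)
    (hσ : σ ≤ √(1 + T ^ 2)) (hQ : V / Y ^ (m + 1) = Q * semiMom m 1) (hQ₁ : Q ≤ Q₁)
    (hB : XBox m V Y T σ X) :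
    XL m Y₁ T ≤ X ∧ X ≤ 1 - (√(1 + T ^ 2) ^ (m + 1))⁻¹ ∧
      X ≤ Q₁ * semiMom m 1 - (semiMom m 1 / Y₁ ^ (m + 1) - XL m Y₁ T) := by
  refine ⟨(XL_anti hY hY₁ hT).trans hB.low, hB.top.trans (mul_le_of_le_one_left ?_ ?_), ?_⟩
  · rw [sub_nonneg, inv_le_one_iff₀]
    exact Or.inr (one_le_pow₀ (one_le_sqrt.2 (by nlinarith)))
  · exact (div_le_one (w_pos T)).2 hσ
  · have h0 : 0 ≤ semiMom m 1 := integral_nonneg zero_le_one fun x _ => by positivity
    have h1 := hB.high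
    rw [sub_div, hQ] at h1
    have h2 := mul_le_mul_of_nonneg_right hQ₁ h0
    have h3 := XL_rest_anti (m := m) hY hY₁ hT
    linarith

end Vale.Agent.P237.Cal
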