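import Vale.Agent.P237.Cal.ProfileCal

/-!
# P237: the range of the central value

`hullMom Y 0 ≤ V` gives `(Y^k - 1/Y)/(k+1) - (1 - 1/Y) ≤ V - V₀`, and `hullMom · 0` is monotone.
-/

open MeasureTheory Set Real intervalIntegral

namespace Vale.Agent.P237.Cal

variable {m : ℕ} {V Y Y' : ℝ}

lemma hull_int (Y a b : ℝ) : IntervalIntegrable
    (fun x : ℝ => max (√(1 - x ^ 2)) (Y + (0 - Y) * x) ^ (m + 1)) volume a b :=
  Continuous.intervalIntegrable (by fun_prop) _ _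

lemma hullMom_zero_mono (h : Y ≤ Y') : hullMom m Y 0 ≤ hullMom m Y' 0 := by
  refine integral_mono_on zero_le_one (hull_int ..) (hull_int ..) fun x hx => ?_
  refine pow_le_pow_left₀ (le_max_of_le_left (sqrt_nonneg _)) (max_le_max le_rfl ?_) _
  nlinarith [mul_le_mul_of_nonneg_right h (sub_nonneg.2 hx.2)]

/-- A test value bounds the central value. -/
lemma lt_of_hullMom (hH : hullMom m Y 0 ≤ V) (h : V < hullMom m Y' 0) : Y < Y' := by
  by_contra hle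
  exact absurd ((hullMom_zero_mono (not_lt.1 hle)).trans hH) (not_le.2 h)

/-- A closed lower bound for the moment of the least profile. -/
theorem hullMom_zero_ge (hY : 1 ≤ Y) :
    semiMom m 1 + ((Y ^ (m + 1) - 1 / Y) / ((m : ℝ) + 2) - (1 - 1 / Y)) ≤ hullMom m Y 0 := by
  have hY0 : 0 < Y := lt_of_lt_of_le one_pos hY
  have hk : (0 : ℝ) < (m : ℝ) + 2 := by positivity
  set c := 1 - 1 / Y with hc
  have hc0 : 0 ≤ c := by rw [hc, sub_nonneg, div_le_one hY0]; exact hY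
  have hc1 : c ≤ 1 := by rw [hc, sub_le_self_iff]; positivity
  have hs : ∀ a b, IntervalIntegrable (fun x : ℝ => √(1 - x ^ 2) ^ (m + 1)) volume a b :=
    fun a b => Continuous.intervalIntegrable (by fun_prop) a b
  have e : ∫ x in (0 : ℝ)..c, (Y * (1 - x)) ^ (m + 1) = (Y ^ (m + 1) - 1 / Y) / ((m : ℝ) + 2) := by
    simp only [mul_pow]
    rw [intervalIntegral.integral_const_mul,
      intervalIntegral.integral_comp_sub_left (fun x : ℝ => x ^ (m + 1)) (1 : ℝ), integral_pow,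
      hc, sub_sub_cancel, sub_zero, one_pow]
    push_cast
    rw [show (m : ℝ) + 1 + 1 = (m : ℝ) + 2 by ring, div_pow, one_pow]
    field_simp
    ring
  have h1 : ∫ x in (0 : ℝ)..c, (Y * (1 - x)) ^ (m + 1) ≤
      ∫ x in (0 : ℝ)..c, max (√(1 - x ^ 2)) (Y + (0 - Y) * x) ^ (m + 1) := by
    refine integral_mono_on hc0 (Continuous.intervalIntegrable (by fun_prop) _ _) (hull_int ..)
      fun x hx => ?_
    refine pow_le_pow_left₀ (mul_nonneg hY0.le (by linarith [hx.2])) (le_max_of_le_right ?_) _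
    linarith
  have h2 : ∫ x in c..(1 : ℝ), √(1 - x ^ 2) ^ (m + 1) ≤
      ∫ x in c..(1 : ℝ), max (√(1 - x ^ 2)) (Y + (0 - Y) * x) ^ (m + 1) :=
    integral_mono_on hc1 (hs ..) (hull_int ..) fun x _ =>
      pow_le_pow_left₀ (sqrt_nonneg _) (le_max_left _ _) _
  have h3 : ∫ x in (0 : ℝ)..c, √(1 - x ^ 2) ^ (m + 1) ≤ c := by
    calc ∫ x in (0 : ℝ)..c, √(1 - x ^ 2) ^ (m + 1) ≤ ∫ _x in (0 : ℝ)..c, (1 : ℝ) :=
          integral_mono_on hc0 (hs ..) intervalIntegrable_const fun x _ =>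
            pow_le_one₀ (sqrt_nonneg _) (sqrt_le_one.2 (by nlinarith))
      _ = c := by simp
  rw [e] at h1
  simp only [hullMom, semiMom]
  rw [← integral_add_adjacent_intervals (hs 0 c) (hs c 1),
    ← integral_add_adjacent_intervals (hull_int Y 0 c) (hull_int Y c 1)]
  linarith

lemma tanPt_mem (hY : 1 ≤ Y) : tanPt Y ∈ Icc (0 : ℝ) 1 := by
  refine ⟨sqrt_nonneg _, ?_⟩
  rw [tanPt, sqrt_le_one, sub_le_self_iff]
  positivity

/-- `Y tanPt Y = √(Y² - 1)`. -/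
lemma mul_tanPt (hY : 1 ≤ Y) : Y * tanPt Y = √(Y ^ 2 - 1) := by
  have hY0 : 0 < Y := lt_of_lt_of_le one_pos hY
  rw [tanPt, show Y ^ 2 - 1 = Y ^ 2 * (1 - 1 / Y ^ 2) by field_simp, sqrt_mul (sq_nonneg Y),
    sqrt_sq hY0.le]

/-- The tangent line is `Y - √(Y² - 1) x`. -/
lemma tanLine_eq (hY : 1 < Y) (x : ℝ) :
    Y + (1 / Y - Y) * x / tanPt Y = Y - √(Y ^ 2 - 1) * x := by
  have hY0 : 0 < Y := by linarith
  have hc : 0 < √(Y ^ 2 - 1) := sqrt_pos.2 (by nlinarith)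
  have h2 : √(Y ^ 2 - 1) ^ 2 = Y ^ 2 - 1 := sq_sqrt (by nlinarith)
  have ha : tanPt Y = √(Y ^ 2 - 1) / Y := by rw [← mul_tanPt hY.le]; field_simp
  rw [ha]
  field_simp
  linear_combination x * h2

/-- The tangent line lies above the circle. -/
lemma semi_le_tanLine (hY : 1 ≤ Y) {x : ℝ} (hx : x ∈ Icc (0 : ℝ) 1) :
    √(1 - x ^ 2) ≤ Y - √(Y ^ 2 - 1) * x := by
  have h1 : 0 ≤ 1 - x ^ 2 := by nlinarith [hx.1, hx.2]
  have h2 := sq_sqrt h1
  have h3 : √(Y ^ 2 - 1) ^ 2 = Y ^ 2 - 1 := sq_sqrt (by nlinarith)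
  have key : (√(Y ^ 2 - 1) * x + √(1 - x ^ 2)) ^ 2 ≤ Y ^ 2 := by
    nlinarith [sq_nonneg (√(Y ^ 2 - 1) * √(1 - x ^ 2) - x)]
  have := (abs_le_of_sq_le_sq' key (by linarith)).2
  linarith

/-- The moment of the least concave profile in the line form. -/
lemma hullTan_eq (hY : 1 < Y) : hullTan m Y =
    (∫ x in (0 : ℝ)..tanPt Y, (Y - √(Y ^ 2 - 1) * x) ^ (m + 1)) +
      ∫ x in (tanPt Y)..1, √(1 - x ^ 2) ^ (m + 1) := by
  simp only [hullTan, tanLine_eq hY]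

/-- **Monotonicity of the least concave profile's moment.** -/
theorem hullTan_mono (hY : 1 < Y) (h : Y ≤ Y') : hullTan m Y ≤ hullTan m Y' := by
  have hY' : 1 < Y' := hY.trans_le h
  have hY0 : 0 < Y := by linarith
  obtain ⟨ha0, ha1⟩ := tanPt_mem hY.le
  obtain ⟨hb0, hb1⟩ := tanPt_mem hY'.le
  have hab : tanPt Y ≤ tanPt Y' := by
    refine sqrt_le_sqrt (sub_le_sub_left (one_div_le_one_div_of_le (by positivity) ?_) 1)
    exact pow_le_pow_left₀ hY0.le h 2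
  rw [hullTan_eq hY, hullTan_eq hY']
  have hl : ∀ a b, IntervalIntegrable (fun x : ℝ => (Y' - √(Y' ^ 2 - 1) * x) ^ (m + 1)) volume a b :=
    fun a b => Continuous.intervalIntegrable (by fun_prop) a b
  have hs : ∀ a b, IntervalIntegrable (fun x : ℝ => √(1 - x ^ 2) ^ (m + 1)) volume a b :=
    fun a b => Continuous.intervalIntegrable (by fun_prop) a b
  rw [← integral_add_adjacent_intervals (hl 0 (tanPt Y)) (hl (tanPt Y) (tanPt Y')),
    ← integral_add_adjacent_intervals (hs (tanPt Y) (tanPt Y')) (hs (tanPt Y') 1)]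
  have p1 : ∫ x in (0 : ℝ)..tanPt Y, (Y - √(Y ^ 2 - 1) * x) ^ (m + 1) ≤
      ∫ x in (0 : ℝ)..tanPt Y, (Y' - √(Y' ^ 2 - 1) * x) ^ (m + 1) := by
    refine integral_mono_on ha0 (Continuous.intervalIntegrable (by fun_prop) _ _) (hl ..)
      fun x hx => ?_
    refine pow_le_pow_left₀ (le_trans (sqrt_nonneg _) (semi_le_tanLine hY.le
      ⟨hx.1, hx.2.trans ha1⟩)) ?_ _
    -- affine in `x`: compare at the ends
    have h0 : Y - √(Y ^ 2 - 1) * tanPt Y ≤ Y' - √(Y' ^ 2 - 1) * tanPt Y := by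
      refine le_trans (le_of_eq ?_) (semi_le_tanLine hY'.le ⟨ha0, ha1⟩)
      rw [← mul_tanPt hY.le]
      have e : tanPt Y ^ 2 = 1 - 1 / Y ^ 2 := sq_sqrt (by
        rw [sub_nonneg, div_le_one (by positivity)]; exact one_le_pow₀ hY.le)
      rw [e, sub_sub_cancel, ← one_div_pow, sqrt_sq (by positivity), mul_assoc, ← sq, e]
      field_simp
      ring
    rcases le_total (√(Y' ^ 2 - 1)) (√(Y ^ 2 - 1)) with hc | hc
    · nlinarith [mul_le_mul_of_nonneg_right hc hx.1]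
    · nlinarith [mul_le_mul_of_nonneg_left hx.2 (sub_nonneg.2 hc)]
  have p2 : ∫ x in (tanPt Y)..tanPt Y', √(1 - x ^ 2) ^ (m + 1) ≤
      ∫ x in (tanPt Y)..tanPt Y', (Y' - √(Y' ^ 2 - 1) * x) ^ (m + 1) :=
    integral_mono_on hab (hs ..) (hl ..) fun x hx => pow_le_pow_left₀ (sqrt_nonneg _)
      (semi_le_tanLine hY'.le ⟨ha0.trans hx.1, hx.2.trans hb1⟩) _
  linarith

/-- A test value bounds the central value, sharp form. -/
lemma lt_of_hullTan (hY' : 1 < Y') (hH : hullTan m Y ≤ V) (h : V < hullTan m Y') : Y < Y' := by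
  by_contra hle
  exact absurd ((hullTan_mono hY' (not_lt.1 hle)).trans hH) (not_le.2 h)

/-- The line part in closed form. -/
theorem hullTan_line (hY : 1 < Y) :
    ∫ x in (0 : ℝ)..tanPt Y, (Y - √(Y ^ 2 - 1) * x) ^ (m + 1) =
      (Y ^ (m + 2) - 1 / Y ^ (m + 2)) / (((m : ℝ) + 2) * √(Y ^ 2 - 1)) := by
  have hY0 : 0 < Y := by linarith
  have hc : 0 < √(Y ^ 2 - 1) := sqrt_pos.2 (by nlinarith)
  have h2 : √(Y ^ 2 - 1) ^ 2 = Y ^ 2 - 1 := sq_sqrt (by nlinarith)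
  have ha : tanPt Y = √(Y ^ 2 - 1) / Y := by rw [← mul_tanPt hY.le]; field_simp
  rw [intervalIntegral.integral_comp_sub_mul (fun x : ℝ => x ^ (m + 1)) hc.ne' Y, integral_pow,
    mul_zero, sub_zero, ha, show Y - √(Y ^ 2 - 1) * (√(Y ^ 2 - 1) / Y) = 1 / Y by
      field_simp; rw [h2]; ring]
  rw [smul_eq_mul]
  push_cast
  rw [show (m : ℝ) + 1 + 1 = (m : ℝ) + 2 by ring, one_div_pow]
  field_simp

end Vale.Agent.P237.Cal
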