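import Vale.Agent.P237.Cal.ChordTight
import Vale.Agent.P237.Cal.XRange
import Vale.Agent.P237.Cal.YRange

/-!
# P237: upper bounds of `σ - T` for a small excess

`bump_tan` is BUMP2 at the exact point of tangency `a = (σ W - √Δ)/(1 + σ²)`, `Δ = σ² - T²`, which
gives `t - a = √Δ (σ √Δ + W)/(W (1 + σ²))`. `le_of_bump` and `le_of_crude` turn this and the crude
chord bound into `σ ≤ T + U`.
-/

open Real Set MeasureTheory intervalIntegral

namespace Vale.Agent.P237.Cal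

variable {m : ℕ} {V Y T σ X : ℝ}

/-- The distance from the point of tangency. -/
noncomputable def tanGap (T σ : ℝ) : ℝ :=
  √(σ ^ 2 - T ^ 2) * (σ * √(σ ^ 2 - T ^ 2) + √(1 + T ^ 2)) / (√(1 + T ^ 2) * (1 + σ ^ 2))

/-- **BUMP at the tangency.** -/
theorem bump_tan (hB : XBox m V Y T σ X) (hY : 1 ≤ Y) (hT : 0 < T) (hTσ : T ≤ σ) :
    ((m : ℝ) + 1) * √(1 - (σ / √(1 + T ^ 2)) ^ 2) ^ m * (tanGap T σ ^ 3 / 6) ≤
      V - semiMom m 1 := by
  set W := √(1 + T ^ 2) with hW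
  have hW0 : 0 < W := w_pos T
  have hW2 : W ^ 2 = 1 + T ^ 2 := sq_sqrt (by positivity)
  have hσ : 0 < σ := hT.trans_le hTσ
  set Δ := √(σ ^ 2 - T ^ 2) with hΔ
  have hΔ0 : 0 ≤ Δ := sqrt_nonneg _
  have hΔ2 : Δ ^ 2 = σ ^ 2 - T ^ 2 := sq_sqrt (by nlinarith)
  set a := (σ * W - Δ) / (1 + σ ^ 2) with ha
  have hden : 0 < 1 + σ ^ 2 := by positivity
  have e : σ / W - a = tanGap T σ := by
    rw [ha, tanGap, ← hΔ, ← hW, div_sub_div _ _ hW0.ne' hden.ne']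
    congr 1
    linear_combination (-σ) * hW2 - σ * hΔ2
  have hg : 0 ≤ tanGap T σ := by
    rw [tanGap, ← hΔ, ← hW]; positivity
  have hWΔ : Δ ≤ σ * W := by
    have h1 : Δ ≤ σ := (pow_le_pow_iff_left₀ hΔ0 hσ.le two_ne_zero).1 (by nlinarith)
    have h2 : 1 ≤ W := one_le_sqrt.2 (by nlinarith)
    nlinarith
  have ha0 : 0 ≤ a := by rw [ha]; exact div_nonneg (by linarith) hden.le
  have e2 : 1 - a ^ 2 = ((W + σ * Δ) / (1 + σ ^ 2)) ^ 2 := by
    rw [ha, div_pow, div_pow, one_sub_div (pow_ne_zero 2 hden.ne')]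
    congr 1
    linear_combination (-(1 + σ ^ 2)) * hW2 - (1 + σ ^ 2) * hΔ2
  have e3 : √(1 - a ^ 2) = (W + σ * Δ) / (1 + σ ^ 2) := by
    rw [e2, sqrt_sq (by positivity)]
  have htan : 1 ≤ σ / W * a + Y / W * √(1 - a ^ 2) := by
    refine le_trans (le_of_eq ?_) (add_le_add le_rfl (mul_le_mul_of_nonneg_right
      ((div_le_div_iff_of_pos_right hW0).2 hY) (sqrt_nonneg _)))
    rw [e3, ha]
    field_simp
    ring
  have h := hB.bump a ⟨ha0, by linarith [e]⟩ htan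
  rwa [e] at h

/-- Monotonicity of the tangency gap. -/
lemma tanGap_ge {U σ' : ℝ} (hT : 0 < T) (hU : T + U ≤ σ) (hU0 : 0 ≤ U) (hσ : σ ≤ σ') :
    √((T + U) ^ 2 - T ^ 2) * ((T + U) * √((T + U) ^ 2 - T ^ 2) + √(1 + T ^ 2)) /
      (√(1 + T ^ 2) * (1 + σ' ^ 2)) ≤ tanGap T σ := by
  have hσ0 : 0 ≤ σ := by linarith
  unfold tanGap
  gcongr

/-- A point where the bump exceeds `V - V₀` bounds `σ`; `σ₁` is any upper bound of `σ`. -/
theorem le_of_bump {U σ₁ : ℝ} (hB : XBox m V Y T σ X) (hY : 1 ≤ Y) (hT : 0 < T) (hU0 : 0 ≤ U)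
    (hσ₁ : σ ≤ σ₁)
    (hbig : V - semiMom m 1 < ((m : ℝ) + 1) * √(1 - (σ₁ / √(1 + T ^ 2)) ^ 2) ^ m *
      ((√((T + U) ^ 2 - T ^ 2) * ((T + U) * √((T + U) ^ 2 - T ^ 2) + √(1 + T ^ 2)) /
        (√(1 + T ^ 2) * (1 + σ₁ ^ 2))) ^ 3 / 6)) :
    σ - T ≤ U := by
  by_contra hc
  push Not at hc
  have hTU : T + U ≤ σ := by linarith
  have hσ : 0 < σ := lt_of_lt_of_le (by linarith : (0 : ℝ) < T + U) hTU
  refine absurd (lt_of_lt_of_le hbig ?_) (lt_irrefl _)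
  refine le_trans (le_of_le_of_eq ?_ rfl) (bump_tan hB hY hT (by linarith))
  refine mul_le_mul (mul_le_mul_of_nonneg_left (pow_le_pow_left₀ (sqrt_nonneg _) (sqrt_le_sqrt
    (sub_le_sub_left (pow_le_pow_left₀ (by positivity)
      ((div_le_div_iff_of_pos_right (w_pos T)).2 hσ₁) 2) 1)) _) (by positivity))
    (div_le_div_of_nonneg_right (pow_le_pow_left₀ (by positivity)
      (tanGap_ge hT hTU hU0 hσ₁) 3) (by norm_num)) (by positivity) (by positivity)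

/-- The crude bound: `q₁ V₀` bounds `V`. -/
theorem le_of_crude {h q₁ σ₁ : ℝ} (hR : RegC Y T σ h) (hY : 1 ≤ Y) (hE : Exc m V Y T σ)
    (hV : V ≤ q₁ * semiMom m 1) (hq : 0 ≤ q₁)
    (h1 : ((m : ℝ) + 2) * (√(1 + T ^ 2) - 1) * (q₁ * semiMom m 1) ≤
      σ₁ * (1 - (√(1 + T ^ 2) ^ (m + 2))⁻¹)) :
    σ ≤ σ₁ := by
  have hT := hR.T_pos
  have hW1 : 1 < √(1 + T ^ 2) := by rw [lt_sqrt zero_le_one]; nlinarith
  have hc := crude_exc hY hR hE
  have hV0 : 0 ≤ semiMom m 1 := intervalIntegral.integral_nonneg zero_le_one fun x _ => by positivity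
  have h2 : V / Y ^ (m + 1) ≤ q₁ * semiMom m 1 := by
    rw [div_le_iff₀ (pow_pos (one_pos.trans_le hY) _)]
    exact hV.trans (le_mul_of_one_le_right (mul_nonneg hq hV0) (one_le_pow₀ hY))
  have hpos : 0 < 1 - (√(1 + T ^ 2) ^ (m + 2))⁻¹ :=
    sub_pos.2 (inv_lt_one_of_one_lt₀ (one_lt_pow₀ hW1 (by omega)))
  refine le_of_mul_le_mul_right (le_trans (le_trans hc ?_) h1) hpos
  exact mul_le_mul_of_nonneg_left h2 (mul_nonneg (by positivity) (by linarith))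

/-- The tangent line exceeds the circle by at least `(x - a)²/2`. -/
lemma tanLine_excess (hY : 1 ≤ Y) {x : ℝ} (hx : x ∈ Icc (0 : ℝ) 1) :
    √(1 - x ^ 2) + (x - tanPt Y) ^ 2 / 2 ≤ Y - √(Y ^ 2 - 1) * x := by
  have hY0 : 0 < Y := one_pos.trans_le hY
  have hc := mul_tanPt hY
  have ha2 : tanPt Y ^ 2 = 1 - 1 / Y ^ 2 := sq_sqrt (by
    rw [sub_nonneg, div_le_one (by positivity)]; exact one_le_pow₀ hY)
  set a := tanPt Y
  set s := √(1 - x ^ 2) with hs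
  have hs2 : s ^ 2 = 1 - x ^ 2 := sq_sqrt (by nlinarith [hx.1, hx.2])
  have hb : (1 / Y) ^ 2 = 1 - a ^ 2 := by rw [ha2, div_pow, one_pow]; ring
  have e : Y - √(Y ^ 2 - 1) * x = (1 - a * x) * Y := by rw [← hc]; ring
  rw [e]
  have h1 : s / Y + (x - a) ^ 2 / 2 ≤ 1 - a * x := by
    have h2 : s / Y ≤ (s ^ 2 + (1 / Y) ^ 2) / 2 := by
      rw [div_eq_mul_one_div]; nlinarith [sq_nonneg (s - 1 / Y)]
    rw [hs2, hb] at h2
    linarith [show (x - a) ^ 2 = x ^ 2 - 2 * (a * x) + a ^ 2 by ring]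
  have h3 := mul_le_mul_of_nonneg_right h1 hY0.le
  rw [add_mul, div_mul_cancel₀ _ hY0.ne'] at h3
  have h4 : (x - a) ^ 2 / 2 ≤ (x - a) ^ 2 / 2 * Y :=
    le_mul_of_one_le_right (by positivity) hY
  linarith

/-- **The range of the central value.** -/
theorem Y_lt_of_bump {Y₁ : ℝ} (hY₁ : 1 < Y₁) (hH : hullTan m Y ≤ V)
    (hbig : V - semiMom m 1 < ((m : ℝ) + 1) * (1 / Y₁) ^ m * (tanPt Y₁ ^ 3 / 6)) :
    Y < Y₁ := by
  refine lt_of_hullTan hY₁ hH ?_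
  have hY0 : 0 < Y₁ := by linarith
  obtain ⟨ha0, ha1⟩ := tanPt_mem hY₁.le
  have ha2 : tanPt Y₁ ^ 2 = 1 - 1 / Y₁ ^ 2 := sq_sqrt (by
    rw [sub_nonneg, div_le_one (by positivity)]; exact one_le_pow₀ hY₁.le)
  set a := tanPt Y₁ with ha
  have hend : √(1 - a ^ 2) = 1 / Y₁ := by
    rw [ha2, sub_sub_cancel, ← one_div_pow, sqrt_sq (by positivity)]
  have hl : IntervalIntegrable (fun x : ℝ => (Y₁ - √(Y₁ ^ 2 - 1) * x) ^ (m + 1)) volume 0 a :=
    Continuous.intervalIntegrable (by fun_prop) _ _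
  have key : ∫ x in (0 : ℝ)..a, ((m : ℝ) + 1) * (1 / Y₁) ^ m * ((x - a) ^ 2 / 2) ≤
      ∫ x in (0 : ℝ)..a, ((Y₁ - √(Y₁ ^ 2 - 1) * x) ^ (m + 1) - √(1 - x ^ 2) ^ (m + 1)) := by
    refine integral_mono_on ha0 (Continuous.intervalIntegrable (by fun_prop) _ _)
      (hl.sub (semi_int 0 a)) fun x hx => ?_
    have hx1 : x ∈ Icc (0 : ℝ) 1 := ⟨hx.1, hx.2.trans ha1⟩
    have h1 := tanLine_excess hY₁.le hx1
    refine le_trans ?_ (pow_sub_pow_ge (sqrt_nonneg _) (semi_le_tanLine hY₁.le hx1) m)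
    refine mul_le_mul (mul_le_mul_of_nonneg_left (pow_le_pow_left₀ (by positivity) ?_ _)
      (by positivity)) (by linarith) (by positivity) (by positivity)
    rw [← hend]
    exact sqrt_le_sqrt (by nlinarith [hx.1, hx.2])
  rw [integral_sub hl (semi_int 0 a), intervalIntegral.integral_const_mul,
    intervalIntegral.integral_div, intervalIntegral.integral_comp_sub_right (fun x => x ^ 2) a,
    integral_pow] at key
  have e := integral_add_adjacent_intervals (semi_int (m := m) 0 a) (semi_int a 1)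
  rw [hullTan_eq hY₁]
  simp only [semiMom] at hbig ⊢
  norm_num at key
  have e3 : (-a) ^ 3 = -(a ^ 3) := by ring
  simp only [one_div, e3, neg_neg, inv_pow, ← ha] at key hbig ⊢
  linarith

end Vale.Agent.P237.Cal
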