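import Vale.Agent.P237.Cal.Region

/-!
# P237: eliminating the slope from the pointwise inequality

With a multiplier `kap ≥ 0` of the circle constraint the right side of `PW`, times `√(1+T²)^(m+4)`,
is `A/h + B h` plus an affine term, so at least `2 √(A B)` plus that term.
-/

open Set Real

namespace Vale.Agent.P237.Cal

variable {m : ℕ} {Y T σ h ε μ a kap : ℝ} {dG Gam dGam : ℝ → ℝ}

lemma two_sqrt_mul_le {A B : ℝ} (hA : 0 ≤ A) (hB : 0 ≤ B) (hh : 0 < h) :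
    2 * √(A * B) ≤ A / h + B * h := by
  have e : A * B = (A / h) * (B * h) := by field_simp
  have h1 : 0 ≤ A / h := div_nonneg hA hh.le
  have h2 : 0 ≤ B * h := mul_nonneg hB hh.le
  rw [e, sqrt_mul h1]
  nlinarith [sq_nonneg (√(A / h) - √(B * h)), sq_sqrt h1, sq_sqrt h2]

/-- The coefficient of `1/h` after the multiplier. -/
def elimA (m : ℕ) (Y T σ ε kap : ℝ) : ℝ :=
  ((m : ℝ) + 1) * T ^ 2 * (1 - ε * σ ^ 2) + kap * T ^ 2 * (Y ^ 2 + σ ^ 2)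

/-- The coefficient of `h` after the multiplier. -/
noncomputable def elimB (m : ℕ) (Y T ε μ a kap : ℝ) (Gam : ℝ → ℝ) : ℝ :=
  μ * √(1 + T ^ 2) ^ 3 - a * √(1 + T ^ 2) ^ 2 - ((m : ℝ) + 1) * ε * (1 + T ^ 2) ^ 2 -
    Gam T * √(1 + T ^ 2) ^ (m + 4) - kap * (1 + T ^ 2) * (Y ^ 2 - (1 + T ^ 2))

/-- The pointwise inequality from its slope-free form. -/
theorem pw_of_elim (hh : 0 < h) (hk : 0 ≤ kap)
    (hS : 0 ≤ (1 + T ^ 2) * (Y ^ 2 - (1 + T ^ 2)) * h - T ^ 2 * (Y ^ 2 + σ ^ 2) / h +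
      2 * (1 + T ^ 2) * σ * T)
    (hA : 0 ≤ elimA m Y T σ ε kap) (hB : 0 ≤ elimB m Y T ε μ a kap Gam)
    (hle : (dG T + dGam T * (σ - T)) * √(1 + T ^ 2) ^ (m + 4) ≤
      2 * √(elimA m Y T σ ε kap * elimB m Y T ε μ a kap Gam) +
        2 * (((m : ℝ) + 1) * ε - kap) * (1 + T ^ 2) * σ * T + Gam T * √(1 + T ^ 2) ^ (m + 4)) :
    PW m ε μ a dG Gam dGam T σ h := by
  have hW : 0 < √(1 + T ^ 2) ^ (m + 4) := pow_pos (sqrt_pos.2 (by positivity)) _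
  have h1 := hle.trans (add_le_add (add_le_add (two_sqrt_mul_le hA hB hh) le_rfl) le_rfl)
  have h2 := mul_nonneg hk hS
  unfold PW
  refine le_of_mul_le_mul_right ?_ hW
  have e1 : (((m : ℝ) + 1) * (T ^ 2 - ε * ((1 + T ^ 2) * h - σ * T) ^ 2) / h /
        √(1 + T ^ 2) ^ (m + 4) + μ * h / √(1 + T ^ 2) ^ (m + 1) -
        a * h / √(1 + T ^ 2) ^ (m + 2)) * √(1 + T ^ 2) ^ (m + 4) =
      ((m : ℝ) + 1) * T ^ 2 * (1 - ε * σ ^ 2) / h + 2 * ((m : ℝ) + 1) * ε * (1 + T ^ 2) * σ * T +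
        (μ * √(1 + T ^ 2) ^ 3 - a * √(1 + T ^ 2) ^ 2 -
          ((m : ℝ) + 1) * ε * (1 + T ^ 2) ^ 2) * h := by
    field_simp
    ring
  rw [e1]
  simp only [elimA, elimB] at h1
  rw [add_div] at h1
  simp only [div_eq_mul_inv] at h1 h2 ⊢
  linear_combination h1 + h2

/-- The tail point satisfies the circle constraint. -/
lemma tail_circle (hT : 0 < T) :
    0 ≤ (1 + T ^ 2) * (Y ^ 2 - (1 + T ^ 2)) * (T / √(1 + T ^ 2)) -
      T ^ 2 * (Y ^ 2 + √(1 + T ^ 2) ^ 2) / (T / √(1 + T ^ 2)) +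
      2 * (1 + T ^ 2) * √(1 + T ^ 2) * T := by
  refine le_of_eq ?_
  have hsq : √(1 + T ^ 2) ^ 2 = 1 + T ^ 2 := sq_sqrt (by positivity)
  set W := √(1 + T ^ 2) with hW
  have hW0 : 0 < W := sqrt_pos.2 (by positivity)
  rw [← hsq]
  field_simp
  ring

end Vale.Agent.P237.Cal
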