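import Mathlib

/-!
# P237: the cone `A, B ≥ 0`, `C + 2√(AB) ≥ 0`

These are the triples with `A/h + B h + C ≥ 0` for all `h > 0`; they form a convex cone.
-/

open Real

namespace Vale.Agent.P237.Cal

/-- `A/h + B h + C ≥ 0` for every `h > 0`, in closed form. -/
def Tri (A B C : ℝ) : Prop := 0 ≤ A ∧ 0 ≤ B ∧ 0 ≤ C + 2 * √(A * B)

namespace Tri

variable {A B C A' B' C' c : ℝ}

lemma zero : Tri 0 0 0 := ⟨le_rfl, le_rfl, by simp⟩

lemma add (h : Tri A B C) (h' : Tri A' B' C') : Tri (A + A') (B + B') (C + C') := by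
  obtain ⟨a, b, e⟩ := h
  obtain ⟨a', b', e'⟩ := h'
  refine ⟨add_nonneg a a', add_nonneg b b', ?_⟩
  have h1 : √(A * B) + √(A' * B') ≤ √((A + A') * (B + B')) := by
    refine le_sqrt_of_sq_le ?_
    have hm : 2 * (√(A * B) * √(A' * B')) ≤ A * B' + A' * B := by
      rw [sqrt_mul a, sqrt_mul a']
      have := two_mul_le_add_sq (√A * √B') (√A' * √B)
      rw [mul_pow, mul_pow, sq_sqrt a, sq_sqrt b', sq_sqrt a', sq_sqrt b] at this
      linarith
    rw [add_sq, sq_sqrt (mul_nonneg a b), sq_sqrt (mul_nonneg a' b')]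
    linarith
  linarith

lemma smul (hc : 0 ≤ c) (h : Tri A B C) : Tri (c * A) (c * B) (c * C) := by
  obtain ⟨a, b, e⟩ := h
  refine ⟨mul_nonneg hc a, mul_nonneg hc b, ?_⟩
  rw [show c * A * (c * B) = c ^ 2 * (A * B) by ring, sqrt_mul (sq_nonneg c), sqrt_sq hc]
  nlinarith [mul_nonneg hc e]

lemma mono (h : Tri A B C) (hA : A ≤ A') (hB : B ≤ B') (hC : C ≤ C') : Tri A' B' C' := by
  obtain ⟨a, b, e⟩ := h
  refine ⟨a.trans hA, b.trans hB, ?_⟩
  have : √(A * B) ≤ √(A' * B') := sqrt_le_sqrt (mul_le_mul hA hB b (a.trans hA))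
  linarith

lemma sum {ι : Type*} (s : Finset ι) {fA fB fC w : ι → ℝ} (hw : ∀ i ∈ s, 0 ≤ w i)
    (h : ∀ i ∈ s, Tri (fA i) (fB i) (fC i)) :
    Tri (∑ i ∈ s, w i * fA i) (∑ i ∈ s, w i * fB i) (∑ i ∈ s, w i * fC i) := by
  classical
  induction s using Finset.induction_on with
  | empty => simpa using zero
  | @insert i t hi ih =>
    simp only [Finset.sum_insert hi]
    exact ((h i (Finset.mem_insert_self i t)).smul (hw i (Finset.mem_insert_self i t))).add
      (ih (fun j hj => hw j (Finset.mem_insert_of_mem hj))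
        (fun j hj => h j (Finset.mem_insert_of_mem hj)))

lemma nonneg_apply (h : Tri A B C) {x : ℝ} (hx : 0 < x) : 0 ≤ A / x + B * x + C := by
  obtain ⟨a, b, e⟩ := h
  have h1 : 2 * √(A * B) ≤ A / x + B * x := by
    have := two_mul_le_add_sq (√(A / x)) (√(B * x))
    rw [mul_assoc, ← sqrt_mul (div_nonneg a hx.le), sq_sqrt (div_nonneg a hx.le),
      sq_sqrt (mul_nonneg b hx.le), show A / x * (B * x) = A * B by field_simp] at this
    exact this
  linarith

end Tri

end Vale.Agent.P237.Cal
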