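import Vale.Agent.P237.Cal.BoxFrame
import Vale.Agent.P237.Cal.Elim
import Vale.Agent.P237.Cal.Tri

/-!
# P237: the pointwise inequality on a box of `(ε, η = Y² - 1)` from its vertices

For a fixed point and a fixed slope `h` the deficit of `Pw3`, after the multipliers `θ` (circle),
`φ` (`h ≥ T/W`) and `ν` (`D (2T+D) + η ≥ 0`), is jointly affine in `(ε, η)` and in the parameters, and
has the form `A/h + B h + R`. So `A, B ≥ 0` and `0 ≤ R + 2√(AB)` at the vertices of a box give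
`Pw3` at every point of it, with the lower bound `LB - η ν`.
-/

open Set Real

namespace Vale.Agent.P237.Cal

variable {m : ℕ}

/-- The values at one `T` of the parameters which may vary with `(ε, η)`. -/
structure Loc where
  g : ℝ
  dg : ℝ
  P : ℝ
  dP : ℝ
  C : ℝ
  dC : ℝ
  S : ℝ
  dS : ℝ
  U : ℝ
  dU : ℝ
  K : ℝ
  μ : ℝ
  a : ℝ
  LB : ℝ

/-- A convex combination of four parameter vectors. -/
def Loc.mix (c₁ c₂ c₃ c₄ : ℝ) (p q r s : Loc) : Loc where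
  g := c₁ * p.g + c₂ * q.g + c₃ * r.g + c₄ * s.g
  dg := c₁ * p.dg + c₂ * q.dg + c₃ * r.dg + c₄ * s.dg
  P := c₁ * p.P + c₂ * q.P + c₃ * r.P + c₄ * s.P
  dP := c₁ * p.dP + c₂ * q.dP + c₃ * r.dP + c₄ * s.dP
  C := c₁ * p.C + c₂ * q.C + c₃ * r.C + c₄ * s.C
  dC := c₁ * p.dC + c₂ * q.dC + c₃ * r.dC + c₄ * s.dC
  S := c₁ * p.S + c₂ * q.S + c₃ * r.S + c₄ * s.S
  dS := c₁ * p.dS + c₂ * q.dS + c₃ * r.dS + c₄ * s.dS
  U := c₁ * p.U + c₂ * q.U + c₃ * r.U + c₄ * s.U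
  dU := c₁ * p.dU + c₂ * q.dU + c₃ * r.dU + c₄ * s.dU
  K := c₁ * p.K + c₂ * q.K + c₃ * r.K + c₄ * s.K
  μ := c₁ * p.μ + c₂ * q.μ + c₃ * r.μ + c₄ * s.μ
  a := c₁ * p.a + c₂ * q.a + c₃ * r.a + c₄ * s.a
  LB := c₁ * p.LB + c₂ * q.LB + c₃ * r.LB + c₄ * s.LB

/-- The prefactor of the second order part. -/
noncomputable def preT (m : ℕ) (T : ℝ) : ℝ := ((m : ℝ) + 1) * T ^ 2 / √(1 + T ^ 2) ^ (m + 4)

/-- The coefficient of `h - 1`; `Xc` is the centred state. -/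
def vxGc (p : Loc) (D Xc : ℝ) : ℝ := p.g + 2 * p.P * D + 3 * p.C * D ^ 2 + 2 * p.S * Xc

/-- The coefficient of `1/h`. -/
noncomputable def vxA (m : ℕ) (ε η θ φ T σ : ℝ) : ℝ :=
  preT m T * (1 - ε * σ ^ 2 + φ + θ * (1 + η + σ ^ 2))

/-- The coefficient of `h`. -/
noncomputable def vxB (m : ℕ) (p : Loc) (ε η θ T σ Xc : ℝ) : ℝ :=
  preT m T * (1 - ε * T ^ 2) +
    muX m T / T * (θ * (1 + T ^ 2) * (1 + T ^ 2 - (1 + η))) + vxGc p (σ - T) Xc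

/-- The part free of the slope. -/
noncomputable def vxR (m : ℕ) (p : Loc) (ε θ φ ν T σ Xc : ℝ) : ℝ :=
  preT m T * (-2 + 2 * ε * T * σ - φ * (√(1 + T ^ 2) / T)) -
    2 * muX m T * θ * (1 + T ^ 2) * σ - vxGc p (σ - T) Xc +
    (σ - T) * (ell m ε p.μ p.a T + p.dg + p.K * muX m T) +
    (σ - T) ^ 2 * (p.dP + 2 * muX m T * p.S) + (σ - T) ^ 3 * p.dC +
    2 * (σ - T) * Xc * (p.dS + muX m T * p.U) + Xc ^ 2 * p.dU -
    ν * ((σ - T) * (2 * T + (σ - T))) - p.LB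

/-- The vertex condition at one point. -/
def VxOk (m : ℕ) (p : Loc) (ε η θ φ ν T σ Xc : ℝ) : Prop :=
  Tri (vxA m ε η θ φ T σ) (vxB m p ε η θ T σ Xc) (vxR m p ε θ φ ν T σ Xc)

/-- The deficit as a function of the slope. -/
noncomputable def vxF (m : ℕ) (p : Loc) (ε η θ φ ν T σ h Xc : ℝ) : ℝ :=
  vxA m ε η θ φ T σ / h + vxB m p ε η θ T σ Xc * h + vxR m p ε θ φ ν T σ Xc

lemma vxF_nonneg {p : Loc} {ε η θ φ ν T σ h Xc : ℝ} (hh : 0 < h)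
    (hok : VxOk m p ε η θ φ ν T σ Xc) : 0 ≤ vxF m p ε η θ φ ν T σ h Xc := by
  simp only [vxF]
  exact hok.nonneg_apply hh

lemma vxF_mix {p q r s : Loc} {θ φ ν T σ h Xc ε₀ ε₁ η₀ η₁ u v : ℝ} :
    vxF m (Loc.mix ((1 - u) * (1 - v)) (u * (1 - v)) ((1 - u) * v) (u * v) p q r s)
        ((1 - u) * ε₀ + u * ε₁) ((1 - v) * η₀ + v * η₁) θ φ ν T σ h Xc =
      (1 - u) * (1 - v) * vxF m p ε₀ η₀ θ φ ν T σ h Xc +
        u * (1 - v) * vxF m q ε₁ η₀ θ φ ν T σ h Xc +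
        (1 - u) * v * vxF m r ε₀ η₁ θ φ ν T σ h Xc +
        u * v * vxF m s ε₁ η₁ θ φ ν T σ h Xc := by
  simp only [vxF, vxA, vxB, vxR, vxGc, Loc.mix, ell]
  ring

/-- The deficit bounds `Pw3`: the multipliers only subtract nonnegative terms. -/
lemma pw3_of_vxF {Y ε η θ φ ν ν₀ T σ h X : ℝ} {p : Loc}
    {g g' P P' C C' S S' U U' LB : ℝ → ℝ}
    (hR : RegC Y T σ h) (hY : Y ^ 2 = 1 + η) (hη : 0 ≤ η) (hθ : 0 ≤ θ) (hφ : 0 ≤ φ) (hν : 0 ≤ ν)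
    (hν₀ : ν ≤ ν₀)
    (eg : g T = p.g) (edg : g' T = p.dg) (eP : P T = p.P) (edP : P' T = p.dP) (eC : C T = p.C)
    (edC : C' T = p.dC) (eS : S T = p.S) (edS : S' T = p.dS) (eU : U T = p.U) (edU : U' T = p.dU)
    (eLB : LB T ≤ p.LB - η * ν₀) (hF : 0 ≤ vxF m p ε η θ φ ν T σ h (X - X0 m T)) :
    Pw3 m ε p.μ p.a p.K g g' P P' C C' S S' U U' LB T σ h X := by
  have hT := hR.T_pos
  have hh := hR.h_pos
  have hW := w_pos T
  have hpre : 0 ≤ preT m T := by unfold preT; positivity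
  have hmu : 0 ≤ muX m T / T := div_nonneg (by unfold muX; positivity) hT.le
  have hc : 0 ≤ ((1 + T ^ 2) * (Y ^ 2 - (1 + T ^ 2)) * h - T ^ 2 * (Y ^ 2 + σ ^ 2) / h +
      2 * (1 + T ^ 2) * σ * T) := by
    refine nonneg_of_mul_nonneg_left ?_ hh
    rw [add_mul, sub_mul, div_mul_cancel₀ _ hh.ne']
    linarith [hR.circle, show ((1 + T ^ 2) * h - σ * T) ^ 2 =
      (1 + T ^ 2) ^ 2 * h ^ 2 - 2 * (1 + T ^ 2) * h * (σ * T) + σ ^ 2 * T ^ 2 by ring]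
  have h1 : 0 ≤ √(1 + T ^ 2) / T - 1 / h := by
    rw [sub_nonneg, div_le_div_iff₀ hh hT, one_mul]
    exact hR.h_low
  have h2 : 0 ≤ (σ - T) * (2 * T + (σ - T)) + η := by
    have e : (σ - T) * (2 * T + (σ - T)) + η = σ ^ 2 - (1 + T ^ 2 - Y ^ 2) := by rw [hY]; ring
    linarith [hR.σ_low]
  have k1 := mul_nonneg (mul_nonneg hmu hθ) hc
  have k2 := mul_nonneg (mul_nonneg hpre hφ) h1
  have k3 := mul_nonneg hν h2
  have k4 := mul_le_mul_of_nonneg_left hν₀ hη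
  have key : ((m : ℝ) + 1) * T ^ 2 / √(1 + T ^ 2) ^ (m + 4) * valQ ε T σ h +
      (p.g + 2 * p.P * (σ - T) + 3 * p.C * (σ - T) ^ 2 + 2 * p.S * (X - X0 m T)) * (h - 1) +
      (σ - T) * (ell m ε p.μ p.a T + p.dg + p.K * muX m T) +
      (σ - T) ^ 2 * (p.dP + 2 * muX m T * p.S) + (σ - T) ^ 3 * p.dC +
      2 * (σ - T) * (X - X0 m T) * (p.dS + muX m T * p.U) + (X - X0 m T) ^ 2 * p.dU -
      p.LB + η * ν =
    vxF m p ε η θ φ ν T σ h (X - X0 m T) +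
      (muX m T / T * θ * ((1 + T ^ 2) * (Y ^ 2 - (1 + T ^ 2)) * h - T ^ 2 * (Y ^ 2 + σ ^ 2) / h +
        2 * (1 + T ^ 2) * σ * T)) +
      preT m T * φ * (√(1 + T ^ 2) / T - 1 / h) + ν * ((σ - T) * (2 * T + (σ - T)) + η) := by
    rw [hY]
    simp only [vxF, vxA, vxB, vxR, vxGc, preT, muX, valQ]
    field_simp
    ring
  simp only [Pw3, eg, edg, eP, edP, eC, edC, eS, edS, eU, edU]
  linarith

/-- **Vertices give the pointwise inequality on the box.** -/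
theorem pw3_of_vertices {Y ε η θ φ ν ν₀ T σ h X ε₀ ε₁ η₀ η₁ u v : ℝ} {p q r s l : Loc}
    {g g' P P' C C' S S' U U' LB : ℝ → ℝ}
    (hu : u ∈ Icc (0 : ℝ) 1) (hv : v ∈ Icc (0 : ℝ) 1)
    (hεu : ε = (1 - u) * ε₀ + u * ε₁) (hηv : η = (1 - v) * η₀ + v * η₁)
    (hl : l = Loc.mix ((1 - u) * (1 - v)) (u * (1 - v)) ((1 - u) * v) (u * v) p q r s)
    (hR : RegC Y T σ h) (hY : Y ^ 2 = 1 + η) (hη : 0 ≤ η) (hθ : 0 ≤ θ) (hφ : 0 ≤ φ) (hν : 0 ≤ ν)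
    (hν₀ : ν ≤ ν₀)
    (eg : g T = l.g) (edg : g' T = l.dg) (eP : P T = l.P) (edP : P' T = l.dP) (eC : C T = l.C)
    (edC : C' T = l.dC) (eS : S T = l.S) (edS : S' T = l.dS) (eU : U T = l.U) (edU : U' T = l.dU)
    (eLB : LB T ≤ l.LB - η * ν₀)
    (h00 : VxOk m p ε₀ η₀ θ φ ν T σ (X - X0 m T)) (h10 : VxOk m q ε₁ η₀ θ φ ν T σ (X - X0 m T))
    (h01 : VxOk m r ε₀ η₁ θ φ ν T σ (X - X0 m T)) (h11 : VxOk m s ε₁ η₁ θ φ ν T σ (X - X0 m T)) :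
    Pw3 m ε l.μ l.a l.K g g' P P' C C' S S' U U' LB T σ h X := by
  refine pw3_of_vxF hR hY hη hθ hφ hν hν₀ eg edg eP edP eC edC eS edS eU edU eLB ?_
  subst hl hεu hηv
  rw [vxF_mix]
  have hh := hR.h_pos
  have hu0 := hu.1
  have hv0 := hv.1
  have hu1 : 0 ≤ 1 - u := sub_nonneg.2 hu.2
  have hv1 : 0 ≤ 1 - v := sub_nonneg.2 hv.2
  have := vxF_nonneg hh h00
  have := vxF_nonneg hh h10
  have := vxF_nonneg hh h01
  have := vxF_nonneg hh h11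
  positivity

/-- **One point**: the closed condition gives `Pw3` with `LB = LB₀ - ν₀ η`. The caller may pass
`ν = 0` for `σ ≥ T` and `φ = 0` for `σ ≤ T`. -/
theorem pw3_of_tri {Y ε η θ φ ν ν₀ T σ h X : ℝ} {l : Loc}
    {g g' P P' C C' S S' U U' LB : ℝ → ℝ}
    (hR : RegC Y T σ h) (hY : Y ^ 2 = 1 + η) (hη : 0 ≤ η) (hθ : 0 ≤ θ) (hφ : 0 ≤ φ) (hν : 0 ≤ ν)
    (hν₀ : ν ≤ ν₀)
    (eg : g T = l.g) (edg : g' T = l.dg) (eP : P T = l.P) (edP : P' T = l.dP) (eC : C T = l.C)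
    (edC : C' T = l.dC) (eS : S T = l.S) (edS : S' T = l.dS) (eU : U T = l.U) (edU : U' T = l.dU)
    (eLB : LB T ≤ l.LB - η * ν₀)
    (hok : VxOk m l ε η θ φ ν T σ (X - X0 m T)) :
    Pw3 m ε l.μ l.a l.K g g' P P' C C' S S' U U' LB T σ h X :=
  pw3_of_vxF hR hY hη hθ hφ hν hν₀ eg edg eP edP eC edC eS edS eU edU eLB
    (vxF_nonneg hR.h_pos hok)

end Vale.Agent.P237.Cal
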