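import Vale.Agent.P237.Cal.ChordTight
import Vale.Agent.P237.Cal.SmallU
import Vale.Agent.P237.Cal.Vertex
import Vale.Agent.P237.Cal.Bernstein

/-!
# P237: a calibration on a box of `(ε, η)` from four parameter families

The only inequalities left are `VxOk` at the four vertices on a closed region not depending on the
point of the box, and the scalar inequality.
-/

open MeasureTheory Set Filter Topology Real intervalIntegral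

namespace Vale.Agent.P237.Cal

variable {m : ℕ}

/-- A parameter family as functions of `T`. -/
structure Fam where
  g : ℝ → ℝ
  g' : ℝ → ℝ
  P : ℝ → ℝ
  P' : ℝ → ℝ
  C : ℝ → ℝ
  C' : ℝ → ℝ
  S : ℝ → ℝ
  S' : ℝ → ℝ
  U : ℝ → ℝ
  U' : ℝ → ℝ
  LB : ℝ → ℝ
  K : ℝ
  μ : ℝ
  a : ℝ
  uinf : ℝ

/-- The values of a family at `T`. -/
def Fam.at (f : Fam) (T : ℝ) : Loc where
  g := f.g T
  dg := f.g' T
  P := f.P T
  dP := f.P' T
  C := f.C T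
  dC := f.C' T
  S := f.S T
  dS := f.S' T
  U := f.U T
  dU := f.U' T
  K := f.K
  μ := f.μ
  a := f.a
  LB := f.LB T

/-- The conditions on a family which do not involve the point. -/
structure Fam.Ok (f : Fam) : Prop where
  cg : Continuous f.g
  cP : Continuous f.P
  cC : Continuous f.C
  cS : Continuous f.S
  cU : Continuous f.U
  cLB : Continuous f.LB
  iLB : IntegrableOn f.LB (Ioi 0)
  dg : ∀ T, 0 < T → HasDerivAt f.g (f.g' T) T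
  dP : ∀ T, 0 < T → HasDerivAt f.P (f.P' T) T
  dC : ∀ T, 0 < T → HasDerivAt f.C (f.C' T) T
  dS : ∀ T, 0 < T → HasDerivAt f.S (f.S' T) T
  dU : ∀ T, 0 < T → HasDerivAt f.U (f.U' T) T
  tg : Tendsto (fun T => f.g T * (T + 1)) atTop (𝓝 0)
  tP : Tendsto (fun T => f.P T * (T + 1) ^ 2) atTop (𝓝 0)
  tC : Tendsto (fun T => f.C T * (T + 1) ^ 3) atTop (𝓝 0)
  tS : Tendsto (fun T => f.S T * (T + 1)) atTop (𝓝 0)
  tU : Tendsto f.U atTop (𝓝 f.uinf)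
  g0 : 0 ≤ f.g 0
  P0 : 0 ≤ f.P 0
  C0 : 0 ≤ f.C 0
  μ0 : 0 ≤ f.μ

/-- `c p + d q`. -/
def Fam.lin (c d : ℝ) (p q : Fam) : Fam where
  g T := c * p.g T + d * q.g T
  g' T := c * p.g' T + d * q.g' T
  P T := c * p.P T + d * q.P T
  P' T := c * p.P' T + d * q.P' T
  C T := c * p.C T + d * q.C T
  C' T := c * p.C' T + d * q.C' T
  S T := c * p.S T + d * q.S T
  S' T := c * p.S' T + d * q.S' T
  U T := c * p.U T + d * q.U T
  U' T := c * p.U' T + d * q.U' T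
  LB T := c * p.LB T + d * q.LB T
  K := c * p.K + d * q.K
  μ := c * p.μ + d * q.μ
  a := c * p.a + d * q.a
  uinf := c * p.uinf + d * q.uinf

lemma Fam.Ok.lin {p q : Fam} (hp : p.Ok) (hq : q.Ok) {c d : ℝ} (hc : 0 ≤ c) (hd : 0 ≤ d) :
    (Fam.lin c d p q).Ok := by
  have key : ∀ {F G : ℝ → ℝ} (j : ℕ), Tendsto (fun T => F T * (T + 1) ^ j) atTop (𝓝 0) →
      Tendsto (fun T => G T * (T + 1) ^ j) atTop (𝓝 0) →
      Tendsto (fun T => (c * F T + d * G T) * (T + 1) ^ j) atTop (𝓝 0) := by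
    intro F G j hF hG
    have h := (hF.const_mul c).add (hG.const_mul d)
    simp only [mul_zero, add_zero] at h
    exact h.congr fun T => by ring
  exact {
    cg := (hp.cg.const_mul c).add (hq.cg.const_mul d)
    cP := (hp.cP.const_mul c).add (hq.cP.const_mul d)
    cC := (hp.cC.const_mul c).add (hq.cC.const_mul d)
    cS := (hp.cS.const_mul c).add (hq.cS.const_mul d)
    cU := (hp.cU.const_mul c).add (hq.cU.const_mul d)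
    cLB := (hp.cLB.const_mul c).add (hq.cLB.const_mul d)
    iLB := (hp.iLB.const_mul c).add (hq.iLB.const_mul d)
    dg := fun T h => ((hp.dg T h).const_mul c).fun_add ((hq.dg T h).const_mul d)
    dP := fun T h => ((hp.dP T h).const_mul c).fun_add ((hq.dP T h).const_mul d)
    dC := fun T h => ((hp.dC T h).const_mul c).fun_add ((hq.dC T h).const_mul d)
    dS := fun T h => ((hp.dS T h).const_mul c).fun_add ((hq.dS T h).const_mul d)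
    dU := fun T h => ((hp.dU T h).const_mul c).fun_add ((hq.dU T h).const_mul d)
    tg := by
      have := key (F := p.g) (G := q.g) 1 (by simpa using hp.tg) (by simpa using hq.tg)
      simpa [Fam.lin] using this
    tP := key 2 hp.tP hq.tP
    tC := key 3 hp.tC hq.tC
    tS := by
      have := key (F := p.S) (G := q.S) 1 (by simpa using hp.tS) (by simpa using hq.tS)
      simpa [Fam.lin] using this
    tU := (hp.tU.const_mul c).add (hq.tU.const_mul d)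
    g0 := add_nonneg (mul_nonneg hc hp.g0) (mul_nonneg hd hq.g0)
    P0 := add_nonneg (mul_nonneg hc hp.P0) (mul_nonneg hd hq.P0)
    C0 := add_nonneg (mul_nonneg hc hp.C0) (mul_nonneg hd hq.C0)
    μ0 := add_nonneg (mul_nonneg hc hp.μ0) (mul_nonneg hd hq.μ0) }

/-- The bilinear mixture of four families. -/
def Fam.mix4 (u v : ℝ) (p q r s : Fam) : Fam :=
  Fam.lin (1 - v) v (Fam.lin (1 - u) u p q) (Fam.lin (1 - u) u r s)

lemma Fam.mix4_at (u v T : ℝ) (p q r s : Fam) :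
    (Fam.mix4 u v p q r s).at T = Loc.mix ((1 - u) * (1 - v)) (u * (1 - v)) ((1 - u) * v) (u * v)
      (p.at T) (q.at T) (r.at T) (s.at T) := by
  simp only [Fam.mix4, Fam.lin, Fam.at, Loc.mix]
  congr 1 <;> ring

/-- `(1 - e) p + e r`: a family's values on the edge `η = (1 - e) η₀ + e η₁`. -/
def Loc.edge (e : ℝ) (p r : Loc) : Loc := Loc.mix (1 - e) e 0 0 p r p r

lemma Loc.mix_edge {e w u v : ℝ} (h : (1 - w) * (1 - e) = 1 - v) (p q r s : Loc) :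
    Loc.mix ((1 - u) * (1 - w)) (u * (1 - w)) ((1 - u) * w) (u * w)
      (Loc.edge e p r) (Loc.edge e q s) r s =
    Loc.mix ((1 - u) * (1 - v)) (u * (1 - v)) ((1 - u) * v) (u * v) p q r s := by
  obtain rfl : v = 1 - (1 - w) * (1 - e) := by linarith
  simp only [Loc.edge, Loc.mix]
  congr 1 <;> ring

/-- The split of a point of `[η₀, η₁]` at an intermediate point. -/
lemma exists_edge {η₀ η₁ η' η v : ℝ} (hv : v ∈ Icc (0 : ℝ) 1) (hη : η = (1 - v) * η₀ + v * η₁)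
    (h0 : η₀ ≤ η') (h1 : η' ≤ η) (h01 : η₀ ≤ η₁) :
    ∃ e ∈ Icc (0 : ℝ) 1, ∃ w ∈ Icc (0 : ℝ) 1, η' = (1 - e) * η₀ + e * η₁ ∧
      η = (1 - w) * η' + w * η₁ ∧ (1 - w) * (1 - e) = 1 - v := by
  rcases h01.eq_or_lt with h | h
  · subst h
    exact ⟨0, ⟨le_rfl, zero_le_one⟩, v, hv, by linarith, by
      rw [show η' = η₀ by linarith]; linarith, by ring⟩
  have hd : 0 < η₁ - η₀ := by linarith
  set e := (η' - η₀) / (η₁ - η₀) with he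
  have he' : η' = (1 - e) * η₀ + e * η₁ := by rw [he]; field_simp; ring
  have he0 : 0 ≤ e := div_nonneg (by linarith) hd.le
  have hev : e ≤ v := by rw [he, div_le_iff₀ hd]; linarith
  have he1 : e ≤ 1 := hev.trans hv.2
  rcases he1.eq_or_lt with h1' | h1'
  · have hv1 : v = 1 := le_antisymm hv.2 (h1' ▸ hev)
    exact ⟨e, ⟨he0, he1⟩, 1, ⟨zero_le_one, le_rfl⟩, he', by rw [hη, hv1]; ring, by rw [hv1]; ring⟩
  have hd' : 0 < 1 - e := by linarith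
  refine ⟨e, ⟨he0, he1⟩, (v - e) / (1 - e), ⟨div_nonneg (by linarith) hd'.le,
    (div_le_one hd').2 (by linarith [hv.2])⟩, he', ?_, by field_simp; ring⟩
  rw [hη, he']
  field_simp
  ring

/-- The region of the vertex conditions; it does not depend on the point of the box. -/
structure BoxPt (m : ℕ) (Y₁ Q₁ V₁ T σ X : ℝ) : Prop where
  T_pos : 0 < T
  σ_pos : 0 < σ
  σ_le : σ ≤ √(1 + T ^ 2)
  σ_low : 1 + T ^ 2 - Y₁ ^ 2 ≤ σ ^ 2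
  X_low : XL m Y₁ T ≤ X
  X_top : X ≤ 1 - (√(1 + T ^ 2) ^ (m + 1))⁻¹
  X_high : X ≤ Q₁ * semiMom m 1 - (semiMom m 1 / Y₁ ^ (m + 1) - XL m Y₁ T)
  crude : σ * (1 - (√(1 + T ^ 2) ^ (m + 2))⁻¹) ≤
    ((m : ℝ) + 2) * (√(1 + T ^ 2) - 1) * (Q₁ * semiMom m 1)
  bump : T ≤ σ →
    ((m : ℝ) + 1) * √(1 - (σ / √(1 + T ^ 2)) ^ 2) ^ m * (tanGap T σ ^ 3 / 6) ≤ V₁
  X_sig : X ≤ σ / √(1 + T ^ 2) * (1 - (√(1 + T ^ 2) ^ (m + 1))⁻¹)

/-- **A calibration on a box.** -/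
theorem isCalY_of_box (hm : 1 ≤ m) {V ρ w Y ε Q ε₀ ε₁ η₀ η₁ Y₁ Q₁ V₁ u v : ℝ} {p q r s : Fam}
    {th nu₀ : ℝ → ℝ} {ph nu : ℝ → ℝ → ℝ}
    (hY : 1 ≤ Y) (hY₁ : Y ≤ Y₁) (hV : 0 ≤ V) (hε : w * ρ ^ 2 = ε * Y ^ 2)
    (hQ : Q = V / (Y ^ (m + 1) * semiMom m 1)) (hQ₁ : Q ≤ Q₁) (hV₁ : V - semiMom m 1 ≤ V₁)
    (hu : u ∈ Icc (0 : ℝ) 1) (hv : v ∈ Icc (0 : ℝ) 1) (hεu : ε = (1 - u) * ε₀ + u * ε₁)
    (hηv : Y ^ 2 - 1 = (1 - v) * η₀ + v * η₁)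
    (hp : p.Ok) (hq : q.Ok) (hr : r.Ok) (hs : s.Ok)
    (cnu : Continuous nu₀) (inu : IntegrableOn nu₀ (Ioi 0))
    (hth : ∀ T, 0 < T → 0 ≤ th T) (hph : ∀ T σ, 0 < T → 0 < σ → 0 ≤ ph T σ)
    (hnu : ∀ T σ, 0 < T → 0 < σ → 0 ≤ nu T σ ∧ nu T σ ≤ nu₀ T)
    (h01' : η₀ ≤ η₁)
    (h00 : ∀ T σ X, BoxPt m Y₁ Q₁ V₁ T σ X → ∀ e ∈ Icc (0 : ℝ) 1,
      max η₀ (T ^ 2 - σ ^ 2) = (1 - e) * η₀ + e * η₁ →
      VxOk m (Loc.edge e (p.at T) (r.at T)) ε₀ (max η₀ (T ^ 2 - σ ^ 2)) (th T) (ph T σ) (nu T σ) T σ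
        (X - X0 m T))
    (h10 : ∀ T σ X, BoxPt m Y₁ Q₁ V₁ T σ X → ∀ e ∈ Icc (0 : ℝ) 1,
      max η₀ (T ^ 2 - σ ^ 2) = (1 - e) * η₀ + e * η₁ →
      VxOk m (Loc.edge e (q.at T) (s.at T)) ε₁ (max η₀ (T ^ 2 - σ ^ 2)) (th T) (ph T σ) (nu T σ) T σ
        (X - X0 m T))
    (h01 : ∀ T σ X, BoxPt m Y₁ Q₁ V₁ T σ X →
      VxOk m (r.at T) ε₀ η₁ (th T) (ph T σ) (nu T σ) T σ (X - X0 m T))
    (h11 : ∀ T σ X, BoxPt m Y₁ Q₁ V₁ T σ X →
      VxOk m (s.at T) ε₁ η₁ (th T) (ph T σ) (nu T σ) T σ (X - X0 m T))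
    (hsc : 0 < (1 - (Fam.mix4 u v p q r s).a * ((m : ℝ) + 2) / ((m : ℝ) + 1)) * (1 - Q) +
      ((m : ℝ) + 1) * (w * Q - ε) -
      (Fam.mix4 u v p q r s).μ * (((m : ℝ) + 1) / (m : ℝ)) * rr (m + 1) *
        (Q ^ ((m : ℝ) / ((m : ℝ) + 1)) - 1) +
      ((∫ T in Ioi (0 : ℝ), (Fam.mix4 u v p q r s).LB T) -
        (Y ^ 2 - 1) * ∫ T in Ioi (0 : ℝ), nu₀ T) / semiMom m 1 -
      (Fam.mix4 u v p q r s).K * (Q - 1) -
      (Fam.mix4 u v p q r s).uinf * semiMom m 1 * (Q - 1) ^ 2) :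
    ∃ (lam : ℝ) (Φ : ℝ × ℝ × ℝ → ℝ) (dΦ : ℝ × ℝ × ℝ → (ℝ × ℝ × ℝ →L[ℝ] ℝ)),
      IsCalY m V ρ w Y lam Φ dΦ := by
  set f := Fam.mix4 u v p q r s with hf
  have hu1 : 0 ≤ 1 - u := sub_nonneg.2 hu.2
  have hv1 : 0 ≤ 1 - v := sub_nonneg.2 hv.2
  have hok : f.Ok := (hp.lin hq hu1 hu.1).lin (hr.lin hs hu1 hu.1) hv1 hv.1
  have h0 : 0 < semiMom m 1 := by rw [semiMom_one]; exact mom_zero_pos (m + 2)
  refine isCalY_of_field (LB := fun T => f.LB T - (Y ^ 2 - 1) * nu₀ T) (K := f.K) (μ := f.μ)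
    (a := f.a) hm hY hV hε hok.μ0 (hok.cLB.sub (continuous_const.mul cnu))
    (hok.iLB.sub (inu.const_mul _)) hok.cg hok.cP hok.cC hok.cS hok.cU hok.dg hok.dP hok.dC hok.dS
    hok.dU hok.tg hok.tP hok.tC hok.tS hok.tU hok.g0 hok.P0 hok.C0 ?_ hQ ?_
  · intro T σ h X hR hX hE
    have hQ' : V / Y ^ (m + 1) = Q * semiMom m 1 := by rw [hQ]; field_simp
    obtain ⟨x1, x2, x3⟩ := xbox_range hY hY₁ hR.T_pos.le hR.σ_le hQ' hQ₁ hX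
    have hY2 := pow_le_pow_left₀ (by linarith : (0 : ℝ) ≤ Y) hY₁ 2
    have hpt : BoxPt m Y₁ Q₁ V₁ T σ X :=
      ⟨hR.T_pos, hR.σ_pos, hR.σ_le, by linarith [hR.σ_low], x1, x2, x3,
        (crude_exc hY hR hE).trans (mul_le_mul_of_nonneg_left
          (hQ' ▸ mul_le_mul_of_nonneg_right hQ₁ h0.le)
          (mul_nonneg (by positivity) (sub_nonneg.2 (one_le_sqrt.2 (by nlinarith))))),
        fun hTσ => (bump_tan hX hY hR.T_pos hTσ).trans hV₁, hX.top⟩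
    have hlow : η₀ ≤ Y ^ 2 - 1 := by nlinarith [hv.1, hv.2]
    obtain ⟨e, he, z, hz, e1, e2, e3⟩ := exists_edge hv hηv (le_max_left η₀ (T ^ 2 - σ ^ 2))
      (max_le hlow (by linarith [hR.σ_low])) h01'
    exact pw3_of_vertices (l := f.at T) hu hz hεu e2
      (by rw [hf, Fam.mix4_at, Loc.mix_edge e3]) hR
      (by ring) (sub_nonneg.2 (one_le_pow₀ hY)) (hth T hR.T_pos) (hph T σ hR.T_pos hR.σ_pos)
      (hnu T σ hR.T_pos hR.σ_pos).1 (hnu T σ hR.T_pos hR.σ_pos).2 rfl rfl rfl rfl rfl rfl rfl rfl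
      rfl rfl le_rfl (h00 T σ X hpt e he e1) (h10 T σ X hpt e he e1) (h01 T σ X hpt)
      (h11 T σ X hpt)
  · rw [MeasureTheory.integral_sub hok.iLB (inu.const_mul _), MeasureTheory.integral_const_mul]
    linarith

/-- **A calibration on a box**, all four vertices on the whole region; `th` may depend on `σ`. -/
theorem isCalY_of_box2 (hm : 1 ≤ m) {V ρ w Y ε Q ε₀ ε₁ η₀ η₁ Y₁ Q₁ V₁ u v : ℝ} {p q r s : Fam}
    {nu₀ : ℝ → ℝ} {th ph nu : ℝ → ℝ → ℝ}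
    (hY : 1 ≤ Y) (hY₁ : Y ≤ Y₁) (hV : 0 ≤ V) (hε : w * ρ ^ 2 = ε * Y ^ 2)
    (hQ : Q = V / (Y ^ (m + 1) * semiMom m 1)) (hQ₁ : Q ≤ Q₁) (hV₁ : V - semiMom m 1 ≤ V₁)
    (hu : u ∈ Icc (0 : ℝ) 1) (hv : v ∈ Icc (0 : ℝ) 1) (hεu : ε = (1 - u) * ε₀ + u * ε₁)
    (hηv : Y ^ 2 - 1 = (1 - v) * η₀ + v * η₁)
    (hp : p.Ok) (hq : q.Ok) (hr : r.Ok) (hs : s.Ok)
    (cnu : Continuous nu₀) (inu : IntegrableOn nu₀ (Ioi 0))
    (hth : ∀ T σ, 0 < T → 0 < σ → 0 ≤ th T σ) (hph : ∀ T σ, 0 < T → 0 < σ → 0 ≤ ph T σ)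
    (hnu : ∀ T σ, 0 < T → 0 < σ → 0 ≤ nu T σ ∧ nu T σ ≤ nu₀ T)
    (h00 : ∀ T σ X, BoxPt m Y₁ Q₁ V₁ T σ X →
      VxOk m (p.at T) ε₀ η₀ (th T σ) (ph T σ) (nu T σ) T σ (X - X0 m T))
    (h10 : ∀ T σ X, BoxPt m Y₁ Q₁ V₁ T σ X →
      VxOk m (q.at T) ε₁ η₀ (th T σ) (ph T σ) (nu T σ) T σ (X - X0 m T))
    (h01 : ∀ T σ X, BoxPt m Y₁ Q₁ V₁ T σ X →
      VxOk m (r.at T) ε₀ η₁ (th T σ) (ph T σ) (nu T σ) T σ (X - X0 m T))
    (h11 : ∀ T σ X, BoxPt m Y₁ Q₁ V₁ T σ X →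
      VxOk m (s.at T) ε₁ η₁ (th T σ) (ph T σ) (nu T σ) T σ (X - X0 m T))
    (hsc : 0 < (1 - (Fam.mix4 u v p q r s).a * ((m : ℝ) + 2) / ((m : ℝ) + 1)) * (1 - Q) +
      ((m : ℝ) + 1) * (w * Q - ε) -
      (Fam.mix4 u v p q r s).μ * (((m : ℝ) + 1) / (m : ℝ)) * rr (m + 1) *
        (Q ^ ((m : ℝ) / ((m : ℝ) + 1)) - 1) +
      ((∫ T in Ioi (0 : ℝ), (Fam.mix4 u v p q r s).LB T) -
        (Y ^ 2 - 1) * ∫ T in Ioi (0 : ℝ), nu₀ T) / semiMom m 1 -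
      (Fam.mix4 u v p q r s).K * (Q - 1) -
      (Fam.mix4 u v p q r s).uinf * semiMom m 1 * (Q - 1) ^ 2) :
    ∃ (lam : ℝ) (Φ : ℝ × ℝ × ℝ → ℝ) (dΦ : ℝ × ℝ × ℝ → (ℝ × ℝ × ℝ →L[ℝ] ℝ)),
      IsCalY m V ρ w Y lam Φ dΦ := by
  set f := Fam.mix4 u v p q r s with hf
  have hu1 : 0 ≤ 1 - u := sub_nonneg.2 hu.2
  have hv1 : 0 ≤ 1 - v := sub_nonneg.2 hv.2
  have hok : f.Ok := (hp.lin hq hu1 hu.1).lin (hr.lin hs hu1 hu.1) hv1 hv.1
  have h0 : 0 < semiMom m 1 := by rw [semiMom_one]; exact mom_zero_pos (m + 2)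
  refine isCalY_of_field (LB := fun T => f.LB T - (Y ^ 2 - 1) * nu₀ T) (K := f.K) (μ := f.μ)
    (a := f.a) hm hY hV hε hok.μ0 (hok.cLB.sub (continuous_const.mul cnu))
    (hok.iLB.sub (inu.const_mul _)) hok.cg hok.cP hok.cC hok.cS hok.cU hok.dg hok.dP hok.dC hok.dS
    hok.dU hok.tg hok.tP hok.tC hok.tS hok.tU hok.g0 hok.P0 hok.C0 ?_ hQ ?_
  · intro T σ h X hR hX hE
    have hQ' : V / Y ^ (m + 1) = Q * semiMom m 1 := by rw [hQ]; field_simp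
    obtain ⟨x1, x2, x3⟩ := xbox_range hY hY₁ hR.T_pos.le hR.σ_le hQ' hQ₁ hX
    have hY2 := pow_le_pow_left₀ (by linarith : (0 : ℝ) ≤ Y) hY₁ 2
    have hpt : BoxPt m Y₁ Q₁ V₁ T σ X :=
      ⟨hR.T_pos, hR.σ_pos, hR.σ_le, by linarith [hR.σ_low], x1, x2, x3,
        (crude_exc hY hR hE).trans (mul_le_mul_of_nonneg_left
          (hQ' ▸ mul_le_mul_of_nonneg_right hQ₁ h0.le)
          (mul_nonneg (by positivity) (sub_nonneg.2 (one_le_sqrt.2 (by nlinarith))))),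
        fun hTσ => (bump_tan hX hY hR.T_pos hTσ).trans hV₁, hX.top⟩
    exact pw3_of_vertices (l := f.at T) hu hv hεu hηv (by rw [hf, Fam.mix4_at]) hR
      (by ring) (sub_nonneg.2 (one_le_pow₀ hY)) (hth T σ hR.T_pos hR.σ_pos)
      (hph T σ hR.T_pos hR.σ_pos) (hnu T σ hR.T_pos hR.σ_pos).1 (hnu T σ hR.T_pos hR.σ_pos).2
      rfl rfl rfl rfl rfl rfl rfl rfl rfl rfl le_rfl
      (h00 T σ X hpt) (h10 T σ X hpt) (h01 T σ X hpt) (h11 T σ X hpt)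
  · rw [MeasureTheory.integral_sub hok.iLB (inu.const_mul _), MeasureTheory.integral_const_mul]
    linarith

end Vale.Agent.P237.Cal
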