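import Vale.Agent.P237.Cal.BoxHand

/-!
# P237: the two ends of a box

Near `T = 0` the rescaling is `D = δ T` below the diagonal, `D = δ` above it, and `X - X₀ = ξ T²`.
In the tail it is `D = δ cW` and `X - X₀ = ξ`; the state bounds of the last row move on by the
integrals of `u^(-(m+4))`.
-/

open Set Real MeasureTheory intervalIntegral

namespace Vale.Agent.P237.Cal.BoxEnds

open AtomCert CellCert FamAtoms StateTable CellEnds BoxHand

/-- The bounds of one rescaled flat cell. -/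
structure Flat where
  lo : List ℕ
  hi : List ℕ
  l : ℤ
  h : ℤ
  x0 : ℤ
  x1 : ℤ
  p : ℕ
  q : ℕ

/-- The rescaling near `0`. -/
def headR (pos : Bool) (C : Flat) : Resc := ⟨if pos then 0 else 1, 0, 2, 0, C.p, C.q⟩

/-- The test of the first cell on one side. -/
noncomputable def headTest (pos : Bool) (P m cv : ℕ) (B : List (ℕ × ℕ)) (F : VFam) (z n : Node) (C : Flat) : Bool :=
  decide (z.1 = 0) && boxTab P z n B C.lo C.hi && flatTest F C.lo C.hi C.l C.h C.x0 C.x1 &&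
    (if pos then decide (C.l ≤ 0) &&
        (decide (2 ^ 32 ≤ C.h) || (nodeTest n && crudeOk m cv n C.h))
      else decide (C.l ≤ -(2 ^ 32)) && decide (0 ≤ C.h)) &&
    decide (C.x0 * 3 * 2 ^ 20 ≤ -(((m + 1) * n.1 * 2 ^ 32 : ℕ) : ℤ)) &&
    decide ((((m + 1) * 2 ^ 32 : ℕ) : ℤ) ≤ C.x1 * 2)

variable {m : ℕ} {Y : ℝ}

lemma w_le (u : ℝ) (hu : 0 < u) : √(1 + u ^ 2) ≤ u + 1 / (2 * u) := by
  rw [sqrt_le_left (by positivity)]
  have : (u + 1 / (2 * u)) ^ 2 = u ^ 2 + 1 + (1 / (2 * u)) ^ 2 := by field_simp; ring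
  nlinarith [sq_nonneg (1 / (2 * u))]

lemma gap_le (hY : 1 ≤ Y) {u : ℝ} (hu : 0 < u) :
    u - √(1 + u ^ 2 - Y ^ 2) ≤ (Y ^ 2 - 1) / u := by
  rw [le_div_iff₀ hu]
  have hη : 0 ≤ Y ^ 2 - 1 := by nlinarith
  rcases le_or_gt 0 (1 + u ^ 2 - Y ^ 2) with h | h
  · have hS := sq_sqrt h
    nlinarith [mul_nonneg (sqrt_nonneg (1 + u ^ 2 - Y ^ 2)) (sqrt_gap_nonneg hY hu.le)]
  · rw [sqrt_eq_zero_of_nonpos h.le]
    nlinarith

lemma muX_le_inv {u : ℝ} (hu : 0 < u) : muX m u ≤ ((m : ℝ) + 1) / u ^ (m + 3) := by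
  have h1 : u ≤ √(1 + u ^ 2) := le_w u
  simp only [muX]
  calc ((m : ℝ) + 1) * u / √(1 + u ^ 2) ^ (m + 4) ≤ ((m : ℝ) + 1) * u / u ^ (m + 4) :=
        div_le_div_of_nonneg_left (by positivity) (by positivity) (pow_le_pow_left₀ hu.le h1 _)
    _ = _ := by rw [pow_succ]; field_simp

/-- An integral bounded through `u^(-(m+4))`. -/
lemma integral_tail_le {f : ℝ → ℝ} (hf : Continuous f) {a T c : ℝ} (ha : 0 < a) (hT : a ≤ T)
    (hc : 0 ≤ c) (h : ∀ u ∈ Icc a T, f u ≤ c / u ^ (m + 4)) :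
    ∫ u in a..T, f u ≤ c / (((m : ℝ) + 3) * a ^ (m + 3)) := by
  have hd : ∀ u ∈ uIcc a T, HasDerivAt (fun u : ℝ => -(c / ((m : ℝ) + 3)) * (u ^ (m + 3))⁻¹)
      (c / u ^ (m + 4)) u := fun u hu => by
    rw [uIcc_of_le hT] at hu
    have hu0 : 0 < u := ha.trans_le hu.1
    refine (((hasDerivAt_pow (m + 3) u).inv (pow_ne_zero _ hu0.ne')).const_mul _).congr_deriv ?_
    rw [show m + 3 - 1 = m + 2 from rfl]
    push_cast
    field_simp
    ring
  have hi : IntervalIntegrable (fun u : ℝ => c / u ^ (m + 4)) volume a T := by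
    refine ContinuousOn.intervalIntegrable (continuousOn_const.div (by fun_prop) fun u hu => ?_)
    rw [uIcc_of_le hT] at hu
    exact pow_ne_zero _ (ha.trans_le hu.1).ne'
  refine (integral_mono_on hT (hf.intervalIntegrable _ _) hi h).trans ?_
  rw [integral_eq_sub_of_hasDerivAt hd hi]
  have hT0 : 0 < T := ha.trans_le hT
  have : 0 ≤ c / ((m : ℝ) + 3) * (T ^ (m + 3))⁻¹ := by positivity
  rw [← div_div, div_eq_mul_inv (c / ((m : ℝ) + 3))]
  linarith

theorem defect_tail (hY : 1 ≤ Y) {a T : ℝ} (ha : 0 < a) (hT : a ≤ T) :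
    defect m Y T ≤ defect m Y a +
      ((m : ℝ) + 1) * (Y ^ 2 - 1) / (((m : ℝ) + 3) * a ^ (m + 3)) ∧ defect m Y a ≤ defect m Y T := by
  have h := defect_diff (m := m) (Y := Y) a T
  constructor
  · have := integral_tail_le (m := m) (continuous_defect_integrand (m := m) (Y := Y)) ha hT
      (c := ((m : ℝ) + 1) * (Y ^ 2 - 1)) (mul_nonneg (by positivity) (by nlinarith)) fun u hu => by
        have hu0 := ha.trans_le hu.1
        refine (mul_le_mul (muX_le_inv (m := m) hu0) (gap_le hY hu0) (sqrt_gap_nonneg hY hu0.le)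
          (by positivity)).trans_eq ?_
        rw [pow_succ]; field_simp; ring
    linarith
  · have := intervalIntegral.integral_nonneg (μ := volume) hT fun u hu =>
      mul_nonneg (muX_nonneg (m := m) (ha.le.trans hu.1)) (sqrt_gap_nonneg hY (ha.le.trans hu.1))
    linarith

theorem rise_tail {a T : ℝ} (ha : 0 < a) (hT : a ≤ T) :
    rise m T ≤ rise m a + ((m : ℝ) + 1) / 2 / (((m : ℝ) + 3) * a ^ (m + 3)) := by
  have h := rise_diff (m := m) a T
  have := integral_tail_le (m := m) (f := fun u => muX m u * (√(1 + u ^ 2) - u))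
    (continuous_muX.mul (by fun_prop)) ha hT (c := ((m : ℝ) + 1) / 2) (by positivity) fun u hu => by
      have hu0 := ha.trans_le hu.1
      refine (mul_le_mul (muX_le_inv (m := m) hu0) (show √(1 + u ^ 2) - u ≤ 1 / (2 * u) by
        linarith [w_le u hu0]) (sub_nonneg.2 (le_w u)) (by positivity)).trans_eq ?_
      rw [pow_succ]; field_simp; ring
  linarith

lemma pos_tail {A T σ : ℝ} (hA : 0 < A) (hT : A ≤ T) (hσ : σ ≤ √(1 + T ^ 2)) :
    (σ - T) * √(1 + T ^ 2) ≤ (A ^ 2 + 1 / 2) / (2 * A ^ 2) := by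
  have hT0 : 0 < T := hA.trans_le hT
  calc (σ - T) * √(1 + T ^ 2) ≤ 1 / (2 * T) * (T + 1 / (2 * T)) :=
        mul_le_mul (by linarith [w_le T hT0]) (w_le T hT0) (w_pos T).le (by positivity)
    _ = 1 / 2 + 1 / (4 * T ^ 2) := by field_simp; ring
    _ ≤ 1 / 2 + 1 / (4 * A ^ 2) := by gcongr
    _ = _ := by field_simp; ring

lemma neg_tail {A T σ η : ℝ} (hY : 1 ≤ Y) (hη : Y ^ 2 - 1 ≤ η) (hA : 0 < A) (hT : A ≤ T)
    (hden : 0 < 2 * A ^ 2 - η) (hσ : 0 ≤ σ) (hlow : 1 + T ^ 2 - Y ^ 2 ≤ σ ^ 2) :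
    (T - σ) * √(1 + T ^ 2) ≤ η * (A ^ 2 + 1 / 2) / (2 * A ^ 2 - η) := by
  have hT0 : 0 < T := hA.trans_le hT
  have hη0 : 0 ≤ η := le_trans (by nlinarith) hη
  have hA2 : A ^ 2 ≤ T ^ 2 := pow_le_pow_left₀ hA.le hT 2
  have hden' : 0 < 2 * T ^ 2 - η := by linarith
  set S := √(1 + T ^ 2 - Y ^ 2) with hSd
  have hS : S ≤ σ := by rw [hSd, sqrt_le_left hσ]; exact hlow
  have g := gap_le hY hT0
  rw [← hSd, le_div_iff₀ hT0] at g
  have hd : 0 ≤ T - S := sqrt_gap_nonneg hY hT0.le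
  have hS2 : 1 + T ^ 2 - Y ^ 2 ≤ S ^ 2 := by
    rcases le_or_gt 0 (1 + T ^ 2 - Y ^ 2) with h | h
    · rw [hSd, sq_sqrt h]
    · exact h.le.trans (sq_nonneg _)
  have hg : T - S ≤ η * T / (2 * T ^ 2 - η) := by
    rw [le_div_iff₀ hden']
    nlinarith [mul_le_mul_of_nonneg_left g hd]
  calc (T - σ) * √(1 + T ^ 2) ≤ η * T / (2 * T ^ 2 - η) * (T + 1 / (2 * T)) :=
        mul_le_mul (by linarith) (w_le T hT0) (w_pos T).le (by positivity)
    _ = η * (T ^ 2 + 1 / 2) / (2 * T ^ 2 - η) := by field_simp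
    _ ≤ _ := by
      rw [div_le_div_iff₀ hden' hden]
      nlinarith [mul_nonneg (by positivity : 0 ≤ η * (1 + η)) (sub_nonneg.2 hA2)]

end Vale.Agent.P237.Cal.BoxEnds
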