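import Vale.Agent.P237.Cal.XRange

/-!
# P237: a calibration from a cubic field and one inequality on the closed region

`E = -(g D + P D² + C D³ + 2 S D Xc + U Xc² + K Xc)`, `D = σ - T`, `Xc = X - X₀(T)`. The admissible and the
tail points both lie in `RegC`, `XBox` and satisfy the excess bound, so one inequality there and
one scalar inequality give `IsCalY`.
-/

open MeasureTheory Set Filter Topology Real intervalIntegral

namespace Vale.Agent.P237.Cal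

variable {m : ℕ} {V ρ w Y ε μ a T σ h X : ℝ}

/-- The closed pointwise region; it contains the admissible points and the tail. -/
structure RegC (Y T σ h : ℝ) : Prop where
  T_pos : 0 < T
  σ_pos : 0 < σ
  σ_le : σ ≤ √(1 + T ^ 2)
  σ_low : 1 + T ^ 2 - Y ^ 2 ≤ σ ^ 2
  h_pos : 0 < h
  h_low : T ≤ √(1 + T ^ 2) * h
  g_nonneg : σ * T ≤ (1 + T ^ 2) * h
  h_top : √(1 + T ^ 2) * (√(1 + T ^ 2) - 1) * h ≤ σ * T
  circle : Y ^ 2 * T ^ 2 + ((1 + T ^ 2) * h - σ * T) ^ 2 ≤ Y ^ 2 * (1 + T ^ 2) * h ^ 2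

lemma RegT.toRegC (hR : RegT Y T σ h) : RegC Y T σ h :=
  ⟨hR.T_pos, hR.σ_pos, hR.σ_lt.le, hR.σ_low, hR.h_pos, hR.h_low, hR.g_pos.le, hR.h_top,
    hR.circle⟩

lemma regC_tail (hT : 0 < T) : RegC Y T √(1 + T ^ 2) (T / √(1 + T ^ 2)) := by
  have hW := w_pos T
  have hs := w_sq T
  set W := √(1 + T ^ 2)
  have e : (1 + T ^ 2) * (T / W) = W * T := by rw [← hs]; field_simp
  refine ⟨hT, hW, le_rfl, ?_, by positivity, le_of_eq (mul_div_cancel₀ T hW.ne').symm,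
    e.ge, ?_, ?_⟩
  · rw [hs]; nlinarith
  · rw [show W * (W - 1) * (T / W) = (W - 1) * T by field_simp]
    nlinarith
  · rw [e, sub_self, show Y ^ 2 * (1 + T ^ 2) * (T / W) ^ 2 = Y ^ 2 * T ^ 2 by
      rw [← hs]; field_simp]
    simp

/-- The excess of the chord to `(σ/W, Y/W)` over the semicircle is at most that of `V`. -/
def Exc (m : ℕ) (V Y T σ : ℝ) : Prop :=
  ∫ x in (0 : ℝ)..σ / √(1 + T ^ 2),
      (max (√(1 - x ^ 2)) (Y + (Y / √(1 + T ^ 2) - Y) * x / (σ / √(1 + T ^ 2))) ^ (m + 1) -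
        √(1 - x ^ 2) ^ (m + 1)) ≤ V - semiMom m 1

lemma exc_tail (hH : hullMom m Y (Y / √(1 + T ^ 2)) ≤ V) : Exc m V Y T √(1 + T ^ 2) := by
  simp only [Exc, div_self (w_pos T).ne', div_one]
  rw [intervalIntegral.integral_sub (Continuous.intervalIntegrable (by fun_prop) _ _)
    (semi_int _ _)]
  simp only [hullMom, semiMom] at hH ⊢
  linarith

/-- The cubic field. -/
noncomputable def field3 (m : ℕ) (K : ℝ) (g P C S U : ℝ → ℝ) (p : ℝ × ℝ × ℝ) : ℝ :=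
  fieldX m g P S U p - C p.1 * (p.2.1 - p.1) ^ 3 - K * (p.2.2 - X0 m p.1)

/-- The differential of the cubic field. -/
noncomputable def dfield3 (m : ℕ) (K : ℝ) (g g' P P' C C' S S' U U' : ℝ → ℝ) (p : ℝ × ℝ × ℝ) :
    ℝ × ℝ × ℝ →L[ℝ] ℝ :=
  dfieldX m g g' P P' S S' U U' p -
    ((C' p.1 * (p.2.1 - p.1) ^ 3 - 3 * C p.1 * (p.2.1 - p.1) ^ 2) •
        ContinuousLinearMap.fst ℝ ℝ (ℝ × ℝ) +
      (3 * C p.1 * (p.2.1 - p.1) ^ 2) •
        (ContinuousLinearMap.fst ℝ ℝ ℝ).comp (ContinuousLinearMap.snd ℝ ℝ (ℝ × ℝ))) -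
    K • ((ContinuousLinearMap.snd ℝ ℝ ℝ).comp (ContinuousLinearMap.snd ℝ ℝ (ℝ × ℝ)) -
      (muX m p.1 * p.1) • ContinuousLinearMap.fst ℝ ℝ (ℝ × ℝ))

variable {g g' P P' C C' S S' U U' : ℝ → ℝ} {K : ℝ}

lemma field3_hasFDerivAt (hg : HasDerivAt g (g' T) T) (hP : HasDerivAt P (P' T) T)
    (hC : HasDerivAt C (C' T) T) (hS : HasDerivAt S (S' T) T) (hU : HasDerivAt U (U' T) T) :
    HasFDerivAt (field3 m K g P C S U) (dfield3 m K g g' P P' C C' S S' U U' (T, σ, X)) (T, σ, X) := by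
  have h1 : HasFDerivAt (fun p : ℝ × ℝ × ℝ => p.1) (ContinuousLinearMap.fst ℝ ℝ (ℝ × ℝ))
      (T, σ, X) := hasFDerivAt_fst
  have h2 : HasFDerivAt (fun p : ℝ × ℝ × ℝ => p.2.1)
      ((ContinuousLinearMap.fst ℝ ℝ ℝ).comp (ContinuousLinearMap.snd ℝ ℝ (ℝ × ℝ))) (T, σ, X) :=
    ((ContinuousLinearMap.fst ℝ ℝ ℝ).comp (ContinuousLinearMap.snd ℝ ℝ (ℝ × ℝ))).hasFDerivAt
  have h3 : HasFDerivAt (fun p : ℝ × ℝ × ℝ => p.2.2)
      ((ContinuousLinearMap.snd ℝ ℝ ℝ).comp (ContinuousLinearMap.snd ℝ ℝ (ℝ × ℝ))) (T, σ, X) :=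
    ((ContinuousLinearMap.snd ℝ ℝ ℝ).comp (ContinuousLinearMap.snd ℝ ℝ (ℝ × ℝ))).hasFDerivAt
  have key := ((fieldX_hasFDerivAt (m := m) (σ := σ) (X := X) hg hP hS hU).sub
    ((hC.comp_hasFDerivAt_of_eq (T, σ, X) h1 rfl).mul ((h2.sub h1).pow 3))).sub
    ((h3.sub ((hasDerivAt_X0 (m := m) T).comp_hasFDerivAt_of_eq (T, σ, X) h1 rfl)).const_mul K)
  refine key.congr_fderiv ?_
  ext <;> simp [dfield3] <;> ring

/-- The slope-explicit pointwise inequality of the cubic field. -/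
def Pw3 (m : ℕ) (ε μ a K : ℝ) (g g' P P' C C' S S' U U' LB : ℝ → ℝ) (T σ h X : ℝ) : Prop :=
  LB T ≤ ((m : ℝ) + 1) * T ^ 2 / √(1 + T ^ 2) ^ (m + 4) * valQ ε T σ h +
    (g T + 2 * P T * (σ - T) + 3 * C T * (σ - T) ^ 2 + 2 * S T * (X - X0 m T)) * (h - 1) +
    (σ - T) * (ell m ε μ a T + g' T + K * muX m T) + (σ - T) ^ 2 * (P' T + 2 * muX m T * S T) +
    (σ - T) ^ 3 * C' T + 2 * (σ - T) * (X - X0 m T) * (S' T + muX m T * U T) +
    (X - X0 m T) ^ 2 * U' T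

variable {LB : ℝ → ℝ}

lemma core_of_pw3 (hpw : Pw3 m ε μ a K g g' P P' C C' S S' U U' LB T σ h X) :
    LB T + dfield3 m K g g' P P' C C' S S' U U' (T, σ, X)
        (1, h, ((m : ℝ) + 1) * σ * T / √(1 + T ^ 2) ^ (m + 4)) ≤
      ((m : ℝ) + 1) * T ^ 2 / √(1 + T ^ 2) ^ (m + 4) * valQ ε T σ h +
        ell m ε μ a T * (σ - T) := by
  have e : ((m : ℝ) + 1) * σ * T / √(1 + T ^ 2) ^ (m + 4) = muX m T * σ := by
    simp only [muX]; ring
  rw [e]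
  simp only [Pw3] at hpw
  simp only [dfield3, dfieldX, sub_apply, neg_apply, add_apply, smul_apply,
    ContinuousLinearMap.coe_fst', ContinuousLinearMap.comp_apply,
    ContinuousLinearMap.coe_snd', smul_eq_mul, mul_one]
  linarith

lemma tendsto_field3 {uinf : ℝ} (hg : Tendsto (fun T => g T * (T + 1)) atTop (𝓝 0))
    (hP : Tendsto (fun T => P T * (T + 1) ^ 2) atTop (𝓝 0))
    (hC : Tendsto (fun T => C T * (T + 1) ^ 3) atTop (𝓝 0))
    (hS : Tendsto (fun T => S T * (T + 1)) atTop (𝓝 0)) (hU : Tendsto U atTop (𝓝 uinf)) (X₀ : ℝ) :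
    Tendsto (field3 m K g P C S U) (topX X₀) (𝓝 (-(uinf * (X₀ - semiMom m 1) ^ 2) - K * (X₀ - semiMom m 1))) := by
  have h1 : Tendsto (fun p : ℝ × ℝ × ℝ => p.1) (topX X₀) atTop :=
    tendsto_fst.mono_left inf_le_left
  have h2 : Tendsto (fun p : ℝ × ℝ × ℝ => C p.1 * (p.2.1 - p.1) ^ 3) (topX X₀) (𝓝 0) := by
    refine squeeze_zero_norm' (a := fun p : ℝ × ℝ × ℝ => |C p.1 * (p.1 + 1) ^ 3|) ?_
      (by simpa using (hC.comp h1).abs)
    filter_upwards [mem_inf_of_right (mem_principal_self _), h1 (Ici_mem_atTop 0)] with p hp hp0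
    have hp0 : (0 : ℝ) ≤ p.1 := hp0
    have hp' : 0 ≤ p.2.1 ∧ p.2.1 ≤ p.1 + 1 := hp
    rw [Real.norm_eq_abs, abs_mul, abs_mul, abs_pow, abs_pow]
    refine mul_le_mul_of_nonneg_left (pow_le_pow_left₀ (abs_nonneg _) ?_ 3) (abs_nonneg _)
    rw [abs_of_nonneg (by linarith : (0 : ℝ) ≤ p.1 + 1), abs_le]
    exact ⟨by linarith [hp'.1], by linarith [hp'.2]⟩
  have h3 : Tendsto (fun p : ℝ × ℝ × ℝ => p.2.2) (topX X₀) (𝓝 X₀) :=
    (tendsto_snd.comp tendsto_snd).mono_left inf_le_left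
  have := ((tendsto_fieldX (m := m) hg hP hS hU X₀).sub h2).sub
    ((h3.sub ((tendsto_X0 (m := m)).comp h1)).const_mul K)
  rw [sub_zero] at this
  exact this

/-- **Frame**: the cubic field, one inequality on the closed region and one scalar inequality
give a calibration; `Q = V/(Y^k V₀)`. -/
theorem isCalY_of_field (hm : 1 ≤ m) (hY : 1 ≤ Y) (hV : 0 ≤ V) (hε : w * ρ ^ 2 = ε * Y ^ 2)
    (hμ : 0 ≤ μ) (hLB : Continuous LB) (hLBi : IntegrableOn LB (Ioi 0))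
    (cg : Continuous g) (cP : Continuous P) (cC : Continuous C) (cS : Continuous S)
    (cU : Continuous U)
    (dg : ∀ T, 0 < T → HasDerivAt g (g' T) T) (dP : ∀ T, 0 < T → HasDerivAt P (P' T) T)
    (dC : ∀ T, 0 < T → HasDerivAt C (C' T) T) (dS : ∀ T, 0 < T → HasDerivAt S (S' T) T)
    (dU : ∀ T, 0 < T → HasDerivAt U (U' T) T) {uinf : ℝ}
    (tg : Tendsto (fun T => g T * (T + 1)) atTop (𝓝 0))
    (tP : Tendsto (fun T => P T * (T + 1) ^ 2) atTop (𝓝 0))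
    (tC : Tendsto (fun T => C T * (T + 1) ^ 3) atTop (𝓝 0))
    (tS : Tendsto (fun T => S T * (T + 1)) atTop (𝓝 0)) (tU : Tendsto U atTop (𝓝 uinf))
    (g0 : 0 ≤ g 0) (P0 : 0 ≤ P 0) (C0 : 0 ≤ C 0)
    (hpw : ∀ T σ h X, RegC Y T σ h → XBox m V Y T σ X → Exc m V Y T σ →
      Pw3 m ε μ a K g g' P P' C C' S S' U U' LB T σ h X)
    {Q : ℝ} (hQ : Q = V / (Y ^ (m + 1) * semiMom m 1))
    (hsc : 0 < (1 - a * ((m : ℝ) + 2) / ((m : ℝ) + 1)) * (1 - Q) +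
      ((m : ℝ) + 1) * (w * Q - ε) -
      μ * (((m : ℝ) + 1) / (m : ℝ)) * rr (m + 1) * (Q ^ ((m : ℝ) / ((m : ℝ) + 1)) - 1) +
      (∫ T in Ioi (0 : ℝ), LB T) / semiMom m 1 - K * (Q - 1) - uinf * semiMom m 1 * (Q - 1) ^ 2) :
    ∃ (lam : ℝ) (Φ : ℝ × ℝ × ℝ → ℝ) (dΦ : ℝ × ℝ × ℝ → (ℝ × ℝ × ℝ →L[ℝ] ℝ)),
      IsCalY m V ρ w Y lam Φ dΦ := by
  have h0 : 0 < semiMom m 1 := by rw [semiMom_one]; exact mom_zero_pos (m + 2)
  have hYk : 0 < Y ^ (m + 1) := pow_pos (lt_of_lt_of_le one_pos hY) _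
  refine isCalY_of_core (LB := LB) (E := field3 m K g P C S U)
    (dE := dfield3 m K g g' P P' C C' S S' U U')
    (Einf := fun X₀ => -(uinf * (X₀ - semiMom m 1) ^ 2) - K * (X₀ - semiMom m 1)) (a := a) (μ := μ) hm hY hV hε hμ hLB
    hLBi ?_ (by fun_prop)
    (fun T σ X hT => field3_hasFDerivAt (dg T hT) (dP T hT) (dC T hT) (dS T hT) (dU T hT))
    (tendsto_field3 tg tP tC tS tU) ?_ ?_ ?_ hQ ?_
  · have := continuous_X0 (m := m)
    exact ((continuousOn_fieldX cg cP cS cU).sub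
      (Continuous.continuousOn (by fun_prop))).sub (Continuous.continuousOn (by fun_prop))
  · intro t y d A hA _ T σ h X eT eσ _ eX hR
    subst eT eσ eX
    exact core_of_pw3 (hpw _ _ _ _ hR.toRegC (xbox_of_admY hA) (excess_le hA))
  · intro T hT _ hV2 hV3 σ h X eσ eh eX
    subst eσ eh eX
    exact core_of_pw3 (hpw _ _ _ _ (regC_tail hT) (xbox_tail hm hY hT.le hV2 hV3) (exc_tail hV2))
  · intro b hb _ _
    simp only [field3, fieldX, X0_zero, sub_zero, mul_zero, zero_pow two_ne_zero,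
      zero_pow three_ne_zero, add_zero, sub_self, neg_zero]
    have := mul_nonneg g0 hb.le
    have := mul_nonneg P0 (sq_nonneg b)
    have := mul_nonneg C0 (pow_nonneg hb.le 3)
    linarith
  · have e : field3 m K g P C S U (0, 0, 0) = 0 := by simp [field3, fieldX_zero, X0_zero]
    have eV : V / Y ^ (m + 1) = Q * semiMom m 1 := by rw [hQ]; field_simp
    rw [e, eV]
    convert hsc using 1
    field_simp
    ring

end Vale.Agent.P237.Cal
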