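import Vale.Agent.P237.Cal.BoxCal
import Vale.Agent.P237.Cal.AtomCert

/-!
# P237: certified bounds of the centred state on a chain of cells

On a box `Y ≤ Y₁` with `η = Y₁² - 1 ∈ [E0, E] / 2^40` the centred state lies between
`XL m Y₁ T - X0 m T ≤ 0` and two closed upper ends. Both are integrals of explicit functions, so a
chain of rows `(node, s, r, lo, fd, hi)` is checked by integer arithmetic: at the node,
`fd ≤ 2^32 (X₀ - XL) ≤ lo` and `2^32 (1 - W^(-k) - X₀) ≤ hi`.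
-/

open MeasureTheory Set Real intervalIntegral

namespace Vale.Agent.P237.Cal

open AtomCert

namespace StateTable

/-- A row: a node, `s ≤ √(T²-η) ≤ r` in units `2^(-20)` (or `s = 0`), and the three bounds. -/
structure Row where
  n : Node
  s : ℕ
  r : ℕ
  lo : ℕ
  fd : ℕ
  hi : ℕ

/-- The height of a row. -/
noncomputable def Row.T (a : Row) : ℝ := nodeT a.n

/-- Upper bound of `u - √(u² - η)` after the row, in units `2^(-40)`. -/
def gUp (E : ℕ) (a b : Row) : ℕ :=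
  if a.n.1 + a.s = 0 then b.n.1 * 2 ^ 20
  else min (b.n.1 * 2 ^ 20) ((E * 2 ^ 20) / (a.n.1 + a.s) + 1)

/-- Lower bound of `u - √(u² - η)` before the row, in units `2^(-40)`. -/
def gLo (E0 : ℕ) (a b : Row) : ℕ :=
  min (a.n.1 * 2 ^ 20) ((E0 * 2 ^ 20) / (b.n.1 + b.r))

/-- Upper bound of `W - u` after the row, in units `2^(-40)`. -/
def gW (a : Row) : ℕ := (a.n.2.2 * 2 ^ 60) / (2 ^ 52 + a.n.1 * a.n.2.2) + 1

/-- The scale of one step. -/
@[irreducible] def stepScale (m : ℕ) : ℕ := 2 ^ 48 * (2 ^ 32) ^ (m + 4)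

/-- The check of one cell. -/
def stepOk (m E0 E : ℕ) (a b : Row) : Bool :=
  decide (a.n.1 ≤ b.n.1) && (nodeTest a.n && nodeTest b.n) &&
    (decide (a.s = 0) || decide (a.s * a.s + E ≤ a.n.1 * a.n.1)) &&
    decide (b.n.1 * b.n.1 ≤ E0 + b.r * b.r) &&
    decide (a.lo * stepScale m + (b.n.1 - a.n.1) * ((m + 1) * b.n.1 * a.n.2.2 ^ (m + 4)) * gUp E a b
      ≤ b.lo * stepScale m) &&
    decide (b.fd * stepScale m ≤ a.fd * stepScale m +
      (b.n.1 - a.n.1) * ((m + 1) * a.n.1 * b.n.2.1 ^ (m + 4)) * gLo E0 a b) &&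
    decide (a.hi * stepScale m + (b.n.1 - a.n.1) * ((m + 1) * b.n.1 * a.n.2.2 ^ (m + 4)) * gW a
      ≤ b.hi * stepScale m)

/-- The check of the first row. -/
def headOk (m : ℕ) (a : Row) : Bool :=
  decide (a.fd = 0) && decide ((m + 1) * (a.n.1 * a.n.1 * a.n.1) ≤ 3 * a.lo * 2 ^ 28) &&
    decide ((m + 1) * (a.n.1 * a.n.1) ≤ 2 * a.hi * 2 ^ 8)

/-- The check of a chain. -/
def tableOk (m E0 E : ℕ) : List Row → Bool
  | [] => true
  | a :: l => headOk m a && ((a :: l).zip l).all fun p => stepOk m E0 E p.1 p.2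

/-- The lower end of the centred state, with the sign changed. -/
noncomputable def defect (m : ℕ) (Y T : ℝ) : ℝ := X0 m T - XL m Y T

/-- The first upper end of the centred state. -/
noncomputable def rise (m : ℕ) (T : ℝ) : ℝ := 1 - (√(1 + T ^ 2) ^ (m + 1))⁻¹ - X0 m T

variable {m : ℕ} {Y : ℝ}

lemma muX_eq (u : ℝ) : muX m u = ((m : ℝ) + 1) * u * cW u ^ (m + 4) := by
  simp only [muX, cW, inv_pow, div_eq_mul_inv]

lemma muX_nonneg {u : ℝ} (hu : 0 ≤ u) : 0 ≤ muX m u := by unfold muX; positivity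

lemma muX_le {u : ℝ} (hu : 0 ≤ u) : muX m u ≤ ((m : ℝ) + 1) * u := by
  rw [muX_eq]
  refine mul_le_of_le_one_right (by positivity) (pow_le_one₀ (cW_pos u).le ?_)
  exact inv_le_one_of_one_le₀ (one_le_w u)

lemma hasDerivAt_rise (T : ℝ) : HasDerivAt (rise m) (muX m T * (√(1 + T ^ 2) - T)) T := by
  have h := ((hasDerivAt_w_inv (m + 1) T).const_sub 1).sub (hasDerivAt_X0 (m := m) T)
  simp only [one_div] at h
  refine (h.congr_deriv ?_)
  have hW := w_pos T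
  simp only [muX]
  push_cast
  rw [show m + 1 + 2 = m + 3 from rfl, pow_succ √(1 + T ^ 2) (m + 3)]
  field_simp

lemma rise_zero : rise m 0 = 0 := by simp [rise, X0_zero]

lemma rise_diff (a b : ℝ) :
    rise m b - rise m a = ∫ u in a..b, muX m u * (√(1 + u ^ 2) - u) :=
  (integral_eq_sub_of_hasDerivAt (fun u _ => hasDerivAt_rise u)
    ((continuous_muX.mul (by fun_prop : Continuous fun u : ℝ => √(1 + u ^ 2) - u)).intervalIntegrable
      _ _)).symm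

lemma continuous_defect_integrand :
    Continuous fun u => muX m u * (u - √(1 + u ^ 2 - Y ^ 2)) :=
  continuous_muX.mul (by fun_prop)

lemma defect_eq (T : ℝ) :
    defect m Y T = ∫ u in (0 : ℝ)..T, muX m u * (u - √(1 + u ^ 2 - Y ^ 2)) := by
  have h := XL_sub_X0 (m := m) (Y := Y) T
  rw [defect, show X0 m T - XL m Y T = -(XL m Y T - X0 m T) by ring, h,
    ← intervalIntegral.integral_neg]
  refine integral_congr fun u _ => ?_
  ring

lemma defect_diff (a b : ℝ) :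
    defect m Y b - defect m Y a = ∫ u in a..b, muX m u * (u - √(1 + u ^ 2 - Y ^ 2)) := by
  rw [defect_eq, defect_eq, integral_interval_sub_left
    (continuous_defect_integrand.intervalIntegrable _ _)
    (continuous_defect_integrand.intervalIntegrable _ _)]

lemma sqrt_gap_nonneg (hY : 1 ≤ Y) {u : ℝ} (hu : 0 ≤ u) :
    0 ≤ u - √(1 + u ^ 2 - Y ^ 2) := by
  rw [sub_nonneg, sqrt_le_left hu]
  nlinarith

/-- An integral of a function between two constants. -/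
lemma integral_le_mul {f : ℝ → ℝ} (hf : Continuous f) {a b M : ℝ} (hab : a ≤ b)
    (h : ∀ u ∈ Icc a b, f u ≤ M) : ∫ u in a..b, f u ≤ (b - a) * M := by
  refine (integral_mono_on hab (hf.intervalIntegrable _ _) intervalIntegrable_const h).trans_eq ?_
  simp

lemma mul_le_integral {f : ℝ → ℝ} (hf : Continuous f) {a b M : ℝ} (hab : a ≤ b)
    (h : ∀ u ∈ Icc a b, M ≤ f u) : (b - a) * M ≤ ∫ u in a..b, f u := by
  refine le_of_eq_of_le ?_
    (integral_mono_on hab intervalIntegrable_const (hf.intervalIntegrable _ _) h)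
  simp

/-- Global bounds. -/
lemma defect_nonneg (hY : 1 ≤ Y) {T : ℝ} (hT : 0 ≤ T) : 0 ≤ defect m Y T := by
  rw [defect_eq]
  exact integral_nonneg hT fun u hu => mul_nonneg (muX_nonneg hu.1) (sqrt_gap_nonneg hY hu.1)

lemma defect_le_cube (hY : 1 ≤ Y) {T : ℝ} (hT : 0 ≤ T) :
    defect m Y T ≤ ((m : ℝ) + 1) * T ^ 3 / 3 := by
  rw [defect_eq]
  refine (integral_mono_on hT (continuous_defect_integrand.intervalIntegrable _ _)
    ((by fun_prop : Continuous fun u : ℝ => ((m : ℝ) + 1) * u ^ 2).intervalIntegrable _ _)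
    fun u hu => ?_).trans_eq ?_
  · calc muX m u * (u - √(1 + u ^ 2 - Y ^ 2)) ≤ (((m : ℝ) + 1) * u) * u :=
        mul_le_mul (muX_le hu.1) (by linarith [sqrt_nonneg (1 + u ^ 2 - Y ^ 2)])
          (sqrt_gap_nonneg hY hu.1) (mul_nonneg (by positivity) hu.1)
      _ = _ := by ring
  · rw [intervalIntegral.integral_const_mul, integral_pow]
    push_cast
    ring

lemma rise_le_sq {T : ℝ} (hT : 0 ≤ T) : rise m T ≤ ((m : ℝ) + 1) * T ^ 2 / 2 := by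
  have h := rise_diff (m := m) 0 T
  rw [rise_zero, sub_zero] at h
  rw [h]
  refine (integral_mono_on hT
    ((continuous_muX.mul (by fun_prop : Continuous fun u : ℝ => √(1 + u ^ 2) - u)).intervalIntegrable
      _ _)
    ((by fun_prop : Continuous fun u : ℝ => ((m : ℝ) + 1) * u).intervalIntegrable _ _)
    fun u hu => ?_).trans_eq ?_
  · have h1 : √(1 + u ^ 2) ≤ 1 + u := by
      rw [sqrt_le_left (by linarith [hu.1])]; nlinarith [hu.1]
    calc muX m u * (√(1 + u ^ 2) - u) ≤ (((m : ℝ) + 1) * u) * 1 :=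
        mul_le_mul (muX_le hu.1) (by linarith) (sub_nonneg.2 (le_w u))
          (mul_nonneg (by positivity) hu.1)
      _ = _ := by ring
  · rw [intervalIntegral.integral_const_mul, integral_id]
    ring

/-- The bounds at a row. -/
def Bound (m : ℕ) (Y : ℝ) (a : Row) : Prop :=
  defect m Y a.T ≤ (a.lo : ℝ) / 2 ^ 32 ∧ (a.fd : ℝ) / 2 ^ 32 ≤ defect m Y a.T ∧
    rise m a.T ≤ (a.hi : ℝ) / 2 ^ 32

/-- The bounds on a cell. -/
def CellBound (m : ℕ) (Y : ℝ) (a b : Row) : Prop :=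
  ∀ T ∈ Icc a.T b.T, defect m Y T ≤ (b.lo : ℝ) / 2 ^ 32 ∧ (a.fd : ℝ) / 2 ^ 32 ≤ defect m Y T ∧
    rise m T ≤ (b.hi : ℝ) / 2 ^ 32

theorem headOk_sound (hY : 1 ≤ Y) {a : Row} (h : headOk m a = true) : Bound m Y a := by
  simp only [headOk, Bool.and_eq_true, decide_eq_true_eq] at h
  obtain ⟨⟨h0, h1⟩, h2⟩ := h
  have hT : 0 ≤ a.T := by simp only [Row.T, nodeT]; positivity
  have h1' : ((m : ℝ) + 1) * ((a.n.1 : ℝ) * a.n.1 * a.n.1) ≤ 3 * (a.lo : ℝ) * 2 ^ 28 := by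
    exact_mod_cast h1
  have h2' : ((m : ℝ) + 1) * ((a.n.1 : ℝ) * a.n.1) ≤ 2 * (a.hi : ℝ) * 2 ^ 8 := by
    exact_mod_cast h2
  refine ⟨(defect_le_cube hY hT).trans ?_, ?_, (rise_le_sq hT).trans ?_⟩
  · simp only [Row.T, nodeT, div_pow]
    rw [← mul_div_assoc, div_div, div_le_div_iff₀ (by positivity) (by positivity)]
    ring_nf at h1' ⊢
    linarith
  · simpa [h0] using defect_nonneg hY hT
  · simp only [Row.T, nodeT, div_pow]
    rw [← mul_div_assoc, div_div, div_le_div_iff₀ (by positivity) (by positivity)]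
    ring_nf at h2' ⊢
    linarith

lemma cast_mul_pow20 (x : ℕ) : ((x * 2 ^ 20 : ℕ) : ℝ) / 2 ^ 40 = (x : ℝ) / 2 ^ 20 := by
  push_cast; ring

lemma le_div_add_one_mul (x : ℕ) {d : ℕ} (hd : d ≠ 0) : x ≤ (x / d + 1) * d := by
  have := Nat.div_add_mod x d
  have := Nat.mod_lt x (Nat.pos_of_ne_zero hd)
  rw [add_mul, one_mul, mul_comm]
  omega

/-- The gap from below. -/
theorem gap_lower {E0 : ℕ} {a b : Row} (hY : 1 ≤ Y) (hE0 : (E0 : ℝ) / 2 ^ 40 ≤ Y ^ 2 - 1)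
    (hr : b.n.1 * b.n.1 ≤ E0 + b.r * b.r) {u : ℝ} (hu : u ∈ Icc a.T b.T) :
    (gLo E0 a b : ℝ) / 2 ^ 40 ≤ u - √(1 + u ^ 2 - Y ^ 2) := by
  have hu0 : 0 ≤ u := le_trans (by simp only [Row.T, nodeT]; positivity) hu.1
  have hη0 : 0 ≤ Y ^ 2 - 1 := by nlinarith
  rw [show 1 + u ^ 2 - Y ^ 2 = u ^ 2 - (Y ^ 2 - 1) by ring]
  generalize Y ^ 2 - 1 = η at hE0 hη0 ⊢
  rcases le_or_gt (u ^ 2) η with hcase | hcase
  · rw [sqrt_eq_zero'.2 (by linarith), sub_zero]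
    refine le_trans ?_ hu.1
    simp only [Row.T, nodeT]
    rw [← cast_mul_pow20]
    exact div_le_div_of_nonneg_right (Nat.cast_le.2 (min_le_left _ _)) (by positivity)
  set S := √(u ^ 2 - η) with hS
  have hS0 : 0 ≤ S := sqrt_nonneg _
  have hS2 : S ^ 2 = u ^ 2 - η := sq_sqrt (by linarith)
  have hub : u ≤ (b.n.1 : ℝ) / 2 ^ 20 := hu.2
  have hb2 : ((b.n.1 : ℝ) / 2 ^ 20) ^ 2 ≤ η + ((b.r : ℝ) / 2 ^ 20) ^ 2 := by
    have hr' : ((b.n.1 : ℝ) * b.n.1) / 2 ^ 40 ≤ ((E0 : ℝ) + (b.r : ℝ) * b.r) / 2 ^ 40 :=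
      div_le_div_of_nonneg_right (by exact_mod_cast hr) (by positivity)
    rw [add_div] at hr'
    have e : ∀ x : ℝ, (x / 2 ^ 20) ^ 2 = x * x / 2 ^ 40 := fun x => by ring
    rw [e, e]
    linarith
  have hSr : S ≤ (b.r : ℝ) / 2 ^ 20 := by
    refine (sq_le_sq₀ hS0 (by positivity)).1 ?_
    linarith [pow_le_pow_left₀ hu0 hub 2]
  have hupos : 0 < u := by
    rcases hu0.eq_or_lt with h | h
    · rw [← h] at hcase; norm_num at hcase; linarith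
    · exact h
  have hb : u + S ≤ ((b.n.1 + b.r : ℕ) : ℝ) / 2 ^ 20 := by
    push_cast
    rw [add_div]
    exact add_le_add hub hSr
  have hg : (gLo E0 a b : ℝ) ≤ (E0 : ℝ) * 2 ^ 20 / ((b.n.1 + b.r : ℕ) : ℝ) := by
    refine le_trans (Nat.cast_le.2 (min_le_right _ _)) (Nat.cast_div_le.trans_eq ?_)
    rw [Nat.cast_mul, Nat.cast_pow, Nat.cast_ofNat]
  have hpos : 0 < ((b.n.1 + b.r : ℕ) : ℝ) / 2 ^ 20 := lt_of_lt_of_le (by linarith) hb
  have hden : (0 : ℝ) < ((b.n.1 + b.r : ℕ) : ℝ) :=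
    (div_pos_iff_of_pos_right (by positivity)).1 hpos
  have e : u - S = η / (u + S) := by
    field_simp
    linear_combination -hS2
  rw [e, le_div_iff₀ (by linarith)]
  calc (gLo E0 a b : ℝ) / 2 ^ 40 * (u + S)
      ≤ (E0 : ℝ) * 2 ^ 20 / ((b.n.1 + b.r : ℕ) : ℝ) / 2 ^ 40 *
        (((b.n.1 + b.r : ℕ) : ℝ) / 2 ^ 20) :=
        mul_le_mul (div_le_div_of_nonneg_right hg (by positivity)) hb (by linarith) (by positivity)
    _ = (E0 : ℝ) / 2 ^ 40 := by field_simp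
    _ ≤ η := hE0

/-- The gap from above. -/
theorem gap_upper {E : ℕ} {a b : Row} (hY : 1 ≤ Y) (hE : Y ^ 2 - 1 ≤ (E : ℝ) / 2 ^ 40)
    (hs : a.s = 0 ∨ a.s * a.s + E ≤ a.n.1 * a.n.1) {u : ℝ} (hu : u ∈ Icc a.T b.T) :
    u - √(1 + u ^ 2 - Y ^ 2) ≤ (gUp E a b : ℝ) / 2 ^ 40 := by
  have hu0 : 0 ≤ u := le_trans (by simp only [Row.T, nodeT]; positivity) hu.1
  have hη0 : 0 ≤ Y ^ 2 - 1 := by nlinarith
  rw [show 1 + u ^ 2 - Y ^ 2 = u ^ 2 - (Y ^ 2 - 1) by ring]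
  generalize Y ^ 2 - 1 = η at hE hη0 ⊢
  set S := √(u ^ 2 - η) with hS
  have hS0 : 0 ≤ S := sqrt_nonneg _
  have hSu : S ≤ u := by rw [hS, sqrt_le_left hu0]; linarith
  have hub : u ≤ (b.n.1 : ℝ) / 2 ^ 20 := hu.2
  have htop : u - S ≤ ((b.n.1 * 2 ^ 20 : ℕ) : ℝ) / 2 ^ 40 := by
    rw [cast_mul_pow20]; linarith
  simp only [gUp]
  split_ifs with hz
  · exact htop
  rw [Nat.cast_min, ← min_div_div_right (by positivity)]
  refine le_min htop ?_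
  have hzpos : (0 : ℝ) < ((a.n.1 + a.s : ℕ) : ℝ) := Nat.cast_pos.2 (Nat.pos_of_ne_zero hz)
  have hg : (E : ℝ) * 2 ^ 20 / ((a.n.1 + a.s : ℕ) : ℝ) ≤
      (((E * 2 ^ 20) / (a.n.1 + a.s) + 1 : ℕ) : ℝ) := by
    rw [div_le_iff₀ hzpos]
    have h := Nat.cast_le (α := ℝ).2 (le_div_add_one_mul (E * 2 ^ 20) hz)
    rw [Nat.cast_mul, Nat.cast_pow, Nat.cast_ofNat, Nat.cast_mul] at h
    exact h
  have hat : (a.n.1 : ℝ) / 2 ^ 20 ≤ u := hu.1
  have hlow : ((a.n.1 + a.s : ℕ) : ℝ) / 2 ^ 20 * (u - S) ≤ η := by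
    have hsq : a.s = 0 ∨ ((a.s : ℝ) / 2 ^ 20) ^ 2 + η ≤ u ^ 2 := by
      refine hs.imp_right fun hs => ?_
      have hs' : ((a.s : ℝ) * a.s + E) / 2 ^ 40 ≤ ((a.n.1 : ℝ) * a.n.1) / 2 ^ 40 :=
        div_le_div_of_nonneg_right (by exact_mod_cast hs) (by positivity)
      rw [add_div] at hs'
      have e : ∀ x : ℝ, (x / 2 ^ 20) ^ 2 = x * x / 2 ^ 40 := fun x => by ring
      have := pow_le_pow_left₀ (by positivity) hat 2
      rw [e] at this ⊢
      linarith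
    push_cast
    rcases le_or_gt (u ^ 2) η with hcase | hcase
    · have hs0 : (a.s : ℝ) / 2 ^ 20 = 0 := by
        rcases hsq with h | h
        · simp [h]
        · exact pow_eq_zero_iff two_ne_zero |>.1
            (le_antisymm (by linarith) (sq_nonneg _))
      rw [add_div, hs0, add_zero]
      refine le_trans (mul_le_mul hat (by linarith : u - S ≤ u) (by linarith) hu0) ?_
      linarith [sq u]
    · have hS2 : S ^ 2 = u ^ 2 - η := sq_sqrt (by linarith)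
      have hsS : (a.s : ℝ) / 2 ^ 20 ≤ S := by
        rcases hsq with h | h
        · simp [h, hS0]
        · exact (sq_le_sq₀ (by positivity) hS0).1 (by linarith)
      rw [add_div]
      calc ((a.n.1 : ℝ) / 2 ^ 20 + (a.s : ℝ) / 2 ^ 20) * (u - S) ≤ (u + S) * (u - S) :=
            mul_le_mul_of_nonneg_right (add_le_add hat hsS) (by linarith)
        _ = η := by linear_combination -hS2
  refine le_trans ?_ (div_le_div_of_nonneg_right hg (by positivity))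
  rw [div_div, le_div_iff₀ (by positivity)]
  have h2 := mul_le_mul_of_nonneg_right (hlow.trans hE) (by positivity : (0 : ℝ) ≤ 2 ^ 60)
  calc (u - S) * (((a.n.1 + a.s : ℕ) : ℝ) * 2 ^ 40)
      = ((a.n.1 + a.s : ℕ) : ℝ) / 2 ^ 20 * (u - S) * 2 ^ 60 := by ring
    _ ≤ (E : ℝ) / 2 ^ 40 * 2 ^ 60 := h2
    _ = (E : ℝ) * 2 ^ 20 := by ring

/-- `W - u` from above. -/
theorem wu_upper {a : Row} (hn : nodeTest a.n = true) {u : ℝ} (hu : a.T ≤ u) :
    √(1 + u ^ 2) - u ≤ (gW a : ℝ) / 2 ^ 40 := by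
  have hA : 0 ≤ a.T := by simp only [Row.T, nodeT]; positivity
  have hW := w_pos u
  have hc : (√(1 + u ^ 2))⁻¹ ≤ (a.n.2.2 : ℝ) / 2 ^ 32 :=
    (cW_anti hA hu).trans (nodeTest_sound hn).2
  have hcu : (2 : ℝ) ^ 32 ≤ (a.n.2.2 : ℝ) * √(1 + u ^ 2) := by
    rw [inv_le_iff_one_le_mul₀ hW, div_mul_eq_mul_div, le_div_iff₀ (by positivity), one_mul] at hc
    exact hc
  have hz : 2 ^ 52 + a.n.1 * a.n.2.2 ≠ 0 := by positivity
  have hden : (0 : ℝ) < ((2 ^ 52 + a.n.1 * a.n.2.2 : ℕ) : ℝ) :=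
    Nat.cast_pos.2 (Nat.pos_of_ne_zero hz)
  have hg : (a.n.2.2 : ℝ) * 2 ^ 60 / ((2 ^ 52 + a.n.1 * a.n.2.2 : ℕ) : ℝ) ≤ (gW a : ℝ) := by
    rw [div_le_iff₀ hden]
    have h := Nat.cast_le (α := ℝ).2 (le_div_add_one_mul (a.n.2.2 * 2 ^ 60) hz)
    rw [Nat.cast_mul, Nat.cast_pow, Nat.cast_ofNat, Nat.cast_mul] at h
    exact h
  refine le_trans ?_ (div_le_div_of_nonneg_right hg (by positivity))
  rw [div_div, le_div_iff₀ (by positivity)]
  have hat : (a.n.1 : ℝ) ≤ u * 2 ^ 20 := (div_le_iff₀ (by positivity)).1 hu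
  have hd : 0 ≤ √(1 + u ^ 2) - u := sub_nonneg.2 (le_w u)
  rw [Nat.cast_add, Nat.cast_mul, Nat.cast_pow, Nat.cast_ofNat]
  calc (√(1 + u ^ 2) - u) * (((2 : ℝ) ^ 52 + (a.n.1 : ℝ) * a.n.2.2) * 2 ^ 40)
      ≤ (√(1 + u ^ 2) - u) *
        (((a.n.2.2 : ℝ) * √(1 + u ^ 2) * 2 ^ 20 + u * 2 ^ 20 * a.n.2.2) * 2 ^ 40) := by
        refine mul_le_mul_of_nonneg_left (mul_le_mul_of_nonneg_right (add_le_add ?_
          (mul_le_mul_of_nonneg_right hat (Nat.cast_nonneg _))) (by positivity)) hd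
        calc (2 : ℝ) ^ 52 = 2 ^ 32 * 2 ^ 20 := by norm_num
          _ ≤ _ := mul_le_mul_of_nonneg_right hcu (by positivity)
    _ = (a.n.2.2 : ℝ) * 2 ^ 60 := by
        linear_combination ((a.n.2.2 : ℝ) * 2 ^ 60) * w_sq u

lemma scale_cast (m : ℕ) : ((stepScale m : ℕ) : ℝ) = 2 ^ 48 * (2 ^ 32) ^ (m + 4) := by
  unfold stepScale
  rw [Nat.cast_mul]
  congr 1
  · norm_num
  · rw [Nat.cast_pow]; norm_num

/-- An increment in units `2^(-32)` and the scale of a step. -/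
lemma incr_eq {a b : Row} (hle : a.n.1 ≤ b.n.1) (x c : ℕ) (g : ℝ) :
    (b.T - a.T) * ((((m : ℝ) + 1) * ((x : ℝ) / 2 ^ 20) * ((c : ℝ) / 2 ^ 32) ^ (m + 4)) *
        (g / 2 ^ 40)) * 2 ^ 32 * ((stepScale m : ℕ) : ℝ) =
      ((b.n.1 - a.n.1 : ℕ) : ℝ) * (((m : ℝ) + 1) * x * (c : ℝ) ^ (m + 4)) * g := by
  have hT : b.T - a.T = ((b.n.1 - a.n.1 : ℕ) : ℝ) / 2 ^ 20 := by
    simp only [Row.T, nodeT]
    rw [Nat.cast_sub hle, sub_div]
  rw [hT, scale_cast, div_pow]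
  generalize hP : ((2 : ℝ) ^ 32) ^ (m + 4) = P
  have hP0 : P ≠ 0 := hP ▸ by positivity
  field_simp

/-- The weight on a cell. -/
lemma muX_range {a b : Row} (hna : nodeTest a.n = true) (hnb : nodeTest b.n = true) {u : ℝ}
    (hu : u ∈ Icc a.T b.T) :
    ((m : ℝ) + 1) * ((a.n.1 : ℝ) / 2 ^ 20) * ((b.n.2.1 : ℝ) / 2 ^ 32) ^ (m + 4) ≤ muX m u ∧
      muX m u ≤ ((m : ℝ) + 1) * ((b.n.1 : ℝ) / 2 ^ 20) * ((a.n.2.2 : ℝ) / 2 ^ 32) ^ (m + 4) := by
  have hA : 0 ≤ a.T := by simp only [Row.T, nodeT]; positivity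
  have hu0 := hA.trans hu.1
  have hc1 : (b.n.2.1 : ℝ) / 2 ^ 32 ≤ cW u :=
    (nodeTest_sound hnb).1.trans (cW_anti hu0 hu.2)
  have hc2 : cW u ≤ (a.n.2.2 : ℝ) / 2 ^ 32 := (cW_anti hA hu.1).trans (nodeTest_sound hna).2
  have h1 : (a.n.1 : ℝ) / 2 ^ 20 ≤ u := hu.1
  have h2 : u ≤ (b.n.1 : ℝ) / 2 ^ 20 := hu.2
  have hb0 : (0 : ℝ) ≤ (b.n.2.1 : ℝ) / 2 ^ 32 := by positivity
  rw [muX_eq]
  exact ⟨mul_le_mul (mul_le_mul_of_nonneg_left h1 (by positivity)) (pow_le_pow_left₀ hb0 hc1 _)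
      (pow_nonneg hb0 _) (mul_nonneg (by positivity) hu0),
    mul_le_mul (mul_le_mul_of_nonneg_left h2 (by positivity))
      (pow_le_pow_left₀ (cW_pos u).le hc2 _) (pow_nonneg (cW_pos u).le _) (by positivity)⟩

/-- Reading an increment off the integer test. -/
lemma read_up {x y : ℕ} {d I R : ℝ} (hd : d ≤ (x : ℝ) / 2 ^ 32 + I)
    (hR : I * 2 ^ 32 * ((stepScale m : ℕ) : ℝ) = R)
    (hxy : (x : ℝ) * ((stepScale m : ℕ) : ℝ) + R ≤ (y : ℝ) * ((stepScale m : ℕ) : ℝ)) :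
    d ≤ (y : ℝ) / 2 ^ 32 := by
  have hsp : (0 : ℝ) < ((stepScale m : ℕ) : ℝ) := by rw [scale_cast]; positivity
  rw [← hR, ← add_mul] at hxy
  have h4 := le_of_mul_le_mul_right hxy hsp
  rw [le_div_iff₀ (by positivity)]
  have h5 := mul_le_mul_of_nonneg_right hd (by positivity : (0 : ℝ) ≤ 2 ^ 32)
  rw [add_mul, div_mul_cancel₀ _ (by positivity)] at h5
  linarith

/-- Reading a lower increment off the integer test. -/
lemma read_down {x y : ℕ} {d0 d I R : ℝ} (h0 : (x : ℝ) / 2 ^ 32 ≤ d0) (hd : d0 + I ≤ d)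
    (hR : I * 2 ^ 32 * ((stepScale m : ℕ) : ℝ) = R)
    (hxy : (y : ℝ) * ((stepScale m : ℕ) : ℝ) ≤ (x : ℝ) * ((stepScale m : ℕ) : ℝ) + R) :
    (y : ℝ) / 2 ^ 32 ≤ d := by
  have hsp : (0 : ℝ) < ((stepScale m : ℕ) : ℝ) := by rw [scale_cast]; positivity
  rw [← hR, ← add_mul] at hxy
  have h4 := le_of_mul_le_mul_right hxy hsp
  rw [div_le_iff₀ (by positivity)] at h0 ⊢
  have h5 := mul_le_mul_of_nonneg_right hd (by positivity : (0 : ℝ) ≤ 2 ^ 32)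
  rw [add_mul] at h5
  linarith

/-- One step of a checked chain. -/
theorem stepOk_sound {E0 E : ℕ} {a b : Row} (hY : 1 ≤ Y) (hE0 : (E0 : ℝ) / 2 ^ 40 ≤ Y ^ 2 - 1)
    (hE : Y ^ 2 - 1 ≤ (E : ℝ) / 2 ^ 40) (h : stepOk m E0 E a b = true) (ha : Bound m Y a) :
    Bound m Y b ∧ CellBound m Y a b := by
  simp only [stepOk, Bool.and_eq_true, Bool.or_eq_true, decide_eq_true_eq] at h
  obtain ⟨⟨⟨⟨⟨⟨hle, hna, hnb⟩, hs⟩, hr⟩, hlo⟩, hfd⟩, hhi⟩ := h
  have hA : 0 ≤ a.T := by simp only [Row.T, nodeT]; positivity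
  have hAB : a.T ≤ b.T := div_le_div_of_nonneg_right (Nat.cast_le.2 hle) (by positivity)
  have hlo' : (a.lo : ℝ) * ((stepScale m : ℕ) : ℝ) +
      ((b.n.1 - a.n.1 : ℕ) : ℝ) * (((m : ℝ) + 1) * b.n.1 * (a.n.2.2 : ℝ) ^ (m + 4)) *
        (gUp E a b : ℝ) ≤ (b.lo : ℝ) * ((stepScale m : ℕ) : ℝ) := by exact_mod_cast hlo
  have hhi' : (a.hi : ℝ) * ((stepScale m : ℕ) : ℝ) +
      ((b.n.1 - a.n.1 : ℕ) : ℝ) * (((m : ℝ) + 1) * b.n.1 * (a.n.2.2 : ℝ) ^ (m + 4)) *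
        (gW a : ℝ) ≤ (b.hi : ℝ) * ((stepScale m : ℕ) : ℝ) := by exact_mod_cast hhi
  have hfd' : (b.fd : ℝ) * ((stepScale m : ℕ) : ℝ) ≤ (a.fd : ℝ) * ((stepScale m : ℕ) : ℝ) +
      ((b.n.1 - a.n.1 : ℕ) : ℝ) * (((m : ℝ) + 1) * a.n.1 * (b.n.2.1 : ℝ) ^ (m + 4)) *
        (gLo E0 a b : ℝ) := by exact_mod_cast hfd
  clear hlo hhi hfd
  set M := ((m : ℝ) + 1) * ((b.n.1 : ℝ) / 2 ^ 20) * ((a.n.2.2 : ℝ) / 2 ^ 32) ^ (m + 4) with hM
  have hM0 : 0 ≤ M := by rw [hM]; positivity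
  obtain ⟨a1, a2, a3⟩ := ha
  have c1 := continuous_defect_integrand (m := m) (Y := Y)
  have c2 : Continuous fun u : ℝ => muX m u * (√(1 + u ^ 2) - u) :=
    continuous_muX.mul (by fun_prop)
  have cell : CellBound m Y a b := by
    intro T hT
    have hsub : ∀ u ∈ Icc a.T T, u ∈ Icc a.T b.T := fun u hu => ⟨hu.1, hu.2.trans hT.2⟩
    have hm : T - a.T ≤ b.T - a.T := by linarith [hT.2]
    refine ⟨?_, ?_, ?_⟩
    · refine read_up (I := (b.T - a.T) * (M * ((gUp E a b : ℝ) / 2 ^ 40))) ?_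
        (incr_eq hle _ _ _) hlo'
      have h1 := defect_diff (m := m) (Y := Y) a.T T
      have h2 := integral_le_mul c1 hT.1 (M := M * ((gUp E a b : ℝ) / 2 ^ 40)) fun u hu =>
        mul_le_mul (muX_range hna hnb (hsub u hu)).2 (gap_upper hY hE hs (hsub u hu))
          (sqrt_gap_nonneg hY (hA.trans hu.1)) hM0
      have h3 := mul_le_mul_of_nonneg_right hm
        (mul_nonneg hM0 (by positivity) : 0 ≤ M * ((gUp E a b : ℝ) / 2 ^ 40))
      linarith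
    · refine a2.trans ?_
      have h1 := defect_diff (m := m) (Y := Y) a.T T
      have : 0 ≤ ∫ u in a.T..T, muX m u * (u - √(1 + u ^ 2 - Y ^ 2)) :=
        integral_nonneg hT.1 fun u hu =>
          mul_nonneg (muX_nonneg (hA.trans hu.1)) (sqrt_gap_nonneg hY (hA.trans hu.1))
      linarith
    · refine read_up (I := (b.T - a.T) * (M * ((gW a : ℝ) / 2 ^ 40))) ?_
        (incr_eq hle _ _ _) hhi'
      have h1 := rise_diff (m := m) a.T T
      have h2 := integral_le_mul c2 hT.1 (M := M * ((gW a : ℝ) / 2 ^ 40)) fun u hu =>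
        mul_le_mul (muX_range hna hnb (hsub u hu)).2 (wu_upper hna hu.1)
          (sub_nonneg.2 (le_w u)) hM0
      have h3 := mul_le_mul_of_nonneg_right hm
        (mul_nonneg hM0 (by positivity) : 0 ≤ M * ((gW a : ℝ) / 2 ^ 40))
      linarith
  refine ⟨⟨(cell b.T ⟨hAB, le_rfl⟩).1, ?_, (cell b.T ⟨hAB, le_rfl⟩).2.2⟩, cell⟩
  refine read_down a2 ?_ (incr_eq hle _ _ _) hfd'
  have h1 := defect_diff (m := m) (Y := Y) a.T b.T
  have h2 := mul_le_integral c1 hAB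
    (M := ((m : ℝ) + 1) * ((a.n.1 : ℝ) / 2 ^ 20) * ((b.n.2.1 : ℝ) / 2 ^ 32) ^ (m + 4) *
      ((gLo E0 a b : ℝ) / 2 ^ 40)) fun u hu =>
    mul_le_mul (muX_range hna hnb hu).1 (gap_lower hY hE0 hr hu) (by positivity)
      (muX_nonneg (hA.trans hu.1))
  linarith

lemma all_cells {E0 E : ℕ} (hY : 1 ≤ Y) (hE0 : (E0 : ℝ) / 2 ^ 40 ≤ Y ^ 2 - 1)
    (hE : Y ^ 2 - 1 ≤ (E : ℝ) / 2 ^ 40) :
    ∀ (l : List Row) (a : Row), Bound m Y a →
      (((a :: l).zip l).all fun p => stepOk m E0 E p.1 p.2) = true →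
      ∀ p ∈ (a :: l).zip l, CellBound m Y p.1 p.2
  | [], _, _, _, p, hp => by simp at hp
  | b :: l, a, ha, h, p, hp => by
    simp only [List.zip_cons_cons, List.all_cons, Bool.and_eq_true] at h
    obtain ⟨hb, hcell⟩ := stepOk_sound hY hE0 hE h.1 ha
    simp only [List.zip_cons_cons, List.mem_cons] at hp
    rcases hp with rfl | hp
    · exact hcell
    · exact all_cells hY hE0 hE l b hb h.2 p hp

/-- **Soundness of a checked table.** -/
theorem table_sound {E0 E : ℕ} {a : Row} {l : List Row} (hY : 1 ≤ Y)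
    (hE0 : (E0 : ℝ) / 2 ^ 40 ≤ Y ^ 2 - 1) (hE : Y ^ 2 - 1 ≤ (E : ℝ) / 2 ^ 40)
    (h : tableOk m E0 E (a :: l) = true) :
    ∀ p ∈ (a :: l).zip l, CellBound m Y p.1 p.2 := by
  simp only [tableOk, Bool.and_eq_true] at h
  exact all_cells hY hE0 hE l a (headOk_sound hY h.1) h.2

/-- **The centred state on a cell of a checked table.** `Cb` bounds `Q₁ V₀ - V₀ / Y₁^k`. -/
theorem state_bounds {Y₁ Q₁ V₁ T σ X Cb : ℝ} {a b : Row} (hP : BoxPt m Y₁ Q₁ V₁ T σ X)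
    (hC : CellBound m Y₁ a b) (hT : T ∈ Icc a.T b.T)
    (hCb : Q₁ * semiMom m 1 - semiMom m 1 / Y₁ ^ (m + 1) ≤ Cb) :
    -((b.lo : ℝ) / 2 ^ 32) ≤ X - X0 m T ∧ X - X0 m T ≤ (b.hi : ℝ) / 2 ^ 32 ∧
      X - X0 m T ≤ Cb - (a.fd : ℝ) / 2 ^ 32 := by
  obtain ⟨c1, c2, c3⟩ := hC T hT
  simp only [defect] at c1 c2
  simp only [rise] at c3
  exact ⟨by linarith [hP.X_low], by linarith [hP.X_top], by linarith [hP.X_high]⟩

/-- The centred state near `T = 0`. -/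
theorem state_bounds_zero {Y₁ Q₁ V₁ T σ X : ℝ} (hY : 1 ≤ Y₁) (hP : BoxPt m Y₁ Q₁ V₁ T σ X) :
    -(((m : ℝ) + 1) * T ^ 3 / 3) ≤ X - X0 m T ∧ X - X0 m T ≤ ((m : ℝ) + 1) * T ^ 2 / 2 := by
  have h1 := defect_le_cube (m := m) hY hP.T_pos.le
  have h2 := rise_le_sq (m := m) hP.T_pos.le
  simp only [defect] at h1
  simp only [rise] at h2
  exact ⟨by linarith [hP.X_low], by linarith [hP.X_top]⟩

end StateTable

end Vale.Agent.P237.Cal
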