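import Vale.Agent.P237.Cal.CellEnds
import Vale.Agent.P237.Cal.StateTable

/-!
# P237: the vertex condition along a chain of cells

A checked table of state rows gives, on every cell, the ranges of `D = σ - T` on each side of `0`
and of the centred state. A checked cell per row pair and side then gives `VxOk` on the whole box
region over the range of the chain.
-/

open Set Real

namespace Vale.Agent.P237.Cal.CellGlue

open AtomCert CellCert FamAtoms StateTable

/-- The ranges of a cell cover the side of the region over the row pair. `pos` is `D ≥ 0`. -/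
def rangeOk (pos : Bool) (E : ℕ) (cb : ℤ) (a b : Row) (C : Cell) : Bool :=
  nodeTest a.n && (decide (a.s = 0) || decide (a.s * a.s + E ≤ a.n.1 * a.n.1)) &&
    (if pos then decide (C.l ≤ 0) && decide ((gW a : ℤ) ≤ C.h * 2 ^ 8)
      else decide (C.l * 2 ^ 8 ≤ -(gUp E a b : ℤ)) && decide (0 ≤ C.h)) &&
    decide (C.x0 ≤ -(b.lo : ℤ)) && decide (min (b.hi : ℤ) (cb - a.fd) ≤ C.x1)

/-- The full test of one cell of one side. -/
def sideTest (pos : Bool) (P E : ℕ) (cb : ℤ) (B : List (ℕ × ℕ)) (F : VFam) (a b : Row) (C : Cell) :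
    Bool :=
  rangeOk pos E cb a b C && cellTest F C && colTest P a.n B C.lo C.hi &&
    colTest P b.n B C.lo' C.hi' && errTest P a.n b.n B C.er

/-- The test of a chain: one cell per consecutive pair of rows. -/
def chainTest (pos : Bool) (P E : ℕ) (cb : ℤ) (B : List (ℕ × ℕ)) (F : VFam) :
    List Row → List Cell → Bool
  | a :: b :: l, C :: cs => sideTest pos P E cb B F a b C && chainTest pos P E cb B F (b :: l) cs
  | [_], [] => true
  | _, _ => false

variable {m P E0 E : ℕ} {cb : ℤ} {B : List (ℕ × ℕ)} {F : VFam} {p : APar} {s : Side}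
  {Y₁ Q₁ V₁ T σ X : ℝ} {pos : Bool}

theorem sideTest_sound {a b : Row} {C : Cell} (hY : 1 ≤ Y₁) (hE : Y₁ ^ 2 - 1 ≤ (E : ℝ) / 2 ^ 40)
    (hcb : Q₁ * semiMom m 1 - semiMom m 1 / Y₁ ^ (m + 1) ≤ (cb : ℝ) / 2 ^ 32)
    (hF : vfam B m p s = some F) (hZ : 0 < p.Z) (h : sideTest pos P E cb B F a b C = true)
    (hC : CellBound m Y₁ a b) (hP : BoxPt m Y₁ Q₁ V₁ T σ X) (hT : T ∈ Icc a.T b.T)
    (hside : if pos then T ≤ σ else σ ≤ T) :
    VxOk m (p.fam.at T) ((p.eps : ℝ) / p.Z) ((p.eta : ℝ) / p.Z) (ev p.Z s.th T)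
      (s.ph p.Z T (σ - T)) (ev p.Z s.nu T) T σ (X - X0 m T) := by
  simp only [sideTest, rangeOk, Bool.and_eq_true, Bool.or_eq_true, decide_eq_true_eq] at h
  obtain ⟨⟨⟨⟨⟨⟨⟨⟨hn, hs⟩, hd⟩, hx0⟩, hx1⟩, hcell⟩, hc⟩, hc'⟩, he⟩ := h
  obtain ⟨s1, s2, s3⟩ := state_bounds hP hC hT hcb
  refine vxOk_of_cell hF hcell hc hc' he hZ hP.T_pos hT ?_ ⟨?_, ?_⟩
  · cases pos
    · simp only [Bool.false_eq_true, if_false, Bool.and_eq_true, decide_eq_true_eq] at hd hside
      have g := gap_upper hY hE hs hT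
      have h1 : √(1 + T ^ 2 - Y₁ ^ 2) ≤ σ := by
        rw [sqrt_le_left hP.σ_pos.le]; exact hP.σ_low
      have h2 : ((C.l : ℝ) * 2 ^ 8) ≤ -(gUp E a b : ℝ) := by exact_mod_cast hd.1
      have h3 : (0 : ℝ) ≤ (C.h : ℝ) := by exact_mod_cast hd.2
      refine ⟨?_, le_trans (by linarith) (div_nonneg h3 (by positivity))⟩
      rw [div_le_iff₀ (by positivity)]
      rw [le_div_iff₀ (by positivity)] at g
      nlinarith
    · simp only [if_true, Bool.and_eq_true, decide_eq_true_eq] at hd hside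
      have g := wu_upper hn hT.1
      have h2 : (gW a : ℝ) ≤ (C.h : ℝ) * 2 ^ 8 := by exact_mod_cast hd.2
      have h3 : (C.l : ℝ) ≤ 0 := by exact_mod_cast hd.1
      refine ⟨le_trans (div_nonpos_of_nonpos_of_nonneg h3 (by positivity)) (by linarith), ?_⟩
      rw [le_div_iff₀ (by positivity)]
      rw [le_div_iff₀ (by positivity)] at g
      nlinarith [hP.σ_le]
  · refine le_trans ?_ s1
    rw [← neg_div]
    exact div_le_div_of_nonneg_right (by exact_mod_cast hx0) (by positivity)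
  · have h1 : min ((b.hi : ℕ) : ℝ) ((cb : ℝ) - (a.fd : ℕ)) ≤ (C.x1 : ℝ) := by exact_mod_cast hx1
    refine le_trans (le_min s2 s3) ?_
    rw [← sub_div, min_div_div_right (by positivity)]
    exact div_le_div_of_nonneg_right h1 (by positivity)

theorem chainTest_sound (hY : 1 ≤ Y₁) (hE : Y₁ ^ 2 - 1 ≤ (E : ℝ) / 2 ^ 40)
    (hcb : Q₁ * semiMom m 1 - semiMom m 1 / Y₁ ^ (m + 1) ≤ (cb : ℝ) / 2 ^ 32)
    (hF : vfam B m p s = some F) (hZ : 0 < p.Z) (hP : BoxPt m Y₁ Q₁ V₁ T σ X)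
    (hside : if pos then T ≤ σ else σ ≤ T) :
    ∀ {a : Row} {l : List Row} {cs : List Cell}, chainTest pos P E cb B F (a :: l) cs = true →
      (∀ q ∈ (a :: l).zip l, CellBound m Y₁ q.1 q.2) → a.T < T →
      T ≤ ((a :: l).getLast (by simp)).T →
      VxOk m (p.fam.at T) ((p.eps : ℝ) / p.Z) ((p.eta : ℝ) / p.Z) (ev p.Z s.th T)
        (s.ph p.Z T (σ - T)) (ev p.Z s.nu T) T σ (X - X0 m T)
  | a, [], _, _, _, h1, h2 => absurd (h2.trans_lt' h1) (lt_irrefl _)
  | a, b :: l, [], h, _, _, _ => by simp [chainTest] at h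
  | a, b :: l, C :: cs, h, hB, h1, h2 => by
    simp only [chainTest, Bool.and_eq_true] at h
    rcases le_or_gt T b.T with hle | hgt
    · exact sideTest_sound hY hE hcb hF hZ h.1 (hB (a, b) (by simp)) hP ⟨h1.le, hle⟩ hside
    · exact chainTest_sound hY hE hcb hF hZ hP hside h.2
        (fun q hq => hB q (by simp only [List.zip_cons_cons]; exact List.mem_cons_of_mem _ hq))
        hgt (by simpa using h2)

/-- **Both sides along a checked chain.** `th`, `ph`, `nu` switch at `σ = T`. -/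
theorem vxOk_of_chains {a : Row} {l : List Row} {csn csp : List Cell} {Fn Fp : VFam}
    {sn sp : Side} (hY : 1 ≤ Y₁) (hE0 : (E0 : ℝ) / 2 ^ 40 ≤ Y₁ ^ 2 - 1)
    (hE : Y₁ ^ 2 - 1 ≤ (E : ℝ) / 2 ^ 40)
    (hcb : Q₁ * semiMom m 1 - semiMom m 1 / Y₁ ^ (m + 1) ≤ (cb : ℝ) / 2 ^ 32)
    (hrows : tableOk m E0 E (a :: l) = true)
    (hFn : vfam B m p sn = some Fn) (hFp : vfam B m p sp = some Fp) (hZ : 0 < p.Z)
    (hn : chainTest false P E cb B Fn (a :: l) csn = true)
    (hp : chainTest true P E cb B Fp (a :: l) csp = true)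
    (hP : BoxPt m Y₁ Q₁ V₁ T σ X) (h1 : a.T < T) (h2 : T ≤ ((a :: l).getLast (by simp)).T) :
    VxOk m (p.fam.at T) ((p.eps : ℝ) / p.Z) ((p.eta : ℝ) / p.Z)
      (if T ≤ σ then ev p.Z sp.th T else ev p.Z sn.th T)
      (if T ≤ σ then sp.ph p.Z T (σ - T) else sn.ph p.Z T (σ - T))
      (if T ≤ σ then ev p.Z sp.nu T else ev p.Z sn.nu T) T σ (X - X0 m T) := by
  have hB := table_sound hY hE0 hE hrows
  split_ifs with hc
  · exact chainTest_sound hY hE hcb hFp hZ hP (pos := true) (by simpa using hc) hp hB h1 h2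
  · exact chainTest_sound hY hE hcb hFn hZ hP (pos := false)
      (by simpa using (le_of_lt (not_le.1 hc))) hn hB h1 h2

end Vale.Agent.P237.Cal.CellGlue
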