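import Vale.Agent.P237.Cal.Windows
import Vale.Agent.P237.Cal.CellGlue
import Vale.Agent.P237.Cal.SignGrid

/-!
# P237: from checked tables to a box calibration

A box of `(q, η)`: four vertex families over one denominator, the two sides, the bounds of the box
(`Y₁ = √(1 + η₁)`, `Q₁`, the bound of the centred state) and the scalar test. The vertex condition
is asked in three ranges of `T`: the first cell, the checked chain and the tail.
-/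

open Set Real

namespace Vale.Agent.P237.Cal.BoxHand

open AtomCert CellCert FamAtoms StateTable MomQ BoxScalar Windows

/-- All weights are nonnegative. -/
def wPos (l : List Atom) : Bool := l.all fun x => decide (0 ≤ x.1)

/-- All weights are nonpositive. -/
def wNeg (l : List Atom) : Bool := l.all fun x => decide (x.1 ≤ 0)

/-- Nonnegative: by the signs of the weights or on the grid. -/
def posOk (l : List Atom) : Bool := wPos l || SignGrid.gridPos l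

/-- Nonpositive: by the signs of the weights or on the grid. -/
def negOk (l : List Atom) : Bool := wNeg l || SignGrid.gridPos (scale (-1) l)

/-- The signs of the multipliers. -/
def signTest (sn sp : Side) : Bool :=
  posOk sn.th && posOk sp.th && posOk sn.nu && posOk sp.nu && negOk sn.ph1 && posOk sn.ph2 &&
    posOk sp.ph1 && posOk sp.ph2

lemma eval_nonneg {T : ℝ} (hT : 0 ≤ T) : ∀ {l : List Atom}, wPos l = true → 0 ≤ eval l T
  | [], _ => le_refl _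
  | (w, i, j) :: l, h => by
    simp only [wPos, List.all_cons, Bool.and_eq_true, decide_eq_true_eq] at h
    have ih : 0 ≤ eval l T := eval_nonneg hT (l := l) h.2
    have hw : (0 : ℝ) ≤ (w : ℝ) := by exact_mod_cast h.1
    have hc : 0 ≤ cW T := by unfold cW; positivity
    simp only [eval]
    positivity

lemma eval_nonpos {T : ℝ} (hT : 0 ≤ T) : ∀ {l : List Atom}, wNeg l = true → eval l T ≤ 0
  | [], _ => le_refl _
  | (w, i, j) :: l, h => by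
    simp only [wNeg, List.all_cons, Bool.and_eq_true, decide_eq_true_eq] at h
    have ih : eval l T ≤ 0 := eval_nonpos hT (l := l) h.2
    have hw : (w : ℝ) ≤ 0 := by exact_mod_cast h.1
    have hc : 0 ≤ cW T := by unfold cW; positivity
    simp only [eval]
    nlinarith [mul_nonpos_of_nonpos_of_nonneg hw (by positivity : 0 ≤ T ^ i * cW T ^ j)]

lemma eval_posOk {T : ℝ} (hT : 0 < T) {l : List Atom} (h : posOk l = true) : 0 ≤ eval l T :=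
  (Bool.or_eq_true_iff.1 h).elim (eval_nonneg hT.le) fun h => SignGrid.gridPos_nonneg h hT

lemma eval_negOk {T : ℝ} (hT : 0 < T) {l : List Atom} (h : negOk l = true) : eval l T ≤ 0 :=
  (Bool.or_eq_true_iff.1 h).elim (eval_nonpos hT.le) fun h => by
    have h' := SignGrid.gridPos_nonneg h hT
    rw [eval_scale] at h'
    push_cast at h'
    linarith

lemma eval_app : ∀ (l r : List Atom) (T : ℝ), eval (l ++ r) T = eval l T + eval r T
  | [], r, T => by simp [eval]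
  | (w, i, j) :: l, r, T => by simp only [List.cons_append, eval, eval_app l r T]; ring

/-- The vertex condition of a family on the box region for `T` with a given property. -/
def VxOn (m : ℕ) (p : APar) (sn sp : Side) (Y₁ Q₁ V₁ : ℝ) (P : ℝ → Prop) : Prop :=
  ∀ T σ X, BoxPt m Y₁ Q₁ V₁ T σ X → P T →
    VxOk m (p.fam.at T) ((p.eps : ℝ) / p.Z) ((p.eta : ℝ) / p.Z)
      (if T ≤ σ then ev p.Z sp.th T else ev p.Z sn.th T)
      (if T ≤ σ then sp.ph p.Z T (σ - T) else sn.ph p.Z T (σ - T))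
      (if T ≤ σ then ev p.Z sp.nu T else ev p.Z sn.nu T) T σ (X - X0 m T)

variable {m : ℕ} {p : APar} {sn sp : Side} {Y₁ Q₁ V₁ : ℝ}

/-- The first cell, the chain and the tail make up the region. -/
theorem vxOn_all {a b : ℝ} (h0 : VxOn m p sn sp Y₁ Q₁ V₁ fun T => T ≤ a)
    (h1 : VxOn m p sn sp Y₁ Q₁ V₁ fun T => a < T ∧ T ≤ b)
    (h2 : VxOn m p sn sp Y₁ Q₁ V₁ fun T => b < T) : VxOn m p sn sp Y₁ Q₁ V₁ fun _ => True :=
  fun T σ X hP _ => (le_or_gt T a).elim (h0 T σ X hP) fun ha =>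
    (le_or_gt T b).elim (fun hb => h1 T σ X hP ⟨ha, hb⟩) (h2 T σ X hP)

/-- The checked chains give the middle range. -/
theorem vxOn_of_chains {P E0 E : ℕ} {cb : ℤ} {B : List (ℕ × ℕ)} {a : Row} {l : List Row}
    {csn csp : List Cell} {Fn Fp : VFam} (hY : 1 ≤ Y₁) (hE0 : (E0 : ℝ) / 2 ^ 40 ≤ Y₁ ^ 2 - 1)
    (hE : Y₁ ^ 2 - 1 ≤ (E : ℝ) / 2 ^ 40)
    (hcb : Q₁ * semiMom m 1 - semiMom m 1 / Y₁ ^ (m + 1) ≤ (cb : ℝ) / 2 ^ 32)
    (hrows : tableOk m E0 E (a :: l) = true)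
    (hFn : vfam B m p sn = some Fn) (hFp : vfam B m p sp = some Fp) (hZ : 0 < p.Z)
    (hn : CellGlue.chainTest false P E cb B Fn (a :: l) csn = true)
    (hp : CellGlue.chainTest true P E cb B Fp (a :: l) csp = true) :
    VxOn m p sn sp Y₁ Q₁ V₁ fun T => a.T < T ∧ T ≤ ((a :: l).getLast (by simp)).T :=
  fun _ _ _ hP hT => CellGlue.vxOk_of_chains hY hE0 hE hcb hrows hFn hFp hZ hn hp hP hT.1 hT.2

/-- The test of the bounds of a box. -/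
def boundsTest (m : ℕ) (B : SBox) (p q r : APar) (E0 E : ℕ) (cb : ℤ) (Q₁ yk : ℚ) : Bool :=
  let e0 : ℚ := (p.eps : ℚ) / p.Z
  let e1 : ℚ := (q.eps : ℚ) / q.Z
  let f0 : ℚ := (p.eta : ℚ) / p.Z
  let f1 : ℚ := (r.eta : ℚ) / r.Z
  let lo : ℚ := (enc (mom0 (m + 4))).1
  let hi : ℚ := (enc (mom0 (m + 4))).2
  decide (0 ≤ e0) && decide (0 ≤ e1) && decide (0 ≤ f0) && decide (f0 ≤ f1) && decide (0 ≤ B.q0) &&
    decide ((e0 * (1 + f1)) ^ (m + 2) ≤ B.q0 ^ 2 * B.om ^ (m + 2)) &&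
    decide (B.q1 ^ 2 * B.om ^ (m + 2) ≤ (e1 * (1 + f0)) ^ (m + 2)) &&
    decide ((E0 : ℚ) ≤ f1 * 2 ^ 40) && decide (f1 * 2 ^ 40 ≤ (E : ℚ)) && decide (0 ≤ Q₁) &&
    (decide (B.q1 ^ 2 ≤ Q₁ ^ 2 * (1 + f0) ^ (m + 1)) || (decide (0 < lo) &&
      decide (((enc (mom0 (m + 3))).2 / lo) ^ (m + 1) ≤ Q₁))) &&
    decide (0 < yk) && decide ((1 + f1) ^ (m + 1) ≤ yk ^ 2) &&
    decide ((Q₁ - 1 / yk) * hi * 2 ^ 32 ≤ (cb : ℚ)) &&
    decide ((Q₁ - 1 / yk) * lo * 2 ^ 32 ≤ (cb : ℚ))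

/-- The upper end of the central value on a box. -/
noncomputable def Ytop (r : APar) : ℝ := √(1 + (r.eta : ℝ) / r.Z)

theorem boundsTest_sound {B : SBox} {p q r : APar} {E0 E : ℕ} {cb : ℤ} {Q₁ yk : ℚ}
    (h : boundsTest m B p q r E0 E cb Q₁ yk = true) :
    1 ≤ Ytop r ∧ (E0 : ℝ) / 2 ^ 40 ≤ Ytop r ^ 2 - 1 ∧ Ytop r ^ 2 - 1 ≤ (E : ℝ) / 2 ^ 40 ∧
      (Q₁ : ℝ) * semiMom m 1 - semiMom m 1 / Ytop r ^ (m + 1) ≤ (cb : ℝ) / 2 ^ 32 ∧
      ∀ V ρ Y : ℝ, 0 ≤ V → 0 < ρ →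
        Statement.ballVol (m + 2) * ρ ^ (m + 2) = 2 * Statement.ballVol (m + 1) * V →
        (B.q0 : ℝ) ≤ V / semiMom m 1 → V / semiMom m 1 ≤ (B.q1 : ℝ) → 1 ≤ Y →
        (p.eta : ℝ) / p.Z ≤ Y ^ 2 - 1 → Y ^ 2 - 1 ≤ (r.eta : ℝ) / r.Z →
        V ≤ rr (m + 1) ^ (m + 1) * Y ^ (m + 1) * semiMom m 1 → 0 ≤ (B.om : ℝ) →
        Y ≤ Ytop r ∧ V / (Y ^ (m + 1) * semiMom m 1) ≤ (Q₁ : ℝ) ∧
        (B.om : ℝ) * ρ ^ 2 / Y ^ 2 ∈ Icc ((p.eps : ℝ) / p.Z) ((q.eps : ℝ) / q.Z) := by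
  simp only [boundsTest, Bool.and_eq_true, Bool.or_eq_true, decide_eq_true_eq] at h
  obtain ⟨⟨⟨⟨⟨⟨⟨⟨⟨⟨⟨⟨⟨⟨he0, he1⟩, hf0⟩, hf⟩, hq0⟩, hel⟩, heh⟩, hE0⟩, hE⟩, hQ0⟩, hQ⟩, hyk⟩, hykf⟩,
    hch⟩, hcl⟩ := h
  replace he0 := (Rat.cast_le (K := ℝ)).2 he0
  replace he1 := (Rat.cast_le (K := ℝ)).2 he1
  replace hf0 := (Rat.cast_le (K := ℝ)).2 hf0
  replace hf := (Rat.cast_le (K := ℝ)).2 hf
  replace hq0 := (Rat.cast_le (K := ℝ)).2 hq0
  replace hel := (Rat.cast_le (K := ℝ)).2 hel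
  replace heh := (Rat.cast_le (K := ℝ)).2 heh
  replace hE0 := (Rat.cast_le (K := ℝ)).2 hE0
  replace hE := (Rat.cast_le (K := ℝ)).2 hE
  replace hQ0 := (Rat.cast_le (K := ℝ)).2 hQ0
  replace hyk := (Rat.cast_lt (K := ℝ)).2 hyk
  replace hykf := (Rat.cast_le (K := ℝ)).2 hykf
  replace hch := (Rat.cast_le (K := ℝ)).2 hch
  replace hcl := (Rat.cast_le (K := ℝ)).2 hcl
  push_cast at he0 he1 hf0 hf hq0 hel heh hE0 hE hQ0 hyk hykf hch hcl
  set f0 : ℝ := (p.eta : ℝ) / p.Z with hf0d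
  set f1 : ℝ := (r.eta : ℝ) / r.Z with hf1d
  have hv := V0_pos m
  obtain ⟨hlo, hhi⟩ := V0_bounds m
  have hY1 : 1 ≤ Ytop r := one_le_sqrt.2 (by linarith)
  have hY2 : Ytop r ^ 2 = 1 + f1 := sq_sqrt (by linarith)
  refine ⟨hY1, ?_, ?_, ?_, ?_⟩
  · rw [hY2, div_le_iff₀ (by positivity)]; linarith
  · rw [hY2, le_div_iff₀ (by positivity)]; linarith
  · have hp : Ytop r ^ (m + 1) ≤ (yk : ℝ) := by
      refine (pow_le_pow_iff_left₀ (by positivity) hyk.le two_ne_zero).1 ?_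
      rwa [← pow_mul, mul_comm, pow_mul, hY2]
    have h1 : 1 / (yk : ℝ) ≤ 1 / Ytop r ^ (m + 1) := one_div_le_one_div_of_le (by positivity) hp
    rw [le_div_iff₀ (by positivity)]
    have h2 := mul_le_mul_of_nonneg_left h1 hv.le
    rcases le_total 0 ((Q₁ : ℝ) - 1 / yk) with hs | hs
    · have := mul_le_mul_of_nonneg_left hhi hs
      rw [div_eq_mul_one_div (semiMom m 1) (Ytop r ^ (m + 1))]
      nlinarith
    · have := mul_le_mul_of_nonpos_left hlo hs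
      rw [div_eq_mul_one_div (semiMom m 1) (Ytop r ^ (m + 1))]
      nlinarith
  intro V ρ Y hV hρ hb hq hq' hY h0 h1 hR hom
  have hY0 : 0 < Y := by linarith
  have hn : (m + 2 : ℕ) ≠ 0 := by omega
  refine ⟨le_sqrt_of_sq_le (by linarith), ?_, ?_, ?_⟩
  · rw [div_le_iff₀ (by positivity)]
    rcases hQ with hQ | hQ
    · replace hQ := (Rat.cast_le (K := ℝ)).2 hQ
      push_cast at hQ
      rw [← hf0d] at hQ
      have h2 : (B.q1 : ℝ) ≤ (Q₁ : ℝ) * Y ^ (m + 1) := by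
        refine (pow_le_pow_iff_left₀ (le_trans (div_nonneg hV hv.le) hq') (by positivity)
          two_ne_zero).1 (hQ.trans ?_)
        rw [mul_pow, ← pow_mul, mul_comm (m + 1) 2, pow_mul]
        gcongr
        linarith
      rw [← mul_assoc]
      refine le_trans ?_ (mul_le_mul_of_nonneg_right h2 hv.le)
      rwa [← div_le_iff₀ hv]
    · obtain ⟨h0', hQ⟩ := hQ
      replace h0' := (Rat.cast_lt (K := ℝ)).2 h0'
      replace hQ := (Rat.cast_le (K := ℝ)).2 hQ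
      push_cast at h0' hQ
      have hr : rr (m + 1) ≤ ((enc (mom0 (m + 3))).2 : ℝ) / ((enc (mom0 (m + 4))).1 : ℝ) := by
        rw [rr, show m + 1 + 2 = m + 3 from rfl, show m + 1 + 3 = m + 4 from rfl, ← semiMom_one]
        have := (enc_le (mom0 (m + 3))).2
        rw [← mom0_sound _ (by omega)] at this
        exact div_le_div₀ ((mom_zero_pos (m + 1)).le.trans this) this h0' hlo
      have hr0 : 0 < rr (m + 1) := div_pos (mom_zero_pos _) (mom_zero_pos _)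
      rw [← mul_assoc]
      exact hR.trans (mul_le_mul_of_nonneg_right (mul_le_mul_of_nonneg_right
        ((pow_le_pow_left₀ hr0.le hr _).trans hQ) (by positivity)) hv.le)
  all_goals
    have e : (ρ ^ 2) ^ (m + 2) = (V / semiMom m 1) ^ 2 := by
      rw [← pow_mul, mul_comm, pow_mul, rho_pow hb]
  · refine (pow_le_pow_iff_left₀ he0 (by positivity) hn).1 ?_
    rw [div_pow ((B.om : ℝ) * ρ ^ 2), le_div_iff₀ (by positivity), mul_pow, e]
    refine le_trans ?_ (le_trans hel ?_)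
    · rw [← mul_pow]
      gcongr
      linarith
    · rw [mul_comm ((B.om : ℝ) ^ (m + 2))]
      gcongr
  · refine (pow_le_pow_iff_left₀ (by positivity) he1 hn).1 ?_
    rw [div_pow ((B.om : ℝ) * ρ ^ 2), div_le_iff₀ (by positivity), mul_pow, e]
    refine le_trans ?_ (le_trans heh ?_)
    · rw [mul_comm ((B.om : ℝ) ^ (m + 2))]
      gcongr
    · rw [← mul_pow]
      gcongr
      linarith

/-- The upper end of `V - V₀` on a box. -/
noncomputable def vTop (m : ℕ) (B : SBox) : ℝ := ((B.q1 : ℝ) - 1) * semiMom m 1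

/-- The full test of a box, apart from the vertex conditions. -/
def boxTest (m : ℕ) (B : SBox) (p q r s : APar) (sn sp : Side) (E0 E : ℕ) (cb : ℤ) (Q₁ yk : ℚ) :
    Bool :=
  signTest sn sp && decide (q.Z = p.Z) && decide (r.Z = p.Z) && decide (s.Z = p.Z) &&
    boundsTest m B p q r E0 E cb Q₁ yk && scalarTest m B p q r s (sn.nu ++ sp.nu) p.Z

/-- **A tested box with the vertex conditions is a `BoxCalY`.** -/
theorem boxCalY_of_test (hm : 1 ≤ m) {B : SBox} {p q r s : APar} {E0 E : ℕ} {cb : ℤ} {Q₁ yk : ℚ}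
    (h : boxTest m B p q r s sn sp E0 E cb Q₁ yk = true)
    (hp : VxOn m p sn sp (Ytop r) Q₁ (vTop m B) fun _ => True) (hq : VxOn m q sn sp (Ytop r) Q₁ (vTop m B) fun _ => True)
    (hr : VxOn m r sn sp (Ytop r) Q₁ (vTop m B) fun _ => True) (hs : VxOn m s sn sp (Ytop r) Q₁ (vTop m B) fun _ => True) :
    BoxCalY m B.om B.q0 B.q1 ((p.eta : ℚ) / p.Z) ((r.eta : ℚ) / r.Z) := by
  simp only [boxTest, Bool.and_eq_true, decide_eq_true_eq] at h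
  obtain ⟨⟨⟨⟨⟨hsg, hqZ⟩, hrZ⟩, hsZ⟩, hbd⟩, ht⟩ := h
  simp only [signTest, Bool.and_eq_true] at hsg
  obtain ⟨⟨⟨⟨⟨⟨⟨t0, t1⟩, u0⟩, u1⟩, a1⟩, a2⟩, b1⟩, b2⟩ := hsg
  obtain ⟨-, -, -, -, hb⟩ := boundsTest_sound hbd
  intro V ρ Y hV hρ hball h0 h1 hY hf0 hf1 hR
  push_cast at hf0 hf1
  have hom : (0 : ℝ) ≤ (B.om : ℝ) := by unfold SBox.om; push_cast; positivity
  obtain ⟨hY₁, hQ₁, hε⟩ := hb V ρ Y hV hρ hball h0 h1 hY hf0 hf1 hR hom
  have hev : ∀ {l : List Atom} {T : ℝ}, posOk l = true → 0 < T → 0 ≤ ev p.Z l T := fun hl hT =>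
    div_nonneg (eval_posOk hT hl) (Nat.cast_nonneg _)
  have hev' : ∀ {l : List Atom} {T : ℝ}, negOk l = true → 0 < T → ev p.Z l T ≤ 0 := fun hl hT =>
    div_nonpos_of_nonpos_of_nonneg (eval_negOk hT hl) (Nat.cast_nonneg _)
  refine isCalY_of_scalarTest hm ht hV hρ hball ⟨h0, h1⟩ hY hY₁ hQ₁ (V₁ := vTop m B) (by
      rw [div_le_iff₀ (V0_pos m)] at h1; unfold vTop; linarith) hε ⟨hf0, hf1⟩
    (th := fun T σ => if T ≤ σ then ev p.Z sp.th T else ev p.Z sn.th T)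
    (ph := fun T σ => if T ≤ σ then sp.ph p.Z T (σ - T) else sn.ph p.Z T (σ - T))
    (nu' := fun T σ => if T ≤ σ then ev p.Z sp.nu T else ev p.Z sn.nu T)
    (fun T σ hT _ => ?_) (fun T σ hT _ => ?_) (fun T σ hT _ => ?_)
    (fun T σ X hX => hp T σ X hX trivial) (fun T σ X hX => ?_) (fun T σ X hX => ?_)
    (fun T σ X hX => ?_)
  · split_ifs
    exacts [hev t1 hT, hev t0 hT]
  · simp only [Side.ph]
    split_ifs with hc
    · have := hev b1 hT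
      have := hev b2 hT
      have : (0 : ℝ) ≤ σ - T := by linarith
      positivity
    · have k1 := mul_nonneg_of_nonpos_of_nonpos (hev' a1 hT) (by linarith : σ - T ≤ 0)
      have k2 := mul_nonneg (hev a2 hT) (sq_nonneg (σ - T))
      linarith
  · have k0 := hev u0 hT
    have k1 := hev u1 hT
    simp only [ev, eval_app, add_div]
    simp only [ev] at k0 k1
    split_ifs <;> constructor <;> linarith
  · have := hq T σ X hX trivial; simpa only [hqZ] using this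
  · have := hr T σ X hX trivial; simpa only [hrZ] using this
  · have := hs T σ X hX trivial; simpa only [hsZ] using this

/-- `cv` bounds `n Q₁ V₀`. -/
def crudeTest (m : ℕ) (Q₁ : ℚ) (cv : ℕ) : Bool :=
  decide (0 ≤ Q₁) && decide (((m : ℚ) + 2) * Q₁ * (enc (mom0 (m + 4))).2 * 2 ^ 32 ≤ (cv : ℚ))

/-- `∑ cl^j 2^(32 (n - j))` over `1 ≤ j ≤ n`. -/
def crS (cl : ℕ) : ℕ → ℕ
  | 0 => 0
  | n + 1 => 2 ^ 32 * crS cl n + cl ^ (n + 1)

/-- The crude bound of `σ` up to the node `b` is at most `x`. -/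
def crudeOk (m cv : ℕ) (b : Node) (x : ℤ) : Bool :=
  decide (0 < crS b.2.1 (m + 2)) &&
    decide (((cv * 2 ^ (32 * (m + 2)) : ℕ) : ℤ) ≤ x * (crS b.2.1 (m + 2) : ℕ))

lemma crS_eq (cl : ℕ) : ∀ n, (crS cl n : ℝ) / 2 ^ (32 * n) =
    ∑ j ∈ Finset.range n, ((cl : ℝ) / 2 ^ 32) ^ (j + 1)
  | 0 => by simp [crS]
  | n + 1 => by
    rw [Finset.sum_range_succ, ← crS_eq cl n]
    simp only [crS]
    push_cast
    rw [show 32 * (n + 1) = 32 * n + 32 from rfl, pow_add (2 : ℝ), div_pow, ← pow_mul (2 : ℝ),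
      show 32 * (n + 1) = 32 * n + 32 from rfl, pow_add (2 : ℝ)]
    field_simp
    ring

lemma crude_sum {σ u c C : ℝ} {n : ℕ} (hu0 : 0 < u) (hu1 : u < 1)
    (h : σ * (1 - u ^ n) ≤ c * (1 / u - 1) * C) :
    σ * ∑ j ∈ Finset.range n, u ^ (j + 1) ≤ c * C := by
  refine le_of_mul_le_mul_right ?_ (sub_pos.2 hu1)
  calc σ * (∑ j ∈ Finset.range n, u ^ (j + 1)) * (1 - u) = u * (σ * (1 - u ^ n)) := by
        rw [← geom_sum_mul_neg u n]; simp only [pow_succ, ← Finset.sum_mul]; ring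
    _ ≤ u * (c * (1 / u - 1) * C) := mul_le_mul_of_nonneg_left h hu0.le
    _ = _ := by field_simp

lemma crude_fin {σ S P L cv x G : ℝ} (hσ : 0 ≤ σ) (hS : 0 < S) (hP : 0 < P) (hL : 0 < L)
    (h : σ * G ≤ cv / L) (hG : S / P ≤ G) (hx : cv * P ≤ x * S) : σ ≤ x / L := by
  have h3 := (mul_le_mul_of_nonneg_left hG hσ).trans h
  rw [← mul_div_assoc, div_le_div_iff₀ hP hL] at h3
  rw [le_div_iff₀ hL]
  refine le_of_mul_le_mul_right ?_ hS
  linarith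

theorem crude_le {Q₁ : ℚ} {cv : ℕ} {b : Node} {x : ℤ} {Y₁ V₁ T σ X : ℝ}
    (hcv : crudeTest m Q₁ cv = true) (hb : nodeTest b = true) (h : crudeOk m cv b x = true)
    (hP : BoxPt m Y₁ Q₁ V₁ T σ X) (hT : T ≤ nodeT b) : σ ≤ (x : ℝ) / 2 ^ 32 := by
  have hu1 : cW T < 1 := inv_lt_one_of_one_lt₀ (by
    rw [lt_sqrt zero_le_one, one_pow]; exact lt_add_of_pos_right 1 (pow_pos hP.T_pos 2))
  simp only [crudeTest, Bool.and_eq_true, decide_eq_true_eq] at hcv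
  simp only [crudeOk, Bool.and_eq_true, decide_eq_true_eq] at h
  have hQ0 : (0 : ℝ) ≤ (Q₁ : ℝ) := by exact_mod_cast hcv.1
  have hcv' := (Rat.cast_le (K := ℝ)).2 hcv.2
  push_cast at hcv'
  have hS : (0 : ℝ) < (crS b.2.1 (m + 2) : ℝ) := by exact_mod_cast h.1
  have hx : (((cv * 2 ^ (32 * (m + 2)) : ℕ) : ℤ) : ℝ) ≤ ((x * (crS b.2.1 (m + 2) : ℕ) : ℤ) : ℝ) :=
    Int.cast_le.2 h.2
  push_cast at hx
  have hT0 := hP.T_pos
  have hu : (b.2.1 : ℝ) / 2 ^ 32 ≤ cW T :=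
    (nodeTest_sound hb).1.trans (cW_anti hT0.le hT)
  have hu0 := cW_pos T
  have hc := hP.crude
  have hC : ((m : ℝ) + 2) * ((Q₁ : ℝ) * semiMom m 1) ≤ (cv : ℝ) / 2 ^ 32 := by
    rw [le_div_iff₀ (by positivity)]
    calc ((m : ℝ) + 2) * ((Q₁ : ℝ) * semiMom m 1) * 2 ^ 32
        = ((m : ℝ) + 2) * (Q₁ : ℝ) * semiMom m 1 * 2 ^ 32 := by ring
      _ ≤ ((m : ℝ) + 2) * (Q₁ : ℝ) * ((enc (mom0 (m + 4))).2 : ℝ) * 2 ^ 32 := by
          have h0 : (0 : ℝ) ≤ ((m : ℝ) + 2) * (Q₁ : ℝ) := mul_nonneg (by positivity) hQ0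
          exact mul_le_mul_of_nonneg_right (mul_le_mul_of_nonneg_left (V0_bounds m).2 h0)
            (by positivity)
      _ ≤ (cv : ℝ) := hcv'
  have eW : √(1 + T ^ 2) = 1 / cW T := w_eq T
  rw [eW, one_div_pow, one_div, inv_inv] at hc
  exact crude_fin hP.σ_pos.le hS (pow_pos two_pos _) (pow_pos two_pos _)
    ((crude_sum hu0 hu1 hc).trans hC)
    ((crS_eq b.2.1 (m + 2)).trans_le (Finset.sum_le_sum fun j _ =>
      pow_le_pow_left₀ (by positivity) hu _)) hx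

/-- `bv` bounds `V - V₀` on the box. -/
def bumpTest (m : ℕ) (B : SBox) (bv : ℕ) : Bool :=
  decide (1 ≤ B.q1) && decide ((B.q1 - 1) * (enc (mom0 (m + 4))).2 * 2 ^ 32 ≤ (bv : ℚ))

theorem bumpTest_sound {B : SBox} {bv : ℕ} (h : bumpTest m B bv = true) :
    vTop m B ≤ (bv : ℝ) / 2 ^ 32 := by
  simp only [bumpTest, Bool.and_eq_true, decide_eq_true_eq] at h
  have h1 : (1 : ℝ) ≤ (B.q1 : ℝ) := by exact_mod_cast h.1
  have h2 := (Rat.cast_le (K := ℝ)).2 h.2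
  push_cast at h2
  rw [le_div_iff₀ (by positivity), vTop]
  exact le_trans (mul_le_mul_of_nonneg_right
    (mul_le_mul_of_nonneg_left (V0_bounds m).2 (sub_nonneg.2 h1)) (by positivity)) h2

/-- The bump at the lowest point of the row pair exceeds `bv`: `D ≤ h` on the pair. The witnesses
are an upper bound `s1` of `σ`, a lower bound `qd` of `√(σ² - T²)` and `be` of the height. -/
def bumpOk (m cv bv : ℕ) (a b : Node) (h : ℤ) (s1 qd be : ℕ) : Bool :=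
  let U : ℚ := (h : ℚ) / 2 ^ 32
  let Ta : ℚ := (a.1 : ℚ) / 2 ^ 20
  let S : ℚ := (s1 : ℚ) / 2 ^ 32
  let d : ℚ := (qd : ℚ) / 2 ^ 32
  let z : ℚ := d * ((Ta + U) * d + 2 ^ 32 / (a.2.2 : ℚ)) / (2 ^ 32 / (b.2.1 : ℚ) * (1 + S ^ 2))
  nodeTest a && nodeTest b && decide (0 < b.2.1) && decide (0 ≤ h) &&
    (crudeOk m cv b s1 || decide (2 ^ 64 ≤ s1 * b.2.1)) &&
    decide (be ^ 2 * 2 ^ 64 + (s1 * a.2.2) ^ 2 ≤ 2 ^ 128) &&
    decide ((qd : ℤ) ^ 2 ≤ 2 * (a.1 : ℤ) * 2 ^ 12 * h + h ^ 2) &&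
    decide ((bv : ℚ) / 2 ^ 32 < ((m : ℚ) + 1) * ((be : ℚ) / 2 ^ 32) ^ m * (z ^ 3 / 6))

lemma bump_core {T₀ w₀ w₁ U σ₁ tt β qd V₁ T σ : ℝ}
    (hb : T ≤ σ → ((m : ℝ) + 1) * √(1 - (σ / √(1 + T ^ 2)) ^ 2) ^ m * (tanGap T σ ^ 3 / 6) ≤ V₁)
    (hT : 0 < T) (hT₀ : 0 ≤ T₀) (hT₀T : T₀ ≤ T) (hw₀ : 0 ≤ w₀) (hw₀T : w₀ ≤ √(1 + T ^ 2))
    (hw₁ : √(1 + T ^ 2) ≤ w₁) (hU : 0 ≤ U) (hσ₁ : σ ≤ σ₁) (htt : σ / √(1 + T ^ 2) ≤ tt)
    (hβ0 : 0 ≤ β) (hβ : β ^ 2 + tt ^ 2 ≤ 1) (hqd : 0 ≤ qd) (hqd2 : qd ^ 2 ≤ 2 * T₀ * U + U ^ 2)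
    (hbig : V₁ < ((m : ℝ) + 1) * β ^ m *
      ((qd * ((T₀ + U) * qd + w₀) / (w₁ * (1 + σ₁ ^ 2))) ^ 3 / 6)) :
    σ - T ≤ U := by
  by_contra hc
  push Not at hc
  have hTU : T + U ≤ σ := by linarith
  have hσ : 0 < σ := by linarith
  have hw1 : 0 < w₁ := (w_pos T).trans_le hw₁
  refine absurd (lt_of_lt_of_le hbig ?_) (lt_irrefl _)
  refine le_trans ?_ (hb (by linarith))
  refine mul_le_mul (mul_le_mul_of_nonneg_left (pow_le_pow_left₀ hβ0 ?_ _) (by positivity))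
    (div_le_div_of_nonneg_right (pow_le_pow_left₀ (by positivity) ?_ 3) (by norm_num))
    (by positivity) (by positivity)
  · refine (le_sqrt hβ0 ?_).2 ?_
    · nlinarith [pow_le_pow_left₀ (div_nonneg hσ.le (w_pos T).le) htt 2]
    · linarith [pow_le_pow_left₀ (div_nonneg hσ.le (w_pos T).le) htt 2]
  · refine le_trans ?_ (tanGap_ge hT hTU hU hσ₁)
    have hD : qd ≤ √((T + U) ^ 2 - T ^ 2) := by
      refine le_sqrt_of_sq_le (hqd2.trans ?_)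
      nlinarith [mul_le_mul_of_nonneg_right hT₀T hU]
    gcongr

lemma bump_scale {be s c L : ℝ} (hL : 0 < L) (h : be ^ 2 * L ^ 2 + (s * c) ^ 2 ≤ L ^ 4) :
    (be / L) ^ 2 + (s / L * (c / L)) ^ 2 ≤ 1 := by
  rw [show (be / L) ^ 2 + (s / L * (c / L)) ^ 2 = (be ^ 2 * L ^ 2 + (s * c) ^ 2) / L ^ 4 by
    field_simp]
  exact (div_le_one (by positivity)).2 h

lemma qd_scale {qd t h K L : ℝ} (hK : 0 < K) (hL : 0 < L)
    (e : qd ^ 2 * K ≤ 2 * t * L * h + h ^ 2 * K) :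
    (qd / L) ^ 2 ≤ 2 * (t / K) * (h / L) + (h / L) ^ 2 := by
  rw [show 2 * (t / K) * (h / L) + (h / L) ^ 2 = (2 * t * L * h + h ^ 2 * K) / (K * L ^ 2) by
    field_simp, div_pow, div_le_div_iff₀ (pow_pos hL 2) (by positivity)]
  nlinarith [mul_le_mul_of_nonneg_right e (sq_nonneg L)]

theorem bump_le {Q₁ : ℚ} {cv bv : ℕ} {a b : Node} {h : ℤ} {s1 qd be : ℕ} {Y₁ V₁ T σ X : ℝ}
    (hcv : crudeTest m Q₁ cv = true) (hbv : V₁ ≤ (bv : ℝ) / 2 ^ 32)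
    (hok : bumpOk m cv bv a b h s1 qd be = true) (hP : BoxPt m Y₁ Q₁ V₁ T σ X)
    (hT : T ∈ Icc (nodeT a) (nodeT b)) : σ - T ≤ (h : ℝ) / 2 ^ 32 := by
  simp only [bumpOk, Bool.and_eq_true, Bool.or_eq_true, decide_eq_true_eq] at hok
  obtain ⟨⟨⟨⟨⟨⟨⟨hna, hnb⟩, hbp⟩, hh⟩, hs⟩, hbe⟩, hqd⟩, hbig⟩ := hok
  have hT0 := hP.T_pos
  have hA0 : 0 ≤ nodeT a := by simp only [nodeT]; positivity
  have hwT := w_eq T
  have hc := cW_pos T
  have hclo : (b.2.1 : ℝ) / 2 ^ 32 ≤ cW T := (nodeTest_sound hnb).1.trans (cW_anti hT0.le hT.2)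
  have hchi : cW T ≤ (a.2.2 : ℝ) / 2 ^ 32 := (cW_anti hA0 hT.1).trans (nodeTest_sound hna).2
  have hbpos : (0 : ℝ) < (b.2.1 : ℝ) := by exact_mod_cast hbp
  have hapos : (0 : ℝ) < (a.2.2 : ℝ) := by
    have := hc.trans_le hchi
    exact (div_pos_iff_of_pos_right (by positivity)).1 this
  have hw1 : √(1 + T ^ 2) ≤ 2 ^ 32 / (b.2.1 : ℝ) := by
    rw [hwT, show (2 : ℝ) ^ 32 / (b.2.1 : ℝ) = 1 / ((b.2.1 : ℝ) / 2 ^ 32) by field_simp]
    exact one_div_le_one_div_of_le (div_pos hbpos (by positivity)) hclo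
  have hw0 : 2 ^ 32 / (a.2.2 : ℝ) ≤ √(1 + T ^ 2) := by
    rw [hwT, show (2 : ℝ) ^ 32 / (a.2.2 : ℝ) = 1 / ((a.2.2 : ℝ) / 2 ^ 32) by field_simp]
    exact one_div_le_one_div_of_le hc hchi
  have hσ : σ ≤ (s1 : ℝ) / 2 ^ 32 := by
    rcases hs with hs | hs
    · simpa using crude_le hcv hnb hs hP hT.2
    · refine (hP.σ_le.trans hw1).trans ?_
      rw [div_le_div_iff₀ hbpos (by positivity), ← pow_add]
      exact_mod_cast hs
  have htt : σ / √(1 + T ^ 2) ≤ (s1 : ℝ) / 2 ^ 32 * ((a.2.2 : ℝ) / 2 ^ 32) := by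
    rw [hwT, div_div_eq_mul_div, div_one]
    exact mul_le_mul hσ hchi hc.le (by positivity)
  have hbig' := (Rat.cast_lt (K := ℝ)).2 hbig
  push_cast at hbig'
  have hbe' : ((be ^ 2 * 2 ^ 64 + (s1 * a.2.2) ^ 2 : ℕ) : ℝ) ≤ ((2 ^ 128 : ℕ) : ℝ) :=
    Nat.cast_le.2 hbe
  have hqd' := (Int.cast_le (R := ℝ)).2 hqd
  push_cast at hbe' hqd'
  have hh' : (0 : ℝ) ≤ (h : ℝ) := by exact_mod_cast hh
  refine bump_core hP.bump hT0 hA0 hT.1 (div_nonneg (by positivity) hapos.le) hw0 hw1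
    (div_nonneg hh' (by positivity)) hσ htt (by positivity)
    (bump_scale (by positivity) (le_trans (le_of_eq ?_) (hbe'.trans (le_of_eq ?_))))
    (qd := (qd : ℝ) / 2 ^ 32) (by positivity)
    (qd_scale (by positivity) (by positivity) ?_) (lt_of_le_of_lt hbv hbig')
  · norm_num
  · norm_num
  · calc (qd : ℝ) ^ 2 * 2 ^ 20 ≤ (2 * (a.1 : ℝ) * 2 ^ 12 * h + (h : ℝ) ^ 2) * 2 ^ 20 :=
          mul_le_mul_of_nonneg_right (hqd'.trans_eq (by norm_num)) (by positivity)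
      _ = _ := by ring

/-- `D ≤ h` on the row pair lowers the top `hi` of the centred state to `x1`, since
`X ≤ (σ/W) (1 - W^(-(m+1)))`. -/
def sigTest (m : ℕ) (a b : Node) (h hi x1 : ℤ) : Bool :=
  let S : ℤ := (b.1 : ℤ) * 2 ^ 12 * (b.2.2 : ℤ) + h * (a.2.2 : ℤ)
  nodeTest a && nodeTest b && decide (0 ≤ h) && decide (S ≤ 2 ^ 64) &&
    decide (a.2.2 ≤ 2 ^ 32) &&
    decide ((hi - x1) * 2 ^ 32 * 2 ^ (32 * (m + 1)) ≤
      (2 ^ 64 - S) * (2 ^ (32 * (m + 1)) - (a.2.2 : ℤ) ^ (m + 1)))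

lemma sig_scale {P cu d hi x1 S L : ℝ} (hL : 0 < L) (hP : 0 < P)
    (h : (hi - x1) * L * P ≤ (L * L - S) * (P - cu)) (hd : d = (1 - S / (L * L)) * (1 - cu / P)) :
    (hi - x1) / L ≤ d := by
  rw [hd, one_sub_div (by positivity), one_sub_div hP.ne', div_mul_div_comm,
    div_le_div_iff₀ hL (by positivity)]
  linarith [mul_le_mul_of_nonneg_right h hL.le]

theorem sig_le {Y₁ Q₁ V₁ T σ X : ℝ} {a b : Node} {h hi x1 : ℤ}
    (hok : sigTest m a b h hi x1 = true) (hP : BoxPt m Y₁ Q₁ V₁ T σ X)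
    (hT : T ∈ Icc (nodeT a) (nodeT b)) (hD : σ - T ≤ (h : ℝ) / 2 ^ 32)
    (hr : 1 - (√(1 + T ^ 2) ^ (m + 1))⁻¹ - X0 m T ≤ (hi : ℝ) / 2 ^ 32) :
    X - X0 m T ≤ (x1 : ℝ) / 2 ^ 32 := by
  simp only [sigTest, Bool.and_eq_true, decide_eq_true_eq] at hok
  obtain ⟨⟨⟨⟨⟨hna, hnb⟩, hh⟩, hS⟩, hcu⟩, hmain⟩ := hok
  have hT0 := hP.T_pos
  have ha0 : 0 ≤ nodeT a := by simp only [nodeT]; positivity
  have hc := cW_pos T
  have hca : cW T ≤ (a.2.2 : ℝ) / 2 ^ 32 := (cW_anti ha0 hT.1).trans (nodeTest_sound hna).2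
  have hcu' : (a.2.2 : ℝ) / 2 ^ 32 ≤ 1 := by
    rw [div_le_one (by positivity)]; exact_mod_cast hcu
  have hTW : T * cW T ≤ nodeT b * cW (nodeT b) := by
    have hb0 : 0 ≤ nodeT b := hT0.le.trans hT.2
    refine (pow_le_pow_iff_left₀ (by positivity) (mul_nonneg hb0 (cW_pos _).le) two_ne_zero).1 ?_
    simp only [cW, mul_pow, inv_pow]
    rw [sq_sqrt (by positivity), sq_sqrt (by positivity), ← div_eq_mul_inv, ← div_eq_mul_inv,
      div_le_div_iff₀ (by positivity) (by positivity)]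
    nlinarith [pow_le_pow_left₀ hT0.le hT.2 2]
  have hh' : (0 : ℝ) ≤ (h : ℝ) / 2 ^ 32 := div_nonneg (by exact_mod_cast hh) (by positivity)
  have hσW : σ / √(1 + T ^ 2) ≤
      ((b.1 : ℝ) * 2 ^ 12 * (b.2.2 : ℝ) + (h : ℝ) * (a.2.2 : ℝ)) / 2 ^ 64 := by
    calc σ / √(1 + T ^ 2) = T * cW T + (σ - T) * cW T := by simp only [cW]; ring
      _ ≤ (b.1 : ℝ) / 2 ^ 20 * ((b.2.2 : ℝ) / 2 ^ 32) + (h : ℝ) / 2 ^ 32 * ((a.2.2 : ℝ) / 2 ^ 32) := by
          refine add_le_add (hTW.trans ?_) ?_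
          · exact mul_le_mul_of_nonneg_left (nodeTest_sound hnb).2 (by simp only [nodeT]; positivity)
          · exact (mul_le_mul_of_nonneg_right hD hc.le).trans (mul_le_mul_of_nonneg_left hca hh')
      _ = _ := by ring
  have hS' : ((b.1 : ℝ) * 2 ^ 12 * (b.2.2 : ℝ) + (h : ℝ) * (a.2.2 : ℝ)) / 2 ^ 64 ≤ 1 := by
    rw [div_le_one (by positivity)]; exact_mod_cast hS
  set R := (√(1 + T ^ 2) ^ (m + 1))⁻¹ with hR
  have eR : R = cW T ^ (m + 1) := by simp [hR, cW, inv_pow]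
  have hRu : R ≤ ((a.2.2 : ℝ) / 2 ^ 32) ^ (m + 1) := by rw [eR]; gcongr
  have hR1 : ((a.2.2 : ℝ) / 2 ^ 32) ^ (m + 1) ≤ 1 := pow_le_one₀ (by positivity) hcu'
  have key := mul_le_mul (sub_le_sub_left hσW 1) (sub_le_sub_left hRu 1) (by linarith)
    (by linarith)
  have hm' : (((hi - x1 : ℤ) : ℝ)) * 2 ^ 32 * 2 ^ (32 * (m + 1)) ≤
      (2 ^ 32 * 2 ^ 32 - ((b.1 : ℝ) * 2 ^ 12 * (b.2.2 : ℝ) + (h : ℝ) * (a.2.2 : ℝ))) *
        (2 ^ (32 * (m + 1)) - (a.2.2 : ℝ) ^ (m + 1)) := by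
    rw [← pow_add]; exact_mod_cast hmain
  push_cast at hm'
  have g := sig_scale (pow_pos two_pos _) (pow_pos two_pos _) hm' rfl
  rw [← pow_add, pow_mul (2 : ℝ) 32 (m + 1), ← div_pow] at g
  rw [sub_div] at g
  linarith [hP.X_sig]

end Vale.Agent.P237.Cal.BoxHand
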