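import Vale.Agent.P237.Cal.Moments
import Vale.Agent.P237.Cal.AtomCert

/-!
# P237: exact integrals of atom lists

`mom a m` is `q₁ + q₂ π` with computable rationals, so the integral of an atom list over `(0, ∞)`
is one too; `intLo` and `intHi` bound it from a rational enclosure of `π`.
-/

open MeasureTheory Set Real

namespace Vale.Agent.P237.Cal.MomQ

open AtomCert

/-- `mom 0 m` as `q₁ + q₂ π`. -/
def mom0 : ℕ → ℚ × ℚ
  | 0 => (0, 0)
  | 1 => (0, 0)
  | 2 => (0, 1 / 2)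
  | 3 => (1, 0)
  | m + 4 =>
    let r := mom0 (m + 2)
    (((m : ℚ) + 1) / ((m : ℚ) + 2) * r.1, ((m : ℚ) + 1) / ((m : ℚ) + 2) * r.2)

/-- `mom a m` as `q₁ + q₂ π`. -/
def momQ : ℕ → ℕ → ℚ × ℚ
  | 0, m => mom0 m
  | 1, m => (1 / ((m : ℚ) - 2), 0)
  | a + 2, m =>
    let r := momQ a (m - 2)
    (((a : ℚ) + 1) / ((m - 2 : ℕ) : ℚ) * r.1, ((a : ℚ) + 1) / ((m - 2 : ℕ) : ℚ) * r.2)

/-- The value of a pair. -/
noncomputable def val (r : ℚ × ℚ) : ℝ := (r.1 : ℝ) + (r.2 : ℝ) * π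

theorem mom0_sound : ∀ m, 2 ≤ m → mom 0 m = val (mom0 m)
  | 0, h => by omega
  | 1, h => by omega
  | 2, _ => by rw [mom_zero_two]; simp [mom0, val]; ring
  | 3, _ => by rw [mom_zero_three]; simp [mom0, val]
  | m + 4, _ => by
    have e := mom_exp (a := 0) (m := m + 2) (by omega)
    rw [mom0_sound (m + 2) (by omega)] at e
    have hm : (0 : ℝ) < (m : ℝ) + 2 := by positivity
    simp only [val, mom0] at e ⊢
    push_cast at e ⊢
    rw [show m + 2 + 2 = m + 4 from rfl] at e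
    field_simp
    linarith

theorem momQ_sound : ∀ a m, a + 2 ≤ m → mom a m = val (momQ a m)
  | 0, m, h => mom0_sound m (by omega)
  | 1, m, h => by
    obtain ⟨m, rfl⟩ := Nat.exists_eq_add_of_le' h
    rw [mom_one]
    simp only [momQ, val]
    push_cast
    rw [show (m : ℝ) + 3 - 2 = (m : ℝ) + 1 by ring]
    ring
  | a + 2, m, h => by
    obtain ⟨m, rfl⟩ := Nat.exists_eq_add_of_le' (show 2 ≤ m by omega)
    have e := mom_parts (a := a) (m := m) (by omega)
    rw [momQ_sound a m (by omega)] at e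
    have hm : (0 : ℝ) < (m : ℝ) := Nat.cast_pos.2 (by omega)
    simp only [momQ, val, Nat.add_sub_cancel] at e ⊢
    push_cast
    field_simp
    linarith

/-- The integral of a list as `q₁ + q₂ π`. -/
def intQ : List Atom → ℚ × ℚ
  | [] => (0, 0)
  | (w, i, j) :: l => let r := intQ l; ((w : ℚ) * (momQ i j).1 + r.1, (w : ℚ) * (momQ i j).2 + r.2)

theorem intQ_sound : ∀ {l : List Atom}, (l.all fun x => decide (x.2.1 + 2 ≤ x.2.2)) = true →
    IntegrableOn (eval l) (Ioi 0) ∧ ∫ T in Ioi (0 : ℝ), eval l T = val (intQ l)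
  | [], _ => ⟨(integrableOn_zero).congr_fun (fun _ _ => by simp [eval]) measurableSet_Ioi,
      by simp [eval, intQ, val]⟩
  | (w, i, j) :: l, h => by
    simp only [List.all_cons, Bool.and_eq_true, decide_eq_true_eq] at h
    obtain ⟨h1, h2⟩ := intQ_sound (l := l) h.2
    have e : eval ((w, i, j) :: l) =
        fun T => (w : ℝ) * (T ^ i / √(1 + T ^ 2) ^ j) + eval l T := funext fun T => by
      simp [eval, cW, inv_pow, div_eq_mul_inv]
    have hi := (mom_integrable (a := i) (m := j) h.1).const_mul (w : ℝ)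
    rw [e]
    refine ⟨hi.add h1, ?_⟩
    rw [integral_add hi h1, integral_const_mul, h2,
      show ∫ T in Ioi (0 : ℝ), T ^ i / √(1 + T ^ 2) ^ j = mom i j from rfl, momQ_sound i j h.1]
    simp only [val, intQ]
    push_cast
    ring

/-- A rational lower bound. -/
def qLo (r : ℚ × ℚ) (p₀ p₁ : ℚ) : ℚ := r.1 + min (r.2 * p₀) (r.2 * p₁)

/-- A rational upper bound. -/
def qHi (r : ℚ × ℚ) (p₀ p₁ : ℚ) : ℚ := r.1 + max (r.2 * p₀) (r.2 * p₁)

theorem val_bounds {r : ℚ × ℚ} {p₀ p₁ : ℚ} (h0 : (p₀ : ℝ) ≤ π) (h1 : π ≤ (p₁ : ℝ)) :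
    (qLo r p₀ p₁ : ℝ) ≤ val r ∧ val r ≤ (qHi r p₀ p₁ : ℝ) := by
  simp only [qLo, qHi, val]
  push_cast
  rcases le_total 0 (r.2 : ℝ) with h | h
  · have k0 := mul_le_mul_of_nonneg_left h0 h
    have k1 := mul_le_mul_of_nonneg_left h1 h
    constructor
    · linarith [min_le_left ((r.2 : ℝ) * p₀) ((r.2 : ℝ) * p₁)]
    · linarith [le_max_right ((r.2 : ℝ) * p₀) ((r.2 : ℝ) * p₁)]
  · have k0 := mul_le_mul_of_nonpos_left h0 h
    have k1 := mul_le_mul_of_nonpos_left h1 h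
    constructor
    · linarith [min_le_right ((r.2 : ℝ) * p₀) ((r.2 : ℝ) * p₁)]
    · linarith [le_max_left ((r.2 : ℝ) * p₀) ((r.2 : ℝ) * p₁)]

end Vale.Agent.P237.Cal.MomQ
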