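import Vale.Agent.P237.Cal.ScalarQ

/-!
# P237: polynomial coordinates of the scalar inequality

With `n = m + 2`, `k = m + 1`, `Q = s^(n k)` and `Y = Z^n` the powers of the scalar inequality are
`Q^(m/k) = s^(n m)` and `ε = ω s^(2k)/Z²`; then `q = Q Y^k = (s Z)^(n k)`.
-/

open Real Set

namespace Vale.Agent.P237.Cal

variable {m : ℕ}

/-- The coordinates of a point. -/
theorem scalar_coords {q Y Q : ℝ} (hq : 0 ≤ q) (hY : 0 < Y) (hQ : Q = q / Y ^ (m + 1)) :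
    ∃ s Z : ℝ, 0 ≤ s ∧ 0 < Z ∧ Y = Z ^ (m + 2) ∧ Q = s ^ ((m + 2) * (m + 1)) ∧
      q = (s * Z) ^ ((m + 2) * (m + 1)) ∧ Q ^ ((m : ℝ) / ((m : ℝ) + 1)) = s ^ ((m + 2) * m) ∧
      q ^ (2 / ((m : ℝ) + 2)) / Y ^ 2 = s ^ (2 * (m + 1)) / Z ^ 2 ∧
      Y ^ 2 - 1 = Z ^ (2 * (m + 2)) - 1 := by
  have hQ0 : 0 ≤ Q := by rw [hQ]; positivity
  set s := Q ^ ((((m + 2) * (m + 1) : ℕ) : ℝ)⁻¹) with hs
  set Z := Y ^ ((((m + 2) : ℕ) : ℝ)⁻¹) with hZ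
  have hs0 : 0 ≤ s := rpow_nonneg hQ0 _
  have hZ0 : 0 < Z := rpow_pos_of_pos hY _
  have eQ : Q = s ^ ((m + 2) * (m + 1)) := (rpow_inv_natCast_pow hQ0 (by simp)).symm
  have eY : Y = Z ^ (m + 2) := (rpow_inv_natCast_pow hY.le (by omega)).symm
  have eq : q = (s * Z) ^ ((m + 2) * (m + 1)) := by
    rw [mul_pow, ← eQ, pow_mul, ← eY, hQ, div_mul_cancel₀ _ (pow_ne_zero _ hY.ne')]
  refine ⟨s, Z, hs0, hZ0, eY, eQ, eq, ?_, ?_, by rw [eY, ← pow_mul, mul_comm (m + 2) 2]⟩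
  · rw [rpow_frac_pow (pow_nonneg hs0 (m + 2)) (by rw [eQ, pow_mul]), ← pow_mul]
  · have h2 : q ^ (2 / ((m : ℝ) + 2)) = (s * Z) ^ (2 * (m + 1)) := by
      rw [eq, pow_mul, ← rpow_natCast _ (m + 1), ← rpow_natCast _ (m + 2),
        ← rpow_mul (by positivity), ← rpow_mul (by positivity), ← rpow_natCast _ (2 * (m + 1))]
      congr 1
      push_cast
      field_simp
    rw [h2, eY, mul_pow, ← pow_mul, mul_div_assoc]
    rw [show (m + 2) * 2 = 2 * (m + 1) + 2 by ring, pow_add]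
    field_simp

end Vale.Agent.P237.Cal
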