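import Vale.Agent.P237.Cal.PosRect

/-!
# P237: positivity of a sparse integer polynomial of high degree on a cell

On `[x₀, x₀ + h] × [y₀, y₀ + g]` each monomial is bounded below (positive weight) by its expansion
truncated at order `N`, or above (negative weight) by that plus a Lagrange term; the sum is a
polynomial of degree `(N, N)` in the offsets and `PosRect.low2` finishes. Cost is linear in the
number of monomials, whatever their degree.
-/

open Set

namespace Vale.Agent.P237.Cal.SparseRect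

open PosRect

/-- `k n`; the kernel turns `n` into a numeral first. -/
def force {α : Type} (n : ℕ) (k : ℕ → α) : α :=
  match n with
  | 0 => k 0
  | j + 1 => k (j + 1)

@[simp] lemma force_eq {α : Type} (n : ℕ) (k : ℕ → α) : force n k = k n := by
  cases n <;> rfl

/-- A monomial: weight and the two exponents. -/
abbrev Mono := ℤ × ℕ × ℕ

/-- The value of a sparse polynomial. -/
def evM : List Mono → ℝ → ℝ → ℝ
  | [], _, _ => 0
  | (c, a, b) :: l, x, y => (c : ℝ) * (x ^ a * y ^ b) + evM l x y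

/-- The truncated binomial expansion of `(x + u) ^ a`. -/
def tSum (x : ℝ) (a N : ℕ) (u : ℝ) : ℝ :=
  ∑ i ∈ Finset.range N, (a.choose i : ℝ) * x ^ (a - i) * u ^ i

lemma tSum_succ (x : ℝ) (a N : ℕ) (u : ℝ) :
    tSum x (a + 1) (N + 1) u = x * tSum x a (N + 1) u + u * tSum x a N u := by
  induction N with
  | zero => simp [tSum, pow_succ, mul_comm]
  | succ N ih =>
    have e : ∀ M, tSum x (a + 1) (M + 1) u =
        tSum x (a + 1) M u + ((a + 1).choose M : ℝ) * x ^ (a + 1 - M) * u ^ M :=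
      fun M => Finset.sum_range_succ _ _
    have e' : ∀ M, tSum x a (M + 1) u = tSum x a M u + (a.choose M : ℝ) * x ^ (a - M) * u ^ M :=
      fun M => Finset.sum_range_succ _ _
    rw [e (N + 1), ih, e' (N + 1), e' N, Nat.choose_succ_succ' a N, Nat.add_sub_add_right]
    rcases le_or_gt (N + 1) a with h | h
    · rw [show a - N = (a - (N + 1)) + 1 by omega, pow_succ, pow_succ u]
      push_cast
      ring
    · rw [Nat.choose_eq_zero_of_lt h, pow_succ u]
      push_cast
      ring

lemma tSum_le {x u : ℝ} (hx : 0 ≤ x) (hu : 0 ≤ u) : ∀ a N : ℕ, tSum x a N u ≤ (x + u) ^ a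
  | a, 0 => by simp [tSum]; positivity
  | 0, N + 1 => by
    have : tSum x 0 (N + 1) u = 1 := by
      simp [tSum, Finset.sum_range_succ']
    simp [this]
  | a + 1, N + 1 => by
    rw [tSum_succ, pow_succ, mul_comm _ (x + u), add_mul]
    exact add_le_add (mul_le_mul_of_nonneg_left (tSum_le hx hu a (N + 1)) hx)
      (mul_le_mul_of_nonneg_left (tSum_le hx hu a N) hu)

lemma le_tSum {x u X : ℝ} (hx : 0 ≤ x) (hu : 0 ≤ u) (hX : x + u ≤ X) : ∀ a N : ℕ,
    (x + u) ^ a ≤ tSum x a N u + (a.choose N : ℝ) * X ^ (a - N) * u ^ N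
  | a, 0 => by simpa [tSum] using pow_le_pow_left₀ (add_nonneg hx hu) hX a
  | 0, N + 1 => by simp [tSum, Finset.sum_range_succ']
  | a + 1, N + 1 => by
    have h1 := mul_le_mul_of_nonneg_left (le_tSum hx hu hX a (N + 1)) hx
    have h2 := mul_le_mul_of_nonneg_left (le_tSum hx hu hX a N) hu
    have hX0 : 0 ≤ X := by linarith
    have h3 : x * ((a.choose (N + 1) : ℝ) * X ^ (a - (N + 1))) ≤
        (a.choose (N + 1) : ℝ) * X ^ (a - N) := by
      rcases le_or_gt (N + 1) a with h | h
      · rw [show a - N = (a - (N + 1)) + 1 by omega, pow_succ', mul_left_comm]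
        exact mul_le_mul_of_nonneg_left
          (mul_le_mul_of_nonneg_right (by linarith) (pow_nonneg hX0 _)) (Nat.cast_nonneg _)
      · rw [Nat.choose_eq_zero_of_lt h]; simp
    have h4 := mul_le_mul_of_nonneg_right h3 (pow_nonneg hu (N + 1))
    rw [tSum_succ, pow_succ', Nat.choose_succ_succ' a N, Nat.add_sub_add_right, add_mul]
    refine (add_le_add h1 h2).trans ?_
    push_cast
    linear_combination h4

/-- The coefficient of `u ^ i` in the bound of `(x + u) ^ a`. -/
def tCoef (pos : Bool) (N x X a i : ℕ) : ℕ :=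
  if i < N then a.descFactorial i / i.factorial * x ^ (a - i)
  else if pos then 0 else a.descFactorial i / i.factorial * X ^ (a - i)

/-- The bound of `(x + u) ^ a` in powers of the offset: below if `pos`, else above. -/
def axisCoef (pos : Bool) (N x X a : ℕ) : List ℤ :=
  (List.range (N + 1)).map fun i => force (tCoef pos N x X a i) fun t => (t : ℤ)

lemma ev1_append (l : List ℤ) (c : ℤ) (u : ℝ) :
    ev1 (l ++ [c]) u = ev1 l u + (c : ℝ) * u ^ l.length := by
  induction l with
  | nil => simp [ev1]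
  | cons d l ih => simp only [List.cons_append, ev1, ih, List.length_cons]; ring

lemma ev1_axis (pos : Bool) (N x X a : ℕ) (u : ℝ) :
    ev1 (axisCoef pos N x X a) u =
      ∑ i ∈ Finset.range (N + 1), (tCoef pos N x X a i : ℝ) * u ^ i := by
  have h : ∀ (f : ℕ → ℕ) (M : ℕ), ev1 ((List.range M).map fun i => (f i : ℤ)) u =
      ∑ i ∈ Finset.range M, (f i : ℝ) * u ^ i := by
    intro f M
    induction M with
    | zero => simp [ev1]
    | succ M ih =>
      rw [List.range_succ, List.map_append, List.map_singleton, ev1_append, ih,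
        Finset.sum_range_succ]
      simp
  simp only [axisCoef, force_eq]
  exact h _ _

/-- The bound for one factor. -/
lemma axis_bound {N x h a : ℕ} {u : ℝ} (h0 : 0 ≤ u) (h1 : u ≤ (h : ℝ)) :
    ev1 (axisCoef true N x (x + h) a) u ≤ ((x : ℝ) + u) ^ a ∧
      ((x : ℝ) + u) ^ a ≤ ev1 (axisCoef false N x (x + h) a) u := by
  have e : ∀ pos, ∑ i ∈ Finset.range N, (tCoef pos N x (x + h) a i : ℝ) * u ^ i =
      tSum (x : ℝ) a N u := fun pos => Finset.sum_congr rfl fun i hi => by
    rw [tCoef, if_pos (Finset.mem_range.1 hi), ← Nat.choose_eq_descFactorial_div_factorial]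
    push_cast
    rfl
  have ei : ∀ pos, tCoef pos N x (x + h) a N =
      if pos then 0 else a.choose N * (x + h) ^ (a - N) := fun pos => by
    rw [tCoef, if_neg (lt_irrefl N), Nat.choose_eq_descFactorial_div_factorial]
  constructor
  · rw [ev1_axis, Finset.sum_range_succ, e, ei]
    simpa using tSum_le (Nat.cast_nonneg x) h0 a N
  · rw [ev1_axis, Finset.sum_range_succ, e, ei]
    have := le_tSum (Nat.cast_nonneg x) h0 (X := ((x + h : ℕ) : ℝ)) (by push_cast; linarith) a N
    simp only [Bool.false_eq_true, if_false]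
    push_cast at this ⊢
    exact this

lemma ev1_axis_nonneg (pos : Bool) (N x X a : ℕ) {u : ℝ} (h0 : 0 ≤ u) :
    0 ≤ ev1 (axisCoef pos N x X a) u := by
  rw [ev1_axis]; exact Finset.sum_nonneg fun i _ => by positivity

/-- The rows of `c t(u) r(v)`. -/
def outer (c : ℤ) (t r : List ℤ) : List (List ℤ) := t.map fun a => r.map fun b => c * a * b

lemma ev2_outer (c : ℤ) (r : List ℤ) (u v : ℝ) : ∀ t : List ℤ,
    ev2 (outer c t r) u v = (c : ℝ) * (ev1 t u * ev1 r v)
  | [] => by simp [outer, ev2, ev1]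
  | a :: t => by
    have ih := ev2_outer c r u v t
    simp only [outer, List.map_cons, ev2, ev1] at ih ⊢
    rw [ih, ev1_map (c * a) r v]
    push_cast
    ring

/-- A minorant of the polynomial in the offsets from the corner, expanded to order `N`. -/
def cellRows (N x y h g : ℕ) : List Mono → List (List ℤ)
  | [] => []
  | (c, a, b) :: l =>
    add2 (outer c (axisCoef (decide (0 ≤ c)) N x (x + h) a)
        (axisCoef (decide (0 ≤ c)) N y (y + g) b))
      (cellRows N x y h g l)

lemma cellRows_le {N x y h g : ℕ} {u v : ℝ} (hu : u ∈ Icc 0 (h : ℝ)) (hv : v ∈ Icc 0 (g : ℝ)) :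
    ∀ l : List Mono, ev2 (cellRows N x y h g l) u v ≤ evM l ((x : ℝ) + u) ((y : ℝ) + v)
  | [] => by simp [cellRows, ev2, evM]
  | (c, a, b) :: l => by
    simp only [cellRows, ev2_add, ev2_outer, evM]
    refine add_le_add ?_ (cellRows_le hu hv l)
    obtain ⟨xl, xu⟩ := axis_bound (N := N) (x := x) (a := a) hu.1 hu.2
    obtain ⟨yl, yu⟩ := axis_bound (N := N) (x := y) (a := b) hv.1 hv.2
    have hxu : 0 ≤ ((x : ℝ) + u) ^ a := pow_nonneg (add_nonneg (Nat.cast_nonneg _) hu.1) _
    have hyv : 0 ≤ ((y : ℝ) + v) ^ b := pow_nonneg (add_nonneg (Nat.cast_nonneg _) hv.1) _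
    by_cases hc : 0 ≤ c
    · simp only [hc, decide_true]
      exact mul_le_mul_of_nonneg_left
        (mul_le_mul xl yl (ev1_axis_nonneg _ _ _ _ _ hv.1) hxu) (Int.cast_nonneg hc)
    · simp only [hc, decide_false]
      exact mul_le_mul_of_nonpos_left
        (mul_le_mul xu yu hyv (ev1_axis_nonneg _ _ _ _ _ hu.1))
        (by exact_mod_cast (not_le.1 hc).le)

/-- `min 0 z`, mentioning `z` once (the kernel would evaluate both copies in `min`). -/
def negp (z : ℤ) : ℤ := -(((-z).toNat : ℕ) : ℤ)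

lemma negp_eq (z : ℤ) : negp z = min 0 z := by
  unfold negp; omega

/-- `PosRect.low1` with `negp`. -/
def lowA (g : ℕ) : List ℤ → ℤ
  | [] => 0
  | c :: l => c + g * negp (lowA g l)

/-- `PosRect.low2` with `negp`. -/
def lowB (h g : ℕ) : List (List ℤ) → ℤ
  | [] => 0
  | r :: l => lowA g r + h * negp (lowB h g l)

lemma lowA_eq (g : ℕ) : ∀ l, lowA g l = low1 g l
  | [] => rfl
  | c :: l => by simp [lowA, low1, negp_eq, lowA_eq g l]

lemma lowB_eq (h g : ℕ) : ∀ l, lowB h g l = low2 h g l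
  | [] => rfl
  | r :: l => by simp [lowB, low2, negp_eq, lowA_eq, lowB_eq h g l]

/-- Four coefficients. -/
structure Q4 where
  a : ℕ
  b : ℕ
  c : ℕ
  d : ℕ

/-- A `4 × 4` table. -/
structure M4 where
  A : Q4
  B : Q4
  C : Q4
  D : Q4

/-- The value of four coefficients. -/
def ev4 (t : Q4) (u : ℝ) : ℝ := (t.a : ℝ) + u * (t.b + u * (t.c + u * t.d))

/-- The value of a table. -/
def evT (M : M4) (u v : ℝ) : ℝ :=
  ev4 M.A v + u * (ev4 M.B v + u * (ev4 M.C v + u * ev4 M.D v))

/-- `axisCoef` of order three, in the four slots. -/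
def axis4 (pos : Bool) (x X n : ℕ) : Q4 :=
  ⟨x ^ n, n * x ^ (n - 1), n * (n - 1) / 2 * x ^ (n - 2),
    match pos with
    | true => 0
    | false => n * (n - 1) * (n - 2) / 6 * X ^ (n - 3)⟩

lemma ev4_axis (pos : Bool) (x X n : ℕ) (u : ℝ) :
    ev4 (axis4 pos x X n) u = ev1 (axisCoef pos 3 x X n) u := by
  rw [ev1_axis, Finset.sum_range_succ, Finset.sum_range_succ, Finset.sum_range_succ,
    Finset.sum_range_succ, Finset.sum_range_zero]
  cases pos <;>
    simp [ev4, axis4, tCoef, Nat.descFactorial_succ, Nat.factorial, mul_comm] <;> ring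

/-- `A + k r`. -/
def row4 (k : ℕ) (r A : Q4) : Q4 :=
  ⟨A.a + k * r.a, A.b + k * r.b, A.c + k * r.c, A.d + k * r.d⟩

/-- `M + k t ⊗ r`. -/
def add4 (k : ℕ) (t r : Q4) (M : M4) : M4 :=
  ⟨row4 (k * t.a) r M.A, row4 (k * t.b) r M.B, row4 (k * t.c) r M.C, row4 (k * t.d) r M.D⟩

lemma evT_add4 (k : ℕ) (t r : Q4) (M : M4) (u v : ℝ) :
    evT (add4 k t r M) u v = evT M u v + (k : ℝ) * (ev4 t u * ev4 r v) := by
  simp only [evT, add4, row4, ev4]; push_cast; ring

/-- The bounds of the monomials of one sign, with absolute weights. -/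
def side4 (pos : Bool) (x y X Y : ℕ) : List Mono → M4
  | [] => ⟨⟨0, 0, 0, 0⟩, ⟨0, 0, 0, 0⟩, ⟨0, 0, 0, 0⟩, ⟨0, 0, 0, 0⟩⟩
  | (c, a, b) :: l =>
    match pos, c with
    | true, Int.ofNat k =>
      add4 k (axis4 true x X a) (axis4 true y Y b) (side4 pos x y X Y l)
    | false, Int.negSucc k =>
      add4 (k + 1) (axis4 false x X a) (axis4 false y Y b) (side4 pos x y X Y l)
    | _, _ => side4 pos x y X Y l

lemma side4_le {x y h g : ℕ} {u v : ℝ} (hu : u ∈ Icc 0 (h : ℝ)) (hv : v ∈ Icc 0 (g : ℝ)) :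
    ∀ l : List Mono, evT (side4 true x y (x + h) (y + g) l) u v -
      evT (side4 false x y (x + h) (y + g) l) u v ≤ evM l ((x : ℝ) + u) ((y : ℝ) + v)
  | [] => by simp [side4, evT, ev4, evM]
  | (c, a, b) :: l => by
    have ih := side4_le hu hv (x := x) (y := y) l
    obtain ⟨xl, xu⟩ := axis_bound (N := 3) (x := x) (a := a) hu.1 hu.2
    obtain ⟨yl, yu⟩ := axis_bound (N := 3) (x := y) (a := b) hv.1 hv.2
    have hxu : 0 ≤ ((x : ℝ) + u) ^ a := pow_nonneg (add_nonneg (Nat.cast_nonneg _) hu.1) _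
    have hyv : 0 ≤ ((y : ℝ) + v) ^ b := pow_nonneg (add_nonneg (Nat.cast_nonneg _) hv.1) _
    cases c with
    | ofNat k =>
      simp only [side4, evT_add4, ev4_axis, evM]
      have h1 := mul_le_mul_of_nonneg_left
        (mul_le_mul xl yl (ev1_axis_nonneg _ _ _ _ _ hv.1) hxu) (Nat.cast_nonneg (α := ℝ) k)
      simp only [Int.ofNat_eq_natCast, Int.cast_natCast]
      linarith
    | negSucc k =>
      simp only [side4, evT_add4, ev4_axis, evM]
      have h1 := mul_le_mul_of_nonneg_left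
        (mul_le_mul xu yu hyv (ev1_axis_nonneg _ _ _ _ _ hu.1))
        (Nat.cast_nonneg (α := ℝ) (k + 1))
      simp only [Int.cast_negSucc]
      push_cast at h1 ⊢
      linarith

/-- The differences of two rows. -/
def sub4 (p n : Q4) : List ℤ :=
  [Int.subNatNat p.a n.a, Int.subNatNat p.b n.b, Int.subNatNat p.c n.c, Int.subNatNat p.d n.d]

/-- The differences of two tables. -/
def subT (P N : M4) : List (List ℤ) :=
  [sub4 P.A N.A, sub4 P.B N.B, sub4 P.C N.C, sub4 P.D N.D]

lemma ev2_subT (P N : M4) (u v : ℝ) : ev2 (subT P N) u v = evT P u v - evT N u v := by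
  simp only [subT, sub4, ev2, ev1, evT, ev4, Int.subNatNat_eq_coe]
  push_cast; ring

/-- The test of the cell with corner `(x, y)` and widths `h`, `g`. Order three has its own evaluation
in natural numbers, about seven times cheaper in the kernel. -/
def cellPos (N : ℕ) (l : List Mono) (x y h g : ℕ) : Bool :=
  match N with
  | 3 => decide (0 < lowB h g
      (subT (side4 true x y (x + h) (y + g) l) (side4 false x y (x + h) (y + g) l)))
  | _ => decide (0 < lowB h g (cellRows N x y h g l))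

/-- **A tested cell.** -/
theorem cellPos_sound {N : ℕ} {l : List Mono} {x y h g : ℕ} (ht : cellPos N l x y h g = true) {S T : ℝ}
    (hS : S ∈ Icc (x : ℝ) ((x : ℝ) + (h : ℝ))) (hT : T ∈ Icc (y : ℝ) ((y : ℝ) + (g : ℝ))) :
    0 < evM l S T := by
  have hu : S - (x : ℝ) ∈ Icc (0 : ℝ) (h : ℝ) := ⟨by linarith [hS.1], by linarith [hS.2]⟩
  have hv : T - (y : ℝ) ∈ Icc (0 : ℝ) (g : ℝ) := ⟨by linarith [hT.1], by linarith [hT.2]⟩
  have key : ∀ L : List (List ℤ), 0 < lowB h g L →
      ev2 L (S - x) (T - y) ≤ evM l ((x : ℝ) + (S - x)) ((y : ℝ) + (T - y)) → 0 < evM l S T := by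
    intro L hL hle
    rw [lowB_eq] at hL
    have h1 := (low2_le (l := L) hu hv).trans hle
    rw [add_sub_cancel, add_sub_cancel] at h1
    exact (Int.cast_pos.2 hL).trans_le h1
  unfold cellPos at ht
  split at ht <;> rw [decide_eq_true_eq] at ht
  · exact key _ ht (by rw [ev2_subT]; exact side4_le hu hv l)
  · exact key _ ht (cellRows_le hu hv l)

/-- `f` on a rectangle (corner and widths), or after bisecting it, alternating the axis, at most
`d` times. -/
def refine (f : ℕ → ℕ → ℕ → ℕ → Bool) : ℕ → Bool → ℕ → ℕ → ℕ → ℕ → Bool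
  | 0, _, x, y, h, g => f x y h g
  | d + 1, true, x, y, h, g => f x y h g ||
      force (h / 2) fun h₀ => force (x + h₀) fun x₁ => force (h - h₀) fun h₁ =>
        (refine f d false x y h₀ g && refine f d false x₁ y h₁ g)
  | d + 1, false, x, y, h, g => f x y h g ||
      force (g / 2) fun g₀ => force (y + g₀) fun y₁ => force (g - g₀) fun g₁ =>
        (refine f d true x y h g₀ && refine f d true x y₁ h g₁)

/-- A point of an interval lies in one of the two halves. -/
lemma mem_half {x h : ℕ} {X : ℝ} (hX : X ∈ Icc (x : ℝ) ((x : ℝ) + h)) :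
    X ∈ Icc (x : ℝ) ((x : ℝ) + (h / 2 : ℕ)) ∨
      X ∈ Icc ((x + h / 2 : ℕ) : ℝ) (((x + h / 2 : ℕ) : ℝ) + (h - h / 2 : ℕ)) := by
  rcases le_total X ((x : ℝ) + (h / 2 : ℕ)) with hle | hle
  · exact Or.inl ⟨hX.1, hle⟩
  · refine Or.inr ⟨by push_cast; exact hle, ?_⟩
    rw [← Nat.cast_add, show x + h / 2 + (h - h / 2) = x + h by omega, Nat.cast_add]
    exact hX.2

/-- **A refined test covers its rectangle.** -/
theorem refine_sound {f : ℕ → ℕ → ℕ → ℕ → Bool} :
    ∀ {d : ℕ} {b : Bool} {x y h g : ℕ}, refine f d b x y h g = true → ∀ {X Y : ℝ},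
      X ∈ Icc (x : ℝ) ((x : ℝ) + h) → Y ∈ Icc (y : ℝ) ((y : ℝ) + g) →
      ∃ x' y' h' g' : ℕ, f x' y' h' g' = true ∧ X ∈ Icc (x' : ℝ) ((x' : ℝ) + h') ∧
        Y ∈ Icc (y' : ℝ) ((y' : ℝ) + g')
  | 0, _, x, y, h, g, ht, X, Y, hX, hY => ⟨x, y, h, g, by simpa [refine] using ht, hX, hY⟩
  | d + 1, b, x, y, h, g, ht, X, Y, hX, hY => by
    cases b
    all_goals simp only [refine, force_eq, Bool.or_eq_true, Bool.and_eq_true] at ht
    all_goals rcases ht with ht | ⟨h1, h2⟩
    · exact ⟨x, y, h, g, ht, hX, hY⟩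
    · rcases mem_half hY with hm | hm
      · exact refine_sound h1 hX hm
      · exact refine_sound h2 hX hm
    · exact ⟨x, y, h, g, ht, hX, hY⟩
    · rcases mem_half hX with hm | hm
      · exact refine_sound h1 hm hY
      · exact refine_sound h2 hm hY

end Vale.Agent.P237.Cal.SparseRect
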