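import Vale.Agent.P237.Cal.FamAtoms
import Vale.Agent.P237.Cal.MomQ
import Vale.Agent.P237.Cal.ScalarSubst
import Vale.Agent.P237.Cal.SparseRect

/-!
# P237: the scalar inequality of a box, decided by the kernel

In `(s, Z)` with `q = (s Z)^(n k)`, `Y = Z^n` the scalar inequality of `isCalY_of_box2`, times
`V₀ Z²`, is a sparse polynomial whose coefficients are rational combinations of `V₀`, `V₀²`, `P₀`
and exact integrals of atom lists. Replacing these numbers by rational enclosures monomial by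
monomial gives an integer minorant; `SparseRect` tests it on cells found by bisection, skipping those outside the
range of `ε` or of `q`. Any degree costs the same, so the test serves every single `n` of a range.
-/

open MeasureTheory Set Real

namespace Vale.Agent.P237.Cal.BoxScalar

open AtomCert MomQ FamAtoms SparseRect

/-- Sparse rational polynomials. -/
abbrev QPoly := List (ℚ × ℕ × ℕ)

/-- The value. -/
def evQ : QPoly → ℝ → ℝ → ℝ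
  | [], _, _ => 0
  | (c, a, b) :: l, x, y => (c : ℝ) * (x ^ a * y ^ b) + evQ l x y

/-- Scalar multiple. -/
def qsc (r : ℚ) (l : QPoly) : QPoly := l.map fun t => (r * t.1, t.2)

/-- Product with one monomial. -/
def qmono (t : ℚ × ℕ × ℕ) (l : QPoly) : QPoly :=
  l.map fun u => (t.1 * u.1, t.2.1 + u.2.1, t.2.2 + u.2.2)

/-- Product. -/
def qmul : QPoly → QPoly → QPoly
  | [], _ => []
  | t :: l, r => qmono t r ++ qmul l r

lemma evQ_append : ∀ (l r : QPoly) (x y : ℝ), evQ (l ++ r) x y = evQ l x y + evQ r x y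
  | [], r, x, y => by simp [evQ]
  | (c, a, b) :: l, r, x, y => by simp [evQ, evQ_append l r x y]; ring

lemma evQ_qsc (r : ℚ) : ∀ (l : QPoly) (x y : ℝ), evQ (qsc r l) x y = (r : ℝ) * evQ l x y
  | [], x, y => by simp [qsc, evQ]
  | (c, a, b) :: l, x, y => by
    have := evQ_qsc r l x y
    simp only [qsc, List.map_cons, evQ] at this ⊢
    rw [this]; push_cast; ring

lemma evQ_qmono (c : ℚ) (a b : ℕ) : ∀ (l : QPoly) (x y : ℝ),
    evQ (qmono (c, a, b) l) x y = (c : ℝ) * (x ^ a * y ^ b) * evQ l x y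
  | [], x, y => by simp [qmono, evQ]
  | (d, i, j) :: l, x, y => by
    have := evQ_qmono c a b l x y
    simp only [qmono, List.map_cons, evQ] at this ⊢
    rw [this]; push_cast; ring

lemma evQ_qmul : ∀ (l r : QPoly) (x y : ℝ), evQ (qmul l r) x y = evQ l x y * evQ r x y
  | [], r, x, y => by simp [qmul, evQ]
  | (c, a, b) :: l, r, x, y => by
    simp only [qmul, evQ_append, evQ_qmono, evQ_qmul l r x y, evQ]; ring

/-- A minorant of a real number in `iv` times a polynomial, monomial by monomial. -/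
def ivPoly (iv : ℚ × ℚ) (l : QPoly) : QPoly :=
  l.map fun t => (min (t.1 * iv.1) (t.1 * iv.2), t.2)

lemma ivPoly_le {iv : ℚ × ℚ} {X x y : ℝ} (h0 : (iv.1 : ℝ) ≤ X) (h1 : X ≤ (iv.2 : ℝ)) (hx : 0 ≤ x)
    (hy : 0 ≤ y) : ∀ l : QPoly, evQ (ivPoly iv l) x y ≤ X * evQ l x y
  | [] => by simp [ivPoly, evQ]
  | (c, a, b) :: l => by
    have ih := ivPoly_le h0 h1 hx hy l
    simp only [ivPoly, List.map_cons, evQ] at ih ⊢
    rw [mul_add]
    refine add_le_add ?_ ih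
    rw [← mul_assoc X, mul_comm X]
    refine mul_le_mul_of_nonneg_right ?_ (mul_nonneg (pow_nonneg hx _) (pow_nonneg hy _))
    push_cast
    rcases le_total 0 (c : ℝ) with h | h
    · exact (min_le_left _ _).trans (mul_le_mul_of_nonneg_left h0 h)
    · exact (min_le_right _ _).trans (mul_le_mul_of_nonpos_left h1 h)

/-- Rational bounds for `π`. -/
def piLo : ℚ := 314159265358979323846 / 100000000000000000000
def piHi : ℚ := 314159265358979323847 / 100000000000000000000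

lemma pi_mem : (piLo : ℝ) ≤ π ∧ π ≤ (piHi : ℝ) := by
  have h0 := pi_gt_d20
  have h1 := pi_lt_d20
  constructor <;> simp only [piLo, piHi] <;> norm_num at h0 h1 ⊢ <;> linarith

/-- The enclosure of `q₁ + q₂ π`. -/
def enc (r : ℚ × ℚ) : ℚ × ℚ := (qLo r piLo piHi, qHi r piLo piHi)

lemma enc_le (r : ℚ × ℚ) : ((enc r).1 : ℝ) ≤ val r ∧ val r ≤ ((enc r).2 : ℝ) :=
  val_bounds pi_mem.1 pi_mem.2

/-- Data of a box: `ω = wN/wD`; minorant scale `2^L`, coordinates `2^P (s, Z)` of total degree at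
most `M`; the rectangle `[a, a + h] × [b, b + g]` and the depth of bisection; the order of the expansions; the window of `q`; the value of `coeffs` (a literal, so that the kernel does
not recompute it in every cell: evaluating `coeffs …` gives it). -/
structure SBox where
  wN : ℕ
  wD : ℕ
  L : ℕ
  P : ℕ
  M : ℕ
  a : ℕ
  b : ℕ
  h : ℕ
  g : ℕ
  depth : ℕ
  ord : ℕ
  q0 : ℚ
  q1 : ℚ
  li : List Mono

/-- The weight. -/
def SBox.om (B : SBox) : ℚ := (B.wN : ℚ) / B.wD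

section Polys

variable (m : ℕ)

/-- `1 - Q`. -/
def oneSubQ : QPoly := [(1, 0, 0), (-1, (m + 2) * (m + 1), 0)]

/-- `Q^(m/k) - 1`. -/
def qmSubOne : QPoly := [(1, (m + 2) * m, 0), (-1, 0, 0)]

/-- `(ε - e₀) Z²/(e₁ - e₀)`. -/
def uPos (w e0 e1 : ℚ) : QPoly := qsc (1 / (e1 - e0)) [(w, 2 * (m + 1), 0), (-e0, 0, 2)]

/-- `(e₁ - ε) Z²/(e₁ - e₀)`. -/
def uNeg (w e0 e1 : ℚ) : QPoly := qsc (1 / (e1 - e0)) [(e1, 0, 2), (-w, 2 * (m + 1), 0)]

/-- `(η - f₀)/(f₁ - f₀)`. -/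
def vPos (f0 f1 : ℚ) : QPoly := qsc (1 / (f1 - f0)) [(1, 0, 2 * (m + 2)), (-(1 + f0), 0, 0)]

/-- `(f₁ - η)/(f₁ - f₀)`. -/
def vNeg (f0 f1 : ℚ) : QPoly := qsc (1 / (f1 - f0)) [(1 + f1, 0, 0), (-1, 0, 2 * (m + 2))]

/-- The base part. -/
def basePoly (w : ℚ) : QPoly :=
  ivPoly (enc (mom0 (m + 4))) ([(1, 0, 2), (-1, (m + 2) * (m + 1), 2)] ++
    qsc ((m : ℚ) + 1) [(w, (m + 2) * (m + 1), 2), (-w, 2 * (m + 1), 0)])

/-- The part of one vertex with weight `c`. -/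
def vertPoly (c : QPoly) (p : APar) : QPoly :=
  let V := enc (mom0 (m + 4))
  let n : ℚ := (m : ℚ) + 2
  let k : ℚ := (m : ℚ) + 1
  let z : ℚ := (p.Z : ℚ)
  ivPoly V (qsc ((p.K : ℚ) / z - (p.a : ℚ) / z * (n / k)) (qmul c (oneSubQ m))) ++
  ivPoly (enc (mom0 (m + 3))) (qsc (-((p.mu : ℚ) / z * (k / (m : ℚ)))) (qmul c (qmSubOne m))) ++
  ivPoly (enc (intQ p.LB)) (qsc (1 / z) c) ++
  ivPoly (V.1 * V.1, V.2 * V.2)
    (qsc (-((wsum (fun x => decide (x.2.1 = x.2.2)) p.U : ℚ) / z))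
      (qmul c (qmul (oneSubQ m) (oneSubQ m))))

/-- The part of `nu`. -/
def nuPoly (nu : List Atom) (Zn : ℕ) : QPoly :=
  ivPoly (enc (intQ nu)) (qsc (-1 / (Zn : ℚ)) [(1, 0, 2 * (m + 2) + 2), (-1, 0, 2)])

/-- The whole minorant. -/
def lowPoly (B : SBox) (p q r s : APar) (nu : List Atom) (Zn : ℕ) : QPoly :=
  let e0 : ℚ := (p.eps : ℚ) / p.Z
  let e1 : ℚ := (q.eps : ℚ) / q.Z
  let f0 : ℚ := (p.eta : ℚ) / p.Z
  let f1 : ℚ := (r.eta : ℚ) / r.Z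
  basePoly m B.om ++
  vertPoly m (qmul (uNeg m B.om e0 e1) (vNeg m f0 f1)) p ++
  vertPoly m (qmul (uPos m B.om e0 e1) (vNeg m f0 f1)) q ++
  vertPoly m (qmul (uNeg m B.om e0 e1) (vPos m f0 f1)) r ++
  vertPoly m (qmul (uPos m B.om e0 e1) (vPos m f0 f1)) s ++ nuPoly m nu Zn

end Polys

/-- Adds one monomial to a collected polynomial. -/
def qins (t : ℚ × ℕ × ℕ) : QPoly → QPoly
  | [] => [t]
  | u :: l => if t.2 = u.2 then (t.1 + u.1, u.2) :: l else u :: qins t l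

/-- Like monomials collected. -/
def collect : QPoly → QPoly
  | [] => []
  | t :: l => qins t (collect l)

lemma evQ_qins (c : ℚ) (a b : ℕ) : ∀ (l : QPoly) (x y : ℝ),
    evQ (qins (c, a, b) l) x y = (c : ℝ) * (x ^ a * y ^ b) + evQ l x y
  | [], x, y => by simp [qins, evQ]
  | (d, i, j) :: l, x, y => by
    simp only [qins]
    split_ifs with h
    · simp only [Prod.mk.injEq] at h
      obtain ⟨rfl, rfl⟩ := h
      simp only [evQ]; push_cast; ring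
    · simp only [evQ, evQ_qins c a b l x y]; ring

lemma evQ_collect : ∀ (l : QPoly) (x y : ℝ), evQ (collect l) x y = evQ l x y
  | [], x, y => rfl
  | (c, a, b) :: l, x, y => by simp only [collect, evQ_qins, evQ_collect l x y, evQ]

/-- The rounded coefficients over `2^L`. -/
def floors (L : ℕ) (l : QPoly) : List Mono :=
  l.map fun t => (⌊t.1 * ((2 ^ L : ℕ) : ℚ)⌋, t.2)

/-- The rounded coefficients of a box. -/
def coeffs (m : ℕ) (B : SBox) (p q r s : APar) (nu : List Atom) (Zn : ℕ) : List Mono :=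
  floors B.L (collect (lowPoly m B p q r s nu Zn))

/-- The factor of the integer coordinates: about `2^P`, with generic low bits (the kernel hashes
numerals by their low word, so multiples of a high power of two would all collide). -/
def base (P : ℕ) : ℕ := 2 ^ P + 2654435761

lemma base_pos (P : ℕ) : (0 : ℝ) < (base P : ℝ) := by unfold base; positivity

/-- The integer minorant in `base P · (s, Z)`. -/
def scaleUp (P M : ℕ) (l : List Mono) : List Mono :=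
  l.map fun t => (t.1 * ((base P ^ (M - (t.2.1 + t.2.2)) : ℕ) : ℤ), t.2)

lemma scaleUp_le {L P M : ℕ} {x y : ℝ} (hx : 0 ≤ x) (hy : 0 ≤ y) :
    ∀ {l : QPoly}, ((floors L l).all fun t => decide (t.2.1 + t.2.2 ≤ M)) = true →
      evM (scaleUp P M (floors L l)) ((base P : ℝ) * x) ((base P : ℝ) * y) ≤ 2 ^ L * (base P : ℝ) ^ M * evQ l x y
  | [], _ => by simp [scaleUp, floors, evM, evQ]
  | (c, a, b) :: l, h => by
    simp only [floors, List.map_cons, List.all_cons, Bool.and_eq_true, decide_eq_true_eq] at h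
    have ih := scaleUp_le (P := P) hx hy (l := l) h.2
    simp only [scaleUp, floors, List.map_cons, evM, evQ, mul_add] at ih ⊢
    refine add_le_add ?_ ih
    have e1 := Int.floor_le (c * ((2 ^ L : ℕ) : ℚ))
    have e2 : ((⌊c * ((2 ^ L : ℕ) : ℚ)⌋ : ℤ) : ℝ) ≤ (c : ℝ) * 2 ^ L := by
      have e3 := (Rat.cast_le (K := ℝ)).2 e1
      push_cast at e3 ⊢
      exact e3
    push_cast at e2 ⊢
    refine (mul_le_mul_of_nonneg_right (mul_le_mul_of_nonneg_right e2 (by positivity))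
      (by positivity)).trans (le_of_eq ?_)
    conv_rhs => rw [show M = (M - (a + b)) + (a + b) from (Nat.sub_add_cancel h.1).symm]
    rw [mul_pow, mul_pow]
    simp only [pow_add]
    ring

/-- A cell outside the box: out of the range of `ε` or out of the window of `q`. -/
def skip (m : ℕ) (B : SBox) (e0 e1 : ℚ) (x y h g : ℕ) : Bool :=
  let D : ℚ := (base B.P ^ (2 * m) * B.wD : ℕ)
  let W : ℚ := (base B.P ^ (2 * ((m + 2) * (m + 1))) : ℕ)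
  decide (((B.wN * (x + h) ^ (2 * (m + 1)) : ℕ) : ℚ) < e0 * D * (y ^ 2 : ℕ)) ||
  decide (e1 * D * ((y + g) ^ 2 : ℕ) < ((B.wN * x ^ (2 * (m + 1)) : ℕ) : ℚ)) ||
  decide ((((x + h) * (y + g)) ^ ((m + 2) * (m + 1)) : ℕ) < B.q0 * W) ||
  decide (B.q1 * W < (((x * y) ^ ((m + 2) * (m + 1)) : ℕ) : ℚ))

/-- The grid covers the box. -/
def coverTest (m : ℕ) (B : SBox) (e0 e1 f0 f1 : ℚ) : Bool :=
  let D : ℚ := (base B.P ^ (2 * m) * B.wD : ℕ)
  let U : ℚ := (base B.P ^ (2 * (m + 2)) : ℕ)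
  decide (((B.wN * B.a ^ (2 * (m + 1)) : ℕ) : ℚ) ≤ e0 * D * (B.b ^ 2 : ℕ)) &&
  decide (e1 * D * ((B.b + B.g) ^ 2 : ℕ) ≤
    ((B.wN * (B.a + B.h) ^ (2 * (m + 1)) : ℕ) : ℚ)) &&
  decide (((B.b ^ (2 * (m + 2)) : ℕ) : ℚ) ≤ (1 + f0) * U) &&
  decide ((1 + f1) * U ≤ (((B.b + B.g) ^ (2 * (m + 2)) : ℕ) : ℚ))

/-- **The test of a box.** -/
def scalarTest (m : ℕ) (B : SBox) (p q r s : APar) (nu : List Atom) (Zn : ℕ) : Bool :=
  let e0 : ℚ := (p.eps : ℚ) / p.Z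
  let e1 : ℚ := (q.eps : ℚ) / q.Z
  let f0 : ℚ := (p.eta : ℚ) / p.Z
  let f1 : ℚ := (r.eta : ℚ) / r.Z
  decide (0 < B.wN) && decide (0 < B.wD) && decide (0 < B.h) && decide (0 < B.g) &&
  decide (0 < p.Z) && decide (0 < q.Z) && decide (0 < r.Z) && decide (0 < s.Z) && decide (0 < Zn) &&
  decide (e0 < e1) && decide (f0 < f1) &&
  decide ((r.eps : ℚ) / r.Z = e0) && decide ((s.eps : ℚ) / s.Z = e1) &&
  decide ((q.eta : ℚ) / q.Z = f0) && decide ((s.eta : ℚ) / s.Z = f1) &&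
  p.okTest && q.okTest && r.okTest && s.okTest &&
  (nu.all fun x => decide (x.2.1 + 2 ≤ x.2.2)) &&
  decide (0 ≤ (enc (mom0 (m + 4))).1) &&
  coverTest m B e0 e1 f0 f1 && (decide (coeffs m B p q r s nu Zn = B.li) &&
  (B.li.all fun t => decide (t.2.1 + t.2.2 ≤ B.M))) &&
  refine (fun x y h g => skip m B e0 e1 x y h g || cellPos B.ord (scaleUp B.P B.M B.li) x y h g)
    B.depth true B.a B.b B.h B.g

lemma integrable_of_okTest {p : APar} (h : p.okTest = true) :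
    (p.LB.all fun x => decide (x.2.1 + 2 ≤ x.2.2)) = true := by
  simp only [APar.okTest, Bool.and_eq_true] at h
  exact h.1.1.1.1.2

lemma integral_fam_LB {p : APar} (h : p.okTest = true) :
    ∫ T in Ioi (0 : ℝ), p.fam.LB T = val (intQ p.LB) / p.Z := by
  simp only [APar.fam, ev]
  rw [MeasureTheory.integral_div, (intQ_sound (integrable_of_okTest h)).2]

lemma integral_mix_LB {p q r s : Fam} (hp : p.Ok) (hq : q.Ok) (hr : r.Ok) (hs : s.Ok) (u v : ℝ) :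
    ∫ T in Ioi (0 : ℝ), (Fam.mix4 u v p q r s).LB T =
      (1 - v) * ((1 - u) * (∫ T in Ioi (0 : ℝ), p.LB T) + u * ∫ T in Ioi (0 : ℝ), q.LB T) +
      v * ((1 - u) * (∫ T in Ioi (0 : ℝ), r.LB T) + u * ∫ T in Ioi (0 : ℝ), s.LB T) := by
  have h1 : IntegrableOn (fun T => (1 - u) * p.LB T + u * q.LB T) (Ioi 0) :=
    (hp.iLB.const_mul (1 - u)).add (hq.iLB.const_mul u)
  have h2 : IntegrableOn (fun T => (1 - u) * r.LB T + u * s.LB T) (Ioi 0) :=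
    (hr.iLB.const_mul (1 - u)).add (hs.iLB.const_mul u)
  simp only [Fam.mix4, Fam.lin]
  rw [integral_add (h1.const_mul _) (h2.const_mul _), integral_const_mul, integral_const_mul,
    integral_add (hp.iLB.const_mul _) (hq.iLB.const_mul _),
    integral_add (hr.iLB.const_mul _) (hs.iLB.const_mul _), integral_const_mul, integral_const_mul,
    integral_const_mul, integral_const_mul]

/-- The part of one vertex. -/
noncomputable def vertVal (m : ℕ) (Q Qm : ℝ) (p : Fam) : ℝ :=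
  semiMom m 1 * ((p.K - p.a * (((m : ℝ) + 2) / ((m : ℝ) + 1))) * (1 - Q)) -
    mom 0 (m + 3) * (p.μ * (((m : ℝ) + 1) / (m : ℝ)) * (Qm - 1)) +
    (∫ T in Ioi (0 : ℝ), p.LB T) - semiMom m 1 ^ 2 * (p.uinf * (Q - 1) ^ 2)

lemma vertPoly_le {m : ℕ} {p : APar} (h : p.okTest = true) (hV : 0 ≤ (enc (mom0 (m + 4))).1)
    (c : QPoly) {x y : ℝ} (hx : 0 ≤ x) (hy : 0 ≤ y) :
    evQ (vertPoly m c p) x y ≤
      evQ c x y * vertVal m (x ^ ((m + 2) * (m + 1))) (x ^ ((m + 2) * m)) p.fam := by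
  obtain ⟨v0, v1⟩ := enc_le (mom0 (m + 4))
  obtain ⟨p0, p1⟩ := enc_le (mom0 (m + 3))
  obtain ⟨l0, l1⟩ := enc_le (intQ p.LB)
  rw [← mom0_sound (m + 4) (by omega), ← semiMom_one] at v0 v1
  rw [← mom0_sound (m + 3) (by omega)] at p0 p1
  have hV' : (0 : ℝ) ≤ ((enc (mom0 (m + 4))).1 : ℝ) := by exact_mod_cast hV
  have w0 : (((enc (mom0 (m + 4))).1 * (enc (mom0 (m + 4))).1 : ℚ) : ℝ) ≤ semiMom m 1 ^ 2 := by
    push_cast; rw [sq]; exact mul_le_mul v0 v0 hV' (hV'.trans v0)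
  have w1 : semiMom m 1 ^ 2 ≤ (((enc (mom0 (m + 4))).2 * (enc (mom0 (m + 4))).2 : ℚ) : ℝ) := by
    push_cast; rw [sq]; exact mul_le_mul v1 v1 (hV'.trans v0) ((hV'.trans v0).trans v1)
  simp only [vertPoly, evQ_append]
  refine le_trans (add_le_add (add_le_add (add_le_add (ivPoly_le v0 v1 hx hy _)
    (ivPoly_le p0 p1 hx hy _)) (ivPoly_le l0 l1 hx hy _))
    (ivPoly_le (iv := (_, _)) w0 w1 hx hy _)) (le_of_eq ?_)
  rw [vertVal, integral_fam_LB h]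
  simp only [evQ_qsc, evQ_qmul, oneSubQ, qmSubOne, evQ, APar.fam]
  push_cast
  ring

/-- The minorant is positive at every point of the box, in the coordinates. -/
theorem lowPoly_pos {m : ℕ} {B : SBox} {p q r s : APar} {nu : List Atom}
    {Zn : ℕ} (ht : scalarTest m B p q r s nu Zn = true) {x ε S Z : ℝ}
    (hx : (B.q0 : ℝ) ≤ x ∧ x ≤ (B.q1 : ℝ)) (hs0 : 0 ≤ S) (hZ : 0 < Z)
    (hq : x = (S * Z) ^ ((m + 2) * (m + 1))) (hεd : ε = (B.om : ℝ) * (S ^ (2 * (m + 1)) / Z ^ 2))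
    (hε : ε ∈ Icc ((p.eps : ℝ) / p.Z) ((q.eps : ℝ) / q.Z))
    (hη : Z ^ (2 * (m + 2)) - 1 ∈ Icc ((p.eta : ℝ) / p.Z) ((r.eta : ℝ) / r.Z)) :
    0 < evQ (lowPoly m B p q r s nu Zn) S Z := by
  simp only [scalarTest, Bool.and_eq_true, decide_eq_true_eq, List.all_eq_true] at ht
  obtain ⟨⟨⟨⟨⟨⟨hwN, hwD⟩, hna⟩, hnb⟩, hcov⟩, hdeg⟩, hgrid⟩ :
      ((((((0 < B.wN) ∧ (0 < B.wD)) ∧ (0 < B.h)) ∧ (0 < B.g)) ∧
        coverTest m B ((p.eps : ℚ) / p.Z) ((q.eps : ℚ) / q.Z) ((p.eta : ℚ) / p.Z)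
          ((r.eta : ℚ) / r.Z) = true) ∧
        (coeffs m B p q r s nu Zn = B.li ∧ ∀ t ∈ B.li, t.2.1 + t.2.2 ≤ B.M)) ∧
        refine (fun x y h g => skip m B ((p.eps : ℚ) / p.Z) ((q.eps : ℚ) / q.Z) x y h g ||
          cellPos B.ord (scaleUp B.P B.M B.li) x y h g) B.depth true B.a B.b B.h B.g = true := by
    obtain ⟨⟨⟨⟨⟨⟨⟨⟨⟨⟨⟨⟨⟨⟨⟨⟨⟨⟨⟨⟨⟨⟨⟨h1, h2⟩, h3⟩, h4⟩, -⟩, -⟩, -⟩, -⟩, -⟩, -⟩, -⟩, -⟩, -⟩, -⟩,
      -⟩, -⟩, -⟩, -⟩, -⟩, -⟩, -⟩, h5⟩, h6⟩, h7⟩ := ht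
    exact ⟨⟨⟨⟨⟨⟨h1, h2⟩, h3⟩, h4⟩, h5⟩, h6⟩, h7⟩
  set e0 : ℚ := (p.eps : ℚ) / p.Z with he0
  set e1 : ℚ := (q.eps : ℚ) / q.Z with he1
  set f0 : ℚ := (p.eta : ℚ) / p.Z with hf0
  set f1 : ℚ := (r.eta : ℚ) / r.Z with hf1
  have ce0 : (e0 : ℝ) = (p.eps : ℝ) / p.Z := by rw [he0]; push_cast; rfl
  have ce1 : (e1 : ℝ) = (q.eps : ℝ) / q.Z := by rw [he1]; push_cast; rfl
  have cf0 : (f0 : ℝ) = (p.eta : ℝ) / p.Z := by rw [hf0]; push_cast; rfl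
  have cf1 : (f1 : ℝ) = (r.eta : ℝ) / r.Z := by rw [hf1]; push_cast; rfl
  rw [← ce0, ← ce1] at hε
  rw [← cf0, ← cf1] at hη
  have hwD' : (0 : ℝ) < (B.wD : ℝ) := Nat.cast_pos.2 hwD
  have hwN' : (0 : ℝ) < (B.wN : ℝ) := Nat.cast_pos.2 hwN
  set X := (base B.P : ℝ) * S with hX
  set W := (base B.P : ℝ) * Z with hW
  have hX0 : 0 ≤ X := by positivity
  have hW0 : 0 ≤ W := by positivity
  have hD : (B.wN : ℝ) * X ^ (2 * (m + 1)) =
      ε * ((base B.P : ℝ) ^ (2 * m) * B.wD) * W ^ 2 := by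
    rw [hεd, hX, hW, SBox.om, mul_pow, mul_pow,
      show 2 * (m + 1) = 2 * m + 2 by ring, pow_add]
    push_cast
    field_simp
  have hU : W ^ (2 * (m + 2)) = (1 + (Z ^ (2 * (m + 2)) - 1)) * (base B.P : ℝ) ^ (2 * (m + 2)) := by
    rw [hW, mul_pow]; ring
  have hQ2 : (X * W) ^ ((m + 2) * (m + 1)) = x * (base B.P : ℝ) ^ (2 * ((m + 2) * (m + 1))) := by
    rw [hq, hX, hW, pow_mul (base B.P : ℝ) 2, ← mul_pow]
    ring
  simp only [coverTest, Bool.and_eq_true, decide_eq_true_eq] at hcov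
  obtain ⟨⟨⟨ca, cb⟩, cc⟩, cd⟩ := hcov
  have ca' := (Rat.cast_le (K := ℝ)).2 ca
  have cb' := (Rat.cast_le (K := ℝ)).2 cb
  have cc' := (Rat.cast_le (K := ℝ)).2 cc
  have cd' := (Rat.cast_le (K := ℝ)).2 cd
  push_cast at ca' cb' cc' cd'
  have hp2 : (0 : ℝ) < (base B.P : ℝ) ^ (2 * (m + 2)) := pow_pos (base_pos _) _
  have hWl : (B.b : ℝ) ≤ W := by
    refine le_of_pow_le_pow_left₀ (by omega : 2 * (m + 2) ≠ 0) hW0 ?_
    rw [hU]; exact cc'.trans (mul_le_mul_of_nonneg_right (by linarith [hη.1]) hp2.le)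
  have hWh : W ≤ ((B.b + B.g : ℕ) : ℝ) := by
    refine le_of_pow_le_pow_left₀ (by omega : 2 * (m + 2) ≠ 0) (Nat.cast_nonneg _) ?_
    rw [hU]; push_cast
    exact le_trans (mul_le_mul_of_nonneg_right (by linarith [hη.2]) hp2.le) cd'
  have hε0 : 0 ≤ ε := by rw [hεd, SBox.om]; push_cast; positivity
  have hD0 : (0 : ℝ) < (base B.P : ℝ) ^ (2 * m) * B.wD := mul_pos (pow_pos (base_pos _) _) hwD'
  have hXl : (B.a : ℝ) ≤ X := by
    refine le_of_pow_le_pow_left₀ (by omega : 2 * (m + 1) ≠ 0) hX0 ?_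
    refine le_of_mul_le_mul_left ?_ hwN'
    rw [hD]
    exact ca'.trans (mul_le_mul (mul_le_mul_of_nonneg_right hε.1 hD0.le)
      (pow_le_pow_left₀ (Nat.cast_nonneg _) hWl 2) (sq_nonneg _) (mul_nonneg hε0 hD0.le))
  have hXh : X ≤ ((B.a + B.h : ℕ) : ℝ) := by
    refine le_of_pow_le_pow_left₀ (by omega : 2 * (m + 1) ≠ 0) (Nat.cast_nonneg _) ?_
    refine le_of_mul_le_mul_left ?_ hwN'
    rw [hD]
    push_cast at hWh ⊢
    refine le_trans ?_ cb'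
    exact mul_le_mul (mul_le_mul_of_nonneg_right hε.2 hD0.le) (pow_le_pow_left₀ hW0 hWh 2)
      (sq_nonneg _) (mul_nonneg (le_trans hε0 hε.2) hD0.le)
  obtain ⟨xi, yj, ch, cg, hcell, hXi, hWj⟩ :=
    refine_sound hgrid ⟨hXl, by simpa using hXh⟩ ⟨hWl, by simpa using hWh⟩
  rw [Bool.or_eq_true] at hcell
  have hns : skip m B e0 e1 xi yj ch cg ≠ true := by
    intro hsk
    simp only [skip, Bool.or_eq_true, decide_eq_true_eq] at hsk
    rcases hsk with ((hk | hk) | hk) | hk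
    all_goals
      have hk' := (Rat.cast_lt (K := ℝ)).2 hk
      push_cast at hk'
    · have h1 := mul_le_mul_of_nonneg_left (pow_le_pow_left₀ hX0 hXi.2 (2 * (m + 1))) hwN'.le
      rw [hD] at h1
      have h2 : (e0 : ℝ) * ((base B.P : ℝ) ^ (2 * m) * B.wD) * (yj : ℝ) ^ 2 ≤
          ε * ((base B.P : ℝ) ^ (2 * m) * B.wD) * W ^ 2 :=
        mul_le_mul (mul_le_mul_of_nonneg_right hε.1 hD0.le)
          (pow_le_pow_left₀ (Nat.cast_nonneg _) hWj.1 2) (sq_nonneg _) (mul_nonneg hε0 hD0.le)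
      linarith
    · have h1 := mul_le_mul_of_nonneg_left
        (pow_le_pow_left₀ (Nat.cast_nonneg _) hXi.1 (2 * (m + 1))) hwN'.le
      rw [hD] at h1
      have h2 : ε * ((base B.P : ℝ) ^ (2 * m) * B.wD) * W ^ 2 ≤
          (e1 : ℝ) * ((base B.P : ℝ) ^ (2 * m) * B.wD) * ((yj : ℝ) + cg) ^ 2 :=
        mul_le_mul (mul_le_mul_of_nonneg_right hε.2 hD0.le) (pow_le_pow_left₀ hW0 hWj.2 2)
          (sq_nonneg _) (mul_nonneg (le_trans hε0 hε.2) hD0.le)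
      linarith
    · have h1 := pow_le_pow_left₀ (mul_nonneg hX0 hW0)
        (mul_le_mul hXi.2 hWj.2 hW0 (by positivity)) ((m + 2) * (m + 1))
      rw [hQ2] at h1
      have h2 := mul_le_mul_of_nonneg_right hx.1
        (by positivity : (0 : ℝ) ≤ (base B.P : ℝ) ^ (2 * ((m + 2) * (m + 1))))
      linarith
    · have h1 := pow_le_pow_left₀ (by positivity)
        (mul_le_mul hXi.1 hWj.1 (Nat.cast_nonneg _) hX0) ((m + 2) * (m + 1))
      rw [hQ2] at h1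
      have h2 := mul_le_mul_of_nonneg_right hx.2
        (by positivity : (0 : ℝ) ≤ (base B.P : ℝ) ^ (2 * ((m + 2) * (m + 1))))
      linarith
  have hpos := (cellPos_sound (hcell.resolve_left hns) hXi hWj).trans_le
    (le_of_eq_of_le (by rw [← hdeg.1]; rfl) (scaleUp_le (L := B.L)
      (l := collect (lowPoly m B p q r s nu Zn)) hs0 hZ.le
      (List.all_eq_true.2 fun t ht => decide_eq_true (hdeg.2 t (hdeg.1 ▸ ht)))))
  rw [evQ_collect] at hpos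
  exact pos_of_mul_pos_right hpos (by positivity)

/-- The scalar of `isCalY_of_box2` at the mixture. -/
noncomputable def scalarVal (m : ℕ) (w Q ε η : ℝ) (f : Fam) (I : ℝ) : ℝ :=
  (1 - f.a * ((m : ℝ) + 2) / ((m : ℝ) + 1)) * (1 - Q) + ((m : ℝ) + 1) * (w * Q - ε) -
    f.μ * (((m : ℝ) + 1) / (m : ℝ)) * rr (m + 1) * (Q ^ ((m : ℝ) / ((m : ℝ) + 1)) - 1) +
    ((∫ T in Ioi (0 : ℝ), f.LB T) - η * I) / semiMom m 1 -
    f.K * (Q - 1) - f.uinf * semiMom m 1 * (Q - 1) ^ 2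

/-- The scalar splits over the vertices. -/
lemma scalarVal_mix {m : ℕ} (w Q Qm ε η u v I : ℝ) {p q r s : Fam}
    (hp : p.Ok) (hq : q.Ok) (hr : r.Ok) (hs : s.Ok)
    (hQm : Q ^ ((m : ℝ) / ((m : ℝ) + 1)) = Qm) :
    semiMom m 1 * scalarVal m w Q ε η (Fam.mix4 u v p q r s) I =
      semiMom m 1 * ((1 - Q) + ((m : ℝ) + 1) * (w * Q - ε)) +
      ((1 - v) * (1 - u) * vertVal m Q Qm p + (1 - v) * u * vertVal m Q Qm q +
        v * (1 - u) * vertVal m Q Qm r + v * u * vertVal m Q Qm s) - η * I := by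
  have h0 : semiMom m 1 ≠ 0 := by rw [semiMom_one]; exact (mom_zero_pos (m + 2)).ne'
  have hrr : semiMom m 1 * rr (m + 1) = mom 0 (m + 3) := by
    rw [rr, show m + 1 + 2 = m + 3 from rfl, show m + 1 + 3 = m + 4 from rfl, ← semiMom_one,
      mul_div_cancel₀ _ h0]
  rw [scalarVal, hQm, integral_mix_LB hp hq hr hs]
  simp only [vertVal, Fam.mix4, Fam.lin, ← hrr]
  field_simp
  ring

/-- The minorant is below `V₀ Z²` times the scalar. -/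
theorem lowPoly_le {m : ℕ} {B : SBox} {p q r s : APar} {nu : List Atom} {Zn : ℕ}
    (hp : p.okTest = true) (hq : q.okTest = true) (hr : r.okTest = true) (hs : s.okTest = true)
    (hnu : (nu.all fun x => decide (x.2.1 + 2 ≤ x.2.2)) = true)
    (hV : 0 ≤ (enc (mom0 (m + 4))).1) {S Z ε u v : ℝ} (hS : 0 ≤ S) (hZ : 0 < Z)
    (hε : ε = (B.om : ℝ) * (S ^ (2 * (m + 1)) / Z ^ 2))
    (hu : u = (ε - ((p.eps : ℝ) / p.Z)) / ((q.eps : ℝ) / q.Z - (p.eps : ℝ) / p.Z))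
    (hu' : 1 - u = ((q.eps : ℝ) / q.Z - ε) / ((q.eps : ℝ) / q.Z - (p.eps : ℝ) / p.Z))
    (hv : v = (Z ^ (2 * (m + 2)) - 1 - (p.eta : ℝ) / p.Z) / ((r.eta : ℝ) / r.Z - (p.eta : ℝ) / p.Z))
    (hv' : 1 - v = ((r.eta : ℝ) / r.Z - (Z ^ (2 * (m + 2)) - 1)) /
      ((r.eta : ℝ) / r.Z - (p.eta : ℝ) / p.Z))
    (hQm : (S ^ ((m + 2) * (m + 1))) ^ ((m : ℝ) / ((m : ℝ) + 1)) = S ^ ((m + 2) * m)) :
    evQ (lowPoly m B p q r s nu Zn) S Z ≤ Z ^ 2 * (semiMom m 1 *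
      scalarVal m (B.om : ℝ) (S ^ ((m + 2) * (m + 1))) ε (Z ^ (2 * (m + 2)) - 1)
        (Fam.mix4 u v p.fam q.fam r.fam s.fam) (∫ T in Ioi (0 : ℝ), ev Zn nu T)) := by
  have hI : ∫ T in Ioi (0 : ℝ), ev Zn nu T = val (intQ nu) / Zn := by
    simp only [ev]; rw [MeasureTheory.integral_div, (intQ_sound hnu).2]
  rw [scalarVal_mix _ _ _ _ _ _ _ _ (APar.ok hp) (APar.ok hq) (APar.ok hr) (APar.ok hs) hQm, hI]
  obtain ⟨b0, b1⟩ := enc_le (mom0 (m + 4))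
  rw [← mom0_sound (m + 4) (by omega), ← semiMom_one] at b0 b1
  obtain ⟨n0, n1⟩ := enc_le (intQ nu)
  simp only [lowPoly, evQ_append]
  refine le_trans (add_le_add (add_le_add (add_le_add (add_le_add (add_le_add
    (ivPoly_le b0 b1 hS hZ.le _) (vertPoly_le hp hV _ hS hZ.le))
    (vertPoly_le hq hV _ hS hZ.le)) (vertPoly_le hr hV _ hS hZ.le))
    (vertPoly_le hs hV _ hS hZ.le)) (ivPoly_le n0 n1 hS hZ.le _)) (le_of_eq ?_)
  simp only [evQ_append, evQ_qsc, evQ_qmul, uPos, uNeg, vPos, vNeg, evQ]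
  rw [hu', hv', hu, hv, hε]
  push_cast
  field_simp
  ring

/-- **A tested box satisfies the scalar inequality of `isCalY_of_box2`.** -/
theorem hsc_of_scalarTest {m : ℕ} {B : SBox} {p q r s : APar} {nu : List Atom}
    {Zn : ℕ} (ht : scalarTest m B p q r s nu Zn = true) {x Y ε Q : ℝ} (hY : 1 ≤ Y)
    (hx : (B.q0 : ℝ) ≤ x ∧ x ≤ (B.q1 : ℝ)) (hx0 : 0 ≤ x) (hQ : Q = x / Y ^ (m + 1))
    (hεd : ε = (B.om : ℝ) * (x ^ (2 / ((m : ℝ) + 2)) / Y ^ 2))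
    (hε : ε ∈ Icc ((p.eps : ℝ) / p.Z) ((q.eps : ℝ) / q.Z))
    (hη : Y ^ 2 - 1 ∈ Icc ((p.eta : ℝ) / p.Z) ((r.eta : ℝ) / r.Z)) :
    ∃ u ∈ Icc (0 : ℝ) 1, ∃ v ∈ Icc (0 : ℝ) 1,
      ε = (1 - u) * ((p.eps : ℝ) / p.Z) + u * ((q.eps : ℝ) / q.Z) ∧
      Y ^ 2 - 1 = (1 - v) * ((p.eta : ℝ) / p.Z) + v * ((r.eta : ℝ) / r.Z) ∧
      0 < (1 - (Fam.mix4 u v p.fam q.fam r.fam s.fam).a * ((m : ℝ) + 2) / ((m : ℝ) + 1)) * (1 - Q) +
        ((m : ℝ) + 1) * ((B.om : ℝ) * Q - ε) -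
        (Fam.mix4 u v p.fam q.fam r.fam s.fam).μ * (((m : ℝ) + 1) / (m : ℝ)) * rr (m + 1) *
          (Q ^ ((m : ℝ) / ((m : ℝ) + 1)) - 1) +
        ((∫ T in Ioi (0 : ℝ), (Fam.mix4 u v p.fam q.fam r.fam s.fam).LB T) -
          (Y ^ 2 - 1) * ∫ T in Ioi (0 : ℝ), ev Zn nu T) / semiMom m 1 -
        (Fam.mix4 u v p.fam q.fam r.fam s.fam).K * (Q - 1) -
        (Fam.mix4 u v p.fam q.fam r.fam s.fam).uinf * semiMom m 1 * (Q - 1) ^ 2 := by
  obtain ⟨S, Z, hs0, hZ, eY, eQ, eq, eQm, eE, eH⟩ := scalar_coords (m := m) hx0 (by linarith) hQ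
  rw [eE] at hεd
  rw [eH] at hη ⊢
  have hpos := lowPoly_pos ht hx hs0 hZ eq hεd hε hη
  simp only [scalarTest, Bool.and_eq_true, decide_eq_true_eq] at ht
  obtain ⟨⟨⟨⟨⟨⟨⟨⟨⟨⟨⟨⟨⟨⟨-, he⟩, hf⟩, -⟩, -⟩, -⟩, -⟩, hp⟩, hq⟩, hr⟩, hs⟩, hnu⟩, hV⟩, -⟩, -⟩ := ht.1
  have he' := (Rat.cast_lt (K := ℝ)).2 he
  have hf' := (Rat.cast_lt (K := ℝ)).2 hf
  push_cast at he' hf'
  set e0 : ℝ := (p.eps : ℝ) / p.Z
  set e1 : ℝ := (q.eps : ℝ) / q.Z
  set f0 : ℝ := (p.eta : ℝ) / p.Z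
  set f1 : ℝ := (r.eta : ℝ) / r.Z
  have hde : 0 < e1 - e0 := by linarith
  have hdf : 0 < f1 - f0 := by linarith
  set u := (ε - e0) / (e1 - e0) with hu
  set v := (Z ^ (2 * (m + 2)) - 1 - f0) / (f1 - f0) with hv
  refine ⟨u, ⟨div_nonneg (by linarith [hε.1]) hde.le, (div_le_one hde).2 (by linarith [hε.2])⟩,
    v, ⟨div_nonneg (by linarith [hη.1]) hdf.le, (div_le_one hdf).2 (by linarith [hη.2])⟩,
    by rw [hu]; field_simp; ring, by rw [hv]; field_simp; ring, ?_⟩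
  have hu' : 1 - u = (e1 - ε) / (e1 - e0) := by rw [hu]; field_simp; ring
  have hv' : 1 - v = (f1 - (Z ^ (2 * (m + 2)) - 1)) / (f1 - f0) := by rw [hv]; field_simp; ring
  have h2 := hpos.trans_le (lowPoly_le (u := u) (v := v) hp hq hr hs hnu hV hs0 hZ hεd hu
    hu' hv hv' (eQ ▸ eQm))
  have hV0 : 0 < semiMom m 1 := by rw [semiMom_one]; exact mom_zero_pos (m + 2)
  rw [← eQ] at h2
  exact pos_of_mul_pos_right (pos_of_mul_pos_right h2 (sq_nonneg Z)) hV0.le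

/-- **A tested box with the four vertex conditions gives a calibration.** -/
theorem isCalY_of_scalarTest {m : ℕ} (hm : 1 ≤ m) {B : SBox} {p q r s : APar} {nu : List Atom}
    {Zn : ℕ} (ht : scalarTest m B p q r s nu Zn = true) {V ρ Y Y₁ Q₁ V₁ : ℝ} (hV : 0 ≤ V) (hρ : 0 < ρ)
    (hball : Statement.ballVol (m + 2) * ρ ^ (m + 2) = 2 * Statement.ballVol (m + 1) * V)
    (hq : (B.q0 : ℝ) ≤ V / semiMom m 1 ∧ V / semiMom m 1 ≤ (B.q1 : ℝ)) (hY : 1 ≤ Y) (hY₁ : Y ≤ Y₁)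
    (hQ₁ : V / (Y ^ (m + 1) * semiMom m 1) ≤ Q₁) (hV₁ : V - semiMom m 1 ≤ V₁)
    (hε : (B.om : ℝ) * ρ ^ 2 / Y ^ 2 ∈ Icc ((p.eps : ℝ) / p.Z) ((q.eps : ℝ) / q.Z))
    (hη : Y ^ 2 - 1 ∈ Icc ((p.eta : ℝ) / p.Z) ((r.eta : ℝ) / r.Z))
    {th ph nu' : ℝ → ℝ → ℝ}
    (hth : ∀ T σ, 0 < T → 0 < σ → 0 ≤ th T σ) (hph : ∀ T σ, 0 < T → 0 < σ → 0 ≤ ph T σ)
    (hnu : ∀ T σ, 0 < T → 0 < σ → 0 ≤ nu' T σ ∧ nu' T σ ≤ ev Zn nu T)
    (h00 : ∀ T σ X, BoxPt m Y₁ Q₁ V₁ T σ X → VxOk m (p.fam.at T) ((p.eps : ℝ) / p.Z)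
      ((p.eta : ℝ) / p.Z) (th T σ) (ph T σ) (nu' T σ) T σ (X - X0 m T))
    (h10 : ∀ T σ X, BoxPt m Y₁ Q₁ V₁ T σ X → VxOk m (q.fam.at T) ((q.eps : ℝ) / q.Z)
      ((q.eta : ℝ) / q.Z) (th T σ) (ph T σ) (nu' T σ) T σ (X - X0 m T))
    (h01 : ∀ T σ X, BoxPt m Y₁ Q₁ V₁ T σ X → VxOk m (r.fam.at T) ((r.eps : ℝ) / r.Z)
      ((r.eta : ℝ) / r.Z) (th T σ) (ph T σ) (nu' T σ) T σ (X - X0 m T))
    (h11 : ∀ T σ X, BoxPt m Y₁ Q₁ V₁ T σ X → VxOk m (s.fam.at T) ((s.eps : ℝ) / s.Z)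
      ((s.eta : ℝ) / s.Z) (th T σ) (ph T σ) (nu' T σ) T σ (X - X0 m T)) :
    ∃ (lam : ℝ) (Φ : ℝ × ℝ × ℝ → ℝ) (dΦ : ℝ × ℝ × ℝ → (ℝ × ℝ × ℝ →L[ℝ] ℝ)),
      IsCalY m V ρ (B.om : ℝ) Y lam Φ dΦ := by
  have h0 : 0 < semiMom m 1 := by rw [semiMom_one]; exact mom_zero_pos (m + 2)
  have hrho := rho_pow hball
  have hρ2 : (V / semiMom m 1) ^ (2 / ((m : ℝ) + 2)) = ρ ^ 2 := by
    rw [← hrho, ← rpow_natCast, ← rpow_mul hρ.le, ← rpow_natCast ρ 2]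
    congr 1
    push_cast
    field_simp
  have hQ : V / (Y ^ (m + 1) * semiMom m 1) = V / semiMom m 1 / Y ^ (m + 1) := by
    field_simp
  obtain ⟨u, hu, v, hv, hεu, hηv, hsc⟩ := hsc_of_scalarTest ht hY hq (div_nonneg hV h0.le) hQ
    (by rw [hρ2, mul_div_assoc]) hε hη
  simp only [scalarTest, Bool.and_eq_true, decide_eq_true_eq] at ht
  obtain ⟨⟨⟨⟨⟨⟨⟨⟨⟨⟨⟨⟨⟨-, hre⟩, hse⟩, hqf⟩, hsf⟩, hp'⟩, hq'⟩, hr'⟩, hs'⟩, hnu0⟩, -⟩, -⟩, -⟩, -⟩ :=
    ht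
  have hre' := congrArg (fun x : ℚ => (x : ℝ)) hre
  have hse' := congrArg (fun x : ℚ => (x : ℝ)) hse
  have hqf' := congrArg (fun x : ℚ => (x : ℝ)) hqf
  have hsf' := congrArg (fun x : ℚ => (x : ℝ)) hsf
  push_cast at hre' hse' hqf' hsf'
  have hY0 : 0 < Y := by linarith
  refine isCalY_of_box2 hm hY hY₁ hV (by field_simp) rfl hQ₁ hV₁ hu hv hεu hηv (APar.ok hp')
    (APar.ok hq') (APar.ok hr') (APar.ok hs') ((continuous_eval nu).div_const _)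
    ((intQ_sound hnu0).1.div_const _) hth hph hnu h00 ?_ ?_ ?_ hsc
  · intro T σ X hX; rw [← hqf']; exact h10 T σ X hX
  · intro T σ X hX; rw [← hre']; exact h01 T σ X hX
  · intro T σ X hX; rw [← hse', ← hsf']; exact h11 T σ X hX

end Vale.Agent.P237.Cal.BoxScalar
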