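import Vale.Agent.P237.Cal.CellCert

/-!
# P237: cells with signed second and fourth derivatives and a sharp sixth derivative bound

The chord error of a combination of atoms is bounded through the values of its second derivative at
the two nodes, where the cancellations of the combination are seen, and likewise for the fourth
derivative; the sixth derivative of one atom is `T^e cW^f` times a polynomial in `(T cW)²`, which
is bounded by interval Horner.
-/

open Real Set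

namespace Vale.Agent.P237.Cal.CellCert2

open AtomCert CellCert

/-- A dense vector as a list of atoms. -/
def toL : List (ℕ × ℕ) → List ℤ → List Atom
  | (i, j) :: B, w :: v => (w, i, j) :: toL B v
  | _, _ => []

lemma eval_toL (T : ℝ) : ∀ (B : List (ℕ × ℕ)) (v : List ℤ), eval (toL B v) T = evalB B v T
  | [], _ => by simp [toL, evalB, eval]
  | _ :: _, [] => by simp [toL, evalB, eval]
  | (i, j) :: B, w :: v => by simp only [toL, evalB, eval, eval_toL T B v]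

lemma deriv1_append (l l' : List Atom) : deriv1 (l ++ l') = deriv1 l ++ deriv1 l' := by
  induction l with
  | nil => rfl
  | cons a l ih => obtain ⟨w, i, j⟩ := a; simp [deriv1, ih]

lemma deriv1_scale (s : ℤ) (l : List Atom) : deriv1 (scale s l) = scale s (deriv1 l) := by
  induction l with
  | nil => rfl
  | cons a l ih =>
    obtain ⟨w, i, j⟩ := a
    simp only [scale, List.map_cons, deriv1] at ih ⊢
    rw [ih]
    simp [mul_assoc]

/-- Iterated derivative of a single atom with weight one. -/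
def d2A (k : ℕ × ℕ) : List Atom := deriv1 (deriv1 [((1 : ℤ), k.1, k.2)])

/-- Fourth derivative of a single atom with weight one, without zero weights. -/
def d4A (k : ℕ × ℕ) : List Atom := (deriv1 (deriv1 (d2A k))).filter fun a => decide (a.1 ≠ 0)

/-- Sixth derivative of a single atom with weight one, without zero weights. -/
def d6A (k : ℕ × ℕ) : List Atom :=
  (deriv1 (deriv1 (deriv1 (deriv1 (d2A k))))).filter fun a => decide (a.1 ≠ 0)

lemma eval_filter (l : List Atom) (T : ℝ) :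
    eval (l.filter fun a => decide (a.1 ≠ 0)) T = eval l T := by
  induction l with
  | nil => rfl
  | cons a l ih =>
    obtain ⟨w, i, j⟩ := a
    by_cases h : w = 0 <;> simp_all [eval]

lemma eval_d2_cons (w : ℤ) (k : ℕ × ℕ) (l : List Atom) (T : ℝ) :
    eval (deriv1 (deriv1 ((w, k) :: l))) T =
      w * eval (d2A k) T + eval (deriv1 (deriv1 l)) T := by
  have : ((w, k) :: l : List Atom) = scale w [((1 : ℤ), k.1, k.2)] ++ l := by simp [scale]
  rw [this]
  simp only [deriv1_append, deriv1_scale, eval_append, eval_scale, d2A]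

lemma eval_d4_cons (w : ℤ) (k : ℕ × ℕ) (l : List Atom) (T : ℝ) :
    eval (deriv1 (deriv1 (deriv1 (deriv1 ((w, k) :: l))))) T =
      w * eval (d4A k) T + eval (deriv1 (deriv1 (deriv1 (deriv1 l)))) T := by
  have : ((w, k) :: l : List Atom) = scale w [((1 : ℤ), k.1, k.2)] ++ l := by simp [scale]
  rw [this]
  simp only [deriv1_append, deriv1_scale, eval_append, eval_scale, d2A, d4A, eval_filter]

lemma eval_d6_cons (w : ℤ) (k : ℕ × ℕ) (l : List Atom) (T : ℝ) :
    eval (deriv1 (deriv1 (deriv1 (deriv1 (deriv1 (deriv1 ((w, k) :: l))))))) T =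
      w * eval (d6A k) T + eval (deriv1 (deriv1 (deriv1 (deriv1 (deriv1 (deriv1 l)))))) T := by
  have : ((w, k) :: l : List Atom) = scale w [((1 : ℤ), k.1, k.2)] ++ l := by simp [scale]
  rw [this]
  simp only [deriv1_append, deriv1_scale, eval_append, eval_scale, d2A, d6A, eval_filter]

/-- The keys `(e + 2a, f + 2a)`, `a < n`. -/
def keys (e f : ℕ) : ℕ → List (ℕ × ℕ)
  | 0 => []
  | n + 1 => (e, f) :: keys (e + 2) (f + 2) n

/-- The value of a polynomial given by its coefficients. -/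
def hor : List ℤ → ℝ → ℝ
  | [], _ => 0
  | w :: v, x => w + x * hor v x

lemma evalB_keys (T : ℝ) : ∀ (n e f : ℕ) (v : List ℤ), v.length = n →
    evalB (keys e f n) v T = T ^ e * cW T ^ f * hor v ((T * cW T) ^ 2)
  | 0, e, f, v, h => by
    obtain rfl := List.length_eq_zero_iff.1 h
    simp [keys, evalB, hor]
  | n + 1, e, f, [], h => by simp at h
  | n + 1, e, f, w :: v, h => by
    simp only [keys, evalB, hor, evalB_keys T n (e + 2) (f + 2) v (by simpa using h)]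
    ring

/-- Enclosure of `2^(40 len) hor v x` for `2^40 x ∈ [x₀, x₁]`. -/
def horI (x0 x1 : ℕ) : List ℤ → ℤ × ℤ
  | [] => (0, 0)
  | w :: v =>
    let r := horI x0 x1 v
    (w * 2 ^ (40 * (v.length + 1)) + min (r.1 * x0) (r.1 * x1),
      w * 2 ^ (40 * (v.length + 1)) + max (r.2 * x0) (r.2 * x1))

lemma horI_sound {x0 x1 : ℕ} {x : ℝ} (hl : (x0 : ℝ) ≤ 2 ^ 40 * x) (hh : 2 ^ 40 * x ≤ (x1 : ℝ)) :
    ∀ v : List ℤ, ((horI x0 x1 v).1 : ℝ) ≤ 2 ^ (40 * v.length) * hor v x ∧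
      2 ^ (40 * v.length) * hor v x ≤ ((horI x0 x1 v).2 : ℝ)
  | [] => by simp [horI, hor]
  | w :: v => by
    obtain ⟨h1, h2⟩ := horI_sound hl hh v
    have hy0 : (0 : ℝ) ≤ 2 ^ 40 * x := le_trans (Nat.cast_nonneg _) hl
    have e : (2 : ℝ) ^ (40 * (w :: v).length) * hor (w :: v) x =
        w * 2 ^ (40 * (v.length + 1)) + (2 ^ 40 * x) * (2 ^ (40 * v.length) * hor v x) := by
      simp only [List.length_cons, hor]
      rw [mul_add 40, pow_add]; ring
    rw [e]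
    simp only [horI]
    push_cast
    generalize (2 : ℝ) ^ 40 * x = y at hl hh hy0
    constructor
    · have a1 := mul_le_mul_of_nonneg_left h1 hy0
      rcases le_total 0 ((horI x0 x1 v).1 : ℝ) with hs | hs
      · nlinarith [mul_le_mul_of_nonneg_right hl hs,
          min_le_left (((horI x0 x1 v).1 : ℝ) * x0) (((horI x0 x1 v).1 : ℝ) * x1)]
      · nlinarith [mul_le_mul_of_nonpos_right hh hs,
          min_le_right (((horI x0 x1 v).1 : ℝ) * x0) (((horI x0 x1 v).1 : ℝ) * x1)]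
    · have a1 := mul_le_mul_of_nonneg_left h2 hy0
      rcases le_total 0 ((horI x0 x1 v).2 : ℝ) with hs | hs
      · nlinarith [mul_le_mul_of_nonneg_right hh hs,
          le_max_right (((horI x0 x1 v).2 : ℝ) * x0) (((horI x0 x1 v).2 : ℝ) * x1)]
      · nlinarith [mul_le_mul_of_nonpos_right hl hs,
          le_max_left (((horI x0 x1 v).2 : ℝ) * x0) (((horI x0 x1 v).2 : ℝ) * x1)]

/-- Lower end of `2^40 T²/(1+T²)`. -/
def xLo (t : ℕ) : ℕ := t * t * 2 ^ 40 / (2 ^ 40 + t * t)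

/-- Upper end of `2^40 T²/(1+T²)`. -/
def xHi (t : ℕ) : ℕ := t * t * 2 ^ 40 / (2 ^ 40 + t * t) + 1

lemma tc_sq (T : ℝ) : (T * cW T) ^ 2 = T ^ 2 / (1 + T ^ 2) := by
  simp only [cW, mul_pow, inv_pow]
  rw [sq_sqrt (by positivity)]; ring

lemma x_bounds {t t' : ℕ} {T : ℝ} (h : (t : ℝ) / 2 ^ 20 ≤ T) (h' : T ≤ (t' : ℝ) / 2 ^ 20) :
    (xLo t : ℝ) ≤ 2 ^ 40 * (T * cW T) ^ 2 ∧ 2 ^ 40 * (T * cW T) ^ 2 ≤ (xHi t' : ℝ) := by
  have h0 : (0 : ℝ) ≤ (t : ℝ) / 2 ^ 20 := by positivity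
  have e : ∀ s : ℕ, (2 : ℝ) ^ 40 * (((s : ℝ) / 2 ^ 20) ^ 2 / (1 + ((s : ℝ) / 2 ^ 20) ^ 2)) =
      ((s * s * 2 ^ 40 : ℕ) : ℝ) / ((2 ^ 40 + s * s : ℕ) : ℝ) := fun s => by
    push_cast; field_simp; ring
  have mono : ∀ {a b : ℝ}, 0 ≤ a → a ≤ b → a ^ 2 / (1 + a ^ 2) ≤ b ^ 2 / (1 + b ^ 2) := by
    intro a b ha hab
    rw [div_le_div_iff₀ (by positivity) (by positivity)]
    nlinarith
  rw [tc_sq]
  constructor
  · calc (xLo t : ℝ) ≤ ((t * t * 2 ^ 40 : ℕ) : ℝ) / ((2 ^ 40 + t * t : ℕ) : ℝ) := Nat.cast_div_le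
      _ = _ := (e t).symm
      _ ≤ _ := mul_le_mul_of_nonneg_left (mono h0 h) (by positivity)
  · calc (2 : ℝ) ^ 40 * (T ^ 2 / (1 + T ^ 2))
        ≤ 2 ^ 40 * (((t' : ℝ) / 2 ^ 20) ^ 2 / (1 + ((t' : ℝ) / 2 ^ 20) ^ 2)) :=
          mul_le_mul_of_nonneg_left (mono (h0.trans h) h') (by positivity)
      _ = ((t' * t' * 2 ^ 40 : ℕ) : ℝ) / ((2 ^ 40 + t' * t' : ℕ) : ℝ) := e t'
      _ ≤ (xHi t' : ℝ) := by
        rw [div_le_iff₀ (by positivity)]
        norm_cast
        exact le_of_lt (Nat.lt_mul_of_div_lt (Nat.lt_succ_self _) (by positivity))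

/-- The scale of the Horner bound. -/
@[irreducible] def sh7 : ℕ := 280

/-- The least exponents of a list. -/
def minKey (l : List Atom) : ℕ × ℕ :=
  match l with
  | [] => (0, 0)
  | a :: l => l.foldl (fun r b => (min r.1 b.2.1, min r.2 b.2.2)) a.2

/-- `e ≥ 2^P sup |atom⁽⁶⁾|` on the cell. -/
noncomputable def e6One (P : ℕ) (n n' : Node) (k : ℕ × ℕ) (e : ℕ) : Bool :=
  let m := minKey (d6A k)
  match dense (keys m.1 m.2 7) (d6A k) with
  | some v =>
    let r := horI (xLo n.1) (xHi n'.1) v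
    decide (v.length = 7) && decide (2 ^ P * (n'.1 ^ m.1 * n.2.2 ^ m.2) * max r.1.natAbs r.2.natAbs ≤
      e * 2 ^ (20 * m.1 + 32 * m.2 + sh7))
  | none => false

theorem e6One_sound {P : ℕ} {n n' : Node} {k : ℕ × ℕ} {e : ℕ} (h : e6One P n n' k e = true)
    (hn : nodeTest n = true) {x : ℝ} (hx : x ∈ Icc (nodeT n) (nodeT n')) :
    2 ^ P * |eval (d6A k) x| ≤ (e : ℝ) := by
  simp only [e6One] at h
  set m := minKey (d6A k) with hm
  split at h
  next v hv =>
    simp only [Bool.and_eq_true, decide_eq_true_eq] at h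
    obtain ⟨hlen, hle⟩ := h
    rw [eval_dense hv, evalB_keys x 7 _ _ v hlen]
    have h0 : 0 ≤ nodeT n := by simp only [nodeT]; positivity
    have hx0 : 0 ≤ x := h0.trans hx.1
    obtain ⟨b1, b2⟩ := x_bounds (t := n.1) (t' := n'.1) hx.1 hx.2
    obtain ⟨r1, r2⟩ := horI_sound b1 b2 v
    set r := horI (xLo n.1) (xHi n'.1) v
    rw [hlen, show 40 * 7 = sh7 by unfold sh7; rfl] at r1 r2
    have hr : 2 ^ sh7 * |hor v ((x * cW x) ^ 2)| ≤ ((max r.1.natAbs r.2.natAbs : ℕ) : ℝ) := by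
      rw [← abs_of_pos (show (0 : ℝ) < 2 ^ sh7 by positivity), ← abs_mul, Nat.cast_max,
        Nat.cast_natAbs, Nat.cast_natAbs]
      push_cast
      exact abs_le_max_abs_abs r1 r2
    have hp : x ^ m.1 * cW x ^ m.2 ≤ ((n'.1 : ℝ) / 2 ^ 20) ^ m.1 * ((n.2.2 : ℝ) / 2 ^ 32) ^ m.2 := by
      gcongr
      · exact pow_nonneg (cW_pos x).le _
      · exact hx.2
      · exact (cW_pos x).le
      · exact (cW_anti h0 hx.1).trans (nodeTest_sound hn).2
    rw [abs_mul, abs_of_nonneg (mul_nonneg (pow_nonneg hx0 _) (pow_nonneg (cW_pos x).le _))]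
    have hq := mul_le_mul hp hr (by positivity)
      (mul_nonneg (pow_nonneg (by positivity) _) (pow_nonneg (by positivity) _))
    have hh : ((2 ^ P * (n'.1 ^ m.1 * n.2.2 ^ m.2) * max r.1.natAbs r.2.natAbs : ℕ) : ℝ) ≤
        ((e * 2 ^ (20 * m.1 + 32 * m.2 + sh7) : ℕ) : ℝ) := by exact_mod_cast hle
    push_cast at hh
    rw [div_pow, div_pow, ← pow_mul, ← pow_mul] at hq
    rw [pow_add, pow_add] at hh
    have hA : (0 : ℝ) < 2 ^ (20 * m.1) := pow_pos two_pos _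
    have hB : (0 : ℝ) < 2 ^ (32 * m.2) := pow_pos two_pos _
    have hC : (0 : ℝ) < 2 ^ sh7 := pow_pos two_pos _
    have hQ : (0 : ℝ) ≤ 2 ^ P := by positivity
    push_cast at hq
    generalize (2 : ℝ) ^ (20 * m.1) = A at hh hA hq
    generalize (2 : ℝ) ^ (32 * m.2) = B at hh hB hq
    generalize (2 : ℝ) ^ sh7 = C at hh hC hq
    generalize (2 : ℝ) ^ P = Q at hh hQ ⊢
    generalize x ^ m.1 * cW x ^ m.2 = p at hq ⊢
    generalize |hor v ((x * cW x) ^ 2)| = z at hq ⊢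
    generalize ((n'.1 : ℝ)) ^ m.1 = t at hh hq
    generalize ((n.2.2 : ℝ)) ^ m.2 = c at hh hq
    generalize (max ((r.1.natAbs : ℕ) : ℝ) ((r.2.natAbs : ℕ) : ℝ)) = M at hh hq
    have key : Q * (p * (C * z)) ≤ (e : ℝ) * C := by
      refine (mul_le_mul_of_nonneg_left hq hQ).trans ?_
      rw [show Q * (t / A * (c / B) * M) = Q * (t * c) * M / (A * B) by ring,
        div_le_iff₀ (mul_pos hA hB)]
      nlinarith
    exact le_of_mul_le_mul_right (by linarith) hC
  next => simp at h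

/-- The sixth derivative table of a cell. -/
noncomputable def e6Test (P : ℕ) (n n' : Node) : List (ℕ × ℕ) → List ℕ → Bool
  | [], [] => nodeTest n && nodeTest n' && decide (n.1 < n'.1)
  | k :: B, e :: er => e6One P n n' k e && e6Test P n n' B er
  | _, _ => false

/-- A signed derivative table of a node: `g k` lists the derivative of atom `k`, with exponents
within `k + (p, q)`. -/
def dTest (g : ℕ × ℕ → List Atom) (p q P : ℕ) (m : Node) :
    List (ℕ × ℕ) → List ℤ → List ℤ → Bool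
  | [], [], [] => nodeTest m
  | k :: B, a :: lo, b :: hi =>
    fits (k.1 + p) (k.2 + q) (g k) &&
      decide (a * ((2 ^ (20 * (k.1 + p) + 32 * (k.2 + q)) : ℕ) : ℤ) ≤
        loV (k.1 + p) (k.2 + q) m.1 m.1 m.2.1 m.2.2 (g k) * ((2 ^ P : ℕ) : ℤ)) &&
      decide (hiV (k.1 + p) (k.2 + q) m.1 m.1 m.2.1 m.2.2 (g k) * ((2 ^ P : ℕ) : ℤ) ≤
        b * ((2 ^ (20 * (k.1 + p) + 32 * (k.2 + q)) : ℕ) : ℤ)) && dTest g p q P m B lo hi
  | _, _, _ => false

/-- The second derivative table of a node. -/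
def d2Test : ℕ → Node → List (ℕ × ℕ) → List ℤ → List ℤ → Bool := dTest d2A 2 4

/-- The fourth derivative table of a node. -/
def d4Test : ℕ → Node → List (ℕ × ℕ) → List ℤ → List ℤ → Bool := dTest d4A 4 8

/-- Dot product with integers. -/
def dotZ : List ℕ → List ℤ → ℤ
  | a :: l, b :: r => (a : ℤ) * b + dotZ l r
  | _, _ => 0

/-- The enclosure of a function from node values. -/
def valI (f : Fn) (lo hi : List ℕ) : ℤ × ℤ :=
  ((dot f.1 lo : ℤ) - (dot f.2.1 hi : ℤ), (dot f.1 hi : ℤ) - (dot f.2.1 lo : ℤ))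

/-- The enclosure of the second derivative from node values. -/
def derI (f : Fn) (lo hi : List ℤ) : ℤ × ℤ :=
  (dotZ f.1 lo - dotZ f.2.1 hi, dotZ f.1 hi - dotZ f.2.1 lo)

/-- Rounding up of a product with `d²/2^43`. -/
def up43 (d x : ℕ) : ℕ := (d * d * x + (2 ^ 43 - 1)) / 2 ^ 43

/-- The absolute bound of an interval. -/
def magI (r : ℤ × ℤ) : ℕ := max r.1.natAbs r.2.natAbs

/-- The chord error from the intervals of the second and fourth derivative at the nodes and the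
bound of the sixth. -/
def chordErr (d : ℕ) (g g' f f' : ℤ × ℤ) (e : ℕ) : ℕ :=
  up43 d (max (magI g) (magI g') + up43 d (max (magI f) (magI f') + up43 d e))

/-- Widen an interval. -/
def widen (r : ℤ × ℤ) (e : ℕ) : ℤ × ℤ := (r.1 - e, r.2 + e)

/-- A cell with its tables. -/
structure Cell where
  lo : List ℕ
  hi : List ℕ
  lo' : List ℕ
  hi' : List ℕ
  dlo : List ℤ
  dhi : List ℤ
  dlo' : List ℤ
  dhi' : List ℤ
  flo : List ℤ
  fhi : List ℤ
  flo' : List ℤ
  fhi' : List ℤ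
  e6 : List ℕ
  d : ℕ
  l : ℤ
  h : ℤ
  x0 : ℤ
  x1 : ℤ

/-- All tables of a cell are correct. -/
noncomputable def tabTest (P : ℕ) (B : List (ℕ × ℕ)) (n n' : Node) (C : Cell) : Bool :=
  colTest P n B C.lo C.hi && colTest P n' B C.lo' C.hi' && d2Test P n B C.dlo C.dhi &&
    d2Test P n' B C.dlo' C.dhi' && d4Test P n B C.flo C.fhi && d4Test P n' B C.flo' C.fhi' &&
    e6Test P n n' B C.e6 && decide (n.1 + C.d = n'.1)

/-- The error of a function on a cell. -/
def errF (f : Fn) (C : Cell) : ℕ :=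
  chordErr C.d (derI f C.dlo C.dhi) (derI f C.dlo' C.dhi') (derI f C.flo C.fhi)
    (derI f C.flo' C.fhi') (dot f.2.2 C.e6)

/-- The two node enclosures of a function on a cell. -/
def encl2 (f : Fn) (C : Cell) : (ℤ × ℤ) × (ℤ × ℤ) :=
  let e := errF f C
  (widen (valI f C.lo C.hi) e, widen (valI f C.lo' C.hi') e)

/-- The enclosures of all coefficients. -/
def enclP2 (p : CellCert.Poly Fn) (C : Cell) : CellCert.Poly (ℤ × ℤ) × CellCert.Poly (ℤ × ℤ) :=
  (⟨(encl2 p.c00 C).1, (encl2 p.c10 C).1, (encl2 p.c20 C).1, (encl2 p.c30 C).1,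
      (encl2 p.c01 C).1, (encl2 p.c11 C).1, (encl2 p.c02 C).1⟩,
    ⟨(encl2 p.c00 C).2, (encl2 p.c10 C).2, (encl2 p.c20 C).2, (encl2 p.c30 C).2,
      (encl2 p.c01 C).2, (encl2 p.c11 C).2, (encl2 p.c02 C).2⟩)

/-- The test of a family on a cell. -/
def cellTest (F : VFam) (C : Cell) : Bool :=
  let a := enclP2 F.a C
  let b := enclP2 F.b C
  let N := enclP2 F.N C
  let d := enclP2 F.d C
  ctrlAll a.1 b.1 N.1 d.1 C.l C.h C.x0 C.x1 && ctrlAll a.2 b.2 N.2 d.2 C.l C.h C.x0 C.x1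

lemma split_weight (w : ℤ) : ((w.toNat : ℕ) : ℝ) - (((-w).toNat : ℕ) : ℝ) = w := by
  exact_mod_cast Int.toNat_sub_toNat_neg w

/-- Values at a node. -/
theorem valI_sound {P : ℕ} {m : Node} : ∀ {B : List (ℕ × ℕ)} {v : List ℤ} {lo hi : List ℕ},
    colTest P m B lo hi = true →
      ((valI (mkFn v) lo hi).1 : ℝ) ≤ 2 ^ P * evalB B v (nodeT m) ∧
      2 ^ P * evalB B v (nodeT m) ≤ ((valI (mkFn v) lo hi).2 : ℝ) := by
  intro B
  induction B with
  | nil =>
    intro v lo hi h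
    cases lo <;> cases hi <;> simp [colTest] at h
    cases v <;> simp [evalB, valI, mkFn, dot]
  | cons k B ih =>
    obtain ⟨i, j⟩ := k
    intro v lo hi h
    cases lo <;> cases hi <;> simp [colTest] at h
    rename_i a lo b hi
    cases v with
    | nil => simp [evalB, valI, mkFn, dot]
    | cons w v =>
      obtain ⟨ih1, ih2⟩ := ih (v := v) h.2
      obtain ⟨c1, c2⟩ := nodeTest_sound (colTest_node h.2)
      have hs : (0 : ℝ) < 2 ^ (20 * i + 32 * j) := by positivity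
      have e : ∀ z : ℕ, 2 ^ P * (((m.1 : ℝ) / 2 ^ 20) ^ i * ((z : ℝ) / 2 ^ 32) ^ j) =
          ((m.1 ^ i * z ^ j * 2 ^ P : ℕ) : ℝ) / 2 ^ (20 * i + 32 * j) := fun z => by
        rw [div_pow, div_pow, ← pow_mul, ← pow_mul, pow_add]; push_cast; field_simp
      have va : (a : ℝ) ≤ 2 ^ P * (nodeT m ^ i * cW (nodeT m) ^ j) := by
        calc (a : ℝ) ≤ 2 ^ P * (((m.1 : ℝ) / 2 ^ 20) ^ i * ((m.2.1 : ℝ) / 2 ^ 32) ^ j) := by
              rw [e, le_div_iff₀ hs]; exact_mod_cast h.1.1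
          _ ≤ _ := by simp only [nodeT]; gcongr; exact c1
      have vb : 2 ^ P * (nodeT m ^ i * cW (nodeT m) ^ j) ≤ (b : ℝ) := by
        calc 2 ^ P * (nodeT m ^ i * cW (nodeT m) ^ j)
            ≤ 2 ^ P * (((m.1 : ℝ) / 2 ^ 20) ^ i * ((m.2.2 : ℝ) / 2 ^ 32) ^ j) := by
              simp only [nodeT]; gcongr
              · exact (cW_pos _).le
              · exact c2
          _ ≤ (b : ℝ) := by rw [e, div_le_iff₀ hs]; exact_mod_cast h.1.2
      have p0 : (0 : ℝ) ≤ ((w.toNat : ℕ) : ℝ) := Nat.cast_nonneg _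
      have q0 : (0 : ℝ) ≤ (((-w).toNat : ℕ) : ℝ) := Nat.cast_nonneg _
      simp only [valI, mkFn, List.map_cons, dot] at ih1 ih2 ⊢
      simp only [evalB]
      rw [← split_weight w]
      push_cast at ih1 ih2 ⊢
      generalize nodeT m ^ i * cW (nodeT m) ^ j = f at va vb ⊢
      generalize (2 : ℝ) ^ P = Q at ih1 ih2 va vb ⊢
      have k1 := mul_le_mul_of_nonneg_left va p0
      have k2 := mul_le_mul_of_nonneg_left vb q0
      have k3 := mul_le_mul_of_nonneg_left vb p0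
      have k4 := mul_le_mul_of_nonneg_left va q0
      constructor <;> linarith

lemma dTest_node {g : ℕ × ℕ → List Atom} {p q P : ℕ} {m : Node} : ∀ {B : List (ℕ × ℕ)} {lo hi : List ℤ},
    dTest g p q P m B lo hi = true → nodeTest m = true
  | [], [], [], h => by simpa [dTest] using h
  | [], _ :: _, _, h => by simp [dTest] at h
  | [], [], _ :: _, h => by simp [dTest] at h
  | _ :: _, [], _, h => by simp [dTest] at h
  | _ :: _, _ :: _, [], h => by simp [dTest] at h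
  | _ :: _, _ :: _, _ :: _, h => by
    simp only [dTest, Bool.and_eq_true] at h
    exact dTest_node h.2

/-- Signed derivatives at a node. -/
theorem derI_sound {g : ℕ × ℕ → List Atom} {op : List Atom → List Atom} {p q P : ℕ} {m : Node}
    (h0 : ∀ T, eval (op []) T = 0)
    (hop : ∀ (w : ℤ) (k : ℕ × ℕ) (l : List Atom) (T : ℝ),
      eval (op ((w, k) :: l)) T = w * eval (g k) T + eval (op l) T) :
    ∀ {B : List (ℕ × ℕ)} {v : List ℤ} {lo hi : List ℤ},
    dTest g p q P m B lo hi = true →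
      ((derI (mkFn v) lo hi).1 : ℝ) ≤ 2 ^ P * eval (op (toL B v)) (nodeT m) ∧
      2 ^ P * eval (op (toL B v)) (nodeT m) ≤ ((derI (mkFn v) lo hi).2 : ℝ) := by
  intro B
  induction B with
  | nil =>
    intro v lo hi h
    cases lo <;> cases hi <;> simp [dTest] at h
    cases v <;> simp [toL, h0, derI, mkFn, dotZ]
  | cons k B ih =>
    obtain ⟨i, j⟩ := k
    intro v lo hi h
    cases lo <;> cases hi <;> simp only [dTest, Bool.and_eq_true, decide_eq_true_eq, Bool.false_eq_true] at h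
    rename_i a lo b hi
    cases v with
    | nil => simp [toL, h0, derI, mkFn, dotZ]
    | cons w v =>
      obtain ⟨ih1, ih2⟩ := ih (v := v) h.2
      obtain ⟨c1, c2⟩ := nodeTest_sound (dTest_node h.2)
      have hf := h.1.1.1
      obtain ⟨l1, l2⟩ := value_bounds (t := m.1) (t' := m.1) (T := nodeT m) (l := g (i, j)) hf
        le_rfl le_rfl c1 c2
      have hs := scl_pos (i + p) (j + q)
      have hP : (0 : ℝ) ≤ 2 ^ P := by positivity
      have ha : (a : ℝ) * scl (i + p) (j + q) ≤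
          (loV (i + p) (j + q) m.1 m.1 m.2.1 m.2.2 (g (i, j)) : ℝ) * 2 ^ P := by
        simp only [scl]; exact_mod_cast h.1.1.2
      have hb : (hiV (i + p) (j + q) m.1 m.1 m.2.1 m.2.2 (g (i, j)) : ℝ) * 2 ^ P ≤
          (b : ℝ) * scl (i + p) (j + q) := by
        simp only [scl]; exact_mod_cast h.1.2
      have va : (a : ℝ) ≤ 2 ^ P * eval (g (i, j)) (nodeT m) :=
        le_of_mul_le_mul_right (by nlinarith [mul_le_mul_of_nonneg_right l1 hP]) hs
      have vb : 2 ^ P * eval (g (i, j)) (nodeT m) ≤ (b : ℝ) :=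
        le_of_mul_le_mul_right (by nlinarith [mul_le_mul_of_nonneg_right l2 hP]) hs
      have p0 : (0 : ℝ) ≤ ((w.toNat : ℕ) : ℝ) := Nat.cast_nonneg _
      have q0 : (0 : ℝ) ≤ (((-w).toNat : ℕ) : ℝ) := Nat.cast_nonneg _
      simp only [derI, mkFn, List.map_cons, dotZ] at ih1 ih2 ⊢
      simp only [toL, hop]
      rw [← split_weight w]
      push_cast at ih1 ih2 ⊢
      generalize eval (g (i, j)) (nodeT m) = f at va vb ⊢
      generalize (2 : ℝ) ^ P = Q at ih1 ih2 va vb ⊢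
      have k1 := mul_le_mul_of_nonneg_left va p0
      have k2 := mul_le_mul_of_nonneg_left vb q0
      have k3 := mul_le_mul_of_nonneg_left vb p0
      have k4 := mul_le_mul_of_nonneg_left va q0
      constructor <;> linarith

lemma e6Test_node {P : ℕ} {n n' : Node} : ∀ {B : List (ℕ × ℕ)} {er : List ℕ},
    e6Test P n n' B er = true → nodeTest n = true ∧ n.1 < n'.1
  | [], [], h => by
    simp only [e6Test, Bool.and_eq_true, decide_eq_true_eq] at h
    exact ⟨h.1.1, h.2⟩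
  | [], _ :: _, h => by simp [e6Test] at h
  | _ :: _, [], h => by simp [e6Test] at h
  | _ :: _, _ :: _, h => by
    simp only [e6Test, Bool.and_eq_true] at h
    exact e6Test_node h.2

/-- The sixth derivative on a cell. -/
theorem e6_sound {P : ℕ} {n n' : Node} {x : ℝ} (hx : x ∈ Icc (nodeT n) (nodeT n')) :
    ∀ {B : List (ℕ × ℕ)} {v : List ℤ} {er : List ℕ}, e6Test P n n' B er = true →
      2 ^ P * |eval (deriv1 (deriv1 (deriv1 (deriv1 (deriv1 (deriv1 (toL B v))))))) x| ≤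
        (dot (mkFn v).2.2 er : ℕ) := by
  intro B
  induction B with
  | nil =>
    intro v er h
    cases v <;> simp [toL, deriv1, eval]
  | cons k B ih =>
    intro v er h
    cases er <;> simp [e6Test] at h
    rename_i e er
    cases v with
    | nil => obtain ⟨i, j⟩ := k; simp [toL, deriv1, eval]
    | cons w v =>
      obtain ⟨i, j⟩ := k
      have h1 := e6One_sound h.1 (e6Test_node h.2).1 hx
      have h2 := ih (v := v) h.2
      simp only [mkFn, List.map_cons, dot] at h2 ⊢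
      simp only [toL, eval_d6_cons]
      push_cast [Nat.cast_natAbs] at h2 ⊢
      generalize eval (d6A (i, j)) x = f at h1 ⊢
      generalize eval (deriv1 (deriv1 (deriv1 (deriv1 (deriv1 (deriv1 (toL B v))))))) x = g at h2 ⊢
      have hP : (0 : ℝ) ≤ 2 ^ P := by positivity
      calc (2 : ℝ) ^ P * |(w : ℝ) * f + g| ≤ 2 ^ P * (|(w : ℝ)| * |f| + |g|) := by
            rw [← abs_mul]; exact mul_le_mul_of_nonneg_left (abs_add_le _ _) hP
        _ ≤ _ := by nlinarith [abs_nonneg (w : ℝ)]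

lemma up43_le (d x : ℕ) : ((d * d * x : ℕ) : ℝ) / 2 ^ 43 ≤ (up43 d x : ℝ) := by
  rw [div_le_iff₀ (by positivity)]
  have : d * d * x ≤ up43 d x * 2 ^ 43 := by unfold up43; omega
  exact_mod_cast this

lemma magI_le {r : ℤ × ℤ} {z : ℝ} (h1 : (r.1 : ℝ) ≤ z) (h2 : z ≤ (r.2 : ℝ)) :
    |z| ≤ (magI r : ℝ) := by
  simp only [magI, Nat.cast_max, Nat.cast_natAbs]
  push_cast
  exact abs_le_max_abs_abs h1 h2

lemma chord_alg {u w Q z a b E lo lo' hi hi' U : ℝ} (hu : 0 ≤ u) (hw : 0 ≤ w) (hQ : 0 ≤ Q)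
    (ha : lo ≤ Q * a ∧ Q * a ≤ hi) (hb : lo' ≤ Q * b ∧ Q * b ≤ hi')
    (hc : |z - (u * a + w * b)| ≤ E) (hE : E * Q ≤ U) :
    u * lo + w * lo' - U ≤ z * Q ∧ z * Q ≤ u * hi + w * hi' + U := by
  obtain ⟨c1, c2⟩ := abs_le.1 hc
  have a1 := mul_le_mul_of_nonneg_left ha.1 hu
  have a2 := mul_le_mul_of_nonneg_left ha.2 hu
  have b1 := mul_le_mul_of_nonneg_left hb.1 hw
  have b2 := mul_le_mul_of_nonneg_left hb.2 hw
  have d1 := mul_le_mul_of_nonneg_right c1 hQ
  have d2 := mul_le_mul_of_nonneg_right c2 hQ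
  constructor <;> linarith

/-- Bounds of the second derivative at the ends and of the fourth on a cell bound the second. -/
lemma lift_bound {L : List Atom} {a b Q : ℝ} {d e : ℕ} {g g' : ℤ × ℤ} (hQ : 0 < Q) (hlt : a < b)
    (hd2 : (b - a) ^ 2 / 8 = ((d * d : ℕ) : ℝ) / 2 ^ 43)
    (hg : (g.1 : ℝ) ≤ Q * eval L a ∧ Q * eval L a ≤ (g.2 : ℝ))
    (hg' : (g'.1 : ℝ) ≤ Q * eval L b ∧ Q * eval L b ≤ (g'.2 : ℝ))
    (hM : ∀ x ∈ Icc a b, |eval (deriv1 (deriv1 L)) x| ≤ (e : ℝ) / Q) :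
    ∀ x ∈ Icc a b, |eval L x| ≤ ((max (magI g) (magI g') + up43 d e : ℕ) : ℝ) / Q := by
  intro x hx
  have hc2 := chord_le hM hx hlt
  have u0 : 0 ≤ (b - x) / (b - a) := div_nonneg (by linarith [hx.2]) (by linarith)
  have v0 : 0 ≤ (x - a) / (b - a) := div_nonneg (by linarith [hx.1]) (by linarith)
  have uv : (b - x) / (b - a) + (x - a) / (b - a) = 1 := by
    rw [← add_div, div_eq_one_iff_eq (by linarith)]; ring
  rw [le_div_iff₀ hQ]
  have m0 := magI_le hg.1 hg.2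
  have m1 := magI_le hg'.1 hg'.2
  have hM0 : (magI g : ℝ) ≤ (max (magI g) (magI g') : ℕ) := Nat.cast_le.2 (le_max_left _ _)
  have hM1 : (magI g' : ℝ) ≤ (max (magI g) (magI g') : ℕ) := Nat.cast_le.2 (le_max_right _ _)
  have he' : (e : ℝ) / Q * (b - a) ^ 2 / 8 * Q = ((d * d * e : ℕ) : ℝ) / 2 ^ 43 := by
    rw [mul_div_assoc _ ((b - a) ^ 2), hd2]; push_cast; field_simp
  obtain ⟨r1, r2⟩ := chord_alg u0 v0 hQ.le (abs_le.1 (m0.trans hM0)) (abs_le.1 (m1.trans hM1))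
    hc2 (he'.le.trans (up43_le d e))
  rw [Nat.cast_add, show |eval L x| * Q = |eval L x * Q| by rw [abs_mul, abs_of_pos hQ], abs_le]
  generalize (b - x) / (b - a) = u at u0 uv r1 r2
  generalize (x - a) / (b - a) = w at v0 uv r1 r2
  obtain rfl : w = 1 - u := by linarith
  constructor <;> linarith

theorem encl2_sound {P : ℕ} {B : List (ℕ × ℕ)} {n n' : Node} {C : Cell} {v : List ℤ} {T : ℝ}
    (h : tabTest P B n n' C = true) (hT : T ∈ Icc (nodeT n) (nodeT n')) :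
    (chordU (nodeT n) (nodeT n') T * ((encl2 (mkFn v) C).1.1 : ℝ) +
        (1 - chordU (nodeT n) (nodeT n') T) * ((encl2 (mkFn v) C).2.1 : ℝ) ≤ 2 ^ P * evalB B v T) ∧
      (2 ^ P * evalB B v T ≤ chordU (nodeT n) (nodeT n') T * ((encl2 (mkFn v) C).1.2 : ℝ) +
        (1 - chordU (nodeT n) (nodeT n') T) * ((encl2 (mkFn v) C).2.2 : ℝ)) := by
  simp only [tabTest, Bool.and_eq_true, decide_eq_true_eq] at h
  obtain ⟨⟨⟨⟨⟨⟨⟨hc, hc'⟩, hd⟩, hd'⟩, hf⟩, hf'⟩, he⟩, hdd⟩ := h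
  obtain ⟨hn, hlt0⟩ := e6Test_node he
  have hlt : nodeT n < nodeT n' := by simp only [nodeT]; gcongr
  obtain ⟨a1, a2⟩ := valI_sound (v := v) hc
  obtain ⟨b1, b2⟩ := valI_sound (v := v) hc'
  have g0 := derI_sound (op := fun l => deriv1 (deriv1 l)) (v := v) (fun T => by simp [deriv1, eval])
    eval_d2_cons hd
  have g1 := derI_sound (op := fun l => deriv1 (deriv1 l)) (v := v) (fun T => by simp [deriv1, eval])
    eval_d2_cons hd'
  have f0 := derI_sound (op := fun l => deriv1 (deriv1 (deriv1 (deriv1 l)))) (v := v)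
    (fun T => by simp [deriv1, eval]) eval_d4_cons hf
  have f1 := derI_sound (op := fun l => deriv1 (deriv1 (deriv1 (deriv1 l)))) (v := v)
    (fun T => by simp [deriv1, eval]) eval_d4_cons hf'
  set L := toL B v with hL
  have hP : (0 : ℝ) < 2 ^ P := by positivity
  set e := (dot (mkFn v).2.2 C.e6 : ℕ) with hedef
  have hM6 : ∀ x ∈ Icc (nodeT n) (nodeT n'),
      |eval (deriv1 (deriv1 (deriv1 (deriv1 (deriv1 (deriv1 L)))))) x| ≤ (e : ℝ) / 2 ^ P :=
    fun x hx => by rw [le_div_iff₀ hP, mul_comm]; exact e6_sound hx he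
  set Δ := nodeT n' - nodeT n with hΔ
  have hd2 : Δ ^ 2 / 8 = ((C.d * C.d : ℕ) : ℝ) / 2 ^ 43 := by
    rw [hΔ]; simp only [nodeT, ← hdd]; push_cast; ring
  have hu0 : ∀ x ∈ Icc (nodeT n) (nodeT n'), 0 ≤ (nodeT n' - x) / Δ ∧ 0 ≤ (x - nodeT n) / Δ ∧
      (nodeT n' - x) / Δ + (x - nodeT n) / Δ = 1 := fun x hx =>
    ⟨div_nonneg (by linarith [hx.2]) (by linarith), div_nonneg (by linarith [hx.1]) (by linarith),
      by rw [← add_div, div_eq_one_iff_eq (by linarith)]; ring⟩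
  have hM4 := lift_bound hP hlt hd2 f0 f1 hM6
  have hM2 := lift_bound hP hlt hd2 g0 g1 hM4
  set G : ℕ := max (magI (derI (mkFn v) C.dlo C.dhi)) (magI (derI (mkFn v) C.dlo' C.dhi')) +
    up43 C.d (max (magI (derI (mkFn v) C.flo C.fhi)) (magI (derI (mkFn v) C.flo' C.fhi')) +
      up43 C.d e) with hG
  have hc1 := chord_le hM2 hT hlt
  simp only [L, eval_toL] at hc1
  obtain ⟨u0, v0, uv⟩ := hu0 T hT
  have eU : chordU (nodeT n) (nodeT n') T = (nodeT n' - T) / Δ := rfl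
  have eV : 1 - chordU (nodeT n) (nodeT n') T = (T - nodeT n) / Δ := by rw [eU]; linarith
  rw [eV, eU]
  have hE : (G : ℝ) / 2 ^ P * Δ ^ 2 / 8 * 2 ^ P ≤ (errF (mkFn v) C : ℝ) := by
    rw [mul_div_assoc _ (Δ ^ 2), hd2]
    refine le_trans (le_of_eq ?_) (up43_le C.d G)
    push_cast; field_simp
  obtain ⟨r1, r2⟩ := chord_alg u0 v0 hP.le ⟨a1, a2⟩ ⟨b1, b2⟩ hc1 hE
  simp only [encl2, widen]
  push_cast
  generalize (nodeT n' - T) / Δ = u at u0 uv r1 r2 ⊢
  generalize (T - nodeT n) / Δ = w at v0 uv r1 r2 ⊢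
  obtain rfl : w = 1 - u := by linarith
  constructor <;> linarith

theorem encl2_le {P : ℕ} {B : List (ℕ × ℕ)} {n n' : Node} {C : Cell} {v : List ℤ}
    (h : tabTest P B n n' C = true) :
    ((encl2 (mkFn v) C).1.1 : ℝ) ≤ ((encl2 (mkFn v) C).1.2 : ℝ) ∧
      ((encl2 (mkFn v) C).2.1 : ℝ) ≤ ((encl2 (mkFn v) C).2.2 : ℝ) := by
  simp only [tabTest, Bool.and_eq_true] at h
  obtain ⟨⟨⟨⟨⟨⟨⟨hc, hc'⟩, -⟩, -⟩, -⟩, -⟩, -⟩, -⟩ := h
  have e0 : (0 : ℝ) ≤ (errF (mkFn v) C : ℝ) := Nat.cast_nonneg _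
  have a := valI_sound (v := v) hc
  have b := valI_sound (v := v) hc'
  simp only [encl2, widen]
  push_cast
  exact ⟨by linarith [a.1.trans a.2], by linarith [b.1.trans b.2]⟩

theorem cellTest_sound {P : ℕ} {B : List (ℕ × ℕ)} {n n' : Node} {C : Cell}
    {pa pb pN pd : CellCert.Poly (List ℤ)} {T D X : ℝ}
    (ht : cellTest ⟨pa.fn, pb.fn, pN.fn, pd.fn⟩ C = true)
    (htab : tabTest P B n n' C = true) (hT : T ∈ Icc (nodeT n) (nodeT n'))
    (hD : D ∈ Icc ((C.l : ℝ) / 2 ^ 32) ((C.h : ℝ) / 2 ^ 32))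
    (hX : X ∈ Icc ((C.x0 : ℝ) / 2 ^ 32) ((C.x1 : ℝ) / 2 ^ 32)) :
    Quad ((pa.at B T).val D X) ((pb.at B T).val D X) ((pN.at B T).val D X) ((pd.at B T).val D X) := by
  simp only [cellTest, Bool.and_eq_true] at ht
  obtain ⟨t0, t1⟩ := ht
  set u := chordU (nodeT n) (nodeT n') T with hu
  set v := 1 - u with hv
  have htab' := htab
  simp only [tabTest, Bool.and_eq_true] at htab'
  have hlt : nodeT n < nodeT n' := by
    have := (e6Test_node htab'.1.2).2
    simp only [nodeT]; gcongr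
  have hu0 : 0 ≤ u := div_nonneg (by linarith [hT.2]) (by linarith)
  have hv0 : 0 ≤ v := by
    rw [hv, sub_nonneg, hu, chordU, div_le_one (by linarith)]; linarith [hT.1]
  have hP : (0 : ℝ) < 2 ^ P := by positivity
  have split : ∀ w : List ℤ, ∃ x y : ℝ,
      (((encl2 (mkFn w) C).1.1 : ℝ) ≤ x ∧ x ≤ ((encl2 (mkFn w) C).1.2 : ℝ)) ∧
      (((encl2 (mkFn w) C).2.1 : ℝ) ≤ y ∧ y ≤ ((encl2 (mkFn w) C).2.2 : ℝ)) ∧
      u * x + v * y = 2 ^ P * evalB B w T := by
    intro w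
    obtain ⟨h1, h2⟩ := encl2_sound (v := w) htab hT
    rw [← hu, ← hv] at h1 h2
    obtain ⟨wa, wb⟩ := encl2_le (v := w) htab
    set a1 := ((encl2 (mkFn w) C).1.1 : ℝ)
    set a2 := ((encl2 (mkFn w) C).1.2 : ℝ)
    set b1 := ((encl2 (mkFn w) C).2.1 : ℝ)
    set b2 := ((encl2 (mkFn w) C).2.2 : ℝ)
    obtain ⟨s, hs, es⟩ := exists_frac (l := u * a1 + v * b1) (h := u * a2 + v * b2) ⟨h1, h2⟩
    refine ⟨(1 - s) * a1 + s * a2, (1 - s) * b1 + s * b2, ?_, ?_, ?_⟩
    · constructor <;> nlinarith [hs.1, hs.2]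
    · constructor <;> nlinarith [hs.1, hs.2]
    · rw [es]; ring
  choose fx fy hx hy hxy using split
  have Pi : ∀ p : CellCert.Poly (List ℤ),
      (⟨fx p.c00, fx p.c10, fx p.c20, fx p.c30, fx p.c01, fx p.c11, fx p.c02⟩ : CellCert.Poly ℝ).In
          (enclP2 p.fn C).1 ∧
      (⟨fy p.c00, fy p.c10, fy p.c20, fy p.c30, fy p.c01, fy p.c11, fy p.c02⟩ : CellCert.Poly ℝ).In
          (enclP2 p.fn C).2 := fun p =>
    ⟨⟨hx _, hx _, hx _, hx _, hx _, hx _, hx _⟩, ⟨hy _, hy _, hy _, hy _, hy _, hy _, hy _⟩⟩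
  have Q := ((ctrlAll_sound t0 (Pi pa).1 (Pi pb).1 (Pi pN).1 (Pi pd).1 hD hX).smul hu0).add
    ((ctrlAll_sound t1 (Pi pa).2 (Pi pb).2 (Pi pN).2 (Pi pd).2 hD hX).smul hv0)
  have e : ∀ p : CellCert.Poly (List ℤ),
      u * (⟨fx p.c00, fx p.c10, fx p.c20, fx p.c30, fx p.c01, fx p.c11, fx p.c02⟩ : CellCert.Poly ℝ).val D X +
        v * (⟨fy p.c00, fy p.c10, fy p.c20, fy p.c30, fy p.c01, fy p.c11, fy p.c02⟩ : CellCert.Poly ℝ).val D X =
        2 ^ P * (p.at B T).val D X := fun p => by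
    simp only [Poly.val, Poly.at]
    linear_combination hxy p.c00 + D * hxy p.c10 + D ^ 2 * hxy p.c20 + D ^ 3 * hxy p.c30 +
      X * hxy p.c01 + (D * X) * hxy p.c11 + X ^ 2 * hxy p.c02
  rw [e, e, e, e] at Q
  have := Q.smul (inv_nonneg.2 hP.le)
  simpa [inv_mul_cancel_left₀ hP.ne'] using this

end Vale.Agent.P237.Cal.CellCert2
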