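import Vale.Agent.P237.Cal.BoxHand
import Vale.Agent.P237.Cal.CellCert2

/-!
# P237: chains of cells with signed second derivative tables

The node tables are checked once for a box. Each family and side has the ranges of `D` and of the
centred state per row pair; the range of `D` may be cut into segments tested separately.
-/

open Set Real

namespace Vale.Agent.P237.Cal.CellGlue2

open AtomCert CellCert FamAtoms StateTable BoxHand

/-- The ranges of one side over a row pair, with the inner cuts of `D`. -/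
structure Rng where
  l : ℤ
  h : ℤ
  x0 : ℤ
  x1 : ℤ
  cuts : List ℤ
  s1 : ℕ := 0
  qd : ℕ := 0
  be : ℕ := 0
  xs : List ℤ := []

/-- A cell with other ranges. -/
def setRange (C : CellCert2.Cell) (l h x0 x1 : ℤ) : CellCert2.Cell :=
  { C with l := l, h := h, x0 := x0, x1 := x1 }

/-- The segments of a range are tested. -/
def segTest (F : VFam) (C : CellCert2.Cell) (x0 x1 : ℤ) : ℤ → List ℤ → ℤ → Bool
  | l, [], h => CellCert2.cellTest F (setRange C l h x0 x1)
  | l, c :: cs, h => CellCert2.cellTest F (setRange C l c x0 x1) && segTest F C x0 x1 c cs h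

/-- The pieces of the range of the centred state are tested. -/
def xsT (t : ℤ → ℤ → Bool) : ℤ → List ℤ → ℤ → Bool
  | x0, [], x1 => t x0 x1
  | x0, c :: cs, x1 => t x0 c && xsT t c cs x1

/-- A point of the range lies in one tested piece, the same for all tests. -/
theorem xsT_piece {ι : Type} {s : List ι} {t : ι → ℤ → ℤ → Bool} {X : ℝ} :
    ∀ {x0 : ℤ} {cs : List ℤ} {x1 : ℤ}, (∀ i ∈ s, xsT (t i) x0 cs x1 = true) →
      X ∈ Icc ((x0 : ℝ) / 2 ^ 32) ((x1 : ℝ) / 2 ^ 32) →
      ∃ a b : ℤ, (∀ i ∈ s, t i a b = true) ∧ X ∈ Icc ((a : ℝ) / 2 ^ 32) ((b : ℝ) / 2 ^ 32)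
  | x0, [], x1, h, hX => ⟨x0, x1, h, hX⟩
  | x0, c :: cs, x1, h, hX => by
    rcases le_or_gt X ((c : ℝ) / 2 ^ 32) with hle | hgt
    · exact ⟨x0, c, fun i hi => (Bool.and_eq_true_iff.1 (h i hi)).1, hX.1, hle⟩
    · exact xsT_piece (fun i hi => (Bool.and_eq_true_iff.1 (h i hi)).2) ⟨hgt.le, hX.2⟩

/-- The node tables along the rows. -/
noncomputable def tabsTest (P : ℕ) (B : List (ℕ × ℕ)) : List Row → List CellCert2.Cell → Bool
  | a :: b :: l, C :: cs => CellCert2.tabTest P B a.n b.n C && tabsTest P B (b :: l) cs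
  | [_], [] => true
  | _, _ => false

/-- The ranges cover the side of the region over every row pair. -/
def rangesTest (pos : Bool) (m E cv bv : ℕ) (cb : ℤ) : List Row → List Rng → Bool
  | a :: b :: l, r :: rs =>
    nodeTest a.n && (decide (a.s = 0) || decide (a.s * a.s + E ≤ a.n.1 * a.n.1)) &&
      (if pos then decide (r.l ≤ 0) && (decide ((gW a : ℤ) ≤ r.h * 2 ^ 8) ||
          (nodeTest b.n && crudeOk m cv b.n (r.h + (a.n.1 : ℤ) * 2 ^ 12)) ||
          bumpOk m cv bv a.n b.n r.h r.s1 r.qd r.be)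
        else decide (r.l * 2 ^ 8 ≤ -(gUp E a b : ℤ)) && decide (0 ≤ r.h)) &&
      decide (r.x0 ≤ -(b.lo : ℤ)) && (decide (min (b.hi : ℤ) (cb - a.fd) ≤ r.x1) || sigTest m a.n b.n r.h b.hi r.x1) &&
      rangesTest pos m E cv bv cb (b :: l) rs
  | [_], [] => true
  | _, _ => false

/-- All cells of one family and side pass. -/
def famTest (F : VFam) : List CellCert2.Cell → List Rng → Bool
  | C :: cs, r :: rs => xsT (fun x0 x1 => segTest F C x0 x1 r.l r.cuts r.h) r.x0 r.xs r.x1 && famTest F cs rs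
  | [], [] => true
  | _, _ => false

variable {m P E0 E cv bv : ℕ} {cb : ℤ} {B : List (ℕ × ℕ)} {F : VFam} {p : APar} {s : Side}
  {Y₁ V₁ T σ X : ℝ} {Q₁ : ℚ} {pos : Bool}

theorem segTest_sound {n n' : Node} {C : CellCert2.Cell} {x0 x1 : ℤ}
    (hF : vfam B m p s = some F) (htab : CellCert2.tabTest P B n n' C = true) (hZ : 0 < p.Z)
    (hT0 : 0 < T) (hT : T ∈ Icc (nodeT n) (nodeT n'))
    (hX : X ∈ Icc ((x0 : ℝ) / 2 ^ 32) ((x1 : ℝ) / 2 ^ 32)) :
    ∀ {l : ℤ} {cs : List ℤ} {h : ℤ}, segTest F C x0 x1 l cs h = true →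
      σ - T ∈ Icc ((l : ℝ) / 2 ^ 32) ((h : ℝ) / 2 ^ 32) →
      VxOk m (p.fam.at T) ((p.eps : ℝ) / p.Z) ((p.eta : ℝ) / p.Z) (ev p.Z s.th T)
        (s.ph p.Z T (σ - T)) (ev p.Z s.nu T) T σ X := by
  have one : ∀ l h : ℤ, CellCert2.cellTest F (setRange C l h x0 x1) = true →
      σ - T ∈ Icc ((l : ℝ) / 2 ^ 32) ((h : ℝ) / 2 ^ 32) →
      VxOk m (p.fam.at T) ((p.eps : ℝ) / p.Z) ((p.eta : ℝ) / p.Z) (ev p.Z s.th T)
        (s.ph p.Z T (σ - T)) (ev p.Z s.nu T) T σ X := by
    intro l h ht hD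
    simp only [vfam, Option.bind_eq_bind, Option.pure_def, Option.bind_eq_some_iff,
      Option.some.injEq] at hF
    obtain ⟨a, ha, b, hb, c, hc2, d, hd, rfl⟩ := hF
    have hq := CellCert2.cellTest_sound (P := P) (B := B) (n := n) (n' := n') ht
      (show CellCert2.tabTest P B n n' (setRange C l h x0 x1) = true from htab) hT hD hX
    rw [denseP_at ha, denseP_at hb, denseP_at hc2, denseP_at hd] at hq
    exact vxOk_of_quad hZ hT0 rfl hq
  intro l cs
  induction cs generalizing l with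
  | nil => intro h ht hD; exact one l h (by simpa [segTest] using ht) hD
  | cons c cs ih =>
    intro h ht hD
    simp only [segTest, Bool.and_eq_true] at ht
    rcases le_or_gt (σ - T) ((c : ℝ) / 2 ^ 32) with hle | hgt
    · exact one l c ht.1 ⟨hD.1, hle⟩
    · exact ih ht.2 ⟨hgt.le, hD.2⟩

theorem chain_sound (hY : 1 ≤ Y₁) (hE : Y₁ ^ 2 - 1 ≤ (E : ℝ) / 2 ^ 40)
    (hcv : crudeTest m Q₁ cv = true) (hbv : V₁ ≤ (bv : ℝ) / 2 ^ 32)
    (hcb : (Q₁ : ℝ) * semiMom m 1 - semiMom m 1 / Y₁ ^ (m + 1) ≤ (cb : ℝ) / 2 ^ 32)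
    (hF : vfam B m p s = some F) (hZ : 0 < p.Z) (hP : BoxPt m Y₁ Q₁ V₁ T σ X)
    (hside : if pos then T ≤ σ else σ ≤ T) :
    ∀ {a : Row} {l : List Row} {cs : List CellCert2.Cell} {rs : List Rng},
      tabsTest P B (a :: l) cs = true → rangesTest pos m E cv bv cb (a :: l) rs = true →
      famTest F cs rs = true → (∀ q ∈ (a :: l).zip l, CellBound m Y₁ q.1 q.2) → a.T < T →
      T ≤ ((a :: l).getLast (by simp)).T →
      VxOk m (p.fam.at T) ((p.eps : ℝ) / p.Z) ((p.eta : ℝ) / p.Z) (ev p.Z s.th T)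
        (s.ph p.Z T (σ - T)) (ev p.Z s.nu T) T σ (X - X0 m T)
  | a, [], _, _, _, _, _, _, h1, h2 => absurd (h2.trans_lt' h1) (lt_irrefl _)
  | a, b :: l, [], _, h, _, _, _, _, _ => by simp [tabsTest] at h
  | a, b :: l, C :: cs, [], _, h, _, _, _, _ => by simp [rangesTest] at h
  | a, b :: l, C :: cs, r :: rs, ht, hr, hf, hB, h1, h2 => by
    simp only [tabsTest, Bool.and_eq_true] at ht
    simp only [rangesTest, Bool.and_eq_true, Bool.or_eq_true, decide_eq_true_eq] at hr
    simp only [famTest, Bool.and_eq_true] at hf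
    obtain ⟨⟨⟨⟨⟨hn, hs⟩, hd⟩, hx0⟩, hx1⟩, hrs⟩ := hr
    rcases le_or_gt T b.T with hle | hgt
    · have hT : T ∈ Icc a.T b.T := ⟨h1.le, hle⟩
      obtain ⟨s1, s2, s3⟩ := state_bounds hP (hB (a, b) (by simp)) hT hcb
      have hD : σ - T ∈ Icc ((r.l : ℝ) / 2 ^ 32) ((r.h : ℝ) / 2 ^ 32) := by
        cases pos
        · simp only [Bool.false_eq_true, if_false, Bool.and_eq_true, decide_eq_true_eq] at hd hside
          have g := gap_upper hY hE hs hT
          have k1 : √(1 + T ^ 2 - Y₁ ^ 2) ≤ σ := by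
            rw [sqrt_le_left hP.σ_pos.le]; exact hP.σ_low
          have k2 : ((r.l : ℝ) * 2 ^ 8) ≤ -(gUp E a b : ℝ) := by exact_mod_cast hd.1
          have k3 : (0 : ℝ) ≤ (r.h : ℝ) := by exact_mod_cast hd.2
          refine ⟨?_, le_trans (by linarith) (div_nonneg k3 (by positivity))⟩
          rw [div_le_iff₀ (by positivity)]
          rw [le_div_iff₀ (by positivity)] at g
          nlinarith
        · simp only [if_true, Bool.and_eq_true, Bool.or_eq_true, decide_eq_true_eq] at hd hside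
          have k3 : (r.l : ℝ) ≤ 0 := by exact_mod_cast hd.1
          refine ⟨le_trans (div_nonpos_of_nonpos_of_nonneg k3 (by positivity)) (by linarith), ?_⟩
          rcases hd.2 with (hw | ⟨hbn, hc⟩) | hbump
          · have g := wu_upper hn hT.1
            have k2 : (gW a : ℝ) ≤ (r.h : ℝ) * 2 ^ 8 := by exact_mod_cast hw
            rw [le_div_iff₀ (by positivity)]
            rw [le_div_iff₀ (by positivity)] at g
            nlinarith [hP.σ_le]
          · have k2 := crude_le hcv hbn hc hP hle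
            have k4 : (a.n.1 : ℝ) / 2 ^ 20 ≤ T := hT.1
            push_cast at k2
            rw [le_div_iff₀ (by positivity)] at k2 ⊢
            rw [div_le_iff₀ (by positivity)] at k4
            nlinarith
          · exact bump_le hcv hbv hbump hP hT
      have hX : X - X0 m T ∈ Icc ((r.x0 : ℝ) / 2 ^ 32) ((r.x1 : ℝ) / 2 ^ 32) := by
        refine ⟨?_, ?_⟩
        · refine le_trans ?_ s1
          rw [← neg_div]
          exact div_le_div_of_nonneg_right (by exact_mod_cast hx0) (by positivity)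
        · rcases hx1 with hx1 | hx1
          · have h3 : min ((b.hi : ℕ) : ℝ) ((cb : ℝ) - (a.fd : ℕ)) ≤ (r.x1 : ℝ) := by
              exact_mod_cast hx1
            refine le_trans (le_min s2 s3) ?_
            rw [← sub_div, min_div_div_right (by positivity)]
            exact div_le_div_of_nonneg_right h3 (by positivity)
          · refine sig_le hx1 hP hT hD.2 ?_
            have := ((hB (a, b) (by simp)) T hT).2.2
            simp only [rise] at this
            simpa using this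
      obtain ⟨xa, xb, ht', hX'⟩ := xsT_piece (s := [()])
        (t := fun _ => fun x0 x1 => segTest F C x0 x1 r.l r.cuts r.h) (fun _ _ => hf.1) hX
      exact segTest_sound hF ht.1 hZ hP.T_pos hT hX' (ht' () (by simp)) hD
    · exact chain_sound hY hE hcv hbv hcb hF hZ hP hside ht.2 hrs hf.2
        (fun q hq => hB q (by simp only [List.zip_cons_cons]; exact List.mem_cons_of_mem _ hq))
        hgt (by simpa using h2)

/-- **Both sides along the checked chains.** -/
theorem vxOn_of_chains {a : Row} {l : List Row} {cs : List CellCert2.Cell} {rn rp : List Rng}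
    {Fn Fp : VFam} {sn sp : Side} (hY : 1 ≤ Y₁) (hE0 : (E0 : ℝ) / 2 ^ 40 ≤ Y₁ ^ 2 - 1)
    (hE : Y₁ ^ 2 - 1 ≤ (E : ℝ) / 2 ^ 40)
    (hcv : crudeTest m Q₁ cv = true) (hbv : V₁ ≤ (bv : ℝ) / 2 ^ 32)
    (hcb : (Q₁ : ℝ) * semiMom m 1 - semiMom m 1 / Y₁ ^ (m + 1) ≤ (cb : ℝ) / 2 ^ 32)
    (hrows : tableOk m E0 E (a :: l) = true) (htabs : tabsTest P B (a :: l) cs = true)
    (hrn : rangesTest false m E cv bv cb (a :: l) rn = true) (hrp : rangesTest true m E cv bv cb (a :: l) rp = true)
    (hFn : vfam B m p sn = some Fn) (hFp : vfam B m p sp = some Fp) (hZ : 0 < p.Z)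
    (hn : famTest Fn cs rn = true) (hp : famTest Fp cs rp = true) :
    VxOn m p sn sp Y₁ Q₁ V₁ fun T => a.T < T ∧ T ≤ ((a :: l).getLast (by simp)).T := by
  intro T σ X hP hT
  have hB := table_sound hY hE0 hE hrows
  split_ifs with hc
  · exact chain_sound hY hE hcv hbv hcb hFp hZ hP (pos := true) (by simpa using hc) htabs hrp hp hB hT.1 hT.2
  · exact chain_sound hY hE hcv hbv hcb hFn hZ hP (pos := false) (by simpa using (le_of_lt (not_le.1 hc)))
      htabs hrn hn hB hT.1 hT.2

end Vale.Agent.P237.Cal.CellGlue2
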