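import Vale.Agent.P237.Cal.TailRed
import Vale.Agent.P237.Cal.CellGlue2

/-!
# P237: the shared data of a box

The tables and ranges are shared by the four vertices; `BoxVertex2` joins one vertex.
-/

open Set Real

namespace Vale.Agent.P237.Cal.BoxVertex

open AtomCert CellCert FamAtoms StateTable CellEnds BoxHand BoxEnds TailRed CellGlue2

/-- The bound at the last row of a checked table. -/
theorem last_bound {m E0 E : ℕ} {Y : ℝ} (hY : 1 ≤ Y) (hE0 : (E0 : ℝ) / 2 ^ 40 ≤ Y ^ 2 - 1)
    (hE : Y ^ 2 - 1 ≤ (E : ℝ) / 2 ^ 40) {a : Row} {l : List Row}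
    (h : tableOk m E0 E (a :: l) = true) : Bound m Y ((a :: l).getLast (by simp)) := by
  simp only [tableOk, Bool.and_eq_true] at h
  obtain ⟨h0, hl⟩ := h
  revert hl
  suffices ∀ (l : List Row) (a : Row), Bound m Y a →
      (((a :: l).zip l).all fun p => stepOk m E0 E p.1 p.2) = true →
      Bound m Y ((a :: l).getLast (by simp)) from this l a (headOk_sound hY h0)
  intro l
  induction l with
  | nil => intro a ha _; simpa using ha
  | cons b l ih =>
    intro a ha hl
    simp only [List.zip_cons_cons, List.all_cons, Bool.and_eq_true] at hl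
    have hb : Bound m Y b := (stepOk_sound hY hE0 hE hl.1 ha).1
    simpa using ih b hb hl.2

/-- The shared data of a box. -/
structure Data where
  P : ℕ
  E0 : ℕ
  E : ℕ
  cb : ℤ
  cv : ℕ
  bv : ℕ
  sC : ℕ
  B : List (ℕ × ℕ)
  Bh : List (ℕ × ℕ)
  Bt : List (ℕ × ℕ)
  z : Node
  first : Row
  rows : List Row
  cells : List CellCert2.Cell
  rn : List Rng
  rp : List Rng
  hn : Flat
  hp : Flat
  tn : Flat
  tp : Flat

/-- The last row. -/
def Data.last (d : Data) : Row := (d.first :: d.rows).getLast (by simp)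

/-- The tests shared by the vertices. -/
noncomputable def Data.sharedTest (m : ℕ) (d : Data) : Bool :=
  tableOk m d.E0 d.E (d.first :: d.rows) && tabsTest d.P d.B (d.first :: d.rows) d.cells &&
    rangesTest false m d.E d.cv d.bv d.cb (d.first :: d.rows) d.rn &&
    rangesTest true m d.E d.cv d.bv d.cb (d.first :: d.rows) d.rp

/-- The bounds test inside the test of a box. -/
theorem boxTest_bounds {m : ℕ} {B : BoxScalar.SBox} {p q r s : APar} {sn sp : Side} {E0 E : ℕ}
    {cb : ℤ} {Q₁ yk : ℚ} (h : boxTest m B p q r s sn sp E0 E cb Q₁ yk = true) :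
    boundsTest m B p q r E0 E cb Q₁ yk = true := by
  simp only [boxTest, Bool.and_eq_true] at h
  exact h.1.2

end Vale.Agent.P237.Cal.BoxVertex
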