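import Vale.Agent.P237.Cal.BoxEnds

/-!
# P237: the first cell above the diagonal

Above the diagonal `D = δ` stays bounded as `T → 0`, and `N = A + B + R` keeps terms `δ T`. They
are split off as `δ T M (T, δ)` with a tested `0 ≤ M`; the rest has the factor `T²`.
-/

open Set Real MeasureTheory intervalIntegral

namespace Vale.Agent.P237.Cal.HeadSplit

open AtomCert CellCert FamAtoms StateTable CellEnds BoxHand BoxEnds

/-- The atoms with exponent of `T` below `2`. -/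
def lowA (l : List Atom) : List Atom := l.filter fun a => decide (a.2.1 < 2)

/-- The other atoms. -/
def highA (l : List Atom) : List Atom := l.filter fun a => !decide (a.2.1 < 2)

lemma eval_low_high (T : ℝ) : ∀ l : List Atom, eval (lowA l) T + eval (highA l) T = eval l T
  | [] => by simp [lowA, highA, eval]
  | (w, i, j) :: l => by
    have ih := eval_low_high T l
    simp only [lowA, highA] at ih ⊢
    by_cases h : i < 2 <;>
      simp only [List.filter_cons, h, decide_true, decide_false, Bool.not_true, Bool.not_false,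
        if_true, if_false, Bool.false_eq_true, eval] <;> linarith

/-- The flat test on the interval or, failing that, on its halves, `k` times. -/
noncomputable def splitFlat (F : VFam) (lo hi : List ℕ) (x0 x1 : ℤ) : ℕ → ℤ → ℤ → Bool
  | 0, l, h => flatTest F lo hi l h x0 x1
  | k + 1, l, h => flatTest F lo hi l h x0 x1 ||
      (splitFlat F lo hi x0 x1 k l ((l + h) / 2) && splitFlat F lo hi x0 x1 k ((l + h) / 2) h)

theorem splitFlat_sound {P : ℕ} {B : List (ℕ × ℕ)} {lo hi : List ℕ} {x0 x1 : ℤ}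
    {pa pb pN pd : CellCert.Poly (List ℤ)} {T D X : ℝ} (hc : TabB P T B lo hi)
    (hX : X ∈ Icc ((x0 : ℝ) / 2 ^ 32) ((x1 : ℝ) / 2 ^ 32)) :
    ∀ (k : ℕ) (l h : ℤ), splitFlat ⟨pa.fn, pb.fn, pN.fn, pd.fn⟩ lo hi x0 x1 k l h = true →
      D ∈ Icc ((l : ℝ) / 2 ^ 32) ((h : ℝ) / 2 ^ 32) →
      Quad ((pa.at B T).val D X) ((pb.at B T).val D X) ((pN.at B T).val D X) ((pd.at B T).val D X) := by
  intro k
  induction k with
  | zero => exact fun l h ht hD => flatTest_sound ht hc hD hX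
  | succ k ih =>
    intro l h ht hD
    simp only [splitFlat, Bool.or_eq_true, Bool.and_eq_true] at ht
    rcases ht with ht | ⟨hl, hr⟩
    · exact flatTest_sound ht hc hD hX
    · rcases le_total D ((((l + h) / 2 : ℤ) : ℝ) / 2 ^ 32) with hm | hm
      · exact ih _ _ hl ⟨hD.1, hm⟩
      · exact ih _ _ hr ⟨hm, hD.2⟩

/-- A quadratic in `δ ≥ 0` with enclosed coefficients is nonnegative: by the signs or the
discriminant. -/
def sqTest (G : CellCert.Poly Fn) (lo hi : List ℕ) : Bool :=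
  let e := enclP G lo hi []
  decide (0 ≤ e.c00.1) && decide (0 ≤ e.c20.1) && decide (0 ≤ e.c30.1) &&
    (decide (0 ≤ e.c10.1) || decide (e.c10.1 * e.c10.1 ≤ 4 * e.c00.1 * e.c20.1))

theorem sqTest_sound {P : ℕ} {B : List (ℕ × ℕ)} {lo hi : List ℕ} {p : CellCert.Poly (List ℤ)}
    {T D : ℝ} (ht : sqTest p.fn lo hi = true) (hc : TabB P T B lo hi) (hD : 0 ≤ D) :
    0 ≤ (p.at B T).val D 0 := by
  set g : List ℤ → ℝ := fun w => 2 ^ P * evalB B w T with hg
  have Pi : (⟨g p.c00, g p.c10, g p.c20, g p.c30, g p.c01, g p.c11, g p.c02⟩ : CellCert.Poly ℝ).In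
      (enclP p.fn lo hi []) :=
    ⟨encl_of_tab hc, encl_of_tab hc, encl_of_tab hc, encl_of_tab hc, encl_of_tab hc,
      encl_of_tab hc, encl_of_tab hc⟩
  set e := enclP p.fn lo hi []
  simp only [sqTest, Bool.and_eq_true, Bool.or_eq_true, decide_eq_true_eq] at ht
  obtain ⟨⟨⟨h0, h2⟩, h3⟩, h1⟩ := ht
  have a0 : (0 : ℝ) ≤ (e.c00.1 : ℝ) := by exact_mod_cast h0
  have a2 : (0 : ℝ) ≤ (e.c20.1 : ℝ) := by exact_mod_cast h2
  have a3 : (0 : ℝ) ≤ (e.c30.1 : ℝ) := by exact_mod_cast h3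
  have key : (0 : ℝ) ≤ (e.c00.1 : ℝ) + e.c10.1 * D + e.c20.1 * D ^ 2 := by
    rcases h1 with h1 | h1
    · have a1 : (0 : ℝ) ≤ (e.c10.1 : ℝ) := by exact_mod_cast h1
      positivity
    · have a1 : (e.c10.1 : ℝ) * e.c10.1 ≤ 4 * e.c00.1 * e.c20.1 := by exact_mod_cast h1
      rcases a2.eq_or_lt with h | h
      · rw [← h] at a1 ⊢
        have : (e.c10.1 : ℝ) = 0 :=
          mul_self_eq_zero.1 (le_antisymm (by linarith) (mul_self_nonneg _))
        rw [this]; linarith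
      · have hs := sq_nonneg (2 * (e.c20.1 : ℝ) * D + e.c10.1)
        by_contra hneg
        have := mul_lt_mul_of_pos_left (not_le.1 hneg) (show (0 : ℝ) < 4 * e.c20.1 by linarith)
        linarith
  have k1 := mul_le_mul_of_nonneg_right Pi.h10.1 hD
  have k2 := mul_le_mul_of_nonneg_right Pi.h20.1 (sq_nonneg D)
  have k3 := mul_le_mul_of_nonneg_right Pi.h30.1 (pow_nonneg hD 3)
  have k30 := mul_nonneg a3 (pow_nonneg hD 3)
  have k0 := Pi.h00.1
  have fin : 0 ≤ 2 ^ P * (p.at B T).val D 0 := by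
    simp only [CellCert.Poly.val, CellCert.Poly.at, hg] at k0 k1 k2 k3 ⊢
    linarith
  exact nonneg_of_mul_nonneg_right fin (by positivity)

/-- The main and the split family: `N = T² N₀ + δ T M`. -/
noncomputable def rfamH (B : List (ℕ × ℕ)) (m : ℕ) (p : APar) (s : Side) : Option (VFam × VFam) := do
  let r : Resc := ⟨0, 0, 2, 0, 2, 0⟩
  let q := vxLists m p s
  let N := q.2.2.1
  let a ← (r.poly q.1).bind (denseP B)
  let b ← (r.poly q.2.1).bind (denseP B)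
  let c ← (r.poly ⟨N.c00, highA N.c10, highA N.c20, highA N.c30, N.c01, N.c11, N.c02⟩).bind (denseP B)
  let d ← (r.poly q.2.2.2).bind (denseP B)
  let M ← ((⟨0, 0, 0, 0, 1, 0⟩ : Resc).poly
    ⟨lowA N.c10, lowA N.c20, lowA N.c30, [], [], [], []⟩).bind (denseP B)
  let z ← denseP B ⟨[], [], [], [], [], [], []⟩
  return (⟨a.fn, b.fn, c.fn, d.fn⟩, ⟨M.fn, M.fn, M.fn, z.fn⟩)

theorem vxOk_of_headS {P : ℕ} {B : List (ℕ × ℕ)} {m : ℕ} {p : APar} {s : Side} {F G : VFam}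
    {lo hi : List ℕ} {l h x0 x1 : ℤ} {k : ℕ} {T σ X δ ξ : ℝ} (hF : rfamH B m p s = some (F, G))
    (ht : splitFlat F lo hi x0 x1 k l h = true)
    (hM : (flatTest G lo hi l h 0 0 || sqTest G.a lo hi) = true)
    (hc : TabB P T B lo hi) (hZ : 0 < p.Z) (hT : 0 < T) (eD : σ - T = δ) (eX : X = ξ * T ^ 2)
    (h0 : 0 ≤ δ) (hD : δ ∈ Icc ((l : ℝ) / 2 ^ 32) ((h : ℝ) / 2 ^ 32))
    (hX : ξ ∈ Icc ((x0 : ℝ) / 2 ^ 32) ((x1 : ℝ) / 2 ^ 32)) :
    VxOk m (p.fam.at T) ((p.eps : ℝ) / p.Z) ((p.eta : ℝ) / p.Z) (ev p.Z s.th T)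
      (s.ph p.Z T (σ - T)) (ev p.Z s.nu T) T σ X := by
  simp only [rfamH, Option.bind_eq_bind, Option.pure_def, Option.bind_eq_some_iff,
    Option.some.injEq, Prod.mk.injEq] at hF
  obtain ⟨a, ⟨a', ha', ha⟩, b, ⟨b', hb', hb⟩, c, ⟨c', hc', hc2⟩, d, ⟨d', hd', hd⟩, M,
    ⟨M', hM', hM2⟩, z, hz, rfl, rfl⟩ := hF
  have hq := splitFlat_sound hc hX k l h ht hD
  have hm : 0 ≤ (M.at B T).val δ 0 := by
    rcases Bool.or_eq_true _ _ ▸ hM with hM | hM
    · exact (flatTest_sound (X := 0) hM hc hD ⟨by simp, by simp⟩).ha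
    · exact sqTest_sound hM hc h0
  rw [denseP_at ha, denseP_at hb, denseP_at hc2, denseP_at hd] at hq
  rw [denseP_at hM2] at hm
  have kc := Resc.poly_val hc' T δ ξ
  have kM := Resc.poly_val hM' T δ 0
  have ka := Resc.poly_val ha' T δ ξ
  have kb := Resc.poly_val hb' T δ ξ
  have kd := Resc.poly_val hd' T δ ξ
  simp only [pow_zero, mul_one, pow_one, ← eX] at ka kb kc kd kM
  have hq2 := hq.smul (sq_nonneg T)
  rw [← ka, ← kb, ← kc, ← kd] at hq2
  subst eD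
  refine vxOk_of_quad hZ hT rfl (hq2.mono le_rfl le_rfl ?_ le_rfl)
  have hm' := mul_nonneg h0 (mul_nonneg hT.le hm)
  rw [← kM] at hm'
  simp only [evP, CellCert.Poly.val, eval] at hm' ⊢
  have e1 := eval_low_high T (vxLists m p s).2.2.1.c10
  have e2 := eval_low_high T (vxLists m p s).2.2.1.c20
  have e3 := eval_low_high T (vxLists m p s).2.2.1.c30
  linear_combination hm' + (σ - T) * e1 + (σ - T) ^ 2 * e2 + (σ - T) ^ 3 * e3

/-- The test of the first cell above the diagonal. -/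
noncomputable def headTestS (P m cv : ℕ) (B : List (ℕ × ℕ)) (F G : VFam) (z n : Node) (C : Flat) : Bool :=
  decide (z.1 = 0) && boxTab P z n B C.lo C.hi && splitFlat F C.lo C.hi C.x0 C.x1 3 C.l C.h &&
    (flatTest G C.lo C.hi C.l C.h 0 0 || sqTest G.a C.lo C.hi) &&
    (decide (C.l = 0) && (decide (2 ^ 32 ≤ C.h) || (nodeTest n && crudeOk m cv n C.h))) &&
    decide (C.x0 * 3 * 2 ^ 20 ≤ -(((m + 1) * n.1 * 2 ^ 32 : ℕ) : ℤ)) &&
    decide ((((m + 1) * 2 ^ 32 : ℕ) : ℤ) ≤ C.x1 * 2)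

variable {m : ℕ} {p : APar} {sn sp : Side} {Y₁ Q₁ V₁ : ℝ} {P : ℕ} {B : List (ℕ × ℕ)}

/-- **The first cell of a box.** -/
theorem vxOn_headS {z n : Node} {Fn Fp Mp : VFam} {Cn Cp : Flat} {cv : ℕ} {Q : ℚ}
    (hcv : crudeTest m Q cv = true) (hY : 1 ≤ Y₁) (hZ : 0 < p.Z)
    (hFn : rfam B (headR false Cn) m p sn = some Fn) (hFp : rfamH B m p sp = some (Fp, Mp))
    (hn : headTest false P m cv B Fn z n Cn = true) (hp : headTestS P m cv B Fp Mp z n Cp = true) :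
    VxOn m p sn sp Y₁ Q V₁ fun T => T ≤ nodeT n := by
  intro T σ X hP hT
  have hT0 := hP.T_pos
  obtain ⟨b0, b1⟩ := state_bounds_zero hY hP
  simp only [headTest, headTestS, Bool.and_eq_true, Bool.or_eq_true, decide_eq_true_eq, Bool.false_eq_true, if_false,
    if_true] at hn hp
  have key : ∀ C : Flat, C.x0 * 3 * 2 ^ 20 ≤ -(((m + 1) * n.1 * 2 ^ 32 : ℕ) : ℤ) →
      (((m + 1) * 2 ^ 32 : ℕ) : ℤ) ≤ C.x1 * 2 →
      (X - X0 m T) / T ^ 2 ∈ Icc ((C.x0 : ℝ) / 2 ^ 32) ((C.x1 : ℝ) / 2 ^ 32) := by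
    intro C h0 h1
    have h0' := (Int.cast_le (R := ℝ)).2 h0
    have h1' := (Int.cast_le (R := ℝ)).2 h1
    push_cast at h0' h1'
    have hTn : T * 2 ^ 20 ≤ (n.1 : ℝ) := by
      simp only [nodeT] at hT
      rwa [le_div_iff₀ (by positivity)] at hT
    constructor
    · rw [div_le_div_iff₀ (by positivity) (by positivity)]
      have := mul_le_mul_of_nonneg_left hTn (by positivity : (0 : ℝ) ≤ ((m : ℝ) + 1))
      nlinarith [sq_nonneg T]
    · rw [div_le_div_iff₀ (by positivity) (by positivity)]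
      nlinarith [sq_nonneg T]
  split_ifs with hc
  · obtain ⟨⟨⟨⟨⟨⟨hz, htab⟩, hfl⟩, hM⟩, hd0, hd1⟩, hx0⟩, hx1⟩ := hp
    have h0 : (Cp.l : ℝ) = 0 := by exact_mod_cast hd0
    refine vxOk_of_headS (δ := σ - T) (ξ := (X - X0 m T) / T ^ 2) hFp hfl
      (Bool.or_eq_true _ _ ▸ hM)
      (boxTab_sound ⟨by simp [nodeT, hz, hT0.le], hT⟩ htab) hZ hT0 rfl
      (by field_simp) (by linarith) ⟨?_, ?_⟩ (key Cp hx0 hx1)
    · rw [h0, zero_div]; linarith
    · rcases hd1 with hd1 | ⟨hnn, hcr⟩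
      · have h1 := (Int.cast_le (R := ℝ)).2 hd1
        push_cast at h1
        rw [le_div_iff₀ (by positivity)]
        have h2 : √(1 + T ^ 2) ≤ 1 + T := by rw [sqrt_le_left (by linarith)]; nlinarith
        nlinarith [hP.σ_le]
      · linarith [crude_le hcv hnn hcr hP hT]
  · obtain ⟨⟨⟨⟨⟨hz, htab⟩, hfl⟩, hd0, hd1⟩, hx0⟩, hx1⟩ := hn
    have h0 := (Int.cast_le (R := ℝ)).2 hd0
    have h1 : (0 : ℝ) ≤ (Cn.h : ℝ) := by exact_mod_cast hd1
    push_cast at h0
    refine vxOk_of_flat (δ := (σ - T) / T) (ξ := (X - X0 m T) / T ^ 2) hFn hfl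
      (boxTab_sound ⟨by simp [nodeT, hz, hT0.le], hT⟩ htab) hZ hT0 (by simp [headR]; field_simp)
      (by simp [headR]; field_simp) ⟨?_, ?_⟩ (key Cn hx0 hx1)
    · rw [div_le_div_iff₀ (by positivity) hT0]
      nlinarith [hP.σ_pos]
    · exact (div_nonpos_of_nonpos_of_nonneg (by linarith) hT0.le).trans (by positivity)

end Vale.Agent.P237.Cal.HeadSplit
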