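import Vale.Agent.P237.Cal.BoxEnds

/-!
# P237: the tail with the leading cancellation removed

In the tail `(T cW)² = 1 - cW²` reduces every atom to `i ≤ 1`. Then `A, B` have the factor `cW^m`
and `N, d` the factor `cW^(m+1)`, so that `d` may be tested against the bound of `√cW`.
-/

open Set Real MeasureTheory intervalIntegral

namespace Vale.Agent.P237.Cal.TailRed

open AtomCert CellCert FamAtoms StateTable CellEnds BoxHand BoxEnds

/-- The coefficients of `(1 - y) R - p` from those of `R`. -/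
noncomputable def diffR (r : List ℤ) : ℤ → List ℤ :=
  @List.rec ℤ (fun _ => ℤ → List ℤ) (fun p => [Int.neg p])
    (fun a _ ih p => AtomSort.litI (Int.add a (Int.neg p)) fun d => d :: ih a) r

/-- The atoms of `T^i cW^j R (cW²)`. -/
noncomputable def rowA (i : ℕ) (r : List ℤ) : ℕ → List Atom :=
  @List.rec ℤ (fun _ => ℕ → List Atom) (fun _ => [])
    (fun a _ ih j => AtomSort.litN j fun j => (a, i, j) :: ih (Nat.add j 2)) r

/-- The exponent of `T` lowered by pairs, `(T cW)² = 1 - cW²`. -/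
noncomputable def red1 (f : ℕ) : List ℤ → ℕ → ℕ → List Atom :=
  @Nat.rec (fun _ => List ℤ → ℕ → ℕ → List Atom) (fun r i j => rowA i r j)
    (fun _ ih r i j => AtomSort.litN i fun i => AtomSort.litN j fun j =>
      @Bool.rec (fun _ => List Atom) (rowA i r j)
        (@Bool.rec (fun _ => List Atom) (rowA i r j)
          (ih (diffR r (Int.ofNat 0)) (Nat.sub i 2) (Nat.sub j 2)) (Nat.ble 2 j))
        (Nat.ble 2 i)) f

/-- A list reduced. -/
noncomputable def red (l : List Atom) : List Atom :=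
  @List.rec Atom (fun _ => List Atom) [] (fun a _ ih => red1 32 [a.1] a.2.1 a.2.2 ++ ih) l

/-- A list reduced, merged and without zero weights. -/
noncomputable def redM (l : List Atom) : List Atom :=
  (AtomSort.srtA (red (AtomSort.srtA l))).filter fun a => decide (a.1 ≠ 0)

lemma tc_two (T : ℝ) : T ^ 2 * cW T ^ 2 = 1 - cW T ^ 2 := by
  simp only [cW, inv_pow]
  rw [sq_sqrt (by positivity)]
  field_simp
  ring

lemma eval_rowA_shift (T : ℝ) (i a b : ℕ) : ∀ (r : List ℤ) (j : ℕ),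
    eval (rowA (i + a) r (j + b)) T = T ^ a * cW T ^ b * eval (rowA i r j) T
  | [], _ => by simp [rowA, eval]
  | x :: r, j => by
    have ih : eval (rowA (i + a) r (j + 2 + b)) T = T ^ a * cW T ^ b * eval (rowA i r (j + 2)) T :=
      eval_rowA_shift T i a b r (j + 2)
    show eval (AtomSort.litN (j + b) fun j => (x, i + a, j) :: rowA (i + a) r (Nat.add j 2)) T =
      _ * eval (AtomSort.litN j fun j => (x, i, j) :: rowA i r (Nat.add j 2)) T
    simp only [AtomSort.litN_eq, eval, Nat.add_eq, pow_add, show j + b + 2 = j + 2 + b by omega, ih]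
    ring

lemma eval_diffR (T : ℝ) (i : ℕ) : ∀ (r : List ℤ) (p : ℤ) (j : ℕ),
    eval (rowA i (diffR r p) j) T =
      (1 - cW T ^ 2) * eval (rowA i r j) T - p * (T ^ i * cW T ^ j)
  | [], p, j => by
    show eval (AtomSort.litN j fun j => (-p, i, j) :: rowA i [] (Nat.add j 2)) T =
      _ * eval (rowA i [] j) T - _
    simp [AtomSort.litN_eq, rowA, eval]
  | x :: r, p, j => by
    have ih : eval (rowA i (diffR r x) (j + 2)) T =
        (1 - cW T ^ 2) * eval (rowA i r (j + 2)) T - x * (T ^ i * cW T ^ (j + 2)) :=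
      eval_diffR T i r x (j + 2)
    have e : diffR (x :: r) p = (x + -p) :: diffR r x := by
      show AtomSort.litI (x + -p) (fun d => d :: diffR r x) = _
      rw [AtomSort.litI_eq]
    rw [e]
    show eval (AtomSort.litN j fun j => (x + -p, i, j) :: rowA i (diffR r x) (Nat.add j 2)) T =
      _ * eval (AtomSort.litN j fun j => (x, i, j) :: rowA i r (Nat.add j 2)) T - _
    simp only [AtomSort.litN_eq, eval, Nat.add_eq, pow_add, ih]
    push_cast
    ring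

lemma eval_red1 (T : ℝ) : ∀ (f : ℕ) (r : List ℤ) (i j : ℕ),
    eval (red1 f r i j) T = eval (rowA i r j) T
  | 0, _, _, _ => rfl
  | f + 1, r, i, j => by
    show eval (AtomSort.litN i fun i => AtomSort.litN j fun j =>
      @Bool.rec (fun _ => List Atom) (rowA i r j)
        (@Bool.rec (fun _ => List Atom) (rowA i r j)
          (red1 f (diffR r (Int.ofNat 0)) (Nat.sub i 2) (Nat.sub j 2)) (Nat.ble 2 j))
        (Nat.ble 2 i)) T = _
    simp only [AtomSort.litN_eq]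
    rcases hi : Nat.ble 2 i with _ | _
    · rfl
    rcases hj : Nat.ble 2 j with _ | _
    · rfl
    obtain ⟨i', rfl⟩ := Nat.exists_eq_add_of_le (Nat.le_of_ble_eq_true hi)
    obtain ⟨j', rfl⟩ := Nat.exists_eq_add_of_le (Nat.le_of_ble_eq_true hj)
    simp only [eval_red1 T f, Nat.sub_eq, Nat.add_sub_cancel_left, eval_diffR]
    rw [Nat.add_comm 2 i', Nat.add_comm 2 j', eval_rowA_shift, tc_two]
    simp

lemma eval_red (T : ℝ) : ∀ l : List Atom, eval (red l) T = eval l T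
  | [] => rfl
  | (w, i, j) :: l => by
    show eval (red1 32 [w] i j ++ red l) T = _
    rw [eval_app, eval_red1, eval_red T l]
    show eval (AtomSort.litN j fun j => (w, i, j) :: rowA i [] (Nat.add j 2)) T + _ = _
    simp [AtomSort.litN_eq, rowA, eval]

lemma eval_nonzero (T : ℝ) : ∀ l : List Atom,
    eval (l.filter fun a => decide (a.1 ≠ 0)) T = eval l T
  | [] => rfl
  | (w, i, j) :: l => by
    have ih := eval_nonzero T l
    by_cases h : w = 0 <;> simp_all [eval]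

/-- Reduced coefficient lists with the factor `cW^q` removed, `D = δ cW`. -/
noncomputable def redPoly (q : ℕ) (p : CellCert.Poly (List Atom)) : Option (CellCert.Poly (List Atom)) := do
  let c00 ← down 0 q (redM p.c00)
  let c10 ← down 0 q (redM (shift 0 1 p.c10))
  let c20 ← down 0 q (redM (shift 0 2 p.c20))
  let c30 ← down 0 q (redM (shift 0 3 p.c30))
  let c01 ← down 0 q (redM p.c01)
  let c11 ← down 0 q (redM (shift 0 1 p.c11))
  let c02 ← down 0 q (redM p.c02)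
  return ⟨c00, c10, c20, c30, c01, c11, c02⟩

lemma redPoly_val {q : ℕ} {p p' : CellCert.Poly (List Atom)} (h : redPoly q p = some p')
    (T δ ξ : ℝ) : (evP p T).val (δ * cW T) ξ = cW T ^ q * (evP p' T).val δ ξ := by
  simp only [redPoly, Option.bind_eq_bind, Option.pure_def, Option.bind_eq_some_iff,
    Option.some.injEq] at h
  obtain ⟨c0, h0, c1, h1, c2, h2, c3, h3, c4, h4, c5, h5, c6, h6, rfl⟩ := h
  have k0 := eval_down (T := T) h0
  have k1 := eval_down (T := T) h1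
  have k2 := eval_down (T := T) h2
  have k3 := eval_down (T := T) h3
  have k4 := eval_down (T := T) h4
  have k5 := eval_down (T := T) h5
  have k6 := eval_down (T := T) h6
  simp only [redM, eval_nonzero, AtomSort.eval_srtA, eval_red, eval_shift, pow_zero, one_mul] at k0 k1 k2 k3 k4 k5 k6
  simp only [evP, CellCert.Poly.val]
  linear_combination k0 + δ * k1 + δ ^ 2 * k2 + δ ^ 3 * k3 + ξ * k4 + δ * ξ * k5 + ξ ^ 2 * k6

/-- The dense family of the tail. -/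
noncomputable def rfam2 (B : List (ℕ × ℕ)) (m : ℕ) (p : APar) (s : Side) : Option VFam := do
  let a ← (redPoly m (vxLists m p s).1).bind (denseP B)
  let b ← (redPoly m (vxLists m p s).2.1).bind (denseP B)
  let c ← (redPoly (m + 1) (vxLists m p s).2.2.1).bind (denseP B)
  let d ← (redPoly (m + 1) (vxLists m p s).2.2.2).bind (denseP B)
  return ⟨a.fn, b.fn, c.fn, d.fn⟩

/-- An interval times a natural number. -/
def mulI (s : ℕ) (r : ℤ × ℤ) : ℤ × ℤ := (s * r.1, s * r.2)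

/-- The enclosures times a natural number. -/
def mulP (s : ℕ) (p : CellCert.Poly (ℤ × ℤ)) : CellCert.Poly (ℤ × ℤ) :=
  ⟨mulI s p.c00, mulI s p.c10, mulI s p.c20, mulI s p.c30, mulI s p.c01, mulI s p.c11, mulI s p.c02⟩

/-- The flat test of the tail; `sC / 2^32` bounds `√cW`. -/
noncomputable def flat2Test (F : VFam) (sC : ℕ) (lo hi : List ℕ) (l h x0 x1 : ℤ) : Bool :=
  ctrlAll (mulP (2 ^ 32) (enclPT F.a lo hi)) (mulP (2 ^ 32) (enclPT F.b lo hi))
    (mulP (2 ^ 32) (enclPT F.N lo hi)) (mulP sC (enclPT F.d lo hi)) l h x0 x1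

lemma mulI_mem {s : ℕ} {r : ℤ × ℤ} {x : ℝ} (h : (r.1 : ℝ) ≤ x ∧ x ≤ (r.2 : ℝ)) :
    ((mulI s r).1 : ℝ) ≤ s * x ∧ (s : ℝ) * x ≤ ((mulI s r).2 : ℝ) := by
  simp only [mulI]
  push_cast
  exact ⟨mul_le_mul_of_nonneg_left h.1 (Nat.cast_nonneg _),
    mul_le_mul_of_nonneg_left h.2 (Nat.cast_nonneg _)⟩

theorem flat2Test_sound {P sC : ℕ} {B : List (ℕ × ℕ)} {lo hi : List ℕ} {l h x0 x1 : ℤ}
    {pa pb pN pd : CellCert.Poly (List ℤ)} {T D X : ℝ}
    (ht : flat2Test ⟨pa.fn, pb.fn, pN.fn, pd.fn⟩ sC lo hi l h x0 x1 = true) (hc : TabB P T B lo hi)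
    (hD : D ∈ Icc ((l : ℝ) / 2 ^ 32) ((h : ℝ) / 2 ^ 32))
    (hX : X ∈ Icc ((x0 : ℝ) / 2 ^ 32) ((x1 : ℝ) / 2 ^ 32)) :
    Quad ((pa.at B T).val D X) ((pb.at B T).val D X) ((pN.at B T).val D X)
      ((sC : ℝ) / 2 ^ 32 * (pd.at B T).val D X) := by
  set g : ℕ → List ℤ → ℝ := fun s w => (s : ℝ) * (2 ^ P * evalB B w T) with hg
  have Pi : ∀ (s : ℕ) (p : CellCert.Poly (List ℤ)),
      (⟨g s p.c00, g s p.c10, g s p.c20, g s p.c30, g s p.c01, g s p.c11, g s p.c02⟩ :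
        CellCert.Poly ℝ).In (mulP s (enclP p.fn lo hi [])) := fun s p =>
    ⟨mulI_mem (encl_of_tab hc), mulI_mem (encl_of_tab hc), mulI_mem (encl_of_tab hc),
      mulI_mem (encl_of_tab hc), mulI_mem (encl_of_tab hc), mulI_mem (encl_of_tab hc),
      mulI_mem (encl_of_tab hc)⟩
  simp only [flat2Test, enclPT_eq] at ht
  have Q := ctrlAll_sound ht (Pi _ pa) (Pi _ pb) (Pi _ pN) (Pi _ pd) hD hX
  have e : ∀ (s : ℕ) (p : CellCert.Poly (List ℤ)),
      (⟨g s p.c00, g s p.c10, g s p.c20, g s p.c30, g s p.c01, g s p.c11, g s p.c02⟩ :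
        CellCert.Poly ℝ).val D X = (s : ℝ) * 2 ^ P * (p.at B T).val D X := fun s p => by
    simp only [CellCert.Poly.val, CellCert.Poly.at, hg]; ring
  rw [e, e, e, e] at Q
  have := Q.smul (inv_nonneg.2 (by positivity : (0 : ℝ) ≤ ((2 ^ 32 : ℕ) : ℝ) * 2 ^ P))
  have h32 : ((2 ^ 32 : ℕ) : ℝ) = 2 ^ 32 := by norm_num
  rw [h32] at this
  have hz : ((2 : ℝ) ^ 32 * 2 ^ P) ≠ 0 := by positivity
  rw [inv_mul_cancel_left₀ hz, inv_mul_cancel_left₀ hz, inv_mul_cancel_left₀ hz] at this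
  convert this using 1
  field_simp

lemma cW_le_node {P : ℕ} {n : Node} {B : List (ℕ × ℕ)} {lo hi : List ℕ} {T : ℝ}
    (h : tailTab P n B lo hi = true) (hT : nodeT n ≤ T) : cW T ≤ (n.2.2 : ℝ) / 2 ^ 32 :=
  (cW_anti (by simp only [nodeT]; positivity) hT).trans (nodeTest_sound (tailTab_node h)).2

/-- `√cW ≤ sC / 2^32` moves `d` down to the scale `cW^(m+1)`. -/
theorem quad_rescale {a b N d c s : ℝ} {q : ℕ} (hc : 0 ≤ c) (hs0 : 0 ≤ s) (hs : c ≤ s ^ 2)
    (h : Quad a b N (s * d)) :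
    Quad (c ^ q * a) (c ^ q * b) (c ^ (q + 1) * N) (c ^ (q + 1) * d) := by
  have hq : 0 ≤ c ^ q := pow_nonneg hc q
  refine ⟨mul_nonneg hq h.ha, mul_nonneg hq h.hb, mul_nonneg (pow_nonneg hc _) h.hN, ?_⟩
  have hr : √c ≤ s := by rw [sqrt_le_left hs0]; exact hs
  have hd : √c * |d| ≤ √N * (√a + √b) := by
    refine le_trans ?_ h.hd
    rw [abs_mul, abs_of_nonneg hs0]
    exact mul_le_mul_of_nonneg_right hr (abs_nonneg _)
  rw [sqrt_mul (pow_nonneg hc _), sqrt_mul hq, sqrt_mul hq, pow_succ, sqrt_mul hq, abs_mul,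
    abs_mul, abs_of_nonneg hq, abs_of_nonneg hc]
  calc c ^ q * c * |d| = c ^ q * √c * (√c * |d|) := by
        linear_combination (c ^ q * |d|) * (mul_self_sqrt hc).symm
    _ ≤ c ^ q * √c * (√N * (√a + √b)) :=
        mul_le_mul_of_nonneg_left hd (mul_nonneg hq (sqrt_nonneg _))
    _ = _ := by linear_combination (√c * √N * (√a + √b)) * (mul_self_sqrt hq).symm

theorem vxOk_of_flat2 {P sC cu : ℕ} {B : List (ℕ × ℕ)} {m : ℕ} {p : APar} {s : Side} {F : VFam}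
    {lo hi : List ℕ} {l h x0 x1 : ℤ} {T σ X δ : ℝ} (hF : rfam2 B m p s = some F)
    (ht : flat2Test F sC lo hi l h x0 x1 = true) (hc : TabB P T B lo hi)
    (hu : cW T ≤ (cu : ℝ) / 2 ^ 32) (hsC : cu * 2 ^ 32 ≤ sC * sC) (hZ : 0 < p.Z) (hT : 0 < T)
    (eD : σ - T = δ * cW T) (hD : δ ∈ Icc ((l : ℝ) / 2 ^ 32) ((h : ℝ) / 2 ^ 32))
    (hX : X ∈ Icc ((x0 : ℝ) / 2 ^ 32) ((x1 : ℝ) / 2 ^ 32)) :
    VxOk m (p.fam.at T) ((p.eps : ℝ) / p.Z) ((p.eta : ℝ) / p.Z) (ev p.Z s.th T)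
      (s.ph p.Z T (σ - T)) (ev p.Z s.nu T) T σ X := by
  simp only [rfam2, Option.bind_eq_bind, Option.pure_def, Option.bind_eq_some_iff,
    Option.some.injEq] at hF
  obtain ⟨a, ⟨a', ha', ha⟩, b, ⟨b', hb', hb⟩, c, ⟨c', hc', hc2⟩, d, ⟨d', hd', hd⟩, rfl⟩ := hF
  have hq := flat2Test_sound ht hc hD hX
  rw [denseP_at ha, denseP_at hb, denseP_at hc2, denseP_at hd] at hq
  have hs2 : cW T ≤ ((sC : ℝ) / 2 ^ 32) ^ 2 := by
    refine hu.trans ?_
    have : (cu : ℝ) * 2 ^ 32 ≤ (sC : ℝ) * sC := by exact_mod_cast hsC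
    rw [div_pow, div_le_div_iff₀ (by positivity) (by positivity)]
    nlinarith
  have hq2 := quad_rescale (q := m) (cW_pos T).le (by positivity) hs2 hq
  rw [← redPoly_val ha', ← redPoly_val hb', ← redPoly_val hc', ← redPoly_val hd', ← eD] at hq2
  exact vxOk_of_quad hZ hT rfl hq2

/-- The test of the reduced tail on one side. -/
noncomputable def tailTest2 (sC : ℕ) (pos : Bool) (P m E : ℕ) (cb : ℤ) (B : List (ℕ × ℕ)) (F : VFam) (a : Row)
    (C : Flat) : Bool :=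
  let A : ℚ := (a.n.1 : ℚ) / 2 ^ 20
  let η : ℚ := (E : ℚ) / 2 ^ 40
  let G : ℚ := ((m : ℚ) + 1) * 2 ^ 32 / (((m : ℚ) + 3) * A ^ (m + 3))
  decide (a.n.2.2 * 2 ^ 32 ≤ sC * sC) &&
  (tailTab P a.n B C.lo C.hi && flat2Test F sC C.lo C.hi C.l C.h C.x0 C.x1 && decide (0 < A) &&
    (if pos then decide (C.l ≤ 0) && decide ((A ^ 2 + 1 / 2) * 2 ^ 32 ≤ (C.h : ℚ) * (2 * A ^ 2))
      else decide (0 < 2 * A ^ 2 - η) && decide (0 ≤ C.h) &&
        decide (η * (A ^ 2 + 1 / 2) * 2 ^ 32 ≤ -(C.l : ℚ) * (2 * A ^ 2 - η))) &&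
    decide ((C.x0 : ℚ) ≤ -((a.lo : ℚ) + η * G)) &&
    decide (min ((a.hi : ℚ) + G / 2) ((cb : ℚ) - (a.fd : ℚ)) ≤ (C.x1 : ℚ)))

variable {m : ℕ} {p : APar} {sn sp : Side} {Y₁ Q₁ V₁ : ℝ} {P : ℕ} {B : List (ℕ × ℕ)}

/-- **The tail of a box.** -/
theorem vxOn_tail2 {E : ℕ} {cb : ℤ} {a : Row} {Fn Fp : VFam} {Cn Cp : Flat} {sC : ℕ} (hY : 1 ≤ Y₁)
    (hE : Y₁ ^ 2 - 1 ≤ (E : ℝ) / 2 ^ 40)
    (hcb : Q₁ * semiMom m 1 - semiMom m 1 / Y₁ ^ (m + 1) ≤ (cb : ℝ) / 2 ^ 32)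
    (hB : Bound m Y₁ a) (hZ : 0 < p.Z)
    (hFn : rfam2 B m p sn = some Fn) (hFp : rfam2 B m p sp = some Fp)
    (hn : tailTest2 sC false P m E cb B Fn a Cn = true) (hp : tailTest2 sC true P m E cb B Fp a Cp = true) :
    VxOn m p sn sp Y₁ Q₁ V₁ fun T => a.T < T := by
  intro T σ X hP hT
  have hsC : a.n.2.2 * 2 ^ 32 ≤ sC * sC := by
    simp only [tailTest2, Bool.and_eq_true, decide_eq_true_eq] at hn
    exact hn.1
  simp only [tailTest2, Bool.and_eq_true, decide_eq_true_eq, Bool.false_eq_true, if_false,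
    if_true] at hn hp
  replace hn := hn.2
  replace hp := hp.2
  have hT0 := hP.T_pos
  set A : ℝ := (a.n.1 : ℝ) / 2 ^ 20 with hAd
  have hAT : a.T = A := rfl
  rw [hAT] at hT
  have hA : 0 < A := by
    have h := (Rat.cast_lt (K := ℝ)).2 hn.1.1.1.2
    push_cast at h
    exact h
  obtain ⟨c1, c2, c3⟩ := hB
  rw [hAT] at c1 c2 c3
  obtain ⟨d1, d2⟩ := defect_tail (m := m) hY hA hT.le
  have r1 := rise_tail (m := m) hA hT.le
  simp only [defect] at d1 d2 c1 c2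
  simp only [rise] at r1 c3
  have hη0 : 0 ≤ Y₁ ^ 2 - 1 := by nlinarith
  set η : ℝ := (E : ℝ) / 2 ^ 40 with hηd
  set G : ℝ := ((m : ℝ) + 1) * 2 ^ 32 / (((m : ℝ) + 3) * A ^ (m + 3)) with hGd
  have hG0 : 0 ≤ G := by positivity
  have key : ∀ C : Flat, (C.x0 : ℚ) ≤ -((a.lo : ℚ) +
        (E : ℚ) / 2 ^ 40 * (((m : ℚ) + 1) * 2 ^ 32 / (((m : ℚ) + 3) * ((a.n.1 : ℚ) / 2 ^ 20) ^ (m + 3)))) →
      min ((a.hi : ℚ) + ((m : ℚ) + 1) * 2 ^ 32 / (((m : ℚ) + 3) * ((a.n.1 : ℚ) / 2 ^ 20) ^ (m + 3)) / 2)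
        ((cb : ℚ) - (a.fd : ℚ)) ≤ (C.x1 : ℚ) →
      X - X0 m T ∈ Icc ((C.x0 : ℝ) / 2 ^ 32) ((C.x1 : ℝ) / 2 ^ 32) := by
    intro C h0 h1
    have h0' := (Rat.cast_le (K := ℝ)).2 h0
    have h1' := (Rat.cast_le (K := ℝ)).2 h1
    push_cast at h0' h1'
    rw [← hAd, ← hGd, ← hηd] at h0'
    rw [← hAd, ← hGd] at h1'
    have e1 : ((m : ℝ) + 1) * (Y₁ ^ 2 - 1) / (((m : ℝ) + 3) * A ^ (m + 3)) =
        (Y₁ ^ 2 - 1) * G / 2 ^ 32 := by rw [hGd]; field_simp
    have e2 : ((m : ℝ) + 1) / 2 / (((m : ℝ) + 3) * A ^ (m + 3)) = G / 2 / 2 ^ 32 := by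
      rw [hGd]; field_simp
    have hηG := mul_le_mul_of_nonneg_right hE hG0
    rw [e1] at d1
    rw [e2] at r1
    constructor
    · rw [div_le_iff₀ (by positivity)]
      linarith [hP.X_low]
    · rw [le_div_iff₀ (by positivity)]
      rcases min_le_iff.1 h1' with h | h
      · linarith [hP.X_top]
      · linarith [hP.X_high]
  have hW := w_pos T
  split_ifs with hc
  · obtain ⟨⟨⟨⟨⟨htab, hfl⟩, -⟩, hd0, hd1⟩, hx0⟩, hx1⟩ := hp
    have h0 : (Cp.l : ℝ) ≤ 0 := by exact_mod_cast hd0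
    have h1 := (Rat.cast_le (K := ℝ)).2 hd1
    push_cast at h1
    rw [← hAd] at h1
    refine vxOk_of_flat2 (δ := (σ - T) * √(1 + T ^ 2)) hFp hfl
      (tailTab_sound hT.le htab) (cW_le_node htab hT.le) hsC hZ hT0 (by simp [cW]; field_simp)
      ⟨?_, ?_⟩ (key Cp hx0 hx1)
    · exact (div_nonpos_of_nonpos_of_nonneg h0 (by positivity)).trans
        (mul_nonneg (by linarith) hW.le)
    · rw [le_div_iff₀ (by positivity)]
      have h2 := pos_tail hA hT.le hP.σ_le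
      rw [le_div_iff₀ (by positivity)] at h2
      refine le_of_mul_le_mul_right ?_ (show (0 : ℝ) < 2 * A ^ 2 by positivity)
      nlinarith
  · obtain ⟨⟨⟨⟨⟨htab, hfl⟩, -⟩, ⟨hden, hd1⟩, hd0⟩, hx0⟩, hx1⟩ := hn
    have h1 : (0 : ℝ) ≤ (Cn.h : ℝ) := by exact_mod_cast hd1
    have hden' := (Rat.cast_lt (K := ℝ)).2 hden
    have h0 := (Rat.cast_le (K := ℝ)).2 hd0
    push_cast at hden' h0
    rw [← hAd, ← hηd] at hden' h0
    refine vxOk_of_flat2 (δ := (σ - T) * √(1 + T ^ 2)) hFn hfl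
      (tailTab_sound hT.le htab) (cW_le_node htab hT.le) hsC hZ hT0 (by simp [cW]; field_simp)
      ⟨?_, ?_⟩ (key Cn hx0 hx1)
    · rw [div_le_iff₀ (by positivity)]
      have h2 := neg_tail hY hE hA hT.le hden' hP.σ_pos.le hP.σ_low
      rw [le_div_iff₀ hden'] at h2
      refine le_of_mul_le_mul_right ?_ hden'
      nlinarith
    · exact le_trans (mul_nonpos_of_nonpos_of_nonneg (by linarith) hW.le) (by positivity)

end Vale.Agent.P237.Cal.TailRed
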