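import Vale.Agent.P237.Cal.BoxVertex
import Vale.Agent.P237.Cal.HeadSplit
import Vale.Agent.P237.Cal.TailRed

/-!
# P237: one vertex of a box from the split head, the chain and the reduced tail
-/

open Set Real

namespace Vale.Agent.P237.Cal.BoxVertex2

open AtomCert CellCert FamAtoms StateTable CellEnds BoxHand BoxEnds CellGlue2 BoxVertex HeadSplit TailRed

/-- **One vertex.** -/
theorem vxOn_vertex2 {m : ℕ} {d : Data} {B : BoxScalar.SBox} {p q r : APar} {sn sp : Side}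
    {Q₁ yk : ℚ} {v : APar} (hbd : boundsTest m B p q r d.E0 d.E d.cb Q₁ yk = true)
    (hcv : crudeTest m Q₁ d.cv = true) (hbv : bumpTest m B d.bv = true)
    (hsh : d.sharedTest m = true) (hZ : 0 < v.Z) {Fn Fp Hn Hp Hm Tn Tp : VFam} {sC : ℕ}
    (eFn : vfam d.B m v sn = some Fn) (eFp : vfam d.B m v sp = some Fp)
    (hFn : famTest Fn d.cells d.rn = true) (hFp : famTest Fp d.cells d.rp = true)
    (eHn : rfam d.Bh (headR false d.hn) m v sn = some Hn)
    (eHp : rfamH d.Bh m v sp = some (Hp, Hm))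
    (hHn : headTest false d.P m d.cv d.Bh Hn d.z d.first.n d.hn = true)
    (hHp : headTestS d.P m d.cv d.Bh Hp Hm d.z d.first.n d.hp = true)
    (eTn : rfam2 d.Bt m v sn = some Tn) (eTp : rfam2 d.Bt m v sp = some Tp)
    (hTn : tailTest2 sC false d.P m d.E d.cb d.Bt Tn d.last d.tn = true)
    (hTp : tailTest2 sC true d.P m d.E d.cb d.Bt Tp d.last d.tp = true) :
    VxOn m v sn sp (Ytop r) Q₁ (vTop m B) fun _ => True := by
  obtain ⟨hY, hE0, hE, hcb, -⟩ := boundsTest_sound hbd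
  simp only [Data.sharedTest, Bool.and_eq_true] at hsh
  obtain ⟨⟨⟨hrows, htabs⟩, hrn⟩, hrp⟩ := hsh
  exact vxOn_all (vxOn_headS hcv hY hZ eHn eHp hHn hHp)
    (CellGlue2.vxOn_of_chains hY hE0 hE hcv (bumpTest_sound hbv) hcb hrows htabs hrn hrp eFn eFp hZ hFn hFp)
    (vxOn_tail2 hY hE hcb (last_bound hY hE0 hE hrows) hZ eTn eTp hTn hTp)

end Vale.Agent.P237.Cal.BoxVertex2
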