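import Vale.Agent.P237.Cal.ProfileCal

/-!
# P237: a calibration from a pointwise inequality in the reparametrised gauge variables

`T = √(Y²/y² - 1)`, `σ = Y t / y`, `h = dσ/dT`, `w₁ = √(1 + T²)`. A pointwise inequality `PW` on
the admissible points and on the tail `σ = w₁, h = T/w₁`, and one scalar inequality, give `IsCalY`.
-/

open MeasureTheory Set Filter Topology Real

namespace Vale.Agent.P237.Cal

variable {m : ℕ}

/-- The reparametrised height. -/
noncomputable def Tof (Y y : ℝ) : ℝ := √((Y / y) ^ 2 - 1)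

/-- The pointwise inequality. -/
def PW (m : ℕ) (ε μ a : ℝ) (dG Gam dGam : ℝ → ℝ) (T σ h : ℝ) : Prop :=
  dG T + dGam T * (σ - T) + Gam T * (h - 1) ≤
    ((m : ℝ) + 1) * (T ^ 2 - ε * ((1 + T ^ 2) * h - σ * T) ^ 2) / h / √(1 + T ^ 2) ^ (m + 4) +
      μ * h / √(1 + T ^ 2) ^ (m + 1) - a * h / √(1 + T ^ 2) ^ (m + 2)

/-- The potential. -/
noncomputable def phi (m : ℕ) (Y μ a Ginf : ℝ) (G Gam : ℝ → ℝ) (p : ℝ × ℝ × ℝ) : ℝ :=
  a * (((m : ℝ) + 2) / ((m : ℝ) + 1) * p.2.2 - p.1 * p.2.1 ^ (m + 1) / ((m : ℝ) + 1)) +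
    μ * Y / (m : ℝ) * (p.1 * p.2.1 ^ m) +
    Y ^ (m + 1) * (if p.2.1 ≤ 0 then Ginf
      else G (Tof Y p.2.1) + Gam (Tof Y p.2.1) * (Y * p.1 / p.2.1 - Tof Y p.2.1))

lemma Tof_top {Y : ℝ} (hY : 0 < Y) : Tof Y Y = 0 := by
  rw [Tof, div_self hY.ne']; simp

lemma Tof_pos {Y y : ℝ} (hy : 0 < y) (h : y < Y) : 0 < Tof Y y := by
  refine sqrt_pos.2 ?_
  have : 1 < Y / y := (one_lt_div hy).2 h
  nlinarith

lemma Tof_sq {Y y : ℝ} (hy : 0 < y) (h : y ≤ Y) : √(1 + Tof Y y ^ 2) = Y / y := by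
  have h1 : 1 ≤ Y / y := (one_le_div hy).2 h
  rw [Tof, sq_sqrt (by nlinarith), add_sub_cancel, sqrt_sq (by linarith)]


/-- Integrating the pointwise inequality along the tail. -/
lemma tail_bound {j : ℕ} {ε μ a Ginf : ℝ} {G dG Gam dGam : ℝ → ℝ}
    (hGc : ContinuousOn G (Ici 0)) (hGamc : ContinuousOn Gam (Ici 0))
    (hG : ∀ T > 0, HasDerivAt G (dG T) T) (hGam : ∀ T > 0, HasDerivAt Gam (dGam T) T)
    (hGlim : Tendsto G atTop (𝓝 Ginf))
    (hGamlim : Tendsto (fun T => Gam T * (T + 1)) atTop (𝓝 0))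
    (htail : ∀ T > 0, PW (1 + j) ε μ a dG Gam dGam T (√(1 + T ^ 2)) (T / √(1 + T ^ 2)))
    {T₁ : ℝ} (hT₁ : 0 ≤ T₁) :
    Ginf - G T₁ - Gam T₁ * (√(1 + T₁ ^ 2) - T₁) ≤
      (((1 + j : ℕ) : ℝ) + 1 - a) / (((1 + j : ℕ) : ℝ) + 1) / √(1 + T₁ ^ 2) ^ (1 + j + 1) +
        μ / ((1 + j : ℕ) : ℝ) / √(1 + T₁ ^ 2) ^ (1 + j) := by
  set W : ℝ → ℝ := fun T => √(1 + T ^ 2) with hW
  have hWpos : ∀ T, 0 < W T := fun T => sqrt_pos.2 (by positivity)
  have hWc : Continuous W := by simp only [hW]; fun_prop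
  have hW' : ∀ T, HasDerivAt W (T / W T) T := fun T => by
    refine ((((hasDerivAt_id T).fun_pow 2).const_add 1).sqrt (by simp only [id]; positivity)
      ).congr_deriv ?_
    simp only [hW, id, Nat.cast_ofNat, Nat.add_one_sub_one, pow_one, mul_one]
    ring
  set P : ℝ → ℝ := fun T => G T + Gam T * (W T - T) +
    ((((1 + j : ℕ) : ℝ) + 1 - a) / (((1 + j : ℕ) : ℝ) + 1)) * (W T ^ (1 + j + 1))⁻¹ +
    μ / ((1 + j : ℕ) : ℝ) * (W T ^ (1 + j))⁻¹ with hP
  have hanti : AntitoneOn P (Ici T₁) := by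
    have hd : ∀ T > 0, ∃ p, p ≤ 0 ∧ HasDerivAt P p T := fun T hT => by
      refine ⟨_, ?_, (((hG T hT).add ((hGam T hT).mul ((hW' T).sub (hasDerivAt_id T)))).add
        ((((hW' T).fun_pow (1 + j + 1)).fun_inv (pow_ne_zero _ (hWpos T).ne')).const_mul _)).add
        ((((hW' T).fun_pow (1 + j)).fun_inv (pow_ne_zero _ (hWpos T).ne')).const_mul _)⟩
      have h := htail T hT
      simp only [PW] at h
      have hw := hWpos T
      have hsq : W T ^ 2 = 1 + T ^ 2 := sq_sqrt (by positivity)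
      simp only [hW] at hsq
      rw [show (1 + T ^ 2) * (T / √(1 + T ^ 2)) - √(1 + T ^ 2) * T = 0 by
        field_simp; rw [hsq]; ring] at h
      simp only [Pi.sub_apply, id, Nat.add_sub_cancel, show (1 + j - 1 : ℕ) = j by omega, hW]
      simp only [hW] at hw
      have hk : (0 : ℝ) < ((1 + j : ℕ) : ℝ) := by positivity
      have e1 : (((1 + j : ℕ) : ℝ) + 1) * (T ^ 2 - ε * 0 ^ 2) / (T / √(1 + T ^ 2)) /
          √(1 + T ^ 2) ^ (1 + j + 4) =
          (((1 + j : ℕ) : ℝ) + 1) * T / √(1 + T ^ 2) ^ (1 + j + 3) := by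
        field_simp; ring
      rw [e1] at h
      have e2 : (((1 + j : ℕ) : ℝ) + 1 - a) / (((1 + j : ℕ) : ℝ) + 1) *
          (-((((1 + j + 1 : ℕ) : ℝ)) * √(1 + T ^ 2) ^ (1 + j) * (T / √(1 + T ^ 2))) /
            (√(1 + T ^ 2) ^ (1 + j + 1)) ^ 2) =
          -((((1 + j : ℕ) : ℝ) + 1) * T / √(1 + T ^ 2) ^ (1 + j + 3)) +
            a * (T / √(1 + T ^ 2)) / √(1 + T ^ 2) ^ (1 + j + 2) := by
        field_simp; push_cast; ring
      have e3 : μ / ((1 + j : ℕ) : ℝ) *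
          (-(((1 + j : ℕ) : ℝ) * √(1 + T ^ 2) ^ j * (T / √(1 + T ^ 2))) /
            (√(1 + T ^ 2) ^ (1 + j)) ^ 2) =
          -(μ * (T / √(1 + T ^ 2)) / √(1 + T ^ 2) ^ (1 + j + 1)) := by
        field_simp; ring
      rw [e2, e3]
      linarith
    have hc : ContinuousOn P (Ici T₁) := by
      have hs : Ici T₁ ⊆ Ici (0 : ℝ) := Ici_subset_Ici.2 hT₁
      refine ((((hGc.mono hs).add ((hGamc.mono hs).mul (hWc.sub continuous_id).continuousOn))).add
        ?_).add ?_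
      · exact continuousOn_const.mul ((hWc.pow _).continuousOn.inv₀ fun T _ =>
          pow_ne_zero _ (hWpos T).ne')
      · exact continuousOn_const.mul ((hWc.pow _).continuousOn.inv₀ fun T _ =>
          pow_ne_zero _ (hWpos T).ne')
    refine antitoneOn_of_deriv_nonpos (convex_Ici T₁) hc (fun T hT => ?_) fun T hT => ?_
    · rw [interior_Ici] at hT
      obtain ⟨p, -, hp⟩ := hd T (hT₁.trans_lt hT)
      exact hp.differentiableAt.differentiableWithinAt
    · rw [interior_Ici] at hT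
      obtain ⟨p, hp0, hp⟩ := hd T (hT₁.trans_lt hT)
      rw [hp.deriv]; exact hp0
  have hWtop : Tendsto W atTop atTop := by
    refine tendsto_atTop_mono (fun T => ?_) tendsto_id
    exact le_sqrt_of_sq_le (by simp)
  have hlim : Tendsto P atTop (𝓝 (Ginf + 0 + ((((1 + j : ℕ) : ℝ) + 1 - a) /
      (((1 + j : ℕ) : ℝ) + 1)) * 0 + μ / ((1 + j : ℕ) : ℝ) * 0)) := by
    refine ((hGlim.add ?_).add (tendsto_const_nhds.mul ?_)).add (tendsto_const_nhds.mul ?_)
    · refine squeeze_zero_norm' (a := fun T => |Gam T * (T + 1)|) ?_ (by simpa using hGamlim.abs)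
      filter_upwards [eventually_ge_atTop 0] with T hT
      rw [Real.norm_eq_abs, abs_mul, abs_mul]
      refine mul_le_mul_of_nonneg_left ?_ (abs_nonneg _)
      have h1 : W T ≤ T + 1 := (sqrt_le_left (by positivity)).2 (by nlinarith)
      have h2 := hWpos T
      rw [abs_le, abs_of_nonneg (by linarith : (0 : ℝ) ≤ T + 1)]
      constructor <;> linarith
    · exact ((tendsto_pow_atTop (Nat.succ_ne_zero _)).comp hWtop).inv_tendsto_atTop
    · exact ((tendsto_pow_atTop (by omega : 1 + j ≠ 0)).comp hWtop).inv_tendsto_atTop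
  simp only [add_zero, mul_zero] at hlim
  have hfin : Ginf ≤ P T₁ := le_of_tendsto hlim ((eventually_ge_atTop T₁).mono fun T hT =>
    hanti self_mem_Ici hT hT)
  simp only [hP, hW, ← div_eq_mul_inv] at hfin
  linarith

section

variable {V ρ w Y ε μ a Ginf : ℝ} {G dG Gam dGam : ℝ → ℝ}

lemma differentiableAt_Tof {y : ℝ} (hy : 0 < y) (h : y < Y) :
    HasDerivAt (Tof Y) (-(Y ^ 2) / (y ^ 3 * Tof Y y)) y := by
  have h1 : 1 < Y / y := (one_lt_div hy).2 h
  have h2 : (0 : ℝ) < (Y / y) ^ 2 - 1 := by nlinarith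
  have h2' : (0 : ℝ) < (Y * y⁻¹) ^ 2 - 1 := by rwa [← div_eq_mul_inv]
  have hd : HasDerivAt (fun z => (Y * z⁻¹) ^ 2 - 1) (-2 * Y ^ 2 / y ^ 3) y := by
    refine ((((hasDerivAt_inv hy.ne').const_mul Y)).fun_pow 2).sub_const 1 |>.congr_deriv ?_
    push_cast
    field_simp
  have e : Tof Y = fun z => √((Y * z⁻¹) ^ 2 - 1) := funext fun z => by
    simp only [Tof, div_eq_mul_inv]
  rw [e]
  refine (hd.sqrt h2'.ne').congr_deriv ?_
  have h3 : √((Y * y⁻¹) ^ 2 - 1) ≠ 0 := (sqrt_pos.2 h2').ne'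
  field_simp

lemma phi_hasDerivAt (hG : ∀ T > 0, HasDerivAt G (dG T) T)
    (hGam : ∀ T > 0, HasDerivAt Gam (dGam T) T) {t y d A : ℝ} (hy : 0 < y) (h : y < Y) :
    HasDerivAt (fun s => phi m Y μ a Ginf G Gam (t + s * 1, y + s * d, A + s * y ^ (m + 1)))
      (a * (((m : ℝ) + 2) / ((m : ℝ) + 1) * y ^ (m + 1) -
          (y ^ (m + 1) + t * (((m : ℝ) + 1) * y ^ m * d)) / ((m : ℝ) + 1)) +
        μ * Y / (m : ℝ) * (y ^ m + t * ((m : ℝ) * y ^ (m - 1) * d)) +
        Y ^ (m + 1) * (dG (Tof Y y) * (-(Y ^ 2) / (y ^ 3 * Tof Y y) * d) +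
          dGam (Tof Y y) * (-(Y ^ 2) / (y ^ 3 * Tof Y y) * d) * (Y * t / y - Tof Y y) +
          Gam (Tof Y y) * ((Y * y - Y * t * d) / y ^ 2 -
            -(Y ^ 2) / (y ^ 3 * Tof Y y) * d))) 0 := by
  have ht : HasDerivAt (fun s : ℝ => t + s * 1) 1 0 := by
    simpa using ((hasDerivAt_id (0 : ℝ)).mul_const 1).const_add t
  have hy' : HasDerivAt (fun s : ℝ => y + s * d) d 0 := by
    simpa using ((hasDerivAt_id (0 : ℝ)).mul_const d).const_add y
  have hA : HasDerivAt (fun s : ℝ => A + s * y ^ (m + 1)) (y ^ (m + 1)) 0 := by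
    simpa using ((hasDerivAt_id (0 : ℝ)).mul_const (y ^ (m + 1))).const_add A
  have hy0 : (fun s : ℝ => y + s * d) 0 = y := by simp
  have hT : HasDerivAt (fun s => Tof Y (y + s * d)) (-(Y ^ 2) / (y ^ 3 * Tof Y y) * d) 0 :=
    (differentiableAt_Tof hy h).comp_of_eq (0 : ℝ) hy' (by simp)
  have hTp := Tof_pos hy h
  have e1 := ((hA.const_mul (((m : ℝ) + 2) / ((m : ℝ) + 1))).sub
    ((ht.mul (hy'.fun_pow (m + 1))).div_const ((m : ℝ) + 1))).const_mul a
  have e2 := (ht.mul (hy'.fun_pow m)).const_mul (μ * Y / (m : ℝ))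
  have e3 := (((hG _ hTp).comp_of_eq (0 : ℝ) hT (by simp)).add
    (((hGam _ hTp).comp_of_eq (0 : ℝ) hT (by simp)).mul
      (((ht.const_mul Y).div hy' (by simpa using hy.ne')).sub hT))).const_mul (Y ^ (m + 1))
  have hpos : ∀ᶠ s in 𝓝 (0 : ℝ), 0 < y + s * d :=
    hy'.continuousAt.eventually_const_lt (by simpa using hy)
  refine HasDerivAt.congr_of_eventuallyEq ?_ (hpos.mono fun s hs => ?_)
    (f := fun s => a * (((m : ℝ) + 2) / ((m : ℝ) + 1) * (A + s * y ^ (m + 1)) -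
      (t + s * 1) * (y + s * d) ^ (m + 1) / ((m : ℝ) + 1)) +
      μ * Y / (m : ℝ) * ((t + s * 1) * (y + s * d) ^ m) +
      Y ^ (m + 1) * (G (Tof Y (y + s * d)) + Gam (Tof Y (y + s * d)) *
        (Y * (t + s * 1) / (y + s * d) - Tof Y (y + s * d))))
  · refine ((e1.add e2).add e3).congr_deriv ?_
    simp only [Function.comp_apply, Pi.sub_apply, Pi.div_apply, zero_mul, add_zero, mul_one,
      Nat.add_sub_cancel, Nat.cast_add, Nat.cast_one]
    ring
  · show phi m Y μ a Ginf G Gam _ = _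
    simp only [phi]
    rw [if_neg (not_le.2 hs)]

lemma phi_differentiableAt (hG : ∀ T > 0, HasDerivAt G (dG T) T)
    (hGam : ∀ T > 0, HasDerivAt Gam (dGam T) T) {t y A : ℝ} (hy : 0 < y) (h : y < Y) :
    DifferentiableAt ℝ (phi m Y μ a Ginf G Gam) (t, y, A) := by
  have hp : DifferentiableAt ℝ (fun p : ℝ × ℝ × ℝ => p.2.1) (t, y, A) := by fun_prop
  have hT : DifferentiableAt ℝ (fun p : ℝ × ℝ × ℝ => Tof Y p.2.1) (t, y, A) :=
    DifferentiableAt.fun_comp' (t, y, A) (differentiableAt_Tof hy h).differentiableAt hp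
  have hTp := Tof_pos hy h
  have h1 : DifferentiableAt ℝ (fun p : ℝ × ℝ × ℝ => G (Tof Y p.2.1)) (t, y, A) :=
    DifferentiableAt.fun_comp' (g := G) (t, y, A) (hG _ hTp).differentiableAt hT
  have h2 : DifferentiableAt ℝ (fun p : ℝ × ℝ × ℝ => Gam (Tof Y p.2.1)) (t, y, A) :=
    DifferentiableAt.fun_comp' (g := Gam) (t, y, A) (hGam _ hTp).differentiableAt hT
  have hq : DifferentiableAt ℝ (fun p : ℝ × ℝ × ℝ => Y * p.1 / p.2.1) (t, y, A) := by
    simp only [div_eq_mul_inv]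
    exact (show DifferentiableAt ℝ (fun p : ℝ × ℝ × ℝ => Y * p.1) (t, y, A) by fun_prop).fun_mul
      (hp.fun_inv hy.ne')
  have key : DifferentiableAt ℝ (fun p : ℝ × ℝ × ℝ =>
      a * (((m : ℝ) + 2) / ((m : ℝ) + 1) * p.2.2 - p.1 * p.2.1 ^ (m + 1) / ((m : ℝ) + 1)) +
      μ * Y / (m : ℝ) * (p.1 * p.2.1 ^ m) + Y ^ (m + 1) *
        (G (Tof Y p.2.1) + Gam (Tof Y p.2.1) * (Y * p.1 / p.2.1 - Tof Y p.2.1))) (t, y, A) :=
    DifferentiableAt.fun_add (by fun_prop)
      ((h1.fun_add (h2.fun_mul (hq.fun_sub hT))).const_mul _)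
  refine key.congr_of_eventuallyEq ?_
  filter_upwards [hp.continuousAt.eventually_const_lt hy] with p hp'
  simp only [phi]
  rw [if_neg (not_le.2 hp')]

lemma continuousOn_phi (hY : 0 < Y) (hGc : ContinuousOn G (Ici 0))
    (hGamc : ContinuousOn Gam (Ici 0)) (hGlim : Tendsto G atTop (𝓝 Ginf))
    (hGamlim : Tendsto (fun T => Gam T * (T + 1)) atTop (𝓝 0)) :
    ContinuousOn (phi m Y μ a Ginf G Gam) (Region Y) := by
  set ψ : ℝ × ℝ × ℝ → ℝ := fun p => if p.2.1 ≤ 0 then Ginf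
    else G (Tof Y p.2.1) + Gam (Tof Y p.2.1) * (Y * p.1 / p.2.1 - Tof Y p.2.1) with hψ
  suffices hc : ContinuousOn ψ (Region Y) by
    have h1 : Continuous (fun p : ℝ × ℝ × ℝ =>
        a * (((m : ℝ) + 2) / ((m : ℝ) + 1) * p.2.2 - p.1 * p.2.1 ^ (m + 1) / ((m : ℝ) + 1)) +
          μ * Y / (m : ℝ) * (p.1 * p.2.1 ^ m)) := by fun_prop
    exact h1.continuousOn.add (continuousOn_const.mul hc)
  rintro ⟨t, y, A⟩ hp
  obtain ⟨ht, hy, -⟩ := hp
  rcases hy.1.eq_or_lt with h0 | h0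
  · subst h0
    have hv : ψ (t, 0, A) = Ginf := by simp [hψ]
    set Sp : Set (ℝ × ℝ × ℝ) := Region Y ∩ {p | 0 < p.2.1} with hSp
    set S0 : Set (ℝ × ℝ × ℝ) := {p | p.2.1 = 0} with hS0
    refine ContinuousWithinAt.mono (t := Sp ∪ S0) ?_ fun p hp => ?_
    · refine ContinuousWithinAt.union ?_ ?_
      · have hT : Tendsto (fun p : ℝ × ℝ × ℝ => Tof Y p.2.1) (𝓝[Sp] (t, 0, A)) atTop := by
          have h1 : Tendsto (fun z : ℝ => (Y / z) ^ 2 - 1) (𝓝[>] 0) atTop := by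
            have h2 : Tendsto (fun z : ℝ => Y * z⁻¹) (𝓝[>] 0) atTop :=
              tendsto_inv_nhdsGT_zero.const_mul_atTop hY
            refine tendsto_atTop_add_const_right _ (-1) ?_
            simp only [div_eq_mul_inv]
            exact (tendsto_pow_atTop two_ne_zero).comp h2
          refine (tendsto_sqrt_atTop.comp h1).comp ?_
          refine tendsto_nhdsWithin_iff.2 ⟨?_, ?_⟩
          · exact (show Continuous fun p : ℝ × ℝ × ℝ => p.2.1 by fun_prop).tendsto' _ _ rfl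
              |>.mono_left nhdsWithin_le_nhds
          · exact eventually_mem_nhdsWithin.mono fun p hp => hp.2
        have hlim : Tendsto (fun p : ℝ × ℝ × ℝ => G (Tof Y p.2.1) +
            Gam (Tof Y p.2.1) * (Y * p.1 / p.2.1 - Tof Y p.2.1)) (𝓝[Sp] (t, 0, A)) (𝓝 (Ginf + 0)) := by
          refine (hGlim.comp hT).add ?_
          refine squeeze_zero_norm' (a := fun p : ℝ × ℝ × ℝ =>
            |Gam (Tof Y p.2.1) * (Tof Y p.2.1 + 1)|) ?_ ?_
          · refine eventually_mem_nhdsWithin.mono fun p hp => ?_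
            obtain ⟨⟨ht', hy', -⟩, hpos⟩ := hp
            have hpos' : 0 < p.2.1 := hpos
            have hT0 : 0 ≤ Tof Y p.2.1 := sqrt_nonneg _
            have h2 : Y * p.1 / p.2.1 ≤ Tof Y p.2.1 + 1 := by
              have h3 : Y * p.1 / p.2.1 ≤ √(1 + Tof Y p.2.1 ^ 2) := by
                rw [Tof_sq hpos' hy'.2]
                gcongr
                nlinarith [ht'.2]
              refine h3.trans ?_
              rw [sqrt_le_left (by positivity)]
              nlinarith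
            have h4 : 0 ≤ Y * p.1 / p.2.1 := div_nonneg (mul_nonneg hY.le ht'.1) hpos'.le
            rw [Real.norm_eq_abs, abs_mul, abs_mul]
            refine mul_le_mul_of_nonneg_left ?_ (abs_nonneg _)
            rw [abs_le, abs_of_nonneg (by linarith)]
            constructor <;> linarith
          · simpa using (hGamlim.comp hT).abs
        rw [add_zero] at hlim
        rw [ContinuousWithinAt, hv]
        refine hlim.congr' (eventually_mem_nhdsWithin.mono fun p hp => ?_)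
        simp only [hψ]
        rw [if_neg (not_le.2 hp.2)]
      · refine (continuousWithinAt_const (b := Ginf)).congr (fun p hp => ?_) hv
        have hp' : p.2.1 = 0 := hp
        simp only [hψ]
        rw [if_pos hp'.le]
    · rcases hp.2.1.1.eq_or_lt with h1 | h1
      · exact Or.inr h1.symm
      · exact Or.inl ⟨hp, h1⟩
  · set Sp : Set (ℝ × ℝ × ℝ) := Region Y ∩ {p | 0 < p.2.1} with hSp
    have hin : (t, y, A) ∈ Sp := ⟨⟨ht, hy, trivial⟩, h0⟩
    have hnb : Sp ∈ 𝓝[Region Y] (t, y, A) := inter_mem_nhdsWithin _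
      ((isOpen_lt continuous_const (by fun_prop)).mem_nhds h0)
    suffices hc : ContinuousWithinAt ψ Sp (t, y, A) from hc.mono_of_mem_nhdsWithin hnb
    have hTc : ContinuousOn (fun p : ℝ × ℝ × ℝ => Tof Y p.2.1) Sp := fun p hp =>
      (show ContinuousAt (fun p : ℝ × ℝ × ℝ => √((Y / p.2.1) ^ 2 - 1)) p by
        have h1 : p.2.1 ≠ 0 := ne_of_gt hp.2
        fun_prop (disch := assumption)).continuousWithinAt
    have hm : MapsTo (fun p : ℝ × ℝ × ℝ => Tof Y p.2.1) Sp (Ici 0) := fun p _ => sqrt_nonneg _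
    have hq : ContinuousOn (fun p : ℝ × ℝ × ℝ => Y * p.1 / p.2.1) Sp :=
      (show Continuous fun p : ℝ × ℝ × ℝ => Y * p.1 by fun_prop).continuousOn.div
        (show Continuous fun p : ℝ × ℝ × ℝ => p.2.1 by fun_prop).continuousOn
        fun p hp => ne_of_gt hp.2
    have hall : ContinuousOn (fun p : ℝ × ℝ × ℝ => G (Tof Y p.2.1) +
        Gam (Tof Y p.2.1) * (Y * p.1 / p.2.1 - Tof Y p.2.1)) Sp :=
      (hGc.comp hTc hm).add ((hGamc.comp hTc hm).mul (hq.sub hTc))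
    refine (hall _ hin).congr (fun p hp => ?_) ?_
    · simp only [hψ]; rw [if_neg (not_le.2 hp.2)]
    · simp only [hψ]; rw [if_neg (not_le.2 h0)]

/-- **The bridge**: the pointwise inequality and one scalar inequality give a calibration. -/
theorem isCalY_of_pw (hm : 1 ≤ m) (hY : 1 ≤ Y) (hε : w * ρ ^ 2 = ε * Y ^ 2) (hμ : 0 ≤ μ)
    (hGc : ContinuousOn G (Ici 0)) (hGamc : ContinuousOn Gam (Ici 0))
    (hG : ∀ T > 0, HasDerivAt G (dG T) T) (hGam : ∀ T > 0, HasDerivAt Gam (dGam T) T)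
    (hGlim : Tendsto G atTop (𝓝 Ginf))
    (hGamlim : Tendsto (fun T => Gam T * (T + 1)) atTop (𝓝 0))
    (hpw : ∀ t y d A, AdmY m V Y t y d A → d < 0 → PW m ε μ a dG Gam dGam (Tof Y y) (Y * t / y)
      ((y - t * d) * y * Tof Y y / (Y * -d)))
    (htail : ∀ T > 0, PW m ε μ a dG Gam dGam T (√(1 + T ^ 2)) (T / √(1 + T ^ 2)))
    (hflat : a + ((m : ℝ) + 1) * ε + Gam 0 ≤ μ)
    (hsc : V - w * ((m : ℝ) + 1) * V + μ * Y * (((m : ℝ) + 1) / (m : ℝ)) * projBound m V <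
      a * (((m : ℝ) + 2) / ((m : ℝ) + 1)) * V + Y ^ (m + 1) * (Ginf - G 0)) :
    IsCalY m V ρ w Y (μ * Y * (((m : ℝ) + 1) / (m : ℝ))) (phi m Y μ a Ginf G Gam)
      (fderiv ℝ (phi m Y μ a Ginf G Gam)) := by
  obtain ⟨j, rfl⟩ := Nat.exists_eq_add_of_le hm
  have hY0 : 0 < Y := lt_of_lt_of_le one_pos hY
  refine ⟨by positivity, (continuousOn_phi hY0 hGc hGamc hGlim hGamlim).mono inter_subset_left,
    fun t y A _ hy hyY _ => (phi_differentiableAt hG hGam hy hyY).hasFDerivAt, ?_, ?_, ?_⟩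
  · intro t y d A h
    have hy := h.adm.pos
    have hT := Tof_pos hy h.lt_top
    have hd : d < 0 := by nlinarith [h.lt_top, h.top_le, h.adm.mem.1]
    have h1 : HasDerivAt (fun s : ℝ => (t + s * 1, y + s * d, A + s * y ^ (1 + j + 1)))
        ((1 : ℝ), d, y ^ (1 + j + 1)) 0 := by
      refine HasDerivAt.prodMk ?_ (HasDerivAt.prodMk ?_ ?_)
      · simpa using ((hasDerivAt_id (0 : ℝ)).mul_const 1).const_add t
      · simpa using ((hasDerivAt_id (0 : ℝ)).mul_const d).const_add y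
      · simpa using ((hasDerivAt_id (0 : ℝ)).mul_const (y ^ (1 + j + 1))).const_add A
    have h2 := (phi_differentiableAt (A := A) (m := 1 + j) (μ := μ) (a := a) (Ginf := Ginf) hG hGam
      hy h.lt_top (t := t)).hasFDerivAt.comp_hasDerivAt_of_eq (0 : ℝ) h1 (by simp)
    rw [h2.unique (phi_hasDerivAt (A := A) hG hGam hy h.lt_top)]
    have hp := hpw t y d A h hd
    unfold PW at hp
    rw [Tof_sq hy h.lt_top.le] at hp
    have hg := h.adm.den_pos
    set T := Tof Y y with hTdef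
    have hTe : T ^ 2 = (Y / y) ^ 2 - 1 := by
      rw [hTdef, Tof, sq_sqrt]
      nlinarith [(one_lt_div hy).2 h.lt_top]
    set K := Y ^ (1 + j + 1) * (Y ^ 2 * -d / (y ^ 3 * T)) with hK
    have hK0 : 0 ≤ K := by
      rw [hK]; have : 0 < -d := neg_pos.2 hd; positivity
    have key := mul_le_mul_of_nonneg_left hp hK0
    have ew : (1 + T ^ 2) * ((y - t * d) * y * T / (Y * -d)) - Y * t / y * T =
        T * Y / -d := by
      rw [hTe]
      have : -d ≠ 0 := (neg_pos.2 hd).ne'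
      have : d ≠ 0 := hd.ne
      field_simp
      ring
    rw [ew] at key
    simp only [cost]
    have hdne : d ≠ 0 := hd.ne
    have l1 : K * (dG T + dGam T * (Y * t / y - T) +
          Gam T * ((y - t * d) * y * T / (Y * -d) - 1)) =
        Y ^ (1 + j + 1) * (dG T * (-(Y ^ 2) / (y ^ 3 * T) * d) +
          dGam T * (-(Y ^ 2) / (y ^ 3 * T) * d) * (Y * t / y - T) +
          Gam T * ((Y * y - Y * t * d) / y ^ 2 - -(Y ^ 2) / (y ^ 3 * T) * d)) := by
      rw [hK]; field_simp; ring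
    have r1 : K * ((((1 + j : ℕ) : ℝ) + 1) * (T ^ 2 - ε * (T * Y / -d) ^ 2) /
          ((y - t * d) * y * T / (Y * -d)) / (Y / y) ^ (1 + j + 4)) =
        (((1 + j : ℕ) : ℝ) + 1) * (y ^ (1 + j) * (d ^ 2 / (y - t * d))) -
          (((1 + j : ℕ) : ℝ) + 1) * (ε * Y ^ 2) * (y ^ (1 + j) / (y - t * d)) := by
      rw [hK, div_pow Y y]; field_simp; ring
    have r2 : K * (μ * ((y - t * d) * y * T / (Y * -d)) / (Y / y) ^ (1 + j + 1)) =
        μ * Y * (y - t * d) * y ^ j := by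
      rw [hK, div_pow Y y]; field_simp; ring
    have r3 : K * (a * ((y - t * d) * y * T / (Y * -d)) / (Y / y) ^ (1 + j + 2)) =
        a * (y - t * d) * y ^ (1 + j) := by
      rw [hK, div_pow Y y]; field_simp; ring
    replace key := key.trans_eq (show _ =
        K * ((((1 + j : ℕ) : ℝ) + 1) * (T ^ 2 - ε * (T * Y / -d) ^ 2) /
          ((y - t * d) * y * T / (Y * -d)) / (Y / y) ^ (1 + j + 4)) +
        K * (μ * ((y - t * d) * y * T / (Y * -d)) / (Y / y) ^ (1 + j + 1)) -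
        K * (a * ((y - t * d) * y * T / (Y * -d)) / (Y / y) ^ (1 + j + 2)) by ring)
    rw [r1, r2, r3, l1, ← hε] at key
    have e1 : μ * Y * (y - t * d) * y ^ j =
        μ * Y * ((((1 + j : ℕ) : ℝ) + 1) / ((1 + j : ℕ) : ℝ)) * y ^ (1 + j) -
          μ * Y / ((1 + j : ℕ) : ℝ) * (y ^ (1 + j) + t * (((1 + j : ℕ) : ℝ) * y ^ j * d)) := by
      field_simp; push_cast; ring
    have e2 : a * (y - t * d) * y ^ (1 + j) =
        a * ((((1 + j : ℕ) : ℝ) + 2) / (((1 + j : ℕ) : ℝ) + 1) * y ^ (1 + j + 1) -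
          (y ^ (1 + j + 1) + t * ((((1 + j : ℕ) : ℝ) + 1) * y ^ (1 + j) * d)) /
            (((1 + j : ℕ) : ℝ) + 1)) := by
      field_simp; ring
    rw [show (1 + j - 1 : ℕ) = j by omega]
    linarith
  · intro b hb hb1 _ _
    have hval : ∀ t A : ℝ, phi (1 + j) Y μ a Ginf G Gam (t, Y, A) =
        a * ((((1 + j : ℕ) : ℝ) + 2) / (((1 + j : ℕ) : ℝ) + 1) * A -
          t * Y ^ (1 + j + 1) / (((1 + j : ℕ) : ℝ) + 1)) +
        μ * Y / ((1 + j : ℕ) : ℝ) * (t * Y ^ (1 + j)) + Y ^ (1 + j + 1) * (G 0 + Gam 0 * t) := by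
      intro t A
      simp only [phi]
      rw [if_neg (not_le.2 hY0), Tof_top hY0, mul_div_cancel_left₀ _ hY0.ne', sub_zero]
    have hk : (0 : ℝ) < ((1 + j : ℕ) : ℝ) := by positivity
    have h := mul_le_mul_of_nonneg_left hflat (mul_nonneg hb.le (pow_nonneg hY0.le (1 + j + 1)))
    have e1 : a * ((((1 + j : ℕ) : ℝ) + 2) / (((1 + j : ℕ) : ℝ) + 1) * (b * Y ^ (1 + j + 1)) -
        b * Y ^ (1 + j + 1) / (((1 + j : ℕ) : ℝ) + 1)) = a * (b * Y ^ (1 + j + 1)) := by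
      field_simp; ring
    have e2 : μ * Y / ((1 + j : ℕ) : ℝ) * (b * Y ^ (1 + j)) =
        μ * Y * ((((1 + j : ℕ) : ℝ) + 1) / ((1 + j : ℕ) : ℝ)) * (b * Y ^ (1 + j)) -
          μ * (b * Y ^ (1 + j + 1)) := by
      field_simp; ring
    have e3 : cost (1 + j) w ρ (μ * Y * ((((1 + j : ℕ) : ℝ) + 1) / ((1 + j : ℕ) : ℝ))) 0 Y 0 =
        μ * Y * ((((1 + j : ℕ) : ℝ) + 1) / ((1 + j : ℕ) : ℝ)) * Y ^ (1 + j) -
          (((1 + j : ℕ) : ℝ) + 1) * ε * Y ^ (1 + j + 1) := by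
      have : (((1 + j : ℕ) : ℝ) + 1) * (w * ρ ^ 2) * (Y ^ (1 + j) / Y) =
          (((1 + j : ℕ) : ℝ) + 1) * ε * Y ^ (1 + j + 1) := by
        rw [hε, pow_succ]; field_simp; ring
      simp only [cost]
      rw [← this]
      simp only [mul_zero, sub_zero, zero_pow two_ne_zero, zero_div, zero_sub]
      ring
    rw [hval, hval, e1, e2, e3]
    simp only [mul_zero, zero_mul, zero_div, sub_zero, add_zero]
    linarith
  · intro z hz hzY _ _ _
    rcases hz.eq_or_lt with h0 | h0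
    · subst h0
      simp only [phi]
      rw [if_pos le_rfl, if_neg (not_le.2 hY0), Tof_top hY0]
      simp only [zero_pow (Nat.succ_ne_zero _), mul_zero, zero_div, sub_zero, add_zero,
        zero_mul, zero_add, zero_pow (show 1 + j ≠ 0 by omega)]
      linarith
    · have hmono := tail_bound (j := j) hGc hGamc hG hGam hGlim hGamlim htail (sqrt_nonneg _)
        (T₁ := Tof Y z)
      rw [Tof_sq h0 hzY] at hmono
      simp only [phi]
      rw [if_neg (not_le.2 h0), if_neg (not_le.2 hY0), Tof_top hY0]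
      simp only [mul_one, mul_zero, zero_div, sub_zero, add_zero, zero_mul, zero_add]
      have key := mul_le_mul_of_nonneg_left hmono (pow_nonneg hY0.le (1 + j + 1))
      have e : Y ^ (1 + j + 1) * ((((1 + j : ℕ) : ℝ) + 1 - a) / (((1 + j : ℕ) : ℝ) + 1) /
            (Y / z) ^ (1 + j + 1) + μ / ((1 + j : ℕ) : ℝ) / (Y / z) ^ (1 + j)) =
          z ^ (1 + j + 1) - a * (z ^ (1 + j + 1) / (((1 + j : ℕ) : ℝ) + 1)) +
            μ * Y / ((1 + j : ℕ) : ℝ) * z ^ (1 + j) := by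
        rw [div_pow, div_pow]; field_simp; ring
      rw [e] at key
      generalize ((1 + j : ℕ) : ℝ) = K at key hsc ⊢
      generalize Gam (Tof Y z) * (Y / z - Tof Y z) = X at key ⊢
      generalize G (Tof Y z) = Gz at key ⊢
      linear_combination key + hsc

end

end Vale.Agent.P237.Cal
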