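import Vale.Agent.P237.Cal.Coords

/-!
# P237: a calibration from a pointwise inequality in two variables

`τ = t/y`, `u = 1/y` and `s = du/dτ = -d/(y - t d)`. The potential is `φ (τ, u) + β A`; a pointwise
inequality, quadratic in `s`, and one scalar inequality give `IsCalY`. Nothing here says that such
a field `φ` exists.
-/

open MeasureTheory Set Filter Topology Real intervalIntegral

namespace Vale.Agent.P237.Cal

variable {m : ℕ}

/-- The least moment of a concave profile through `(0, Y)` and `(t, y)` above the semicircle. -/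
noncomputable def hull2 (m : ℕ) (Y t y : ℝ) : ℝ :=
  (∫ x in (0 : ℝ)..t, max (√(1 - x ^ 2)) (Y + (y - Y) * x / t) ^ (m + 1)) +
    ∫ x in t..1, max (√(1 - x ^ 2)) (y * (1 - x) / (1 - t)) ^ (m + 1)

/-- The values of `(τ, u)` on admissible profiles. -/
def Dom2 (Y : ℝ) : Set (ℝ × ℝ) :=
  {p | 0 ≤ p.1 ∧ p.1 ≤ p.2 ∧ 1 / Y ≤ p.2 ∧ p.2 ≤ √(1 + p.1 ^ 2)}

/-- The pointwise constraints on `(τ, u, s)` below the central value. -/
structure Reg2 (m : ℕ) (V Y τ u s : ℝ) : Prop where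
  τ_pos : 0 < τ
  τ_lt : τ < u
  u_gt : 1 / Y < u
  u_le : u ≤ √(1 + τ ^ 2)
  s_pos : 0 < s
  s_le : s ≤ 1
  a_pos : 0 < u - τ * s
  a_le : u - τ * s ≤ 1 / Y
  circle : (u - τ * s) ^ 2 + s ^ 2 ≤ 1
  hull : hull2 m Y (τ / u) (1 / u) ≤ V

/-- The pointwise inequality; `η = w ρ²`, `lam` is the projection multiplier. -/
def PW2 (m : ℕ) (η β lam φT φU τ u s : ℝ) : Prop :=
  φT + s * φU + β * (u - τ * s) / u ^ (m + 3) ≤
    (((m : ℝ) + 1) * (s ^ 2 - η * (u - τ * s) ^ 2) + lam * (u - τ * s)) / u ^ (m + 2)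

/-- A field `φ` with partial derivatives `φT, φU` satisfying the pointwise inequality inside, on
the plateau `u = 1/Y` and on the tail `u = τ`, and vanishing at infinity. -/
structure Field2 (m : ℕ) (V Y η β lam : ℝ) (φ φT φU : ℝ × ℝ → ℝ) : Prop where
  cont : ContinuousOn φ (Dom2 Y)
  deriv : ∀ p ∈ Dom2 Y, 0 < p.1 → HasFDerivAt φ
    (φT p • ContinuousLinearMap.fst ℝ ℝ ℝ + φU p • ContinuousLinearMap.snd ℝ ℝ ℝ) p
  inf : Tendsto φ (comap Prod.snd atTop ⊓ 𝓟 (Dom2 Y)) (𝓝 0)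
  pw : ∀ τ u s, Reg2 m V Y τ u s → PW2 m η β lam (φT (τ, u)) (φU (τ, u)) τ u s
  plateau : ∀ τ, 0 < τ → τ < 1 / Y → hull2 m Y (τ * Y) Y ≤ V →
    PW2 m η β lam (φT (τ, 1 / Y)) (φU (τ, 1 / Y)) τ (1 / Y) 0
  tail : ∀ τ, 1 / Y < τ → hullMom m Y (1 / τ) ≤ V →
    PW2 m η β lam (φT (τ, τ)) (φU (τ, τ)) τ τ 1

/-- The potential. -/
noncomputable def Phi2 (φ : ℝ × ℝ → ℝ) (β : ℝ) (p : ℝ × ℝ × ℝ) : ℝ :=
  (if p.2.1 ≤ 0 then 0 else φ (p.1 / p.2.1, 1 / p.2.1)) + β * p.2.2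

/-- The derivative of the potential. -/
noncomputable def dPhi2 (φT φU : ℝ × ℝ → ℝ) (β : ℝ) (p : ℝ × ℝ × ℝ) : ℝ × ℝ × ℝ →L[ℝ] ℝ :=
  (φT (p.1 / p.2.1, 1 / p.2.1) / p.2.1) • ContinuousLinearMap.fst ℝ ℝ (ℝ × ℝ) +
    (-(φT (p.1 / p.2.1, 1 / p.2.1) * p.1 + φU (p.1 / p.2.1, 1 / p.2.1)) / p.2.1 ^ 2) •
      (ContinuousLinearMap.fst ℝ ℝ ℝ).comp (ContinuousLinearMap.snd ℝ ℝ (ℝ × ℝ)) +
    β • (ContinuousLinearMap.snd ℝ ℝ ℝ).comp (ContinuousLinearMap.snd ℝ ℝ (ℝ × ℝ))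

section

variable {V Y η β lam : ℝ} {φ φT φU : ℝ × ℝ → ℝ} {t y : ℝ}

lemma mem_dom2 (ht : t ∈ Icc (0 : ℝ) 1) (hy : 0 < y) (hyY : y ≤ Y) (hs : √(1 - t ^ 2) ≤ y) :
    (t / y, 1 / y) ∈ Dom2 Y := by
  refine ⟨div_nonneg ht.1 hy.le, div_le_div_of_nonneg_right ht.2 hy.le,
    one_div_le_one_div_of_le hy hyY, ?_⟩
  have h1 : 1 - t ^ 2 ≤ y ^ 2 := (sqrt_le_left hy.le).1 hs
  show 1 / y ≤ √(1 + (t / y) ^ 2)
  rw [le_sqrt (by positivity) (by positivity), div_pow, div_pow, one_add_div (by positivity)]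
  gcongr
  linarith

lemma phi2_hasFDerivAt (hF : Field2 m V Y η β lam φ φT φU) (ht : t ∈ Ioo (0 : ℝ) 1) (hy : 0 < y)
    (hyY : y ≤ Y) (hs : √(1 - t ^ 2) ≤ y) (A : ℝ) :
    HasFDerivAt (Phi2 φ β) (dPhi2 φT φU β (t, y, A)) (t, y, A) := by
  have hp := hF.deriv _ (mem_dom2 (Ioo_subset_Icc_self ht) hy hyY hs) (div_pos ht.1 hy)
  have h1 : HasFDerivAt (fun p : ℝ × ℝ × ℝ => p.1)
      (ContinuousLinearMap.fst ℝ ℝ (ℝ × ℝ)) (t, y, A) := hasFDerivAt_fst
  have h2 : HasFDerivAt (fun p : ℝ × ℝ × ℝ => p.2.1)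
      ((ContinuousLinearMap.fst ℝ ℝ ℝ).comp (ContinuousLinearMap.snd ℝ ℝ (ℝ × ℝ))) (t, y, A) :=
    ((ContinuousLinearMap.fst ℝ ℝ ℝ).comp (ContinuousLinearMap.snd ℝ ℝ (ℝ × ℝ))).hasFDerivAt
  have h3 : HasFDerivAt (fun p : ℝ × ℝ × ℝ => p.2.2)
      ((ContinuousLinearMap.snd ℝ ℝ ℝ).comp (ContinuousLinearMap.snd ℝ ℝ (ℝ × ℝ))) (t, y, A) :=
    ((ContinuousLinearMap.snd ℝ ℝ ℝ).comp (ContinuousLinearMap.snd ℝ ℝ (ℝ × ℝ))).hasFDerivAt
  have hi := (hasDerivAt_inv hy.ne').comp_hasFDerivAt (t, y, A) h2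
  have hmap : HasFDerivAt (fun p : ℝ × ℝ × ℝ => (p.1 / p.2.1, 1 / p.2.1))
      ((t • ((-(y ^ 2)⁻¹) •
          (ContinuousLinearMap.fst ℝ ℝ ℝ).comp (ContinuousLinearMap.snd ℝ ℝ (ℝ × ℝ))) +
        y⁻¹ • ContinuousLinearMap.fst ℝ ℝ (ℝ × ℝ)).prod
        ((-(y ^ 2)⁻¹) •
          (ContinuousLinearMap.fst ℝ ℝ ℝ).comp (ContinuousLinearMap.snd ℝ ℝ (ℝ × ℝ)))) (t, y, A) := by
    simp only [div_eq_mul_inv, one_mul]
    exact (h1.mul hi).prodMk hi
  have hall := (hp.comp (t, y, A) hmap).add (h3.const_mul β)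
  refine (hall.congr_of_eventuallyEq ?_).congr_fderiv ?_
  · filter_upwards [h2.continuousAt.eventually_const_lt hy] with p hp'
    simp only [Phi2, Function.comp_apply, Pi.add_apply]
    rw [if_neg (not_le.2 hp')]
  · refine ContinuousLinearMap.ext fun z => ?_
    simp [dPhi2]
    field_simp
    ring

lemma continuousOn_Phi2 (hF : Field2 m V Y η β lam φ φT φU) :
    ContinuousOn (Phi2 φ β) (Region Y ∩ {p | √(1 - p.1 ^ 2) ≤ p.2.1}) := by
  set R := Region Y ∩ {p : ℝ × ℝ × ℝ | √(1 - p.1 ^ 2) ≤ p.2.1} with hR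
  set ψ : ℝ × ℝ × ℝ → ℝ := fun p => if p.2.1 ≤ 0 then 0 else φ (p.1 / p.2.1, 1 / p.2.1) with hψ
  suffices hc : ContinuousOn ψ R from
    hc.add (continuous_const.mul (continuous_snd.comp continuous_snd)).continuousOn
  set Sp := R ∩ {p : ℝ × ℝ × ℝ | 0 < p.2.1} with hSp
  have hmaps : MapsTo (fun p : ℝ × ℝ × ℝ => (p.1 / p.2.1, 1 / p.2.1)) Sp (Dom2 Y) :=
    fun p hp => mem_dom2 hp.1.1.1 hp.2 hp.1.1.2.1.2 hp.1.2
  rintro ⟨t, y, A⟩ hp
  rcases hp.1.2.1.1.eq_or_lt with h0 | h0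
  · have h0' : y = 0 := h0.symm
    subst h0'
    set S0 : Set (ℝ × ℝ × ℝ) := {p | p.2.1 = 0} with hS0
    refine ContinuousWithinAt.mono (t := Sp ∪ S0) ?_ fun p hp => ?_
    · refine ContinuousWithinAt.union ?_ ?_
      · rw [ContinuousWithinAt, show ψ (t, 0, A) = 0 by simp [hψ]]
        have hT : Tendsto (fun p : ℝ × ℝ × ℝ => (p.1 / p.2.1, 1 / p.2.1)) (𝓝[Sp] (t, 0, A))
            (comap Prod.snd atTop ⊓ 𝓟 (Dom2 Y)) := by
          refine tendsto_inf.2 ⟨tendsto_comap_iff.2 ?_,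
            tendsto_principal.2 (eventually_mem_nhdsWithin.mono hmaps)⟩
          simp only [Function.comp_def, one_div]
          refine tendsto_inv_nhdsGT_zero.comp (tendsto_nhdsWithin_iff.2 ⟨?_, ?_⟩)
          · exact (show Continuous fun p : ℝ × ℝ × ℝ => p.2.1 by fun_prop).tendsto' _ _ rfl
              |>.mono_left nhdsWithin_le_nhds
          · exact eventually_mem_nhdsWithin.mono fun p hp => hp.2
        refine (hF.inf.comp hT).congr' (eventually_mem_nhdsWithin.mono fun p hp => ?_)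
        simp only [hψ, Function.comp_apply]
        rw [if_neg (not_le.2 hp.2)]
      · refine (continuousWithinAt_const (b := (0 : ℝ))).congr (fun p hp => ?_) (by simp [hψ])
        have hp' : p.2.1 = 0 := hp
        simp [hψ, hp']
    · rcases hp.1.2.1.1.eq_or_lt with h1 | h1
      · exact Or.inr h1.symm
      · exact Or.inl ⟨hp, h1⟩
  · have hnb : Sp ∈ 𝓝[R] (t, y, A) := inter_mem_nhdsWithin _
      ((isOpen_lt continuous_const (by fun_prop)).mem_nhds h0)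
    suffices hc : ContinuousWithinAt ψ Sp (t, y, A) from hc.mono_of_mem_nhdsWithin hnb
    have hin : (t, y, A) ∈ Sp := ⟨hp, h0⟩
    have hc2 : ContinuousOn (fun p : ℝ × ℝ × ℝ => (p.1 / p.2.1, 1 / p.2.1)) Sp :=
      (continuous_fst.continuousOn.div (by fun_prop) fun p hp => ne_of_gt hp.2).prodMk
        (continuousOn_const.div (by fun_prop) fun p hp => ne_of_gt hp.2)
    refine ((hF.cont.comp hc2 hmaps) _ hin).congr (fun p hp => ?_) ?_
    · simp only [hψ, Function.comp_apply]; rw [if_neg (not_le.2 hp.2)]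
    · simp only [hψ, Function.comp_apply]; rw [if_neg (not_le.2 h0)]

/-- The moment of the least profile to `(1, z)` increases with `z`. -/
lemma hullMom_mono (m : ℕ) (Y : ℝ) {z z' : ℝ} (h : z ≤ z') :
    hullMom m Y z ≤ hullMom m Y z' := by
  refine integral_mono_on zero_le_one (Continuous.intervalIntegrable (by fun_prop) _ _)
    (Continuous.intervalIntegrable (by fun_prop) _ _) fun x hx => ?_
  refine pow_le_pow_left₀ (le_max_of_le_left (sqrt_nonneg _)) (max_le_max le_rfl ?_) _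
  nlinarith [hx.1]

lemma hull2_le {d A : ℝ} (hA : AdmY m V Y t y d A) : hull2 m Y t y ≤ V := by
  unfold hull2
  linarith [hA.chord0, hA.adm.chord]

lemma reg2_of_admY {d A : ℝ} (hA : AdmY m V Y t y d A) :
    Reg2 m V Y (t / y) (1 / y) (-d / (y - t * d)) := by
  have hy := hA.adm.pos
  have ht := hA.adm.mem
  have hY : 0 < Y := lt_of_lt_of_le one_pos hA.one_le
  have hg := hA.adm.den_pos
  have hd : d < 0 := by nlinarith [hA.lt_top, hA.top_le, ht.1]
  have ea : 1 / y - t / y * (-d / (y - t * d)) = 1 / (y - t * d) := by field_simp; ring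
  refine ⟨div_pos ht.1 hy, div_lt_div_of_pos_right ht.2 hy,
    one_div_lt_one_div_of_lt hy hA.lt_top, ?_, div_pos (neg_pos.2 hd) hg, ?_, ?_, ?_, ?_, ?_⟩
  · exact (mem_dom2 (Ioo_subset_Icc_self ht) hy hA.lt_top.le hA.adm.semi).2.2.2
  · rw [div_le_one hg]
    nlinarith [hA.adm.outside]
  · rw [ea]; positivity
  · rw [ea]; exact one_div_le_one_div_of_le hY hA.top_le
  · rw [ea, div_pow, div_pow, ← add_div, div_le_one (by positivity)]
    linarith [hA.adm.outside]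
  · rw [show t / y / (1 / y) = t by field_simp, one_div_one_div]
    exact hull2_le hA

/-- The hull grows with the plateau. -/
lemma hull2_top_le (hY : 1 ≤ Y) {b : ℝ} (ht : 0 ≤ t) (htb : t < b) (hb1 : b ≤ 1)
    (hch : ∫ x in b..1, max (√(1 - x ^ 2)) (Y * (1 - x) / (1 - b)) ^ (m + 1) ≤
      V - b * Y ^ (m + 1)) : hull2 m Y t Y ≤ V := by
  have hsemi : ∀ x : ℝ, √(1 - x ^ 2) ≤ Y := fun x =>
    (sqrt_le_one.2 (by nlinarith)).trans hY
  have e : ∫ x in (0 : ℝ)..t, max (√(1 - x ^ 2)) (Y + (Y - Y) * x / t) ^ (m + 1) =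
      t * Y ^ (m + 1) := by
    simp [max_eq_right (hsemi _)]
  have hc : ∀ c : ℝ, Continuous fun x : ℝ => max (√(1 - x ^ 2)) (Y * (1 - x) / c) ^ (m + 1) :=
    fun c => by fun_prop
  have hi := fun c p q => (hc c).intervalIntegrable (μ := volume) p q
  have ht1 : 0 < 1 - t := by linarith
  rw [hull2, e, ← integral_add_adjacent_intervals (hi (1 - t) t b) (hi (1 - t) b 1)]
  have h1 : ∫ x in t..b, max (√(1 - x ^ 2)) (Y * (1 - x) / (1 - t)) ^ (m + 1) ≤
      ∫ _x in t..b, Y ^ (m + 1) := by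
    refine integral_mono_on htb.le (hi _ _ _) intervalIntegrable_const fun x hx => ?_
    refine pow_le_pow_left₀ (le_max_of_le_left (sqrt_nonneg _)) (max_le (hsemi x) ?_) _
    rw [div_le_iff₀ ht1]
    nlinarith [hx.1]
  have h2 : ∫ x in b..1, max (√(1 - x ^ 2)) (Y * (1 - x) / (1 - t)) ^ (m + 1) ≤
      ∫ x in b..1, max (√(1 - x ^ 2)) (Y * (1 - x) / (1 - b)) ^ (m + 1) := by
    refine integral_mono_on_of_le_Ioo hb1 (hi _ _ _) (hi _ _ _) fun x hx => ?_
    refine pow_le_pow_left₀ (le_max_of_le_left (sqrt_nonneg _)) (max_le_max le_rfl ?_) _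
    exact div_le_div_of_nonneg_left (mul_nonneg (by linarith) (by linarith [hx.2]))
      (by linarith [hx.1, hx.2]) (by linarith)
  rw [intervalIntegral.integral_const, smul_eq_mul, sub_mul] at h1
  linarith

/-- Along the plateau. -/
lemma flat2 (hF : Field2 m V Y η β lam φ φT φU) (hY : 1 ≤ Y) {b : ℝ} (hb : 0 < b) (hb1 : b ≤ 1)
    (hch : ∫ x in b..1, max (√(1 - x ^ 2)) (Y * (1 - x) / (1 - b)) ^ (m + 1) ≤
      V - b * Y ^ (m + 1)) :
    φ (b / Y, 1 / Y) + β * (b * Y ^ (m + 1)) - φ (0, 1 / Y) ≤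
      b * (lam * Y ^ m - ((m : ℝ) + 1) * η * (Y ^ m / Y)) := by
  have hY0 : 0 < Y := lt_of_lt_of_le one_pos hY
  have hbY : 0 < b / Y := div_pos hb hY0
  have hle : b / Y ≤ 1 / Y := by gcongr
  have hdom : ∀ τ ∈ Icc (0 : ℝ) (b / Y), (τ, 1 / Y) ∈ Dom2 Y := fun τ hτ => by
    refine ⟨hτ.1, hτ.2.trans hle, le_rfl, ?_⟩
    show 1 / Y ≤ √(1 + τ ^ 2)
    refine ((div_le_one hY0).2 hY).trans (one_le_sqrt.2 ?_)
    nlinarith
  set c := lam * Y ^ (m + 1) - ((m : ℝ) + 1) * η * Y ^ m - β * Y ^ (m + 2) with hc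
  set g := fun τ => φ (τ, 1 / Y) - c * τ with hgdef
  have hgc : ContinuousOn g (Icc 0 (b / Y)) :=
    (hF.cont.comp (continuousOn_id.prodMk continuousOn_const) hdom).sub
      (continuousOn_const.mul continuousOn_id)
  have hanti : AntitoneOn g (Icc 0 (b / Y)) := by
    refine antitoneOn_of_hasDerivWithinAt_nonpos (convex_Icc _ _) hgc
      (f' := fun τ => φT (τ, 1 / Y) - c) (fun τ hτ => ?_) fun τ hτ => ?_
    · rw [interior_Icc] at hτ
      have h1 : HasDerivAt (fun τ' : ℝ => (τ', 1 / Y)) ((1 : ℝ), (0 : ℝ)) τ :=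
        (hasDerivAt_id τ).prodMk (hasDerivAt_const τ (1 / Y))
      have h2 := (hF.deriv _ (hdom τ (Ioo_subset_Icc_self hτ)) hτ.1).comp_hasDerivAt τ h1
      refine ((h2.sub ((hasDerivAt_id τ).const_mul c)).congr_deriv ?_).hasDerivWithinAt
      simp
    · rw [interior_Icc] at hτ
      have hτY : τ * Y < b := (lt_div_iff₀ hY0).1 hτ.2
      have h := hF.plateau τ hτ.1 (hτ.2.trans_le hle)
        (hull2_top_le hY (mul_nonneg hτ.1.le hY0.le) hτY hb1 hch)
      simp only [PW2, mul_zero, zero_mul, sub_zero, add_zero] at h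
      have e1 : β * (1 / Y) / (1 / Y) ^ (m + 3) = β * Y ^ (m + 2) := by
        rw [div_pow, one_pow]; field_simp; ring
      have e2 : (((m : ℝ) + 1) * (0 ^ 2 - η * (1 / Y) ^ 2) + lam * (1 / Y)) / (1 / Y) ^ (m + 2) =
          lam * Y ^ (m + 1) - ((m : ℝ) + 1) * η * Y ^ m := by
        rw [zero_pow two_ne_zero, zero_sub, div_pow, div_pow, one_pow, one_pow]; field_simp; ring
      rw [e1, e2] at h
      linarith
  have h := hanti ⟨le_rfl, hbY.le⟩ ⟨hbY.le, le_rfl⟩ hbY.le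
  simp only [hgdef, mul_zero, sub_zero] at h
  have e : c * (b / Y) = b * (lam * Y ^ m - ((m : ℝ) + 1) * η * (Y ^ m / Y)) -
      β * (b * Y ^ (m + 1)) := by
    rw [hc]; field_simp; ring
  linarith

/-- Along the tail. -/
lemma tail2 (hF : Field2 m V Y η β lam φ φT φU) {z : ℝ} (hz : 0 < z)
    (hzY : z ≤ Y) (hH : hullMom m Y z ≤ V) :
    0 ≤ φ (1 / z, 1 / z) + z ^ (m + 1) := by
  have hz' : 0 < 1 / z := one_div_pos.2 hz
  have hY0 : 0 < Y := hz.trans_le hzY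
  have hle : 1 / Y ≤ 1 / z := one_div_le_one_div_of_le hz hzY
  have hdom : ∀ τ, 1 / Y ≤ τ → (τ, τ) ∈ Dom2 Y := fun τ hτ => by
    have h0 : 0 ≤ τ := le_trans (by positivity) hτ
    refine ⟨h0, le_rfl, hτ, ?_⟩
    show τ ≤ √(1 + τ ^ 2)
    exact le_sqrt_of_sq_le (by linarith)
  set P := fun τ => φ (τ, τ) + (τ ^ (m + 1))⁻¹ with hP
  have hd : ∀ τ ∈ Ici (1 / z), HasDerivAt P
      (φT (τ, τ) + φU (τ, τ) - ((m : ℝ) + 1) / τ ^ (m + 2)) τ := fun τ hτ => by
    have h0 : 0 < τ := hz'.trans_le hτ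
    have h2 := (hF.deriv _ (hdom τ (hle.trans hτ)) h0).comp_hasDerivAt (f := fun x => (x, x)) τ
      ((hasDerivAt_id τ).prodMk (hasDerivAt_id τ))
    refine ((h2.add (((hasDerivAt_id τ).fun_pow (m + 1)).fun_inv
      (pow_ne_zero _ h0.ne'))).congr_deriv ?_)
    simp only [id, ne_eq, Nat.add_sub_cancel, ContinuousLinearMap.add_apply,
      ContinuousLinearMap.smul_apply, ContinuousLinearMap.coe_fst', ContinuousLinearMap.coe_snd',
      smul_eq_mul, Nat.cast_add, Nat.cast_one]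
    field_simp
    ring
  have hanti : AntitoneOn P (Ici (1 / z)) := by
    refine antitoneOn_of_hasDerivWithinAt_nonpos (convex_Ici _)
      (fun τ hτ => (hd τ hτ).continuousAt.continuousWithinAt)
      (f' := fun τ => φT (τ, τ) + φU (τ, τ) - ((m : ℝ) + 1) / τ ^ (m + 2)) (fun τ hτ => ?_)
      fun τ hτ => ?_
    · exact (hd τ (interior_subset hτ)).hasDerivWithinAt
    · rw [interior_Ici] at hτ
      have h0 : 0 < τ := hz'.trans hτ
      have hτz : 1 / τ ≤ z := by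
        rw [div_le_iff₀ h0]; exact ((div_lt_iff₀' hz).1 hτ).le
      have h := hF.tail τ (hle.trans_lt hτ) ((hullMom_mono m Y hτz).trans hH)
      simp only [PW2, mul_one, sub_self, mul_zero, zero_div, add_zero, one_mul, one_pow, sub_zero,
        zero_pow two_ne_zero] at h
      linarith
  have hlim : Tendsto P atTop (𝓝 (0 + 0)) := by
    refine Tendsto.add ?_ (tendsto_pow_atTop (Nat.succ_ne_zero m)).inv_tendsto_atTop
    refine hF.inf.comp (tendsto_inf.2 ⟨tendsto_comap_iff.2 tendsto_id, tendsto_principal.2 ?_⟩)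
    exact (eventually_ge_atTop (1 / Y)).mono fun τ hτ => hdom τ hτ
  rw [add_zero] at hlim
  have h := le_of_tendsto hlim ((eventually_ge_atTop (1 / z)).mono fun τ hτ =>
    hanti self_mem_Ici hτ hτ)
  simpa [hP] using h

/-- **The bridge**: a field and one scalar inequality give a calibration. -/
theorem isCalY_of_field2 {ρ w : ℝ} (hY : 1 ≤ Y) (hη : η = w * ρ ^ 2) (hlam : 0 ≤ lam)
    (hF : Field2 m V Y η β lam φ φT φU)
    (hsc : V - w * ((m : ℝ) + 1) * V + lam * projBound m V < β * V - φ (0, 1 / Y)) :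
    IsCalY m V ρ w Y lam (Phi2 φ β) (dPhi2 φT φU β) := by
  subst hη
  have hY0 : 0 < Y := lt_of_lt_of_le one_pos hY
  refine ⟨hlam, continuousOn_Phi2 hF,
    fun t y A ht hy hyY hs => phi2_hasFDerivAt hF ht hy hyY.le hs A, ?_, ?_, ?_⟩
  · intro t y d A h
    have hy := h.adm.pos
    have hg := h.adm.den_pos
    have hp := hF.pw _ _ _ (reg2_of_admY h)
    unfold PW2 at hp
    have key := mul_le_mul_of_nonneg_left hp (by positivity : 0 ≤ (y - t * d) / y ^ 2)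
    have ea : 1 / y - t / y * (-d / (y - t * d)) = 1 / (y - t * d) := by field_simp; ring
    rw [ea] at key
    show dPhi2 φT φU β (t, y, A) (1, d, y ^ (m + 1)) ≤ _
    simp only [dPhi2, cost]
    simp only [ContinuousLinearMap.add_apply, ContinuousLinearMap.smul_apply,
      ContinuousLinearMap.coe_fst', ContinuousLinearMap.coe_comp', ContinuousLinearMap.coe_snd',
      Function.comp_apply, smul_eq_mul]
    set X := φT (t / y, 1 / y)
    set Z := φU (t / y, 1 / y)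
    refine le_trans (le_of_eq ?_) (key.trans (le_of_eq ?_))
    · simp only [div_pow, one_pow]; field_simp; ring
    · simp only [div_pow, one_pow]; field_simp; ring
  · intro b hb hb1 hbV hch
    simp only [Phi2, if_neg (not_le.2 hY0), zero_div, mul_zero, add_zero]
    refine (flat2 hF hY hb hb1 hch).trans (le_of_eq ?_)
    simp only [cost, mul_zero, sub_zero, zero_pow two_ne_zero, zero_div, zero_sub]
    ring
  · intro z hz hzY _ hH _
    simp only [Phi2, if_neg (not_le.2 hY0), zero_div, mul_zero, add_zero]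
    rcases hz.eq_or_lt with h0 | h0
    · subst h0
      rw [if_pos le_rfl, zero_pow (Nat.succ_ne_zero m)]
      linarith
    · rw [if_neg (not_le.2 h0)]
      have := tail2 hF h0 hzY hH
      linarith

end

/-- `ProfileCal` from fields in the coordinates `(q, Y)`; here `η = ω q^(2/n)`, `V = q V₀` and
`w = ω q`. -/
theorem profileCal_of_field2 (ω : ℝ → ℝ) (hω : ∀ q, 1 < q → 0 ≤ ω q)
    (h : ∀ q Y : ℝ, 1 < q →
      q * Statement.ballVol (m + 2) ≤ (2 * rr (m + 1) ^ (m + 1) * semiMom m 1) ^ (m + 2) →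
      1 ≤ Y → hullMom m Y 0 ≤ q * semiMom m 1 → hullTan m Y ≤ q * semiMom m 1 →
      q ≤ rr (m + 1) ^ (m + 1) * Y ^ (m + 1) →
      ∃ (β lam : ℝ) (φ φT φU : ℝ × ℝ → ℝ), 0 ≤ lam ∧
        Field2 m (q * semiMom m 1) Y (ω q * q ^ (2 / ((m : ℝ) + 2))) β lam φ φT φU ∧
        φ (0, 1 / Y) + lam * (rr (m + 1) * semiMom m 1 * q ^ ((m : ℝ) / ((m : ℝ) + 1))) <
          (β + ω q * ((m : ℝ) + 1) - 1) * (q * semiMom m 1)) : ProfileCal m := by
  refine profileCal_of_coords ω hω fun q Y ρ Q ε hq hcap hY hH hH2 hQ hQr hε _ hwρ => ?_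
  have hY0 : 0 < Y := lt_of_lt_of_le one_pos hY
  rw [hQ, div_le_iff₀ (pow_pos hY0 _)] at hQr
  obtain ⟨β, lam, φ, φT, φU, hlam, hF, hsc⟩ := h q Y hq hcap hY hH hH2 hQr
  have h0 : 0 < semiMom m 1 := by rw [semiMom_one]; exact mom_zero_pos (m + 2)
  have hη : ω q * q ^ (2 / ((m : ℝ) + 2)) = ω q * ρ ^ 2 := by
    rw [hwρ, hε]; field_simp
  refine ⟨lam, _, _, isCalY_of_field2 hY hη hlam hF ?_⟩
  have hr : rr (m + 1) * semiMom m 1 = mom 0 (m + 3) := by
    rw [semiMom_one, rr, show m + 1 + 2 = m + 3 from rfl, show m + 1 + 3 = m + 4 from rfl,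
      div_mul_cancel₀ _ (mom_zero_pos (m + 2)).ne']
  rw [projBound_eq (by positivity), ← hr, mul_div_cancel_right₀ _ h0.ne']
  linarith

end Vale.Agent.P237.Cal
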