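import Vale.Agent.P237.Cal.Bridge

/-!
# P237: a calibration from a potential in `(T, σ, X)`

`X = (A - t y^k)/Y^k` is the moment in the variables of the bridge: `dX/dT = k σ T/W^(n+2)`, it is
`0` on the plateau and `V/Y^k - W^(-k)` on the tail. Any potential `Ψ (T, σ, X)` may be used, in
particular null fields quadratic in `σ - T` and `X`.
-/

open MeasureTheory Set Filter Topology Real

namespace Vale.Agent.P237.Cal

variable {m : ℕ}

/-- The pointwise inequality for a potential `Ψ (T, σ, X)`. -/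
def PWX (m : ℕ) (ε μ a : ℝ) (dΨ : ℝ × ℝ × ℝ → (ℝ × ℝ × ℝ →L[ℝ] ℝ)) (T σ h X : ℝ) : Prop :=
  dΨ (T, σ, X) (1, h, ((m : ℝ) + 1) * σ * T / √(1 + T ^ 2) ^ (m + 4)) ≤
    ((m : ℝ) + 1) * (T ^ 2 - ε * ((1 + T ^ 2) * h - σ * T) ^ 2) / h / √(1 + T ^ 2) ^ (m + 4) +
      μ * h / √(1 + T ^ 2) ^ (m + 1) - a * h / √(1 + T ^ 2) ^ (m + 2)

/-- The reparametrised moment. -/
noncomputable def Xof (m : ℕ) (Y t y A : ℝ) : ℝ := (A - t * y ^ (m + 1)) / Y ^ (m + 1)

/-- The filter of large heights `T`, with `0 ≤ σ ≤ T + 1` and `X` near `X₀`. -/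
def topX (X₀ : ℝ) : Filter (ℝ × ℝ × ℝ) :=
  (atTop ×ˢ ((⊤ : Filter ℝ) ×ˢ 𝓝 X₀)) ⊓ 𝓟 {p | 0 ≤ p.2.1 ∧ p.2.1 ≤ p.1 + 1}

lemma tendsto_topX {α : Type*} {l : Filter α} {X₀ : ℝ} {f g j : α → ℝ} (hf : Tendsto f l atTop)
    (hg : ∀ᶠ x in l, 0 ≤ g x ∧ g x ≤ f x + 1) (hj : Tendsto j l (𝓝 X₀)) :
    Tendsto (fun x => (f x, g x, j x)) l (topX X₀) :=
  tendsto_inf.2 ⟨hf.prodMk (tendsto_top.prodMk hj), tendsto_principal.2 hg⟩

/-- The potential. -/
noncomputable def phiX (m : ℕ) (Y μ a : ℝ) (Ψinf : ℝ → ℝ) (Ψ : ℝ × ℝ × ℝ → ℝ)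
    (p : ℝ × ℝ × ℝ) : ℝ :=
  a * (((m : ℝ) + 2) / ((m : ℝ) + 1) * p.2.2 - p.1 * p.2.1 ^ (m + 1) / ((m : ℝ) + 1)) +
    μ * Y / (m : ℝ) * (p.1 * p.2.1 ^ m) +
    Y ^ (m + 1) * (if p.2.1 ≤ 0 then Ψinf (Xof m Y p.1 p.2.1 p.2.2)
      else Ψ (Tof Y p.2.1, Y * p.1 / p.2.1, Xof m Y p.1 p.2.1 p.2.2))

/-- Integrating the pointwise inequality along the tail. -/
lemma tailX_bound {j : ℕ} {ε μ a Q : ℝ} {Ψinf : ℝ → ℝ} {Ψ : ℝ × ℝ × ℝ → ℝ}
    {dΨ : ℝ × ℝ × ℝ → (ℝ × ℝ × ℝ →L[ℝ] ℝ)}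
    (hc : ContinuousOn Ψ (Ici 0 ×ˢ univ))
    (hd : ∀ T σ X, 0 < T → HasFDerivAt Ψ (dΨ (T, σ, X)) (T, σ, X))
    (hlim : ∀ X₀, Tendsto Ψ (topX X₀) (𝓝 (Ψinf X₀)))
    {T₁ : ℝ} (hT₁ : 0 ≤ T₁)
    (htail : ∀ T > T₁, PWX (1 + j) ε μ a dΨ T (√(1 + T ^ 2)) (T / √(1 + T ^ 2))
      (Q - (√(1 + T ^ 2) ^ (1 + j + 1))⁻¹)) :
    Ψinf Q - Ψ (T₁, √(1 + T₁ ^ 2), Q - (√(1 + T₁ ^ 2) ^ (1 + j + 1))⁻¹) ≤
      (((1 + j : ℕ) : ℝ) + 1 - a) / (((1 + j : ℕ) : ℝ) + 1) / √(1 + T₁ ^ 2) ^ (1 + j + 1) +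
        μ / ((1 + j : ℕ) : ℝ) / √(1 + T₁ ^ 2) ^ (1 + j) := by
  set W : ℝ → ℝ := fun T => √(1 + T ^ 2) with hW
  have hWpos : ∀ T, 0 < W T := fun T => sqrt_pos.2 (by positivity)
  have hWc : Continuous W := by simp only [hW]; fun_prop
  have hW' : ∀ T, HasDerivAt W (T / W T) T := fun T => by
    refine ((((hasDerivAt_id T).fun_pow 2).const_add 1).sqrt (by simp only [id]; positivity)
      ).congr_deriv ?_
    simp only [hW, id, Nat.cast_ofNat, Nat.add_one_sub_one, pow_one, mul_one]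
    ring
  set Xt : ℝ → ℝ := fun T => Q - (W T ^ (1 + j + 1))⁻¹ with hXt
  have hXc : Continuous Xt := continuous_const.sub
    ((hWc.pow _).inv₀ fun T => pow_ne_zero _ (hWpos T).ne')
  set P : ℝ → ℝ := fun T => Ψ (T, W T, Xt T) +
    ((((1 + j : ℕ) : ℝ) + 1 - a) / (((1 + j : ℕ) : ℝ) + 1)) * (W T ^ (1 + j + 1))⁻¹ +
    μ / ((1 + j : ℕ) : ℝ) * (W T ^ (1 + j))⁻¹ with hP
  have hanti : AntitoneOn P (Ici T₁) := by
    have hd' : ∀ T > T₁, ∃ p, p ≤ 0 ∧ HasDerivAt P p T := fun T hT₀ => by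
      have hT : 0 < T := hT₁.trans_lt hT₀
      refine ⟨_, ?_, ((((hd T (W T) (Xt T) hT).comp_hasDerivAt_of_eq T
        ((hasDerivAt_id T).prodMk ((hW' T).prodMk
          ((((hW' T).fun_pow (1 + j + 1)).fun_inv (pow_ne_zero _ (hWpos T).ne')).const_sub Q)))
        (by simp [hXt]))).add
        ((((hW' T).fun_pow (1 + j + 1)).fun_inv (pow_ne_zero _ (hWpos T).ne')).const_mul _)).add
        ((((hW' T).fun_pow (1 + j)).fun_inv (pow_ne_zero _ (hWpos T).ne')).const_mul _)⟩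
      have h := htail T hT₀
      simp only [PWX] at h
      have hw := hWpos T
      have hsq : W T ^ 2 = 1 + T ^ 2 := sq_sqrt (by positivity)
      simp only [hW] at hsq hw
      rw [show (1 + T ^ 2) * (T / √(1 + T ^ 2)) - √(1 + T ^ 2) * T = 0 by
        field_simp; rw [hsq]; ring] at h
      have e1 : (((1 + j : ℕ) : ℝ) + 1) * (T ^ 2 - ε * 0 ^ 2) / (T / √(1 + T ^ 2)) /
          √(1 + T ^ 2) ^ (1 + j + 4) =
          (((1 + j : ℕ) : ℝ) + 1) * T / √(1 + T ^ 2) ^ (1 + j + 3) := by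
        field_simp; ring
      rw [e1] at h
      simp only [Nat.add_sub_cancel, show (1 + j - 1 : ℕ) = j by omega, hW, hXt]
      have e0 : -(-((((1 + j + 1 : ℕ) : ℝ)) * √(1 + T ^ 2) ^ (1 + j) * (T / √(1 + T ^ 2))) /
            (√(1 + T ^ 2) ^ (1 + j + 1)) ^ 2) =
          (((1 + j : ℕ) : ℝ) + 1) * √(1 + T ^ 2) * T / √(1 + T ^ 2) ^ (1 + j + 4) := by
        field_simp; push_cast; ring
      have e2 : (((1 + j : ℕ) : ℝ) + 1 - a) / (((1 + j : ℕ) : ℝ) + 1) *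
          (-((((1 + j + 1 : ℕ) : ℝ)) * √(1 + T ^ 2) ^ (1 + j) * (T / √(1 + T ^ 2))) /
            (√(1 + T ^ 2) ^ (1 + j + 1)) ^ 2) =
          -((((1 + j : ℕ) : ℝ) + 1) * T / √(1 + T ^ 2) ^ (1 + j + 3)) +
            a * (T / √(1 + T ^ 2)) / √(1 + T ^ 2) ^ (1 + j + 2) := by
        field_simp; push_cast; ring
      have e3 : μ / ((1 + j : ℕ) : ℝ) *
          (-(((1 + j : ℕ) : ℝ) * √(1 + T ^ 2) ^ j * (T / √(1 + T ^ 2))) /
            (√(1 + T ^ 2) ^ (1 + j)) ^ 2) =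
          -(μ * (T / √(1 + T ^ 2)) / √(1 + T ^ 2) ^ (1 + j + 1)) := by
        field_simp; ring
      rw [e0, e2, e3]
      linarith
    have hcP : ContinuousOn P (Ici T₁) := by
      have hm : MapsTo (fun T => (T, W T, Xt T)) (Ici T₁) (Ici (0 : ℝ) ×ˢ univ) := fun T hT =>
        ⟨hT₁.trans hT, trivial⟩
      refine ((hc.comp (continuous_id.prodMk (hWc.prodMk hXc)).continuousOn hm).add ?_).add ?_
      · exact continuousOn_const.mul ((hWc.pow _).continuousOn.inv₀ fun T _ =>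
          pow_ne_zero _ (hWpos T).ne')
      · exact continuousOn_const.mul ((hWc.pow _).continuousOn.inv₀ fun T _ =>
          pow_ne_zero _ (hWpos T).ne')
    refine antitoneOn_of_deriv_nonpos (convex_Ici T₁) hcP (fun T hT => ?_) fun T hT => ?_
    · rw [interior_Ici] at hT
      obtain ⟨p, -, hp⟩ := hd' T hT
      exact hp.differentiableAt.differentiableWithinAt
    · rw [interior_Ici] at hT
      obtain ⟨p, hp0, hp⟩ := hd' T hT
      rw [hp.deriv]; exact hp0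
  have hWtop : Tendsto W atTop atTop := by
    refine tendsto_atTop_mono (fun T => ?_) tendsto_id
    exact le_sqrt_of_sq_le (by simp)
  have hXl : Tendsto Xt atTop (𝓝 Q) := by
    simpa using (((tendsto_pow_atTop (Nat.succ_ne_zero (1 + j))).comp hWtop).inv_tendsto_atTop
      ).const_sub Q
  have hlimP : Tendsto P atTop (𝓝 (Ψinf Q + ((((1 + j : ℕ) : ℝ) + 1 - a) /
      (((1 + j : ℕ) : ℝ) + 1)) * 0 + μ / ((1 + j : ℕ) : ℝ) * 0)) := by
    refine (((hlim Q).comp (tendsto_topX tendsto_id ?_ hXl)).add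
      (tendsto_const_nhds.mul ?_)).add (tendsto_const_nhds.mul ?_)
    · filter_upwards [eventually_ge_atTop 0] with T hT
      exact ⟨(hWpos T).le, (sqrt_le_left (by simp only [id]; linarith)).2 (by simp only [id]; nlinarith)⟩
    · exact ((tendsto_pow_atTop (Nat.succ_ne_zero _)).comp hWtop).inv_tendsto_atTop
    · exact ((tendsto_pow_atTop (by omega : 1 + j ≠ 0)).comp hWtop).inv_tendsto_atTop
  simp only [add_zero, mul_zero] at hlimP
  have hfin : Ψinf Q ≤ P T₁ := le_of_tendsto hlimP ((eventually_ge_atTop T₁).mono fun T hT =>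
    hanti self_mem_Ici hT hT)
  simp only [hP, hW, hXt, ← div_eq_mul_inv] at hfin
  linarith

section

variable {V ρ w Y ε μ a : ℝ} {Ψinf : ℝ → ℝ} {Ψ : ℝ × ℝ × ℝ → ℝ}
  {dΨ : ℝ × ℝ × ℝ → (ℝ × ℝ × ℝ →L[ℝ] ℝ)}

lemma phiX_differentiableAt (hd : ∀ T σ X, 0 < T → HasFDerivAt Ψ (dΨ (T, σ, X)) (T, σ, X))
    {t y A : ℝ} (hy : 0 < y) (h : y < Y) :
    DifferentiableAt ℝ (phiX m Y μ a Ψinf Ψ) (t, y, A) := by
  have hp : DifferentiableAt ℝ (fun p : ℝ × ℝ × ℝ => p.2.1) (t, y, A) := by fun_prop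
  have hT : DifferentiableAt ℝ (fun p : ℝ × ℝ × ℝ => Tof Y p.2.1) (t, y, A) :=
    DifferentiableAt.fun_comp' (t, y, A) (differentiableAt_Tof hy h).differentiableAt hp
  have hq : DifferentiableAt ℝ (fun p : ℝ × ℝ × ℝ => Y * p.1 / p.2.1) (t, y, A) := by
    simp only [div_eq_mul_inv]
    exact (show DifferentiableAt ℝ (fun p : ℝ × ℝ × ℝ => Y * p.1) (t, y, A) by fun_prop).fun_mul
      (hp.fun_inv hy.ne')
  have hX : DifferentiableAt ℝ (fun p : ℝ × ℝ × ℝ => Xof m Y p.1 p.2.1 p.2.2) (t, y, A) := by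
    simp only [Xof, div_eq_mul_inv]; fun_prop
  have h1 : DifferentiableAt ℝ (fun p : ℝ × ℝ × ℝ =>
      Ψ (Tof Y p.2.1, Y * p.1 / p.2.1, Xof m Y p.1 p.2.1 p.2.2)) (t, y, A) :=
    DifferentiableAt.fun_comp' (g := Ψ) (t, y, A)
      (hd _ _ _ (Tof_pos hy h)).differentiableAt (hT.prodMk (hq.prodMk hX))
  have key : DifferentiableAt ℝ (fun p : ℝ × ℝ × ℝ =>
      a * (((m : ℝ) + 2) / ((m : ℝ) + 1) * p.2.2 - p.1 * p.2.1 ^ (m + 1) / ((m : ℝ) + 1)) +
      μ * Y / (m : ℝ) * (p.1 * p.2.1 ^ m) + Y ^ (m + 1) *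
        Ψ (Tof Y p.2.1, Y * p.1 / p.2.1, Xof m Y p.1 p.2.1 p.2.2)) (t, y, A) :=
    DifferentiableAt.fun_add (by fun_prop) (h1.const_mul _)
  refine key.congr_of_eventuallyEq ?_
  filter_upwards [hp.continuousAt.eventually_const_lt hy] with p hp'
  simp only [phiX]
  rw [if_neg (not_le.2 hp')]

lemma phiX_hasDerivAt (hd : ∀ T σ X, 0 < T → HasFDerivAt Ψ (dΨ (T, σ, X)) (T, σ, X))
    {t y d A : ℝ} (hy : 0 < y) (h : y < Y) :
    HasDerivAt (fun s => phiX m Y μ a Ψinf Ψ (t + s * 1, y + s * d, A + s * y ^ (m + 1)))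
      (a * (((m : ℝ) + 2) / ((m : ℝ) + 1) * y ^ (m + 1) -
          (y ^ (m + 1) + t * (((m : ℝ) + 1) * y ^ m * d)) / ((m : ℝ) + 1)) +
        μ * Y / (m : ℝ) * (y ^ m + t * ((m : ℝ) * y ^ (m - 1) * d)) +
        Y ^ (m + 1) * dΨ (Tof Y y, Y * t / y, Xof m Y t y A)
          (-(Y ^ 2) / (y ^ 3 * Tof Y y) * d, (Y * y - Y * t * d) / y ^ 2,
            -(((m : ℝ) + 1) * t * y ^ m * d) / Y ^ (m + 1))) 0 := by
  have ht : HasDerivAt (fun s : ℝ => t + s * 1) 1 0 := by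
    simpa using ((hasDerivAt_id (0 : ℝ)).mul_const 1).const_add t
  have hy' : HasDerivAt (fun s : ℝ => y + s * d) d 0 := by
    simpa using ((hasDerivAt_id (0 : ℝ)).mul_const d).const_add y
  have hA : HasDerivAt (fun s : ℝ => A + s * y ^ (m + 1)) (y ^ (m + 1)) 0 := by
    simpa using ((hasDerivAt_id (0 : ℝ)).mul_const (y ^ (m + 1))).const_add A
  have hT : HasDerivAt (fun s => Tof Y (y + s * d)) (-(Y ^ 2) / (y ^ 3 * Tof Y y) * d) 0 :=
    (differentiableAt_Tof hy h).comp_of_eq (0 : ℝ) hy' (by simp)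
  have e1 := ((hA.const_mul (((m : ℝ) + 2) / ((m : ℝ) + 1))).sub
    ((ht.mul (hy'.fun_pow (m + 1))).div_const ((m : ℝ) + 1))).const_mul a
  have e2 := (ht.mul (hy'.fun_pow m)).const_mul (μ * Y / (m : ℝ))
  have e3 := ((hd _ (Y * t / y) (Xof m Y t y A) (Tof_pos hy h)).comp_hasDerivAt_of_eq (0 : ℝ)
    (hT.prodMk (((ht.const_mul Y).div hy' (by simpa using hy.ne')).prodMk
      ((hA.sub (ht.mul (hy'.fun_pow (m + 1)))).div_const (Y ^ (m + 1))))) (by simp [Xof])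
    ).const_mul (Y ^ (m + 1))
  have hpos : ∀ᶠ s in 𝓝 (0 : ℝ), 0 < y + s * d :=
    hy'.continuousAt.eventually_const_lt (by simpa using hy)
  refine HasDerivAt.congr_of_eventuallyEq ?_ (hpos.mono fun s hs => ?_)
    (f := fun s => a * (((m : ℝ) + 2) / ((m : ℝ) + 1) * (A + s * y ^ (m + 1)) -
      (t + s * 1) * (y + s * d) ^ (m + 1) / ((m : ℝ) + 1)) +
      μ * Y / (m : ℝ) * ((t + s * 1) * (y + s * d) ^ m) +
      Y ^ (m + 1) * Ψ (Tof Y (y + s * d), Y * (t + s * 1) / (y + s * d),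
        ((A + s * y ^ (m + 1)) - (t + s * 1) * (y + s * d) ^ (m + 1)) / Y ^ (m + 1)))
  · refine ((e1.add e2).add e3).congr_deriv ?_
    simp only [zero_mul, add_zero, mul_one, one_mul, Nat.add_sub_cancel, Nat.cast_add, Nat.cast_one]
    rw [show (y ^ (m + 1) - (y ^ (m + 1) + t * (((m : ℝ) + 1) * y ^ m * d))) / Y ^ (m + 1) =
      -(((m : ℝ) + 1) * t * y ^ m * d) / Y ^ (m + 1) by ring]
  · show phiX m Y μ a Ψinf Ψ _ = _
    simp only [phiX, Xof]
    rw [if_neg (not_le.2 hs)]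

lemma continuousOn_phiX (hY : 0 < Y) (hc : ContinuousOn Ψ (Ici 0 ×ˢ univ))
    (hi : Continuous Ψinf) (hlim : ∀ X₀, Tendsto Ψ (topX X₀) (𝓝 (Ψinf X₀))) :
    ContinuousOn (phiX m Y μ a Ψinf Ψ) (Region Y) := by
  set ψ : ℝ × ℝ × ℝ → ℝ := fun p => if p.2.1 ≤ 0 then Ψinf (Xof m Y p.1 p.2.1 p.2.2)
    else Ψ (Tof Y p.2.1, Y * p.1 / p.2.1, Xof m Y p.1 p.2.1 p.2.2) with hψ
  suffices hψc : ContinuousOn ψ (Region Y) by
    have h1 : Continuous (fun p : ℝ × ℝ × ℝ =>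
        a * (((m : ℝ) + 2) / ((m : ℝ) + 1) * p.2.2 - p.1 * p.2.1 ^ (m + 1) / ((m : ℝ) + 1)) +
          μ * Y / (m : ℝ) * (p.1 * p.2.1 ^ m)) := by fun_prop
    exact h1.continuousOn.add (continuousOn_const.mul hψc)
  have hXc : Continuous fun p : ℝ × ℝ × ℝ => Xof m Y p.1 p.2.1 p.2.2 := by
    simp only [Xof, div_eq_mul_inv]; fun_prop
  rintro ⟨t, y, A⟩ hp
  obtain ⟨ht, hy, -⟩ := hp
  rcases hy.1.eq_or_lt with h0 | h0
  · subst h0
    have hv : ψ (t, 0, A) = Ψinf (Xof m Y t 0 A) := by simp [hψ]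
    set Sp : Set (ℝ × ℝ × ℝ) := Region Y ∩ {p | 0 < p.2.1} with hSp
    set S0 : Set (ℝ × ℝ × ℝ) := {p | p.2.1 = 0} with hS0
    refine ContinuousWithinAt.mono (t := Sp ∪ S0) ?_ fun p hp => ?_
    · refine ContinuousWithinAt.union ?_ ?_
      · have hT : Tendsto (fun p : ℝ × ℝ × ℝ => Tof Y p.2.1) (𝓝[Sp] (t, 0, A)) atTop := by
          have h1 : Tendsto (fun z : ℝ => (Y / z) ^ 2 - 1) (𝓝[>] 0) atTop := by
            have h2 : Tendsto (fun z : ℝ => Y * z⁻¹) (𝓝[>] 0) atTop :=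
              tendsto_inv_nhdsGT_zero.const_mul_atTop hY
            refine tendsto_atTop_add_const_right _ (-1) ?_
            simp only [div_eq_mul_inv]
            exact (tendsto_pow_atTop two_ne_zero).comp h2
          refine (tendsto_sqrt_atTop.comp h1).comp ?_
          refine tendsto_nhdsWithin_iff.2 ⟨?_, ?_⟩
          · exact (show Continuous fun p : ℝ × ℝ × ℝ => p.2.1 by fun_prop).tendsto' _ _ rfl
              |>.mono_left nhdsWithin_le_nhds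
          · exact eventually_mem_nhdsWithin.mono fun p hp => hp.2
        have hX : Tendsto (fun p : ℝ × ℝ × ℝ => Xof m Y p.1 p.2.1 p.2.2) (𝓝[Sp] (t, 0, A))
            (𝓝 (Xof m Y t 0 A)) := (hXc.tendsto _).mono_left nhdsWithin_le_nhds
        have hl := (hlim _).comp (tendsto_topX hT (g := fun p : ℝ × ℝ × ℝ => Y * p.1 / p.2.1)
          (eventually_mem_nhdsWithin.mono fun p hp => ?_) hX)
        · rw [ContinuousWithinAt, hv]
          refine hl.congr' (eventually_mem_nhdsWithin.mono fun p hp => ?_)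
          simp only [hψ, Function.comp_apply]
          rw [if_neg (not_le.2 hp.2)]
        · obtain ⟨⟨ht', hy', -⟩, hpos⟩ := hp
          have hpos' : 0 < p.2.1 := hpos
          have h3 : Y * p.1 / p.2.1 ≤ √(1 + Tof Y p.2.1 ^ 2) := by
            rw [Tof_sq hpos' hy'.2]
            gcongr
            nlinarith [ht'.2]
          refine ⟨div_nonneg (mul_nonneg hY.le ht'.1) hpos'.le, h3.trans ?_⟩
          have hT0 : 0 ≤ Tof Y p.2.1 := sqrt_nonneg _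
          rw [sqrt_le_left (by positivity)]
          nlinarith
      · refine ((hi.comp hXc).continuousWithinAt).congr (fun p hp => ?_) hv
        have hp' : p.2.1 = 0 := hp
        simp only [hψ, Function.comp_apply]
        rw [if_pos hp'.le]
    · rcases hp.2.1.1.eq_or_lt with h1 | h1
      · exact Or.inr h1.symm
      · exact Or.inl ⟨hp, h1⟩
  · set Sp : Set (ℝ × ℝ × ℝ) := Region Y ∩ {p | 0 < p.2.1} with hSp
    have hin : (t, y, A) ∈ Sp := ⟨⟨ht, hy, trivial⟩, h0⟩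
    have hnb : Sp ∈ 𝓝[Region Y] (t, y, A) := inter_mem_nhdsWithin _
      ((isOpen_lt continuous_const (by fun_prop)).mem_nhds h0)
    suffices hψ' : ContinuousWithinAt ψ Sp (t, y, A) from hψ'.mono_of_mem_nhdsWithin hnb
    have hTc : ContinuousOn (fun p : ℝ × ℝ × ℝ => Tof Y p.2.1) Sp := fun p hp =>
      (show ContinuousAt (fun p : ℝ × ℝ × ℝ => √((Y / p.2.1) ^ 2 - 1)) p by
        have h1 : p.2.1 ≠ 0 := ne_of_gt hp.2
        fun_prop (disch := assumption)).continuousWithinAt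
    have hq : ContinuousOn (fun p : ℝ × ℝ × ℝ => Y * p.1 / p.2.1) Sp :=
      (show Continuous fun p : ℝ × ℝ × ℝ => Y * p.1 by fun_prop).continuousOn.div
        (show Continuous fun p : ℝ × ℝ × ℝ => p.2.1 by fun_prop).continuousOn
        fun p hp => ne_of_gt hp.2
    have hall : ContinuousOn (fun p : ℝ × ℝ × ℝ =>
        Ψ (Tof Y p.2.1, Y * p.1 / p.2.1, Xof m Y p.1 p.2.1 p.2.2)) Sp :=
      hc.comp (hTc.prodMk (hq.prodMk hXc.continuousOn)) fun p _ => ⟨sqrt_nonneg _, trivial⟩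
    refine (hall _ hin).congr (fun p hp => ?_) ?_
    · simp only [hψ]; rw [if_neg (not_le.2 hp.2)]
    · simp only [hψ]; rw [if_neg (not_le.2 h0)]

/-- **The bridge** for a potential in `(T, σ, X)`. -/
theorem isCalY_of_pwX (hm : 1 ≤ m) (hY : 1 ≤ Y) (hε : w * ρ ^ 2 = ε * Y ^ 2) (hμ : 0 ≤ μ)
    (hc : ContinuousOn Ψ (Ici 0 ×ˢ univ)) (hi : Continuous Ψinf)
    (hd : ∀ T σ X, 0 < T → HasFDerivAt Ψ (dΨ (T, σ, X)) (T, σ, X))
    (hlim : ∀ X₀, Tendsto Ψ (topX X₀) (𝓝 (Ψinf X₀)))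
    (hpw : ∀ t y d A, AdmY m V Y t y d A → d < 0 → PWX m ε μ a dΨ (Tof Y y) (Y * t / y)
      ((y - t * d) * y * Tof Y y / (Y * -d)) (Xof m Y t y A))
    (htail : ∀ T > 0, (Y / √(1 + T ^ 2)) ^ (m + 1) ≤ V → hullMom m Y (Y / √(1 + T ^ 2)) ≤ V →
      V ≤ Y ^ (m + 1) →
      PWX m ε μ a dΨ T (√(1 + T ^ 2)) (T / √(1 + T ^ 2))
      (V / Y ^ (m + 1) - (√(1 + T ^ 2) ^ (m + 1))⁻¹))
    (hflat : ∀ b, 0 < b → b ≤ 1 → b * Y ^ (m + 1) ≤ V →
      Ψ (0, b, 0) - Ψ (0, 0, 0) ≤ b * (μ - a - ((m : ℝ) + 1) * ε))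
    (hsc : V - w * ((m : ℝ) + 1) * V + μ * Y * (((m : ℝ) + 1) / (m : ℝ)) * projBound m V <
      a * (((m : ℝ) + 2) / ((m : ℝ) + 1)) * V +
        Y ^ (m + 1) * (Ψinf (V / Y ^ (m + 1)) - Ψ (0, 0, 0))) :
    IsCalY m V ρ w Y (μ * Y * (((m : ℝ) + 1) / (m : ℝ))) (phiX m Y μ a Ψinf Ψ)
      (fderiv ℝ (phiX m Y μ a Ψinf Ψ)) := by
  obtain ⟨j, rfl⟩ := Nat.exists_eq_add_of_le hm
  have hY0 : 0 < Y := lt_of_lt_of_le one_pos hY
  refine ⟨by positivity, (continuousOn_phiX hY0 hc hi hlim).mono inter_subset_left,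
    fun t y A _ hy hyY _ => (phiX_differentiableAt hd hy hyY).hasFDerivAt, ?_, ?_, ?_⟩
  · intro t y d A h
    have hy := h.adm.pos
    have hT := Tof_pos hy h.lt_top
    have hd' : d < 0 := by nlinarith [h.lt_top, h.top_le, h.adm.mem.1]
    have h1 : HasDerivAt (fun s : ℝ => (t + s * 1, y + s * d, A + s * y ^ (1 + j + 1)))
        ((1 : ℝ), d, y ^ (1 + j + 1)) 0 := by
      refine HasDerivAt.prodMk ?_ (HasDerivAt.prodMk ?_ ?_)
      · simpa using ((hasDerivAt_id (0 : ℝ)).mul_const 1).const_add t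
      · simpa using ((hasDerivAt_id (0 : ℝ)).mul_const d).const_add y
      · simpa using ((hasDerivAt_id (0 : ℝ)).mul_const (y ^ (1 + j + 1))).const_add A
    have h2 := (phiX_differentiableAt (A := A) (m := 1 + j) (μ := μ) (a := a) (Ψinf := Ψinf) hd
      hy h.lt_top (t := t)).hasFDerivAt.comp_hasDerivAt_of_eq (0 : ℝ) h1 (by simp)
    rw [h2.unique (phiX_hasDerivAt (A := A) hd hy h.lt_top)]
    have hp := hpw t y d A h hd'
    unfold PWX at hp
    rw [Tof_sq hy h.lt_top.le] at hp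
    have hg := h.adm.den_pos
    set T := Tof Y y with hTdef
    have hTe : T ^ 2 = (Y / y) ^ 2 - 1 := by
      rw [hTdef, Tof, sq_sqrt]
      nlinarith [(one_lt_div hy).2 h.lt_top]
    set c := Y ^ 2 * -d / (y ^ 3 * T) with hcdef
    set K := Y ^ (1 + j + 1) * c with hK
    have hK0 : 0 ≤ K := by
      rw [hK, hcdef]; have : 0 < -d := neg_pos.2 hd'; positivity
    have key := mul_le_mul_of_nonneg_left hp hK0
    have hdne : d ≠ 0 := hd'.ne
    have ew : (1 + T ^ 2) * ((y - t * d) * y * T / (Y * -d)) - Y * t / y * T =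
        T * Y / -d := by
      rw [hTe]
      field_simp
      ring
    rw [ew] at key
    simp only [cost]
    have ev : ((-(Y ^ 2) / (y ^ 3 * T) * d, (Y * y - Y * t * d) / y ^ 2,
          -((((1 + j : ℕ) : ℝ) + 1) * t * y ^ (1 + j) * d) / Y ^ (1 + j + 1)) : ℝ × ℝ × ℝ) =
        c • ((1 : ℝ), (y - t * d) * y * T / (Y * -d),
          (((1 + j : ℕ) : ℝ) + 1) * (Y * t / y) * T / (Y / y) ^ (1 + j + 4)) := by
      simp only [Prod.smul_mk, smul_eq_mul]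
      rw [hcdef]
      refine Prod.ext ?_ (Prod.ext ?_ ?_)
      · simp; ring
      · simp; field_simp
      · simp only [div_pow]; field_simp; ring
    rw [ev, map_smul, smul_eq_mul, ← mul_assoc (Y ^ (1 + j + 1)) c, ← hK]
    have r1 : K * ((((1 + j : ℕ) : ℝ) + 1) * (T ^ 2 - ε * (T * Y / -d) ^ 2) /
          ((y - t * d) * y * T / (Y * -d)) / (Y / y) ^ (1 + j + 4)) =
        (((1 + j : ℕ) : ℝ) + 1) * (y ^ (1 + j) * (d ^ 2 / (y - t * d))) -
          (((1 + j : ℕ) : ℝ) + 1) * (ε * Y ^ 2) * (y ^ (1 + j) / (y - t * d)) := by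
      rw [hK, hcdef, div_pow Y y]; field_simp; ring
    have r2 : K * (μ * ((y - t * d) * y * T / (Y * -d)) / (Y / y) ^ (1 + j + 1)) =
        μ * Y * (y - t * d) * y ^ j := by
      rw [hK, hcdef, div_pow Y y]; field_simp; ring
    have r3 : K * (a * ((y - t * d) * y * T / (Y * -d)) / (Y / y) ^ (1 + j + 2)) =
        a * (y - t * d) * y ^ (1 + j) := by
      rw [hK, hcdef, div_pow Y y]; field_simp; ring
    replace key := key.trans_eq (show _ =
        K * ((((1 + j : ℕ) : ℝ) + 1) * (T ^ 2 - ε * (T * Y / -d) ^ 2) /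
          ((y - t * d) * y * T / (Y * -d)) / (Y / y) ^ (1 + j + 4)) +
        K * (μ * ((y - t * d) * y * T / (Y * -d)) / (Y / y) ^ (1 + j + 1)) -
        K * (a * ((y - t * d) * y * T / (Y * -d)) / (Y / y) ^ (1 + j + 2)) by ring)
    rw [r1, r2, r3, ← hε] at key
    have e1 : μ * Y * (y - t * d) * y ^ j =
        μ * Y * ((((1 + j : ℕ) : ℝ) + 1) / ((1 + j : ℕ) : ℝ)) * y ^ (1 + j) -
          μ * Y / ((1 + j : ℕ) : ℝ) * (y ^ (1 + j) + t * (((1 + j : ℕ) : ℝ) * y ^ j * d)) := by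
      field_simp; push_cast; ring
    have e2 : a * (y - t * d) * y ^ (1 + j) =
        a * ((((1 + j : ℕ) : ℝ) + 2) / (((1 + j : ℕ) : ℝ) + 1) * y ^ (1 + j + 1) -
          (y ^ (1 + j + 1) + t * ((((1 + j : ℕ) : ℝ) + 1) * y ^ (1 + j) * d)) /
            (((1 + j : ℕ) : ℝ) + 1)) := by
      field_simp; ring
    rw [show (1 + j - 1 : ℕ) = j by omega]
    linarith
  · intro b hb hb1 hbV _
    have hX : ∀ t A : ℝ, A = t * Y ^ (1 + j + 1) → Xof (1 + j) Y t Y A = 0 := fun t A hA => by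
      simp [Xof, hA]
    have hval : ∀ t : ℝ, phiX (1 + j) Y μ a Ψinf Ψ (t, Y, t * Y ^ (1 + j + 1)) =
        a * ((((1 + j : ℕ) : ℝ) + 2) / (((1 + j : ℕ) : ℝ) + 1) * (t * Y ^ (1 + j + 1)) -
          t * Y ^ (1 + j + 1) / (((1 + j : ℕ) : ℝ) + 1)) +
        μ * Y / ((1 + j : ℕ) : ℝ) * (t * Y ^ (1 + j)) + Y ^ (1 + j + 1) * Ψ (0, t, 0) := by
      intro t
      simp only [phiX]
      rw [if_neg (not_le.2 hY0), Tof_top hY0, mul_div_cancel_left₀ _ hY0.ne', hX t _ rfl]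
    have h := mul_le_mul_of_nonneg_left (hflat b hb hb1 hbV) (pow_nonneg hY0.le (1 + j + 1))
    have e1 : a * ((((1 + j : ℕ) : ℝ) + 2) / (((1 + j : ℕ) : ℝ) + 1) * (b * Y ^ (1 + j + 1)) -
        b * Y ^ (1 + j + 1) / (((1 + j : ℕ) : ℝ) + 1)) = a * (b * Y ^ (1 + j + 1)) := by
      field_simp; ring
    have e2 : μ * Y / ((1 + j : ℕ) : ℝ) * (b * Y ^ (1 + j)) =
        μ * Y * ((((1 + j : ℕ) : ℝ) + 1) / ((1 + j : ℕ) : ℝ)) * (b * Y ^ (1 + j)) -
          μ * (b * Y ^ (1 + j + 1)) := by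
      field_simp; ring
    have e3 : cost (1 + j) w ρ (μ * Y * ((((1 + j : ℕ) : ℝ) + 1) / ((1 + j : ℕ) : ℝ))) 0 Y 0 =
        μ * Y * ((((1 + j : ℕ) : ℝ) + 1) / ((1 + j : ℕ) : ℝ)) * Y ^ (1 + j) -
          (((1 + j : ℕ) : ℝ) + 1) * ε * Y ^ (1 + j + 1) := by
      have : (((1 + j : ℕ) : ℝ) + 1) * (w * ρ ^ 2) * (Y ^ (1 + j) / Y) =
          (((1 + j : ℕ) : ℝ) + 1) * ε * Y ^ (1 + j + 1) := by
        rw [hε, pow_succ]; field_simp; ring
      simp only [cost]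
      rw [← this]
      simp only [mul_zero, sub_zero, zero_pow two_ne_zero, zero_div, zero_sub]
      ring
    rw [show ((0 : ℝ), Y, (0 : ℝ)) = ((0 : ℝ), Y, 0 * Y ^ (1 + j + 1)) by simp, hval, hval, e1, e2, e3]
    simp only [mul_zero, zero_mul, zero_div, sub_zero, add_zero]
    linarith
  · intro z hz hzY hzV hzH hVY
    have hX0 : Xof (1 + j) Y 0 Y 0 = 0 := by simp [Xof]
    rcases hz.eq_or_lt with h0 | h0
    · subst h0
      simp only [phiX]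
      rw [if_pos le_rfl, if_neg (not_le.2 hY0), Tof_top hY0, hX0]
      simp only [Xof, zero_pow (Nat.succ_ne_zero _), mul_zero, zero_div, sub_zero, add_zero,
        zero_mul, zero_add, zero_pow (show 1 + j ≠ 0 by omega)]
      linarith
    · have htail' : ∀ T > Tof Y z, PWX (1 + j) ε μ a dΨ T (√(1 + T ^ 2)) (T / √(1 + T ^ 2))
          (V / Y ^ (1 + j + 1) - (√(1 + T ^ 2) ^ (1 + j + 1))⁻¹) := by
        intro T hT
        have hT0 : 0 < T := (sqrt_nonneg _).trans_lt hT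
        have hW : 0 < √(1 + T ^ 2) := sqrt_pos.2 (by positivity)
        have hle : Y / √(1 + T ^ 2) ≤ z := by
          rw [div_le_iff₀ hW]
          have h1 : Y / z ≤ √(1 + T ^ 2) := by
            rw [← Tof_sq h0 hzY]
            exact sqrt_le_sqrt (add_le_add le_rfl (pow_le_pow_left₀ (sqrt_nonneg _) hT.le 2))
          rw [div_le_iff₀ h0] at h1
          linarith
        refine htail T hT0 ((pow_le_pow_left₀ (by positivity) hle _).trans hzV)
          (le_trans (intervalIntegral.integral_mono_on zero_le_one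
            (Continuous.intervalIntegrable (by fun_prop) _ _)
            (Continuous.intervalIntegrable (by fun_prop) _ _) fun x hx => ?_) hzH) hVY
        refine pow_le_pow_left₀ (le_max_of_le_left (sqrt_nonneg _)) (max_le_max le_rfl ?_) _
        nlinarith [hx.1, hle]
      have hmono := tailX_bound (j := j) (Q := V / Y ^ (1 + j + 1)) hc hd hlim
        (sqrt_nonneg _) htail' (T₁ := Tof Y z)
      rw [Tof_sq h0 hzY] at hmono
      have hXz : Xof (1 + j) Y 1 z V = V / Y ^ (1 + j + 1) - ((Y / z) ^ (1 + j + 1))⁻¹ := by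
        rw [Xof, div_pow, inv_div, one_mul, sub_div]
      simp only [phiX]
      rw [if_neg (not_le.2 h0), if_neg (not_le.2 hY0), Tof_top hY0, hX0, hXz]
      simp only [mul_one, one_mul, mul_zero, zero_div, sub_zero, add_zero, zero_mul, zero_add]
      have key := mul_le_mul_of_nonneg_left hmono (pow_nonneg hY0.le (1 + j + 1))
      have e : Y ^ (1 + j + 1) * ((((1 + j : ℕ) : ℝ) + 1 - a) / (((1 + j : ℕ) : ℝ) + 1) /
            (Y / z) ^ (1 + j + 1) + μ / ((1 + j : ℕ) : ℝ) / (Y / z) ^ (1 + j)) =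
          z ^ (1 + j + 1) - a * (z ^ (1 + j + 1) / (((1 + j : ℕ) : ℝ) + 1)) +
            μ * Y / ((1 + j : ℕ) : ℝ) * z ^ (1 + j) := by
        rw [div_pow, div_pow]; field_simp; ring
      rw [e] at key
      generalize ((1 + j : ℕ) : ℝ) = K at key hsc ⊢
      generalize Ψ (Tof Y z, Y / z, V / Y ^ (1 + j + 1) - ((Y / z) ^ (1 + j + 1))⁻¹) = Gz at key ⊢
      generalize Ψinf (V / Y ^ (1 + j + 1)) = Gi at key hsc ⊢
      generalize Ψ (0, 0, 0) = G0 at key hsc ⊢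
      linear_combination key + hsc

end

end Vale.Agent.P237.Cal
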