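import Vale.Agent.P237.Cal.Region

/-!
# P237: the bump bound from the left chord

The chord from `(0, Y)` to `(t, Y/W)` stays above `1 - (a/2) x`, `a = 2(1 - 1/W)/t`, so on `[a, t]`
it exceeds the semicircle by at least `x²/2 - (a/2) x`.
-/

open MeasureTheory Set Real intervalIntegral

namespace Vale.Agent.P237.Cal

variable {m : ℕ} {V Y t y d A : ℝ}

lemma pow_sub_pow_ge {u v : ℝ} (hv : 0 ≤ v) (huv : v ≤ u) (m : ℕ) :
    ((m : ℝ) + 1) * v ^ m * (u - v) ≤ u ^ (m + 1) - v ^ (m + 1) := by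
  induction m with
  | zero => simp
  | succ j ih =>
    have h1 : v ^ (j + 1) ≤ u ^ (j + 1) := pow_le_pow_left₀ hv huv _
    have h2 := mul_le_mul_of_nonneg_left ih hv
    have h3 := mul_le_mul_of_nonneg_right h1 (sub_nonneg.2 huv)
    push_cast
    linear_combination h2 + h3

/-- **BUMP**: with `t = σ/W` and `a = 2(1 - 1/W)/t ≤ t`,
`k (1-t²)^((k-1)/2) (t-a)² (2t+a)/12 ≤ V - V₀`. -/
theorem bump (hA : AdmY m V Y t y d A) {τ a : ℝ}
    (hτ : τ = (Y * t / y) / √(1 + Tof Y y ^ 2))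
    (ha : a = 2 * (1 - 1 / √(1 + Tof Y y ^ 2)) / τ) (hat : a ≤ τ) :
    ((m : ℝ) + 1) * √(1 - τ ^ 2) ^ m * ((τ - a) ^ 2 * (2 * τ + a) / 12) ≤
      V - semiMom m 1 := by
  have hy := hA.adm.pos
  have hY : 0 < Y := lt_of_lt_of_le one_pos hA.one_le
  have h := excess_le hA
  rw [← hτ] at h
  rw [Tof_sq hy hA.lt_top.le] at hτ ha h
  have hτt : τ = t := by rw [hτ]; field_simp
  have ht := hA.adm.mem
  rw [← hτt] at ht
  have hW : Y / (Y / y) = y := by field_simp
  rw [hW] at h
  have hβ : 1 - 1 / (Y / y) = a / 2 * τ := by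
    rw [ha]; field_simp [ht.1.ne']
  have ha0 : 0 ≤ a := by
    rw [ha]
    refine div_nonneg (mul_nonneg zero_le_two ?_) ht.1.le
    rw [one_div_div, sub_nonneg, div_le_one hY]
    exact hA.lt_top.le
  set P := fun x : ℝ => max (√(1 - x ^ 2)) (Y + (y - Y) * x / τ) ^ (m + 1) - √(1 - x ^ 2) ^ (m + 1)
    with hP
  have hPc : Continuous P := by simp only [hP]; fun_prop
  have hP0 : ∀ x, 0 ≤ P x := fun x =>
    sub_nonneg.2 (pow_le_pow_left₀ (sqrt_nonneg _) (le_max_left _ _) _)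
  set C := ((m : ℝ) + 1) * √(1 - τ ^ 2) ^ m with hC
  have hlow : ∀ x ∈ Icc a τ, C * (x ^ 2 / 2 - a / 2 * x) ≤ P x := by
    intro x hx
    have hx0 : 0 ≤ x := ha0.trans hx.1
    have h1 := pow_sub_pow_ge (sqrt_nonneg _) (le_max_left (√(1 - x ^ 2))
      (Y + (y - Y) * x / τ)) m
    refine le_trans ?_ h1
    have hc : √(1 - τ ^ 2) ^ m ≤ √(1 - x ^ 2) ^ m :=
      pow_le_pow_left₀ (sqrt_nonneg _) (sqrt_le_sqrt (by nlinarith [hx.2])) _
    have h2 : C * (max (√(1 - x ^ 2)) (Y + (y - Y) * x / τ) - √(1 - x ^ 2)) ≤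
        ((m : ℝ) + 1) * √(1 - x ^ 2) ^ m *
          (max (√(1 - x ^ 2)) (Y + (y - Y) * x / τ) - √(1 - x ^ 2)) :=
      mul_le_mul_of_nonneg_right (mul_le_mul_of_nonneg_left hc (by positivity))
        (sub_nonneg.2 (le_max_left _ _))
    refine le_trans (mul_le_mul_of_nonneg_left ?_ (by positivity)) h2
    have hL : 1 - a / 2 * x ≤ max (√(1 - x ^ 2)) (Y + (y - Y) * x / τ) := by
      refine le_max_of_le_right ?_
      have e : Y + (y - Y) * x / τ = Y * (1 - a / 2 * x) := by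
        have e2 : a / 2 = (1 - 1 / (Y / y)) / τ := by rw [hβ]; field_simp [ht.1.ne']
        rw [e2]; field_simp; ring
      rw [e]
      refine le_mul_of_one_le_left ?_ hA.one_le
      have e3 : a / 2 * τ ≤ 1 := by
        rw [← hβ]
        have : 0 < 1 / (Y / y) := by positivity
        linarith
      nlinarith [hx.2]
    have hc1 : √(1 - x ^ 2) ≤ 1 - x ^ 2 / 2 := by
      have h1x : x ^ 2 ≤ 1 := by nlinarith [hx.2, ht.2]
      rw [sqrt_le_left (by linarith)]
      nlinarith [sq_nonneg (x ^ 2)]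
    linarith
  have hint : ∫ x in a..τ, C * (x ^ 2 / 2 - a / 2 * x) =
      C * ((τ - a) ^ 2 * (2 * τ + a) / 12) := by
    rw [intervalIntegral.integral_const_mul, intervalIntegral.integral_sub
      (Continuous.intervalIntegrable (by fun_prop) _ _)
      (Continuous.intervalIntegrable (by fun_prop) _ _), intervalIntegral.integral_div,
      intervalIntegral.integral_const_mul, integral_pow, integral_id]
    ring
  rw [← hint]
  refine le_trans (le_trans ?_ (intervalIntegral.integral_mono_interval (a := a) (b := τ)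
    (c := 0) (d := τ) ha0 hat le_rfl (Filter.Eventually.of_forall hP0) (hPc.intervalIntegrable _ _))) h
  exact intervalIntegral.integral_mono_on hat (Continuous.intervalIntegrable (by fun_prop) _ _)
    (hPc.intervalIntegrable _ _) hlow

end Vale.Agent.P237.Cal
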