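import Vale.Agent.P237.Cal.Assemble
import Vale.Agent.P237.Cal.Values

/-!
# P237: `ProfileCal` in the coordinates `q = V/V₀`, `Y`, `Q = q/Y^k`

With `w = ω q` the coefficient is `ε = ω q^(2/n)/Y²`; the ranges are `1 < q`,
`q κ_n ≤ (2 r^k V₀)^n`, `1 ≤ Y`, `hullMom Y 0 ≤ q V₀`, `hullTan Y ≤ q V₀` and `Q ≤ r^k`.
-/

open MeasureTheory Set Real intervalIntegral

namespace Vale.Agent.P237.Cal

open Full

variable {m : ℕ}

/-- The profile constant in the moments. -/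
lemma profileConst_eq (m : ℕ) :
    Full.profileConst m = 2 * rr (m + 1) ^ (m + 1) * semiMom m 1 := by
  have h0 : 0 < semiMom m 1 := by rw [semiMom_one]; exact mom_zero_pos (m + 2)
  rw [Full.profileConst, half_semi, half_semi, semi_eq_mom m, semi_eq_mom (m + 1),
    show m + 1 + 3 = m + 4 from rfl, rr, show m + 1 + 2 = m + 3 from rfl,
    show m + 1 + 3 = m + 4 from rfl, ← semiMom_one]
  rw [mul_pow, mul_pow, div_pow]
  field_simp
  ring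

/-- `ρ² = q^(2/n)`. -/
lemma rho_sq {V ρ : ℝ} (hρ : 0 < ρ)
    (h : Statement.ballVol (m + 2) * ρ ^ (m + 2) = 2 * Statement.ballVol (m + 1) * V) :
    ρ ^ 2 = (V / semiMom m 1) ^ (2 / ((m : ℝ) + 2)) := by
  rw [← rho_pow h, ← rpow_natCast ρ (m + 2), ← rpow_mul hρ.le]
  push_cast
  rw [mul_div_cancel₀ _ (by positivity : (m : ℝ) + 2 ≠ 0), rpow_two]

/-- `ProfileCal` from calibrations in the coordinates `(q, Y)`. -/
theorem profileCal_of_coords (ω : ℝ → ℝ) (hω : ∀ q, 1 < q → 0 ≤ ω q)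
    (h : ∀ q Y ρ Q ε : ℝ, 1 < q →
      q * Statement.ballVol (m + 2) ≤ (2 * rr (m + 1) ^ (m + 1) * semiMom m 1) ^ (m + 2) →
      1 ≤ Y → hullMom m Y 0 ≤ q * semiMom m 1 → hullTan m Y ≤ q * semiMom m 1 → Q = q / Y ^ (m + 1) →
      Q ≤ rr (m + 1) ^ (m + 1) → ε = ω q * q ^ (2 / ((m : ℝ) + 2)) / Y ^ 2 →
      0 < ρ → ω q * ρ ^ 2 = ε * Y ^ 2 →
      ∃ (lam : ℝ) (Φ : ℝ × ℝ × ℝ → ℝ) (dΦ : ℝ × ℝ × ℝ → (ℝ × ℝ × ℝ →L[ℝ] ℝ)),
        IsCalY m (q * semiMom m 1) ρ (ω q) Y lam Φ dΦ) : ProfileCal m := by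
  refine profileCal_of_rules fun V ρ hV hρ hρv hcap => ?_
  have h0 : 0 < semiMom m 1 := by rw [semiMom_one]; exact mom_zero_pos (m + 2)
  set q := V / semiMom m 1 with hq
  have hq1 : 1 < q := by rw [hq, one_lt_div h0]; exact hV
  have hVq : q * semiMom m 1 = V := by rw [hq]; field_simp
  refine ⟨ω q, hω q hq1, fun Y hY hH hH2 hQ => ?_⟩
  have hY0 : 0 < Y := lt_of_lt_of_le one_pos hY
  rw [← hVq]
  refine h q Y ρ (q / Y ^ (m + 1)) (ω q * q ^ (2 / ((m : ℝ) + 2)) / Y ^ 2) hq1 ?_ hY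
    (hVq.symm ▸ hH) (hVq.symm ▸ hH2) rfl ?_ rfl hρ ?_
  · rw [← profileConst_eq]
    refine le_trans (le_of_eq ?_) hcap
    have e := integral_semi_pow (Nat.succ_pos m)
    simp only [Nat.succ_eq_add_one, half_semi, show m + 1 + 1 = m + 2 from rfl] at e
    rw [← e, ← hVq]
    simp only [semiMom]
    ring
  · rw [div_le_iff₀ (pow_pos hY0 _)]
    exact le_of_mul_le_mul_right (hVq.symm ▸ hQ) h0
  · rw [rho_sq hρ hρv, ← hq]
    field_simp

end Vale.Agent.P237.Cal
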