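import Vale.Agent.P237.Cal.YRange
import Vale.Agent.P237.Cal.Coords

/-!
# P237: the range of the moment allowed by the cap

`q κ_n ≤ (2 r^k V₀)^n` gives `q V₀ ≤ capB m`, and `capB m ^ 4 ≤ (11/50) n` for `n ≥ 5`.
-/

open MeasureTheory Set Real intervalIntegral
open Vale.Agent.P237.Uniform (S S_pos S_succ_succ S_mul S_sq_le hh)

namespace Vale.Agent.P237.Cal

variable {m : ℕ}

/-- The bound on `q V₀` given by the cap. -/
noncomputable def capB (m : ℕ) : ℝ :=
  (S (m + 1) ^ (m + 1) / S (m + 2) ^ m) ^ (m + 2) * (S (m + 2) / 2) / Statement.ballVol (m + 2)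

lemma capB_pos (m : ℕ) : 0 < capB m := by
  have h1 := S_pos (m + 1)
  have h2 := S_pos (m + 2)
  have h3 : 0 < Statement.ballVol (m + 2) := ballVol_pos' (by omega)
  unfold capB
  positivity

lemma semiMom_eq_S (m : ℕ) : semiMom m 1 = S (m + 2) / 2 := by
  rw [semiMom_one, show m + 4 = m + 2 + 2 from rfl, mom_zero_wallis]

lemma two_rr_pow (m : ℕ) :
    2 * rr (m + 1) ^ (m + 1) * semiMom m 1 = S (m + 1) ^ (m + 1) / S (m + 2) ^ m := by
  have h := S_pos (m + 2)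
  rw [rr, show m + 1 + 3 = m + 2 + 2 from rfl, mom_zero_wallis, mom_zero_wallis, semiMom_eq_S,
    div_div_div_cancel_right₀ two_ne_zero, div_pow]
  field_simp
  ring

/-- The cap bounds `q V₀`. -/
theorem qV_le_capB {q : ℝ}
    (h : q * Statement.ballVol (m + 2) ≤ (2 * rr (m + 1) ^ (m + 1) * semiMom m 1) ^ (m + 2)) :
    q * semiMom m 1 ≤ capB m := by
  have hk : 0 < Statement.ballVol (m + 2) := ballVol_pos' (by omega)
  have hs := S_pos (m + 2)
  rw [two_rr_pow] at h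
  rw [semiMom_eq_S, capB, le_div_iff₀ hk]
  have := mul_le_mul_of_nonneg_right h (by positivity : 0 ≤ S (m + 2) / 2)
  linarith

lemma ballVol_succ_S (m : ℕ) :
    Statement.ballVol (m + 3) = Statement.ballVol (m + 2) * S (m + 3) := by
  have h := Full.integral_semi_pow (k := m + 2) (by omega)
  rw [show m + 2 + 1 = m + 3 from rfl, half_semi, semi_eq_mom,
    show m + 2 + 3 = m + 3 + 2 from rfl, mom_zero_wallis] at h
  linarith

/-- One step in logarithms. -/
lemma log_capB_succ (m : ℕ) :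
    log (capB (m + 1)) = log (capB m) +
      ((m : ℝ) + 1) * ((m : ℝ) + 3) * log (S (m + 2) ^ 2 * ((m : ℝ) + 3) / (2 * π)) +
      ((m : ℝ) + 1) * ((m : ℝ) + 2) * log (S (m + 2) ^ 2 * ((m : ℝ) + 2) / (2 * π)) := by
  have hs := S_pos (m + 2)
  have hp := pi_pos
  have hk : 0 < Statement.ballVol (m + 2) := ballVol_pos' (by omega)
  have e1 : S (m + 1) = 2 * π / (((m : ℝ) + 2) * S (m + 2)) := by
    have h := S_mul (m + 1)
    rw [eq_div_iff (by positivity)] at h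
    push_cast at h
    rw [eq_div_iff (by positivity)]
    linear_combination h
  have e3 : S (m + 3) = 2 * π / (((m : ℝ) + 3) * S (m + 2)) := by
    have h := S_mul (m + 2)
    rw [eq_div_iff (by positivity)] at h
    push_cast at h
    rw [eq_div_iff (by positivity)]
    linear_combination h
  have h1 := S_pos (m + 1)
  have h3 := S_pos (m + 3)
  have hn : (0 : ℝ) < (m : ℝ) + 2 := by positivity
  have hn1 : (0 : ℝ) < (m : ℝ) + 3 := by positivity
  have l1 : log (S (m + 1)) = log (2 * π) - log ((m : ℝ) + 2) - log (S (m + 2)) := by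
    rw [e1, log_div (by positivity) (by positivity), log_mul hn.ne' hs.ne']; ring
  have l3 : log (S (m + 3)) = log (2 * π) - log ((m : ℝ) + 3) - log (S (m + 2)) := by
    rw [e3, log_div (by positivity) (by positivity), log_mul hn1.ne' hs.ne']; ring
  have lu : ∀ c : ℝ, 0 < c → log (S (m + 2) ^ 2 * c / (2 * π)) =
      2 * log (S (m + 2)) + log c - log (2 * π) := fun c hc => by
    rw [log_div (by positivity) (by positivity), log_mul (by positivity) hc.ne', log_pow]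
    push_cast; ring
  have lb : ∀ j : ℕ, log (capB j) =
      ((j : ℝ) + 2) * (((j : ℝ) + 1) * log (S (j + 1)) - (j : ℝ) * log (S (j + 2))) +
        (log (S (j + 2)) - log 2) - log (Statement.ballVol (j + 2)) := fun j => by
    have := S_pos (j + 1)
    have := S_pos (j + 2)
    have hj : 0 < Statement.ballVol (j + 2) := ballVol_pos' (by omega)
    rw [capB, log_div (by positivity) hj.ne', log_mul (by positivity) (by positivity), log_pow,
      log_div (by positivity) (by positivity), log_pow, log_pow,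
      log_div (by positivity) two_ne_zero]
    push_cast; ring
  rw [lb, lb, show m + 1 + 2 = m + 3 from rfl, show m + 1 + 1 = m + 2 from rfl, ballVol_succ_S,
    log_mul hk.ne' h3.ne', l1, l3, lu _ hn1, lu _ hn]
  push_cast
  ring

/-- `log (1 + x) ≤ x - x²/2 + x³/3 + 2x⁴` and `log (1 - x) ≤ -x - x²/2`, `0 ≤ x ≤ 1/4`. -/
lemma log_bounds {x : ℝ} (h0 : 0 ≤ x) (h1 : x ≤ 1 / 4) :
    log (1 + x) ≤ x - x ^ 2 / 2 + x ^ 3 / 3 + 2 * x ^ 4 ∧ log (1 - x) ≤ -x - x ^ 2 / 2 := by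
  constructor
  · have h := abs_log_sub_add_sum_range_le (x := -x) (by rw [abs_neg, abs_of_nonneg h0]; linarith) 3
    rw [abs_neg, abs_of_nonneg h0, sub_neg_eq_add] at h
    have h2 : x ^ (3 + 1) / (1 - x) ≤ 2 * x ^ 4 := by
      rw [div_le_iff₀ (by linarith), show (3 : ℕ) + 1 = 4 from rfl]
      nlinarith [pow_nonneg h0 4, mul_le_mul_of_nonneg_left h1 (pow_nonneg h0 4)]
    have h3 := (abs_le.1 h).2
    simp only [Finset.sum_range_succ, Finset.sum_range_zero] at h3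
    norm_num at h3 h2 ⊢
    linarith
  · have h := abs_log_sub_add_sum_range_le (x := x) (by rw [abs_of_nonneg h0]; linarith) 3
    rw [abs_of_nonneg h0] at h
    have h2 : x ^ (3 + 1) / (1 - x) ≤ x ^ 3 / 3 + 0 := by
      rw [div_le_iff₀ (by linarith)]
      nlinarith [pow_nonneg h0 3, mul_le_mul_of_nonneg_left h1 (pow_nonneg h0 3)]
    have h3 := (abs_le.1 h).2
    simp only [Finset.sum_range_succ, Finset.sum_range_zero] at h3
    norm_num at h3 h2 ⊢
    linarith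

/-- The rational inequality behind the monotonicity. -/
lemma cap_poly {n : ℝ} (hn : 5 ≤ n) :
    4 * (2 * n + 1) * ((n ^ 2 - 1) * (6 * (4 * n + 3) * ((2 * n + 1) * (4 * n + 4) + 1) ^ 3 -
        3 * (4 * n + 3) ^ 2 * ((2 * n + 1) * (4 * n + 4) + 1) ^ 2 +
        2 * (4 * n + 3) ^ 3 * ((2 * n + 1) * (4 * n + 4) + 1) + 12 * (4 * n + 3) ^ 4) +
      (n ^ 2 - n) * (-6 * (4 * n + 5) * ((2 * n + 1) * (4 * n + 4) + 1) ^ 3 -
        3 * (4 * n + 5) ^ 2 * ((2 * n + 1) * (4 * n + 4) + 1) ^ 2)) ≤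
      12 * ((2 * n + 1) * (4 * n + 4) + 1) ^ 4 := by
  obtain ⟨t, ht, rfl⟩ : ∃ t, 0 ≤ t ∧ n = 5 + t := ⟨n - 5, by linarith, by ring⟩
  nlinarith [pow_nonneg ht 2, pow_nonneg ht 3, pow_nonneg ht 4, pow_nonneg ht 5, pow_nonneg ht 6,
    pow_nonneg ht 7, pow_nonneg ht 8]

/-- One step of the bound. -/
lemma capB_step (hm : 3 ≤ m) :
    4 * log (capB (m + 1)) ≤ 4 * log (capB m) + (log ((m : ℝ) + 3) - log ((m : ℝ) + 2)) := by
  have hp := pi_pos
  have hs := S_pos (m + 2)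
  set n : ℝ := (m : ℝ) + 2 with hn
  have hm' : (3 : ℝ) ≤ (m : ℝ) := by exact_mod_cast hm
  have hn5 : 5 ≤ n := by linarith
  set P : ℝ := (2 * n + 1) * (4 * n + 4) + 1 with hP
  have hP0 : 0 < P := by rw [hP]; positivity
  have h := S_sq_le (m + 2)
  simp only [hh] at h
  push_cast at h
  rw [← hn] at h
  have hu : S (m + 2) ^ 2 / (2 * π) ≤ 2 * (4 * n + 4) / P := by
    rw [div_le_div_iff₀ (by positivity) hP0]
    have : 2 * n + 1 + 1 / (4 * n + 4) = P / (4 * n + 4) := by rw [hP]; field_simp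
    rw [this, ← mul_div_assoc, div_le_iff₀ (by positivity)] at h
    linarith
  obtain ⟨x, hx⟩ : ∃ x, x = (4 * n + 3) / P := ⟨_, rfl⟩
  obtain ⟨y, hy⟩ : ∃ y, y = (4 * n + 5) / P := ⟨_, rfl⟩
  have hx0 : 0 ≤ x := by rw [hx]; positivity
  have hy0 : 0 ≤ y := by rw [hy]; positivity
  have hy1 : y ≤ 1 / 4 := by rw [hy, div_le_iff₀ hP0, hP]; nlinarith
  have hxy : x ≤ y := by rw [hx, hy]; gcongr; linarith
  have a1 : log (S (m + 2) ^ 2 * ((m : ℝ) + 3) / (2 * π)) ≤ log (1 + x) := by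
    refine log_le_log (by positivity) ?_
    rw [mul_div_right_comm, show (m : ℝ) + 3 = n + 1 by rw [hn]; ring]
    refine (mul_le_mul_of_nonneg_right hu (by linarith)).trans (le_of_eq ?_)
    rw [hx, hP]; field_simp; ring
  have a2 : log (S (m + 2) ^ 2 * ((m : ℝ) + 2) / (2 * π)) ≤ log (1 - y) := by
    refine log_le_log (by positivity) ?_
    rw [mul_div_right_comm, ← hn]
    refine (mul_le_mul_of_nonneg_right hu (by linarith)).trans (le_of_eq ?_)
    rw [hy, hP]; field_simp; ring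
  have b1 := (log_bounds hx0 (hxy.trans hy1)).1
  have b2 := (log_bounds hy0 hy1).2
  have c1 : 0 ≤ n ^ 2 - 1 := by nlinarith
  have c2 : 0 ≤ n ^ 2 - n := by nlinarith
  have d : 4 * ((n ^ 2 - 1) * (x - x ^ 2 / 2 + x ^ 3 / 3 + 2 * x ^ 4) +
      (n ^ 2 - n) * (-y - y ^ 2 / 2)) ≤ 2 / (2 * n + 1) := by
    rw [le_div_iff₀ (by linarith)]
    refine le_of_mul_le_mul_right ?_ (by positivity : 0 < 6 * P ^ 4)
    refine le_trans (le_of_eq ?_) ((cap_poly hn5).trans (le_of_eq ?_))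
    · rw [hx, hy, ← hP]; field_simp; ring
    · rw [hP]; ring
  have l : 2 / (2 * n + 1) ≤ log ((m : ℝ) + 3) - log n := by
    rw [show (m : ℝ) + 3 = n + 1 by rw [hn]; ring, ← log_div (by linarith) (by linarith),
      show (n + 1) / n = 1 + 1 / n by field_simp]
    refine le_trans (le_of_eq ?_) (le_log_one_add_of_nonneg (by positivity : (0 : ℝ) ≤ 1 / n))
    field_simp; ring
  rw [log_capB_succ, show ((m : ℝ) + 1) * ((m : ℝ) + 3) = n ^ 2 - 1 by rw [hn]; ring,
    show ((m : ℝ) + 1) * ((m : ℝ) + 2) = n ^ 2 - n by rw [hn]; ring]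
  have := mul_le_mul_of_nonneg_left (a1.trans b1) c1
  have := mul_le_mul_of_nonneg_left (a2.trans b2) c2
  linarith

lemma S_four : S 4 = 3 * π / 8 := by
  rw [S_succ_succ, S_succ_succ]
  simp [S]
  ring

lemma S_five : S 5 = 16 / 15 := by
  rw [S_succ_succ, S_succ_succ]
  simp [S]
  norm_num

lemma capB_three : capB 3 ^ 4 ≤ 11 / 50 * 5 := by
  have h5 : Statement.ballVol 5 = 8 * π ^ 2 / 15 := by
    rw [ballVol_rec 2, ballVol_rec 0, ballVol_one]; push_cast; ring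
  have hp := pi_pos
  rw [capB, show 3 + 1 = 4 from rfl, show 3 + 2 = 5 from rfl, S_four, S_five, h5]
  rw [show ((3 * π / 8) ^ 4 / (16 / 15) ^ 3) ^ 5 * (16 / 15 / 2) / (8 * π ^ 2 / 15) =
    (3 / 8) ^ 20 / (16 / 15) ^ 15 * π ^ 18 by field_simp; ring]
  rw [mul_pow, ← pow_mul π]
  calc ((3 / 8 : ℝ) ^ 20 / (16 / 15) ^ 15) ^ 4 * π ^ (18 * 4)
      ≤ ((3 / 8 : ℝ) ^ 20 / (16 / 15) ^ 15) ^ 4 * (3.1416 : ℝ) ^ (18 * 4) := by
        gcongr
        linarith [pi_lt_d4]
    _ ≤ _ := by norm_num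

/-- **The cap bound**: `capB m ^ 4 ≤ (11/50) n`. -/
theorem capB_le (hm : 3 ≤ m) : capB m ^ 4 ≤ 11 / 50 * ((m : ℝ) + 2) := by
  have key : 4 * log (capB m) ≤ log (11 / 50) + log ((m : ℝ) + 2) := by
    induction m, hm using Nat.le_induction with
    | base =>
      have h := log_le_log (pow_pos (capB_pos 3) 4) capB_three
      rw [log_pow, log_mul (by norm_num) (by norm_num)] at h
      norm_num at h ⊢
      linarith
    | succ j hj ih =>
      have h := capB_step hj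
      push_cast
      rw [show (j : ℝ) + 1 + 2 = (j : ℝ) + 3 by ring]
      linarith
  rw [← log_le_log_iff (pow_pos (capB_pos m) 4) (by positivity), log_pow,
    log_mul (by norm_num) (by positivity)]
  push_cast
  linarith

/-- **The range of the central value**: `Y^k ≤ 2n` on the admissible range, `n ≥ 8`. -/
theorem Y_pow_le {q Y : ℝ} (hm : 6 ≤ m) (hY : 1 ≤ Y) (hq : 0 ≤ q)
    (hcap : q * Statement.ballVol (m + 2) ≤ (2 * rr (m + 1) ^ (m + 1) * semiMom m 1) ^ (m + 2))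
    (hH : hullTan m Y ≤ q * semiMom m 1) : Y ^ (m + 1) ≤ 2 * ((m : ℝ) + 2) := by
  set n : ℝ := (m : ℝ) + 2 with hn
  have hm' : (6 : ℝ) ≤ (m : ℝ) := by exact_mod_cast hm
  have hn5 : 8 ≤ n := by linarith
  by_contra hlt
  rw [not_le] at hlt
  set Z : ℝ := (2 * n) ^ ((1 : ℝ) / ((m : ℝ) + 1)) with hZ
  have hZ0 : 0 < Z := by rw [hZ]; positivity
  have hZp : Z ^ (m + 1) = 2 * n := by
    rw [hZ, one_div, show (m : ℝ) + 1 = ((m + 1 : ℕ) : ℝ) by push_cast; ring,
      rpow_inv_natCast_pow (by linarith) (Nat.succ_ne_zero m)]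
  have hZ1 : 1 < Z := by
    by_contra h
    have := pow_le_one₀ (n := m + 1) hZ0.le (not_lt.1 h)
    linarith
  have hZY : Z ≤ Y := (pow_lt_pow_iff_left₀ hZ0.le (by linarith) (Nat.succ_ne_zero m)).1
    (hZp ▸ hlt) |>.le
  have h0 : 0 ≤ semiMom m 1 := integral_nonneg zero_le_one fun x _ => by positivity
  have hb := qV_le_capB hcap
  have hc := capB_le (show 3 ≤ m by omega)
  have h1 := (hullTan_mono (m := m) hZ1 hZY).trans hH
  rw [hullTan_eq hZ1, hullTan_line hZ1] at h1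
  have h2 : 0 ≤ ∫ x in (tanPt Z)..1, √(1 - x ^ 2) ^ (m + 1) :=
    integral_nonneg (tanPt_mem hZ1.le).2 fun x _ => by positivity
  have hs : 0 < √(Z ^ 2 - 1) := sqrt_pos.2 (by nlinarith)
  have hW : (2 * n * Z - 1) / (n * √(Z ^ 2 - 1)) ≤ capB m := by
    have hl : (Z ^ (m + 2) - 1 / Z ^ (m + 2)) / (((m : ℝ) + 2) * √(Z ^ 2 - 1)) ≤
        q * semiMom m 1 := by linarith
    refine le_trans ?_ (hl.trans hb)
    rw [show (m : ℝ) + 2 = n from rfl, pow_succ Z (m + 1), hZp]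
    refine div_le_div_of_nonneg_right ?_ (by positivity)
    have : 1 / (2 * n * Z) ≤ 1 := by
      rw [div_le_one (by positivity)]; nlinarith
    linarith
  have h4 := pow_le_pow_left₀ (div_nonneg (by nlinarith) (by positivity)) hW 4
  have e4 : √(Z ^ 2 - 1) ^ 4 = (Z ^ 2 - 1) ^ 2 := by
    rw [show (4 : ℕ) = 2 * 2 from rfl, pow_mul, sq_sqrt (by nlinarith)]
  have hZ3 : 0 < Z ^ 2 - 1 := by nlinarith
  rw [div_pow, mul_pow, e4, div_le_iff₀ (by positivity)] at h4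
  have h5 : (2 * n * Z - 1) ^ 4 ≤ 11 / 50 * n * (n ^ 4 * (Z ^ 2 - 1) ^ 2) :=
    h4.trans (mul_le_mul_of_nonneg_right hc (by positivity))
  -- `2n ≥ (1 + j a)` for `a = Z - 1`, and a second order term
  have hB : 1 + ((m : ℝ) + 1) * (Z - 1) + ((m : ℝ) + 1) * (m : ℝ) / 2 * (Z - 1) ^ 2 ≤ 2 * n := by
    rw [← hZp]
    have ha : 0 ≤ Z - 1 := by linarith
    have key : ∀ j : ℕ, 1 + ((j : ℝ) + 1) * (Z - 1) + ((j : ℝ) + 1) * (j : ℝ) / 2 * (Z - 1) ^ 2 ≤
        Z ^ (j + 1) := by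
      intro j
      induction j with
      | zero => simp
      | succ i ih =>
        rw [pow_succ Z (i + 1)]
        have h' := mul_le_mul_of_nonneg_right ih hZ0.le
        push_cast at *
        nlinarith [mul_nonneg (mul_nonneg (by positivity : (0 : ℝ) ≤ ((i : ℝ) + 1) * (i : ℝ) / 2)
          (sq_nonneg (Z - 1))) ha]
    exact key m
  rw [show (m : ℝ) + 1 = n - 1 by rw [hn]; ring, show (m : ℝ) = n - 2 by rw [hn]; ring] at hB
  have ha : 0 ≤ Z - 1 := by linarith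
  have hk : (Z - 1) ^ 2 * (n - 2) ≤ 43 / 10 := by
    have h : (n - 1) * ((Z - 1) ^ 2 * (n - 2)) ≤ (n - 1) * (43 / 10) := by
      linarith [mul_nonneg (by linarith : (0 : ℝ) ≤ n - 1) ha]
    exact le_of_mul_le_mul_left h (by linarith)
  have hZ2 : Z - 1 ≤ 17 / 20 := by
    have h : (Z - 1) ^ 2 * 6 ≤ 43 / 10 :=
      (mul_le_mul_of_nonneg_left (by linarith : (6 : ℝ) ≤ n - 2) (sq_nonneg _)).trans hk
    exact (abs_le_of_sq_le_sq' (by linarith) (by norm_num)).2
  have h6 : (2 * n - 1) ^ 4 ≤ (2 * n * Z - 1) ^ 4 := by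
    refine pow_le_pow_left₀ (by linarith) ?_ 4
    linarith [mul_le_mul_of_nonneg_left hZ1.le (by linarith : (0 : ℝ) ≤ 2 * n)]
  have h7 : (Z ^ 2 - 1) ^ 2 * (n - 2) ≤ 43 / 10 * (57 / 20) ^ 2 := by
    rw [show Z ^ 2 - 1 = (Z - 1) * (Z + 1) by ring, mul_pow, mul_right_comm]
    exact mul_le_mul hk (pow_le_pow_left₀ (by linarith) (by linarith) 2) (sq_nonneg _) (by norm_num)
  have h9 : (2 * n - 1) ^ 4 * (n - 2) ≤ 11 / 50 * n ^ 5 * (43 / 10 * (57 / 20) ^ 2) := by
    refine (mul_le_mul_of_nonneg_right (h6.trans h5) (by linarith)).trans ?_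
    calc 11 / 50 * n * (n ^ 4 * (Z ^ 2 - 1) ^ 2) * (n - 2)
        = 11 / 50 * n ^ 5 * ((Z ^ 2 - 1) ^ 2 * (n - 2)) := by ring
      _ ≤ _ := mul_le_mul_of_nonneg_left h7 (by positivity)
  obtain ⟨t, ht, e⟩ : ∃ t, 0 ≤ t ∧ n = 8 + t := ⟨n - 8, by linarith, by ring⟩
  rw [e] at h9
  nlinarith only [h9, ht, pow_nonneg ht 2, pow_nonneg ht 3, pow_nonneg ht 4, pow_nonneg ht 5]

end Vale.Agent.P237.Cal
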