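import Vale.Agent.P237.Cal.Tri

/-!
# P237: a cell from its end points and a bound on the second derivative
-/

open Set Real

namespace Vale.Agent.P237.Cal

/-- If `f'' ≤ M` on `[p, q]` then `f ≥ chord - M (q-p)²/8` there. -/
theorem cell_ge {f f' f'' : ℝ → ℝ} {p q M x : ℝ} (hM : 0 ≤ M)
    (h1 : ∀ t ∈ Icc p q, HasDerivAt f (f' t) t) (h2 : ∀ t ∈ Ioo p q, HasDerivAt f' (f'' t) t)
    (hb : ∀ t ∈ Ioo p q, f'' t ≤ M) {a b : ℝ} (ha : 0 ≤ a) (hb' : 0 ≤ b) (hab : a + b = 1)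
    (hx : x = a * p + b * q) (hpq : p ≤ q) :
    a * f p + b * f q - M * (q - p) ^ 2 / 8 ≤ f x := by
  set g := fun t => f t - M / 2 * t ^ 2 with hg
  have d1 : ∀ t ∈ Icc p q, HasDerivAt g (f' t - M * t) t := fun t ht =>
    ((h1 t ht).fun_sub (((hasDerivAt_pow 2 t).const_mul (M / 2)))).congr_deriv (by push_cast; ring)
  have hc : ConcaveOn ℝ (Icc p q) g := by
    refine concaveOn_of_hasDerivWithinAt2_nonpos (f' := fun t => f' t - M * t)
      (f'' := fun t => f'' t - M) (convex_Icc p q) (fun t ht => (d1 t ht).continuousAt.continuousWithinAt)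
      ?_ ?_ ?_
    · intro t ht
      rw [interior_Icc] at ht
      exact (d1 t (Ioo_subset_Icc_self ht)).hasDerivWithinAt
    · intro t ht
      rw [interior_Icc] at ht
      exact (((h2 t ht).fun_sub ((hasDerivAt_id' t).const_mul M)).congr_deriv (by ring)).hasDerivWithinAt
    · intro t ht
      rw [interior_Icc] at ht
      have := hb t ht
      linarith
  have key := hc.2 (left_mem_Icc.2 hpq) (right_mem_Icc.2 hpq) ha hb' hab
  simp only [smul_eq_mul, ← hx, hg] at key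
  have hab' : a * b ≤ 1 / 4 := by
    nlinarith [sq_nonneg (a - b)]
  have e : a * (M / 2 * p ^ 2) + b * (M / 2 * q ^ 2) - M / 2 * x ^ 2 =
      M / 2 * (a * b) * (q - p) ^ 2 := by
    obtain rfl : b = 1 - a := by linarith
    rw [hx]; ring
  have h4 := mul_le_mul_of_nonneg_right hab' (mul_nonneg (by linarith : 0 ≤ M / 2) (sq_nonneg (q - p)))
  linarith

/-- The cone on a cell from the shifted end points. -/
theorem Tri.cell {A B C : ℝ → ℝ} {p q x a b δA δB δC : ℝ} (ha : 0 ≤ a) (hb : 0 ≤ b)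
    (hab : a + b = 1)
    (hA : a * A p + b * A q - δA ≤ A x) (hB : a * B p + b * B q - δB ≤ B x)
    (hC : a * C p + b * C q - δC ≤ C x)
    (hp : Tri (A p - δA) (B p - δB) (C p - δC)) (hq : Tri (A q - δA) (B q - δB) (C q - δC)) :
    Tri (A x) (B x) (C x) := by
  have e : ∀ u v d : ℝ, a * (u - d) + b * (v - d) = a * u + b * v - d := fun u v d => by
    obtain rfl : b = 1 - a := by linarith
    ring
  refine ((hp.smul ha).add (hq.smul hb)).mono ?_ ?_ ?_ <;> rw [e] <;> assumption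

/-- The point `x` of `[p, q]` as a convex combination. -/
lemma exists_convex {p q x : ℝ} (hpq : p < q) (hx : x ∈ Icc p q) :
    ∃ a b : ℝ, 0 ≤ a ∧ 0 ≤ b ∧ a + b = 1 ∧ x = a * p + b * q := by
  have h : 0 < q - p := sub_pos.2 hpq
  refine ⟨(q - x) / (q - p), (x - p) / (q - p), div_nonneg (by linarith [hx.2]) h.le,
    div_nonneg (by linarith [hx.1]) h.le, ?_, ?_⟩
  · field_simp; ring
  · field_simp; ring

/-- **The cone on a cell**, from the end points and bounds `f'' ≤ M`. -/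
theorem Tri.cell2 {A A' A'' B B' B'' C C' C'' : ℝ → ℝ} {p q MA MB MC : ℝ} (hpq : p < q)
    (hMA : 0 ≤ MA) (hMB : 0 ≤ MB) (hMC : 0 ≤ MC)
    (dA : ∀ t ∈ Icc p q, HasDerivAt A (A' t) t) (dA' : ∀ t ∈ Ioo p q, HasDerivAt A' (A'' t) t)
    (dB : ∀ t ∈ Icc p q, HasDerivAt B (B' t) t) (dB' : ∀ t ∈ Ioo p q, HasDerivAt B' (B'' t) t)
    (dC : ∀ t ∈ Icc p q, HasDerivAt C (C' t) t) (dC' : ∀ t ∈ Ioo p q, HasDerivAt C' (C'' t) t)
    (bA : ∀ t ∈ Ioo p q, A'' t ≤ MA) (bB : ∀ t ∈ Ioo p q, B'' t ≤ MB)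
    (bC : ∀ t ∈ Ioo p q, C'' t ≤ MC)
    (hp : Tri (A p - MA * (q - p) ^ 2 / 8) (B p - MB * (q - p) ^ 2 / 8)
      (C p - MC * (q - p) ^ 2 / 8))
    (hq : Tri (A q - MA * (q - p) ^ 2 / 8) (B q - MB * (q - p) ^ 2 / 8)
      (C q - MC * (q - p) ^ 2 / 8))
    {x : ℝ} (hx : x ∈ Icc p q) : Tri (A x) (B x) (C x) := by
  obtain ⟨a, b, ha, hb, hab, hx'⟩ := exists_convex hpq hx
  exact Tri.cell ha hb hab (cell_ge hMA dA dA' bA ha hb hab hx' hpq.le)
    (cell_ge hMB dB dB' bB ha hb hab hx' hpq.le) (cell_ge hMC dC dC' bC ha hb hab hx' hpq.le) hp hq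

end Vale.Agent.P237.Cal
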