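import Vale.Agent.P237.Cal.AtomSort

/-!
# P237: cells for coefficient functions which are dense combinations of a fixed atom basis

The values of the atoms at a node and their chord errors on a cell are verified once, so a
coefficient function costs two dot products per node. The four quantities `a, b, N, d` are
polynomials in `(D, X)` with such coefficients; on a cell with constant bounds of `D` and `X` the
twelve Bernstein control quadruples are combinations of the enclosures with integer weights.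
-/

open Real Set

namespace Vale.Agent.P237.Cal.CellCert

open AtomCert

/-- Dot product. -/
def dot : List ℕ → List ℕ → ℕ
  | a :: l, b :: r => a * b + dot l r
  | _, _ => 0

/-- Entrywise sum. -/
def addL : List ℕ → List ℕ → List ℕ
  | a :: l, b :: r => (a + b) :: addL l r
  | l, [] => l
  | [], r => r

/-- The value of a dense vector in a basis. -/
noncomputable def evalB : List (ℕ × ℕ) → List ℤ → ℝ → ℝ
  | (i, j) :: B, w :: v, T => (w : ℝ) * (T ^ i * cW T ^ j) + evalB B v T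
  | _, _, _ => 0

/-- A list of atoms as a dense vector; the basis is in the order of the exponents. -/
noncomputable def dense (B : List (ℕ × ℕ)) (l : List Atom) : Option (List ℤ) :=
  AtomSort.walk B (AtomSort.srtA l)

lemma evalB_zero_cons {B : List (ℕ × ℕ)} {o : Option (List ℤ)} {v : List ℤ} {k : ℕ × ℕ} {x T : ℝ}
    (ih : ∀ u, o = some u → x = evalB B u T)
    (h : @Option.rec (List ℤ) (fun _ => Option (List ℤ)) none
      (fun u => some (Int.ofNat 0 :: u)) o = some v) : x = evalB (k :: B) v T := by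
  obtain ⟨i, j⟩ := k
  cases o with
  | none => simp at h
  | some u =>
    obtain rfl := Option.some.inj h
    simp [evalB, ih u rfl]

lemma eval_walk {T : ℝ} : ∀ {B : List (ℕ × ℕ)} {l : List Atom} {v : List ℤ},
    AtomSort.walk B l = some v → eval l T = evalB B v T
  | [], [], v, h => by obtain rfl := Option.some.inj h; rfl
  | [], _ :: _, _, h => by simp [AtomSort.walk] at h
  | k :: B, [], v, h => evalB_zero_cons (fun _ hu => eval_walk hu) h
  | k :: B, (w, i, j) :: l, v, h => by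
    change @Bool.rec (fun _ => Option (List ℤ))
      (@Option.rec (List ℤ) (fun _ => Option (List ℤ)) none (fun v => some (Int.ofNat 0 :: v))
        (AtomSort.walk B ((w, i, j) :: l)))
      (@Option.rec (List ℤ) (fun _ => Option (List ℤ)) none (fun v => some (w :: v))
        (AtomSort.walk B l))
      (@Bool.rec (fun _ => Bool) false (Nat.beq j k.2) (Nat.beq i k.1)) = some v at h
    rcases hb : (@Bool.rec (fun _ => Bool) false (Nat.beq j k.2) (Nat.beq i k.1)) with _ | _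
    · rw [hb] at h
      exact evalB_zero_cons (fun _ hu => eval_walk hu) h
    · rw [hb] at h
      obtain ⟨p, q⟩ := k
      rcases hi : Nat.beq i p with _ | _
      · rw [hi] at hb; simp at hb
      · rw [hi] at hb
        obtain rfl := Nat.eq_of_beq_eq_true hi
        obtain rfl := Nat.eq_of_beq_eq_true hb
        rcases hu : AtomSort.walk B l with _ | u
        · rw [hu] at h; simp at h
        · rw [hu] at h
          obtain rfl := Option.some.inj h
          simp [eval, evalB, eval_walk hu]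

theorem eval_dense {B : List (ℕ × ℕ)} {T : ℝ} {l : List Atom} {v : List ℤ}
    (h : dense B l = some v) : eval l T = evalB B v T := by
  rw [← AtomSort.eval_srtA T l]
  exact eval_walk h

/-- A function: positive and negative parts of the dense vector, and their sum. -/
abbrev Fn := List ℕ × List ℕ × List ℕ

/-- The function of a dense vector. -/
def mkFn (v : List ℤ) : Fn :=
  (v.map Int.toNat, v.map fun w => (-w).toNat, v.map Int.natAbs)

/-- Enclosure of a function from the atom bounds and errors. -/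
def encl (f : Fn) (lo hi er : List ℕ) : ℤ × ℤ :=
  ((dot f.1 lo : ℤ) - (dot f.2.1 hi + dot f.2.2 er : ℕ),
    ((dot f.1 hi + dot f.2.2 er : ℕ) : ℤ) - (dot f.2.1 lo : ℕ))

/-- The node value table is correct: `lo ≤ T^i cW^j 2^P ≤ hi`. -/
def colTest (P : ℕ) (m : Node) : List (ℕ × ℕ) → List ℕ → List ℕ → Bool
  | [], [], [] => nodeTest m
  | (i, j) :: B, a :: lo, b :: hi =>
    decide (a * 2 ^ (20 * i + 32 * j) ≤ m.1 ^ i * m.2.1 ^ j * 2 ^ P) &&
      decide (m.1 ^ i * m.2.2 ^ j * 2 ^ P ≤ b * 2 ^ (20 * i + 32 * j)) && colTest P m B lo hi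
  | _, _, _ => false

/-- The error table is correct: `e ≥ (Δ²/8) sup |atom''| 2^P`. -/
def errTest (P : ℕ) (n n' : Node) : List (ℕ × ℕ) → List ℕ → Bool
  | [], [] => nodeTest n && nodeTest n' && decide (n.1 < n'.1)
  | (i, j) :: B, e :: er =>
    decide ((n'.1 - n.1) * (n'.1 - n.1) * 2 ^ P *
        absV (i + 2) (j + 4) n'.1 n.2.2 (deriv1 (deriv1 [(1, i, j)])) ≤
      e * 2 ^ (43 + 20 * (i + 2) + 32 * (j + 4))) &&
      fits (i + 2) (j + 4) (deriv1 (deriv1 [(1, i, j)])) && errTest P n n' B er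
  | _, _ => false

lemma colTest_node {P : ℕ} {m : Node} : ∀ {B : List (ℕ × ℕ)} {lo hi : List ℕ},
    colTest P m B lo hi = true → nodeTest m = true
  | [], [], [], h => by simpa [colTest] using h
  | [], _ :: _, _, h => by simp [colTest] at h
  | [], [], _ :: _, h => by simp [colTest] at h
  | _ :: _, [], _, h => by simp [colTest] at h
  | _ :: _, _ :: _, [], h => by simp [colTest] at h
  | (i, j) :: B, a :: lo, b :: hi, h => by
    simp only [colTest, Bool.and_eq_true] at h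
    exact colTest_node h.2

lemma errTest_node {P : ℕ} {n n' : Node} : ∀ {B : List (ℕ × ℕ)} {er : List ℕ},
    errTest P n n' B er = true → nodeT n < nodeT n' ∧ nodeTest n = true
  | [], [], h => by
    simp only [errTest, Bool.and_eq_true, decide_eq_true_eq] at h
    exact ⟨by simp only [nodeT]; gcongr; exact h.2, h.1.1⟩
  | [], _ :: _, h => by simp [errTest] at h
  | _ :: _, [], h => by simp [errTest] at h
  | (i, j) :: B, e :: er, h => by
    simp only [errTest, Bool.and_eq_true] at h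
    exact errTest_node h.2

/-- The chord weights. -/
noncomputable def chordU (p r T : ℝ) : ℝ := (r - T) / (r - p)

/-- The enclosure of a function on a cell is the chord of the node enclosures. -/
theorem encl_sound {P : ℕ} {n n' : Node} {T : ℝ} :
    ∀ {B : List (ℕ × ℕ)} {v : List ℤ} {lo hi lo' hi' er : List ℕ},
      colTest P n B lo hi = true → colTest P n' B lo' hi' = true → errTest P n n' B er = true →
      T ∈ Icc (nodeT n) (nodeT n') →
      (chordU (nodeT n) (nodeT n') T * ((encl (mkFn v) lo hi er).1 : ℝ) +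
          (1 - chordU (nodeT n) (nodeT n') T) * ((encl (mkFn v) lo' hi' er).1 : ℝ) ≤
        2 ^ P * evalB B v T) ∧
      (2 ^ P * evalB B v T ≤ chordU (nodeT n) (nodeT n') T * ((encl (mkFn v) lo hi er).2 : ℝ) +
          (1 - chordU (nodeT n) (nodeT n') T) * ((encl (mkFn v) lo' hi' er).2 : ℝ)) := by
  intro B
  induction B with
  | nil =>
    intro v lo hi lo' hi' er h1 h2 h3 hT
    cases lo <;> cases hi <;> cases lo' <;> cases hi' <;> cases er <;>
      simp [colTest, errTest] at h1 h2 h3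
    cases v <;> simp [evalB, encl, mkFn, dot]
  | cons k B ih =>
    obtain ⟨i, j⟩ := k
    intro v lo hi lo' hi' er h1 h2 h3 hT
    cases lo <;> cases hi <;> cases lo' <;> cases hi' <;> cases er <;>
      simp [colTest, errTest] at h1 h2 h3
    rename_i a lo b hi a' lo' b' hi' e er
    cases v with
    | nil => simp [evalB, encl, mkFn, dot]
    | cons w v =>
      obtain ⟨hlt, hn⟩ := errTest_node h3.2
      have hn' := colTest_node h2.2
      have h0 : 0 ≤ nodeT n := by simp only [nodeT]; positivity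
      obtain ⟨ih1, ih2⟩ := ih (v := v) h1.2 h2.2 h3.2 hT
      set f : ℝ → ℝ := fun x => x ^ i * cW x ^ j with hf
      have val : ∀ {m : Node} {x y : ℕ}, nodeTest m = true →
          x * 2 ^ (20 * i + 32 * j) ≤ m.1 ^ i * m.2.1 ^ j * 2 ^ P →
          m.1 ^ i * m.2.2 ^ j * 2 ^ P ≤ y * 2 ^ (20 * i + 32 * j) →
          (x : ℝ) ≤ 2 ^ P * f (nodeT m) ∧ 2 ^ P * f (nodeT m) ≤ (y : ℝ) := by
        intro m x y hm hx hy
        obtain ⟨c1, c2⟩ := nodeTest_sound hm
        have hs : (0 : ℝ) < 2 ^ (20 * i + 32 * j) := by positivity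
        have e : ∀ z : ℕ, 2 ^ P * (((m.1 : ℝ) / 2 ^ 20) ^ i * ((z : ℝ) / 2 ^ 32) ^ j) =
            ((m.1 ^ i * z ^ j * 2 ^ P : ℕ) : ℝ) / 2 ^ (20 * i + 32 * j) := fun z => by
          rw [div_pow, div_pow, ← pow_mul, ← pow_mul, pow_add]; push_cast; field_simp
        constructor
        · calc (x : ℝ) ≤ 2 ^ P * (((m.1 : ℝ) / 2 ^ 20) ^ i * ((m.2.1 : ℝ) / 2 ^ 32) ^ j) := by
                rw [e, le_div_iff₀ hs]; exact_mod_cast hx
            _ ≤ _ := by simp only [hf, nodeT]; gcongr; exact c1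
        · calc 2 ^ P * f (nodeT m)
              ≤ 2 ^ P * (((m.1 : ℝ) / 2 ^ 20) ^ i * ((m.2.2 : ℝ) / 2 ^ 32) ^ j) := by
                simp only [hf, nodeT]; gcongr
                · exact (cW_pos _).le
                · exact c2
            _ ≤ (y : ℝ) := by rw [e, div_le_iff₀ hs]; exact_mod_cast hy
      obtain ⟨va, vb⟩ := val hn h1.1.1 h1.1.2
      obtain ⟨va', vb'⟩ := val hn' h2.1.1 h2.1.2
      have hfl : ∀ x, eval [((1 : ℤ), i, j)] x = f x := fun x => by simp [eval, hf]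
      set M := (absV (i + 2) (j + 4) n'.1 n.2.2 (deriv1 (deriv1 [(1, i, j)])) : ℝ) /
        scl (i + 2) (j + 4) with hM
      have hMb : ∀ x ∈ Icc (nodeT n) (nodeT n'),
          |eval (deriv1 (deriv1 [(1, i, j)])) x| ≤ M := fun x hx => by
        rw [hM, le_div_iff₀ (scl_pos _ _), mul_comm]
        exact abs_bound h3.1.2 (h0.trans hx.1) hx.2
          ((cW_anti h0 hx.1).trans (nodeTest_sound hn).2)
      have hc := chord_le hMb hT hlt
      rw [hfl, hfl, hfl] at hc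
      have hE : 2 ^ P * (M * (nodeT n' - nodeT n) ^ 2 / 8) ≤ (e : ℝ) := by
        have hh : (((n'.1 - n.1) * (n'.1 - n.1) * 2 ^ P *
            absV (i + 2) (j + 4) n'.1 n.2.2 (deriv1 (deriv1 [(1, i, j)])) : ℕ) : ℝ) ≤
            ((e * 2 ^ (43 + 20 * (i + 2) + 32 * (j + 4)) : ℕ) : ℝ) := by exact_mod_cast h3.1.1
        have hle : n.1 ≤ n'.1 := by
          by_contra hcon
          have : nodeT n' ≤ nodeT n := by
            simp only [nodeT]; gcongr; exact (not_le.1 hcon).le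
          linarith
        simp only [Nat.cast_mul, Nat.cast_sub hle, Nat.cast_pow, Nat.cast_ofNat] at hh
        simp only [hM, scl, nodeT]
        rw [pow_add, pow_add] at hh
        rw [pow_add (2 : ℝ) (20 * (i + 2))]
        have h40 : ((2 : ℝ) ^ 20) ^ 2 * 8 = 2 ^ 43 := by rw [← pow_mul]; norm_num
        have hA : (0 : ℝ) < 2 ^ (20 * (i + 2)) := pow_pos two_pos _
        have hB : (0 : ℝ) < 2 ^ (32 * (j + 4)) := pow_pos two_pos _
        have hC : (0 : ℝ) < (2 : ℝ) ^ 20 := pow_pos two_pos _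
        generalize (2 : ℝ) ^ (20 * (i + 2)) = A at hh hA ⊢
        generalize (2 : ℝ) ^ (32 * (j + 4)) = Bb at hh hB ⊢
        generalize (2 : ℝ) ^ 43 = G at hh h40
        generalize (2 : ℝ) ^ 20 = C at hC h40 ⊢
        generalize (2 : ℝ) ^ P = Q at hh ⊢
        subst h40
        field_simp
        linarith [hh]
      set u := chordU (nodeT n) (nodeT n') T with hu
      have hu0 : 0 ≤ u := div_nonneg (by linarith [hT.2]) (by linarith)
      have hu1 : 0 ≤ 1 - u := by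
        rw [sub_nonneg, hu, chordU, div_le_one (by linarith)]; linarith [hT.1]
      have huv : (T - nodeT n) / (nodeT n' - nodeT n) = 1 - u := by
        rw [hu, chordU]; field_simp [(sub_pos.2 hlt).ne']; ring
      rw [show (nodeT n' - T) / (nodeT n' - nodeT n) = u from rfl, huv] at hc
      obtain ⟨c1, c2⟩ := abs_le.1 hc
      have hP : (0 : ℝ) ≤ 2 ^ P := by positivity
      have d1 : u * (a : ℝ) + (1 - u) * a' - e ≤ 2 ^ P * f T := by
        have k := mul_le_mul_of_nonneg_left c1 hP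
        have ka := mul_le_mul_of_nonneg_left va hu0
        have kb := mul_le_mul_of_nonneg_left va' hu1
        generalize (2 : ℝ) ^ P = Q at k ka kb hE ⊢
        linarith
      have d2 : 2 ^ P * f T ≤ u * (b : ℝ) + (1 - u) * b' + e := by
        have k := mul_le_mul_of_nonneg_left c2 hP
        have ka := mul_le_mul_of_nonneg_left vb hu0
        have kb := mul_le_mul_of_nonneg_left vb' hu1
        generalize (2 : ℝ) ^ P = Q at k ka kb hE ⊢
        linarith
      have hp : ((w.toNat : ℕ) : ℝ) - (((-w).toNat : ℕ) : ℝ) = w := by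
        exact_mod_cast Int.toNat_sub_toNat_neg w
      have hn2 : ((w.natAbs : ℕ) : ℝ) = ((w.toNat : ℕ) : ℝ) + (((-w).toNat : ℕ) : ℝ) := by
        exact_mod_cast (Int.toNat_add_toNat_neg_eq_natAbs w).symm
      have p0 : (0 : ℝ) ≤ ((w.toNat : ℕ) : ℝ) := Nat.cast_nonneg _
      have q0 : (0 : ℝ) ≤ (((-w).toNat : ℕ) : ℝ) := Nat.cast_nonneg _
      simp only [encl, mkFn, List.map_cons, dot] at ih1 ih2 ⊢
      simp only [evalB]
      push_cast at ih1 ih2 ⊢
      rw [show T ^ i * cW T ^ j = f T from rfl]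
      have habs : |(w : ℝ)| = ((w.toNat : ℕ) : ℝ) + (((-w).toNat : ℕ) : ℝ) := by
        rw [← hn2, Nat.cast_natAbs]; push_cast; rfl
      rw [habs, ← hp]
      have k1 := mul_le_mul_of_nonneg_left d1 p0
      have k2 := mul_le_mul_of_nonneg_left d2 q0
      have k3 := mul_le_mul_of_nonneg_left d2 p0
      have k4 := mul_le_mul_of_nonneg_left d1 q0
      generalize (2 : ℝ) ^ P = Q at ih1 ih2 k1 k2 k3 k4 ⊢
      constructor <;> linarith

lemma dot_le_dot (p : List ℕ) {P : ℕ} {m : Node} : ∀ {B : List (ℕ × ℕ)} {lo hi : List ℕ},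
    colTest P m B lo hi = true → dot p lo ≤ dot p hi := by
  induction p with
  | nil => intros; simp [dot]
  | cons x p ih =>
    intro B lo hi h
    cases B <;> cases lo <;> cases hi <;> simp [colTest] at h
    · simp [dot]
    rename_i k B a lo b hi
    obtain ⟨i, j⟩ := k
    simp only [colTest, Bool.and_eq_true, decide_eq_true_eq] at h
    have hm := nodeTest_sound (colTest_node h.2)
    have hc : m.2.1 ≤ m.2.2 := by
      have := hm.1.trans hm.2
      rw [div_le_div_iff_of_pos_right (by positivity)] at this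
      exact_mod_cast this
    have h1 : a * 2 ^ (20 * i + 32 * j) ≤ b * 2 ^ (20 * i + 32 * j) :=
      h.1.1.trans (le_trans (by gcongr) h.1.2)
    simp only [dot]
    exact add_le_add (Nat.mul_le_mul le_rfl (Nat.le_of_mul_le_mul_right h1 (by positivity)))
      (ih h.2)

lemma encl_le {P : ℕ} {m : Node} {B : List (ℕ × ℕ)} {v : List ℤ} {lo hi er : List ℕ}
    (h : colTest P m B lo hi = true) :
    ((encl (mkFn v) lo hi er).1 : ℝ) ≤ ((encl (mkFn v) lo hi er).2 : ℝ) := by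
  have h1 := dot_le_dot (mkFn v).1 h
  have h2 := dot_le_dot (mkFn v).2.1 h
  simp only [encl]
  exact_mod_cast (by omega : ((dot (mkFn v).1 lo : ℕ) : ℤ) -
    ((dot (mkFn v).2.1 hi + dot (mkFn v).2.2 er : ℕ) : ℤ) ≤
    ((dot (mkFn v).1 hi + dot (mkFn v).2.2 er : ℕ) : ℤ) - ((dot (mkFn v).2.1 lo : ℕ) : ℤ))

/-- Scale an interval by an integer. -/
def iscale (w : ℤ) (x : ℤ × ℤ) : ℤ × ℤ := if 0 ≤ w then (w * x.1, w * x.2) else (w * x.2, w * x.1)

/-- Coefficients of `1, D, D², D³, X, D X, X²`. -/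
structure Poly (α : Type) where
  c00 : α
  c10 : α
  c20 : α
  c30 : α
  c01 : α
  c11 : α
  c02 : α

/-- The value of a polynomial. -/
def Poly.val (p : Poly ℝ) (D X : ℝ) : ℝ :=
  p.c00 + p.c10 * D + p.c20 * D ^ 2 + p.c30 * D ^ 3 + p.c01 * X + p.c11 * (D * X) + p.c02 * X ^ 2

/-- The weights of a control value: `(D₁, D₂, D₃)` and `(X₁, X₂)` are the blossom arguments. -/
def wts {R : Type} [CommRing R] (u d1 d2 d3 x1 x2 : R) : Poly R where
  c00 := 6 * u ^ 3
  c10 := 2 * u ^ 2 * (d1 + d2 + d3)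
  c20 := 2 * u * (d1 * d2 + d1 * d3 + d2 * d3)
  c30 := 6 * (d1 * d2 * d3)
  c01 := 3 * u ^ 2 * (x1 + x2)
  c11 := u * (d1 + d2 + d3) * (x1 + x2)
  c02 := 6 * u * (x1 * x2)

/-- The pairing of weights and coefficients. -/
def Poly.pair {R : Type} [CommRing R] (w p : Poly R) : R :=
  w.c00 * p.c00 + w.c10 * p.c10 + w.c20 * p.c20 + w.c30 * p.c30 + w.c01 * p.c01 + w.c11 * p.c11 +
    w.c02 * p.c02

/-- The interval pairing. -/
def pairI (w : Poly ℤ) (p : Poly (ℤ × ℤ)) : ℤ × ℤ :=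
  let a := iscale w.c00 p.c00
  let b := iscale w.c10 p.c10
  let c := iscale w.c20 p.c20
  let d := iscale w.c30 p.c30
  let e := iscale w.c01 p.c01
  let f := iscale w.c11 p.c11
  let g := iscale w.c02 p.c02
  (a.1 + b.1 + c.1 + d.1 + e.1 + f.1 + g.1, a.2 + b.2 + c.2 + d.2 + e.2 + f.2 + g.2)

lemma iscale_sound {w : ℤ} {x : ℤ × ℤ} {c : ℝ} (h : (x.1 : ℝ) ≤ c ∧ c ≤ (x.2 : ℝ)) :
    ((iscale w x).1 : ℝ) ≤ w * c ∧ (w : ℝ) * c ≤ ((iscale w x).2 : ℝ) := by
  unfold iscale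
  split_ifs with hw
  · have hw' : (0 : ℝ) ≤ w := by exact_mod_cast hw
    push_cast
    exact ⟨mul_le_mul_of_nonneg_left h.1 hw', mul_le_mul_of_nonneg_left h.2 hw'⟩
  · have hw' : (w : ℝ) ≤ 0 := by exact_mod_cast (not_le.1 hw).le
    push_cast
    exact ⟨mul_le_mul_of_nonpos_left h.2 hw', mul_le_mul_of_nonpos_left h.1 hw'⟩

/-- Enclosed coefficients. -/
structure Poly.In (p : Poly ℝ) (q : Poly (ℤ × ℤ)) : Prop where
  h00 : (q.c00.1 : ℝ) ≤ p.c00 ∧ p.c00 ≤ (q.c00.2 : ℝ)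
  h10 : (q.c10.1 : ℝ) ≤ p.c10 ∧ p.c10 ≤ (q.c10.2 : ℝ)
  h20 : (q.c20.1 : ℝ) ≤ p.c20 ∧ p.c20 ≤ (q.c20.2 : ℝ)
  h30 : (q.c30.1 : ℝ) ≤ p.c30 ∧ p.c30 ≤ (q.c30.2 : ℝ)
  h01 : (q.c01.1 : ℝ) ≤ p.c01 ∧ p.c01 ≤ (q.c01.2 : ℝ)
  h11 : (q.c11.1 : ℝ) ≤ p.c11 ∧ p.c11 ≤ (q.c11.2 : ℝ)
  h02 : (q.c02.1 : ℝ) ≤ p.c02 ∧ p.c02 ≤ (q.c02.2 : ℝ)

/-- The real weights of integer weights. -/
def castW (w : Poly ℤ) : Poly ℝ := ⟨w.c00, w.c10, w.c20, w.c30, w.c01, w.c11, w.c02⟩

lemma pairI_sound {w : Poly ℤ} {p : Poly ℝ} {q : Poly (ℤ × ℤ)} (h : p.In q) :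
    ((pairI w q).1 : ℝ) ≤ (castW w).pair p ∧ (castW w).pair p ≤ ((pairI w q).2 : ℝ) := by
  have a := iscale_sound (w := w.c00) h.h00
  have b := iscale_sound (w := w.c10) h.h10
  have c := iscale_sound (w := w.c20) h.h20
  have d := iscale_sound (w := w.c30) h.h30
  have e := iscale_sound (w := w.c01) h.h01
  have f := iscale_sound (w := w.c11) h.h11
  have g := iscale_sound (w := w.c02) h.h02
  simp only [pairI, Poly.pair, castW]
  push_cast
  exact ⟨by linarith [a.1, b.1, c.1, d.1, e.1, f.1, g.1],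
    by linarith [a.2, b.2, c.2, d.2, e.2, f.2, g.2]⟩

/-- The test of one control quadruple. -/
def ctrlTest (a b N d : Poly (ℤ × ℤ)) (w : Poly ℤ) : Bool :=
  let e := pairI w d
  quadTest (pairI w a).1 (pairI w b).1 (pairI w N).1 (max e.2 (-e.1))

/-- The tests of all twelve control quadruples on `[l, h] × [x₀, x₁]`, all over `2 ^ 32`. -/
def ctrlAll (a b N d : Poly (ℤ × ℤ)) (l h x0 x1 : ℤ) : Bool :=
  let u : ℤ := 2 ^ 32
  let t (d1 d2 d3 : ℤ) : Bool :=
    ctrlTest a b N d (wts u d1 d2 d3 x0 x0) && ctrlTest a b N d (wts u d1 d2 d3 x0 x1) &&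
      ctrlTest a b N d (wts u d1 d2 d3 x1 x1)
  t l l l && t l l h && t l h h && t h h h

lemma val_bern (p : Poly ℝ) (U l h x0 x1 v z : ℝ) :
    6 * U ^ 3 * p.c00 + 6 * U ^ 2 * ((1 - v) * l + v * h) * p.c10 +
      6 * U * ((1 - v) * l + v * h) ^ 2 * p.c20 + 6 * ((1 - v) * l + v * h) ^ 3 * p.c30 +
      6 * U ^ 2 * ((1 - z) * x0 + z * x1) * p.c01 +
      6 * U * (((1 - v) * l + v * h) * ((1 - z) * x0 + z * x1)) * p.c11 +
      6 * U * ((1 - z) * x0 + z * x1) ^ 2 * p.c02 =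
    (1 - v) ^ 3 * ((1 - z) ^ 2 * (wts U l l l x0 x0).pair p +
        2 * z * (1 - z) * (wts U l l l x0 x1).pair p + z ^ 2 * (wts U l l l x1 x1).pair p) +
      3 * v * (1 - v) ^ 2 * ((1 - z) ^ 2 * (wts U l l h x0 x0).pair p +
        2 * z * (1 - z) * (wts U l l h x0 x1).pair p + z ^ 2 * (wts U l l h x1 x1).pair p) +
      3 * v ^ 2 * (1 - v) * ((1 - z) ^ 2 * (wts U l h h x0 x0).pair p +
        2 * z * (1 - z) * (wts U l h h x0 x1).pair p + z ^ 2 * (wts U l h h x1 x1).pair p) +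
      v ^ 3 * ((1 - z) ^ 2 * (wts U h h h x0 x0).pair p +
        2 * z * (1 - z) * (wts U h h h x0 x1).pair p + z ^ 2 * (wts U h h h x1 x1).pair p) := by
  simp only [wts, Poly.pair]
  ring

lemma castW_wts (u d1 d2 d3 x1 x2 : ℤ) :
    castW (wts u d1 d2 d3 x1 x2) = wts (u : ℝ) d1 d2 d3 x1 x2 := by
  simp only [castW, wts]
  push_cast
  rfl

lemma exists_frac {l h x : ℝ} (hx : x ∈ Icc l h) : ∃ v ∈ Icc (0 : ℝ) 1, x = (1 - v) * l + v * h := by
  rcases eq_or_lt_of_le (hx.1.trans hx.2) with e | e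
  · exact ⟨0, ⟨le_rfl, zero_le_one⟩, by linarith [hx.1, hx.2]⟩
  · refine ⟨(x - l) / (h - l), ⟨div_nonneg (by linarith [hx.1]) (by linarith),
      (div_le_one (by linarith)).2 (by linarith [hx.2])⟩, ?_⟩
    field_simp [(sub_pos.2 e).ne']
    ring

theorem ctrlAll_sound {pa pb pN pd : Poly ℝ} {a b N d : Poly (ℤ × ℤ)} {l h x0 x1 : ℤ} {D X : ℝ}
    (ht : ctrlAll a b N d l h x0 x1 = true) (ha : pa.In a) (hb : pb.In b) (hN : pN.In N)
    (hd : pd.In d) (hD : D ∈ Icc ((l : ℝ) / 2 ^ 32) ((h : ℝ) / 2 ^ 32))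
    (hX : X ∈ Icc ((x0 : ℝ) / 2 ^ 32) ((x1 : ℝ) / 2 ^ 32)) :
    Quad (pa.val D X) (pb.val D X) (pN.val D X) (pd.val D X) := by
  obtain ⟨v, hv, rfl⟩ := exists_frac hD
  obtain ⟨z, hz, rfl⟩ := exists_frac hX
  have hq : ∀ w : Poly ℤ, ctrlTest a b N d w = true → Quad ((castW w).pair pa) ((castW w).pair pb)
      ((castW w).pair pN) ((castW w).pair pd) := by
    intro w hw
    refine (quad_of_test hw).mono (pairI_sound ha).1 (pairI_sound hb).1 (pairI_sound hN).1 ?_
    obtain ⟨d1, d2⟩ := pairI_sound (w := w) hd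
    push_cast
    have m1 := le_max_left ((pairI w d).2 : ℝ) (-((pairI w d).1 : ℝ))
    have m2 := le_max_right ((pairI w d).2 : ℝ) (-((pairI w d).1 : ℝ))
    exact (abs_le.2 ⟨by linarith, by linarith⟩).trans (le_abs_self _)
  simp only [ctrlAll, Bool.and_eq_true] at ht
  obtain ⟨⟨⟨⟨⟨h00, h01⟩, h02⟩, ⟨⟨h10, h11⟩, h12⟩⟩, ⟨⟨h20, h21⟩, h22⟩⟩, ⟨⟨h30, h31⟩, h32⟩⟩ := ht
  have hv1 : 0 ≤ 1 - v := sub_nonneg.2 hv.2
  have hz1 : 0 ≤ 1 - z := sub_nonneg.2 hz.2
  have z1 : 0 ≤ 2 * z * (1 - z) := mul_nonneg (mul_nonneg zero_le_two hz.1) hz1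
  have row : ∀ {w0 w1 w2 : Poly ℤ}, ctrlTest a b N d w0 = true → ctrlTest a b N d w1 = true →
      ctrlTest a b N d w2 = true → _ := fun k0 k1 k2 =>
    (((hq _ k0).smul (sq_nonneg (1 - z))).add ((hq _ k1).smul z1)).add
      ((hq _ k2).smul (sq_nonneg z))
  have Q := ((((row h00 h01 h02).smul (pow_nonneg hv1 3)).add ((row h10 h11 h12).smul
    (mul_nonneg (mul_nonneg (by norm_num : (0 : ℝ) ≤ 3) hv.1) (sq_nonneg (1 - v))))).add
    ((row h20 h21 h22).smul (mul_nonneg (mul_nonneg (by norm_num : (0 : ℝ) ≤ 3) (sq_nonneg v))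
      hv1))).add ((row h30 h31 h32).smul (pow_nonneg hv.1 3))
  have e : ∀ p : Poly ℝ, p.val ((1 - v) * ((l : ℝ) / 2 ^ 32) + v * ((h : ℝ) / 2 ^ 32))
      ((1 - z) * ((x0 : ℝ) / 2 ^ 32) + z * ((x1 : ℝ) / 2 ^ 32)) =
      (6 * ((2 : ℝ) ^ 32) ^ 3)⁻¹ * (6 * ((2 : ℝ) ^ 32) ^ 3 * p.c00 +
      6 * ((2 : ℝ) ^ 32) ^ 2 * ((1 - v) * l + v * h) * p.c10 +
      6 * (2 : ℝ) ^ 32 * ((1 - v) * l + v * h) ^ 2 * p.c20 +
      6 * ((1 - v) * (l : ℝ) + v * h) ^ 3 * p.c30 +
      6 * ((2 : ℝ) ^ 32) ^ 2 * ((1 - z) * x0 + z * x1) * p.c01 +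
      6 * (2 : ℝ) ^ 32 * (((1 - v) * l + v * h) * ((1 - z) * x0 + z * x1)) * p.c11 +
      6 * (2 : ℝ) ^ 32 * ((1 - z) * (x0 : ℝ) + z * x1) ^ 2 * p.c02) := fun p => by
    simp only [Poly.val]; field_simp
  simp only [e, val_bern]
  refine (Quad.smul (by positivity) ?_)
  simpa only [castW_wts, Int.cast_pow, Int.cast_ofNat] using Q

/-- A vertex family: four polynomials with dense coefficient functions. -/
structure VFam where
  a : Poly Fn
  b : Poly Fn
  N : Poly Fn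
  d : Poly Fn

/-- A cell: two node tables, the errors and the bounds of `D` and `X`. -/
structure Cell where
  lo : List ℕ
  hi : List ℕ
  lo' : List ℕ
  hi' : List ℕ
  er : List ℕ
  l : ℤ
  h : ℤ
  x0 : ℤ
  x1 : ℤ

/-- Enclose all coefficients at a node. -/
def enclP (p : Poly Fn) (lo hi er : List ℕ) : Poly (ℤ × ℤ) :=
  ⟨encl p.c00 lo hi er, encl p.c10 lo hi er, encl p.c20 lo hi er, encl p.c30 lo hi er,
    encl p.c01 lo hi er, encl p.c11 lo hi er, encl p.c02 lo hi er⟩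

/-- The test of a family on a cell. -/
def cellTest (F : VFam) (C : Cell) : Bool :=
  ctrlAll (enclP F.a C.lo C.hi C.er) (enclP F.b C.lo C.hi C.er) (enclP F.N C.lo C.hi C.er)
      (enclP F.d C.lo C.hi C.er) C.l C.h C.x0 C.x1 &&
    ctrlAll (enclP F.a C.lo' C.hi' C.er) (enclP F.b C.lo' C.hi' C.er) (enclP F.N C.lo' C.hi' C.er)
      (enclP F.d C.lo' C.hi' C.er) C.l C.h C.x0 C.x1

/-- Dense polynomials. -/
def Poly.fn (p : Poly (List ℤ)) : Poly Fn :=
  ⟨mkFn p.c00, mkFn p.c10, mkFn p.c20, mkFn p.c30, mkFn p.c01, mkFn p.c11, mkFn p.c02⟩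

/-- The value of the coefficients at `T`. -/
noncomputable def Poly.at (B : List (ℕ × ℕ)) (p : Poly (List ℤ)) (T : ℝ) : Poly ℝ :=
  ⟨evalB B p.c00 T, evalB B p.c10 T, evalB B p.c20 T, evalB B p.c30 T, evalB B p.c01 T,
    evalB B p.c11 T, evalB B p.c02 T⟩

theorem cellTest_sound {P : ℕ} {B : List (ℕ × ℕ)} {n n' : Node} {C : Cell}
    {pa pb pN pd : Poly (List ℤ)} {T D X : ℝ}
    (ht : cellTest ⟨pa.fn, pb.fn, pN.fn, pd.fn⟩ C = true)
    (hc : colTest P n B C.lo C.hi = true) (hc' : colTest P n' B C.lo' C.hi' = true)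
    (he : errTest P n n' B C.er = true) (hT : T ∈ Icc (nodeT n) (nodeT n'))
    (hD : D ∈ Icc ((C.l : ℝ) / 2 ^ 32) ((C.h : ℝ) / 2 ^ 32))
    (hX : X ∈ Icc ((C.x0 : ℝ) / 2 ^ 32) ((C.x1 : ℝ) / 2 ^ 32)) :
    Quad ((pa.at B T).val D X) ((pb.at B T).val D X) ((pN.at B T).val D X) ((pd.at B T).val D X) := by
  simp only [cellTest, Bool.and_eq_true] at ht
  obtain ⟨t0, t1⟩ := ht
  set u := chordU (nodeT n) (nodeT n') T with hu
  set v := 1 - u with hv
  have hlt := (errTest_node he).1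
  have hu0 : 0 ≤ u := div_nonneg (by linarith [hT.2]) (by linarith)
  have hv0 : 0 ≤ v := by
    rw [hv, sub_nonneg, hu, chordU, div_le_one (by linarith)]; linarith [hT.1]
  have hP : (0 : ℝ) < 2 ^ P := by positivity
  -- split every coefficient as the chord of two enclosed values
  have split : ∀ w : List ℤ, ∃ x y : ℝ,
      (((encl (mkFn w) C.lo C.hi C.er).1 : ℝ) ≤ x ∧ x ≤ ((encl (mkFn w) C.lo C.hi C.er).2 : ℝ)) ∧
      (((encl (mkFn w) C.lo' C.hi' C.er).1 : ℝ) ≤ y ∧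
        y ≤ ((encl (mkFn w) C.lo' C.hi' C.er).2 : ℝ)) ∧ u * x + v * y = 2 ^ P * evalB B w T := by
    intro w
    obtain ⟨h1, h2⟩ := encl_sound (v := w) hc hc' he hT
    rw [← hu, ← hv] at h1 h2
    set a1 := ((encl (mkFn w) C.lo C.hi C.er).1 : ℝ)
    set a2 := ((encl (mkFn w) C.lo C.hi C.er).2 : ℝ)
    set b1 := ((encl (mkFn w) C.lo' C.hi' C.er).1 : ℝ)
    set b2 := ((encl (mkFn w) C.lo' C.hi' C.er).2 : ℝ)
    set lo := u * a1 + v * b1
    set hi := u * a2 + v * b2
    obtain ⟨s, hs, es⟩ := exists_frac (l := lo) (h := hi) ⟨h1, h2⟩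
    have wa := encl_le (v := w) (er := C.er) hc
    have wb := encl_le (v := w) (er := C.er) hc'
    refine ⟨(1 - s) * a1 + s * a2, (1 - s) * b1 + s * b2, ?_, ?_, ?_⟩
    · constructor <;> nlinarith [hs.1, hs.2, wa]
    · constructor <;> nlinarith [hs.1, hs.2, wb]
    · rw [es]; ring
  choose fx fy hx hy hxy using split
  have Pi : ∀ (p : Poly (List ℤ)) (g : List ℤ → ℝ) (lo hi : List ℕ),
      (∀ w, ((encl (mkFn w) lo hi C.er).1 : ℝ) ≤ g w ∧ g w ≤ ((encl (mkFn w) lo hi C.er).2 : ℝ)) →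
      (⟨g p.c00, g p.c10, g p.c20, g p.c30, g p.c01, g p.c11, g p.c02⟩ : Poly ℝ).In
        (enclP p.fn lo hi C.er) := fun p g lo hi hg =>
    ⟨hg _, hg _, hg _, hg _, hg _, hg _, hg _⟩
  have Q := ((ctrlAll_sound t0 (Pi pa fx _ _ hx) (Pi pb fx _ _ hx) (Pi pN fx _ _ hx)
    (Pi pd fx _ _ hx) hD hX).smul hu0).add ((ctrlAll_sound t1 (Pi pa fy _ _ hy) (Pi pb fy _ _ hy)
    (Pi pN fy _ _ hy) (Pi pd fy _ _ hy) hD hX).smul hv0)
  have e : ∀ p : Poly (List ℤ),
      u * (⟨fx p.c00, fx p.c10, fx p.c20, fx p.c30, fx p.c01, fx p.c11, fx p.c02⟩ : Poly ℝ).val D X +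
        v * (⟨fy p.c00, fy p.c10, fy p.c20, fy p.c30, fy p.c01, fy p.c11, fy p.c02⟩ : Poly ℝ).val D X =
        2 ^ P * (p.at B T).val D X := fun p => by
    simp only [Poly.val, Poly.at]
    linear_combination hxy p.c00 + D * hxy p.c10 + D ^ 2 * hxy p.c20 + D ^ 3 * hxy p.c30 +
      X * hxy p.c01 + (D * X) * hxy p.c11 + X ^ 2 * hxy p.c02
  rw [e, e, e, e] at Q
  have := Q.smul (inv_nonneg.2 hP.le)
  simpa [inv_mul_cancel_left₀ hP.ne'] using this

end Vale.Agent.P237.Cal.CellCert
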