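import Vale.Agent.P237.Cal.FamAtoms

/-!
# P237: the first cell and the tail

On a cell with crude bounds of the atoms the twelve controls give `Quad` without a chord. Before
that the variables may be rescaled, `D = δ T^a W^(-b)`, `Xc = ξ T^c W^(-e)`, and a common factor
`T^p W^(-q)` taken out, so that the test survives `T → 0` and `T → ∞`.
-/

open Set Real

namespace Vale.Agent.P237.Cal.CellEnds

open AtomCert CellCert FamAtoms

/-- Bounds `lo ≤ T^i cW^j 2^P ≤ hi` of every atom. -/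
def TabB (P : ℕ) (T : ℝ) : List (ℕ × ℕ) → List ℕ → List ℕ → Prop
  | [], [], [] => True
  | (i, j) :: B, a :: lo, b :: hi =>
    ((a : ℝ) ≤ 2 ^ P * (T ^ i * cW T ^ j) ∧ 2 ^ P * (T ^ i * cW T ^ j) ≤ (b : ℝ)) ∧
      TabB P T B lo hi
  | _, _, _ => False

/-- Bounds of the atoms on `[n, n']` from the monotonicity of `T` and `cW`. -/
def boxTab (P : ℕ) (n n' : Node) : List (ℕ × ℕ) → List ℕ → List ℕ → Bool
  | [], [], [] => nodeTest n && nodeTest n'
  | (i, j) :: B, a :: lo, b :: hi =>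
    decide (a * 2 ^ (20 * i + 32 * j) ≤ n.1 ^ i * n'.2.1 ^ j * 2 ^ P) &&
      decide (n'.1 ^ i * n.2.2 ^ j * 2 ^ P ≤ b * 2 ^ (20 * i + 32 * j)) && boxTab P n n' B lo hi
  | _, _, _ => false

/-- Bounds of the atoms with `i ≤ j` on `[n, ∞)`. -/
def tailTab (P : ℕ) (n : Node) : List (ℕ × ℕ) → List ℕ → List ℕ → Bool
  | [], [], [] => nodeTest n
  | (i, j) :: B, a :: lo, b :: hi =>
    decide (i ≤ j) &&
      (if i = j then decide (a * 2 ^ (52 * i) ≤ (n.1 * n.2.1) ^ i * 2 ^ P) else decide (a = 0)) &&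
      decide (n.2.2 ^ (j - i) * 2 ^ P ≤ b * 2 ^ (32 * (j - i))) && tailTab P n B lo hi
  | _, _, _ => false

lemma boxTab_nodes {P : ℕ} {n n' : Node} : ∀ {B : List (ℕ × ℕ)} {lo hi : List ℕ},
    boxTab P n n' B lo hi = true → nodeTest n = true ∧ nodeTest n' = true
  | [], [], [], h => by simpa [boxTab] using h
  | [], _ :: _, _, h => by simp [boxTab] at h
  | [], [], _ :: _, h => by simp [boxTab] at h
  | _ :: _, [], _, h => by simp [boxTab] at h
  | _ :: _, _ :: _, [], h => by simp [boxTab] at h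
  | (i, j) :: B, a :: lo, b :: hi, h => by
    simp only [boxTab, Bool.and_eq_true] at h
    exact boxTab_nodes h.2

lemma tailTab_node {P : ℕ} {n : Node} : ∀ {B : List (ℕ × ℕ)} {lo hi : List ℕ},
    tailTab P n B lo hi = true → nodeTest n = true
  | [], [], [], h => by simpa [tailTab] using h
  | [], _ :: _, _, h => by simp [tailTab] at h
  | [], [], _ :: _, h => by simp [tailTab] at h
  | _ :: _, [], _, h => by simp [tailTab] at h
  | _ :: _, _ :: _, [], h => by simp [tailTab] at h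
  | (i, j) :: B, a :: lo, b :: hi, h => by
    simp only [tailTab, Bool.and_eq_true] at h
    exact tailTab_node h.2

theorem boxTab_sound {P : ℕ} {n n' : Node} {T : ℝ} (hT : T ∈ Icc (nodeT n) (nodeT n')) :
    ∀ {B : List (ℕ × ℕ)} {lo hi : List ℕ}, boxTab P n n' B lo hi = true → TabB P T B lo hi
  | [], [], [], _ => trivial
  | [], _ :: _, _, h => by simp [boxTab] at h
  | [], [], _ :: _, h => by simp [boxTab] at h
  | _ :: _, [], _, h => by simp [boxTab] at h
  | _ :: _, _ :: _, [], h => by simp [boxTab] at h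
  | (i, j) :: B, a :: lo, b :: hi, h => by
    obtain ⟨hn, hn'⟩ := boxTab_nodes h
    simp only [boxTab, Bool.and_eq_true, decide_eq_true_eq] at h
    refine ⟨?_, boxTab_sound hT h.2⟩
    have h0 : 0 ≤ nodeT n := by simp only [nodeT]; positivity
    have hT0 : 0 ≤ T := h0.trans hT.1
    have hc0 := (cW_pos T).le
    have hs : (0 : ℝ) < 2 ^ (20 * i + 32 * j) := by positivity
    have hu := (cW_anti h0 hT.1).trans (nodeTest_sound hn).2
    have hl := (nodeTest_sound hn').1.trans (cW_anti hT0 hT.2)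
    have e : ∀ t c : ℕ, 2 ^ P * (((t : ℝ) / 2 ^ 20) ^ i * ((c : ℝ) / 2 ^ 32) ^ j) =
        ((t ^ i * c ^ j * 2 ^ P : ℕ) : ℝ) / 2 ^ (20 * i + 32 * j) := fun t c => by
      rw [div_pow, div_pow, ← pow_mul, ← pow_mul, pow_add]; push_cast; field_simp
    constructor
    · calc (a : ℝ) ≤ 2 ^ P * (((n.1 : ℝ) / 2 ^ 20) ^ i * ((n'.2.1 : ℝ) / 2 ^ 32) ^ j) := by
            rw [e, le_div_iff₀ hs]; exact_mod_cast h.1.1
        _ ≤ _ := by gcongr; exact hT.1
    · calc 2 ^ P * (T ^ i * cW T ^ j)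
          ≤ 2 ^ P * (((n'.1 : ℝ) / 2 ^ 20) ^ i * ((n.2.2 : ℝ) / 2 ^ 32) ^ j) := by
            gcongr; exact hT.2
        _ ≤ (b : ℝ) := by rw [e, div_le_iff₀ hs]; exact_mod_cast h.1.2

theorem tailTab_sound {P : ℕ} {n : Node} {T : ℝ} (hT : nodeT n ≤ T) :
    ∀ {B : List (ℕ × ℕ)} {lo hi : List ℕ}, tailTab P n B lo hi = true → TabB P T B lo hi
  | [], [], [], _ => trivial
  | [], _ :: _, _, h => by simp [tailTab] at h
  | [], [], _ :: _, h => by simp [tailTab] at h
  | _ :: _, [], _, h => by simp [tailTab] at h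
  | _ :: _, _ :: _, [], h => by simp [tailTab] at h
  | (i, j) :: B, a :: lo, b :: hi, h => by
    have hn := tailTab_node h
    simp only [tailTab, Bool.and_eq_true, decide_eq_true_eq] at h
    refine ⟨?_, tailTab_sound hT h.2⟩
    obtain ⟨⟨⟨hij, hlo⟩, hhi⟩, -⟩ := h
    have h0 : 0 ≤ nodeT n := by simp only [nodeT]; positivity
    have hT0 : 0 ≤ T := h0.trans hT
    have hc0 := (cW_pos T).le
    have hle : T * cW T ≤ 1 := cW_mul_le T hT0
    have hmono : nodeT n * cW (nodeT n) ≤ T * cW T := by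
      simp only [cW, ← div_eq_mul_inv]
      rw [div_le_div_iff₀ (sqrt_pos.2 (by positivity)) (sqrt_pos.2 (by positivity))]
      refine (sq_le_sq₀ (by positivity) (by positivity)).1 ?_
      rw [mul_pow, mul_pow, sq_sqrt (by positivity), sq_sqrt (by positivity)]
      nlinarith [pow_le_pow_left₀ h0 hT 2]
    have e : T ^ i * cW T ^ j = (T * cW T) ^ i * cW T ^ (j - i) := by
      rw [mul_pow, mul_assoc, ← pow_add, Nat.add_sub_cancel' hij]
    have hu := (cW_anti h0 hT).trans (nodeTest_sound hn).2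
    constructor
    · split_ifs at hlo with hc
      · subst hc
        simp only [decide_eq_true_eq] at hlo
        have h1 : (nodeT n) * ((n.2.1 : ℝ) / 2 ^ 32) ≤ T * cW T :=
          (mul_le_mul_of_nonneg_left (nodeTest_sound hn).1 h0).trans hmono
        rw [← mul_pow]
        refine le_trans ?_ (mul_le_mul_of_nonneg_left
          (pow_le_pow_left₀ (by positivity) h1 i) (by positivity))
        have h2 : ((a * 2 ^ (52 * i) : ℕ) : ℝ) ≤ (((n.1 * n.2.1) ^ i * 2 ^ P : ℕ) : ℝ) := by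
          exact_mod_cast hlo
        rw [show nodeT n * ((n.2.1 : ℝ) / 2 ^ 32) = ((n.1 : ℝ) * n.2.1) / 2 ^ 52 by
          simp only [nodeT]; rw [div_mul_div_comm, ← pow_add]]
        rw [div_pow, ← pow_mul, ← mul_div_assoc, le_div_iff₀ (by positivity)]
        push_cast at h2
        linarith
      · simp only [decide_eq_true_eq] at hlo
        subst hlo
        simp only [Nat.cast_zero]
        positivity
    · rw [e]
      calc 2 ^ P * ((T * cW T) ^ i * cW T ^ (j - i))
          ≤ 2 ^ P * (1 * ((n.2.2 : ℝ) / 2 ^ 32) ^ (j - i)) := by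
            gcongr
            exact pow_le_one₀ (mul_nonneg hT0 hc0) hle
        _ ≤ (b : ℝ) := by
          rw [one_mul, div_pow, ← pow_mul, ← mul_div_assoc, div_le_iff₀ (by positivity), mul_comm]
          exact_mod_cast hhi

lemma dot_nil (l : List ℕ) : dot l [] = 0 := by cases l <;> rfl

/-- The enclosure from atom bounds. -/
theorem encl_of_tab {P : ℕ} {T : ℝ} : ∀ {B : List (ℕ × ℕ)} {v : List ℤ} {lo hi : List ℕ},
    TabB P T B lo hi →
      ((encl (mkFn v) lo hi []).1 : ℝ) ≤ 2 ^ P * evalB B v T ∧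
        2 ^ P * evalB B v T ≤ ((encl (mkFn v) lo hi []).2 : ℝ) := by
  intro B
  induction B with
  | nil =>
    intro v lo hi h
    cases lo <;> cases hi <;> simp [TabB] at h
    cases v <;> simp [evalB, encl, mkFn, dot]
  | cons k B ih =>
    obtain ⟨i, j⟩ := k
    intro v lo hi h
    cases lo <;> cases hi <;> simp [TabB] at h
    rename_i a lo b hi
    cases v with
    | nil => simp [evalB, encl, mkFn, dot]
    | cons w v =>
      obtain ⟨ih1, ih2⟩ := ih (v := v) h.2
      obtain ⟨⟨d1, d2⟩, -⟩ := h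
      have hp : ((w.toNat : ℕ) : ℝ) - (((-w).toNat : ℕ) : ℝ) = w := by
        exact_mod_cast Int.toNat_sub_toNat_neg w
      have p0 : (0 : ℝ) ≤ ((w.toNat : ℕ) : ℝ) := Nat.cast_nonneg _
      have q0 : (0 : ℝ) ≤ (((-w).toNat : ℕ) : ℝ) := Nat.cast_nonneg _
      simp only [encl, mkFn, List.map_cons, dot, dot_nil] at ih1 ih2 ⊢
      simp only [evalB]
      push_cast at ih1 ih2 ⊢
      rw [← hp]
      have k1 := mul_le_mul_of_nonneg_left d1 p0
      have k2 := mul_le_mul_of_nonneg_left d2 q0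
      have k3 := mul_le_mul_of_nonneg_left d2 p0
      have k4 := mul_le_mul_of_nonneg_left d1 q0
      constructor <;> linarith

/-- `dot` as a plain recursor on raw operations. -/
noncomputable def dotR (p : List ℕ) : List ℕ → ℕ :=
  @List.rec ℕ (fun _ => List ℕ → ℕ) (fun _ => 0)
    (fun a _ ih r => @List.rec ℕ (fun _ => ℕ) 0 (fun b t _ => Nat.add (Nat.mul a b) (ih t)) r) p

lemma dotR_eq : ∀ p r : List ℕ, dotR p r = dot p r
  | [], _ => by cases ‹List ℕ› <;> rfl
  | a :: p, [] => rfl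
  | a :: p, b :: r => by
    show Nat.add (Nat.mul a b) (dotR p r) = _
    rw [dotR_eq p r]; rfl

/-- The enclosure from bounds of the atoms alone. -/
noncomputable def enclT (f : Fn) (lo hi : List ℕ) : ℤ × ℤ :=
  AtomSort.litI ((dotR f.1 lo : ℤ) - (dotR f.2.1 hi : ℕ)) fun a =>
    AtomSort.litI (((dotR f.1 hi : ℕ) : ℤ) - (dotR f.2.1 lo : ℕ)) fun b => (a, b)

lemma enclT_eq (f : Fn) (lo hi : List ℕ) : enclT f lo hi = encl f lo hi [] := by
  simp [enclT, encl, AtomSort.litI_eq, dotR_eq, dot_nil]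

/-- The enclosures of a polynomial from bounds of the atoms alone. -/
noncomputable def enclPT (p : CellCert.Poly Fn) (lo hi : List ℕ) : CellCert.Poly (ℤ × ℤ) :=
  ⟨enclT p.c00 lo hi, enclT p.c10 lo hi, enclT p.c20 lo hi, enclT p.c30 lo hi, enclT p.c01 lo hi,
    enclT p.c11 lo hi, enclT p.c02 lo hi⟩

lemma enclPT_eq (p : CellCert.Poly Fn) (lo hi : List ℕ) : enclPT p lo hi = enclP p lo hi [] := by
  simp [enclPT, enclP, enclT_eq]

/-- The test of a cell with constant atom bounds. -/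
noncomputable def flatTest (F : VFam) (lo hi : List ℕ) (l h x0 x1 : ℤ) : Bool :=
  ctrlAll (enclPT F.a lo hi) (enclPT F.b lo hi) (enclPT F.N lo hi) (enclPT F.d lo hi) l h x0 x1

/-- **A tested flat cell gives `Quad`.** -/
theorem flatTest_sound {P : ℕ} {B : List (ℕ × ℕ)} {lo hi : List ℕ} {l h x0 x1 : ℤ}
    {pa pb pN pd : CellCert.Poly (List ℤ)} {T D X : ℝ}
    (ht : flatTest ⟨pa.fn, pb.fn, pN.fn, pd.fn⟩ lo hi l h x0 x1 = true) (hc : TabB P T B lo hi)
    (hD : D ∈ Icc ((l : ℝ) / 2 ^ 32) ((h : ℝ) / 2 ^ 32))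
    (hX : X ∈ Icc ((x0 : ℝ) / 2 ^ 32) ((x1 : ℝ) / 2 ^ 32)) :
    Quad ((pa.at B T).val D X) ((pb.at B T).val D X) ((pN.at B T).val D X) ((pd.at B T).val D X) := by
  set g : List ℤ → ℝ := fun w => 2 ^ P * evalB B w T with hg
  have Pi : ∀ p : CellCert.Poly (List ℤ),
      (⟨g p.c00, g p.c10, g p.c20, g p.c30, g p.c01, g p.c11, g p.c02⟩ : CellCert.Poly ℝ).In
        (enclP p.fn lo hi []) := fun p =>
    ⟨encl_of_tab hc, encl_of_tab hc, encl_of_tab hc, encl_of_tab hc, encl_of_tab hc,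
      encl_of_tab hc, encl_of_tab hc⟩
  simp only [flatTest, enclPT_eq] at ht
  have Q := ctrlAll_sound ht (Pi pa) (Pi pb) (Pi pN) (Pi pd) hD hX
  have e : ∀ p : CellCert.Poly (List ℤ),
      (⟨g p.c00, g p.c10, g p.c20, g p.c30, g p.c01, g p.c11, g p.c02⟩ : CellCert.Poly ℝ).val D X =
        2 ^ P * (p.at B T).val D X := fun p => by
    simp only [CellCert.Poly.val, CellCert.Poly.at, hg]; ring
  rw [e, e, e, e] at Q
  have := Q.smul (inv_nonneg.2 (by positivity : (0 : ℝ) ≤ 2 ^ P))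
  simpa [inv_mul_cancel_left₀ (show (2 : ℝ) ^ P ≠ 0 by positivity)] using this

/-- A rescaling: `D = δ T^a cW^b`, `X = ξ T^c cW^e`, common factor `T^p cW^q`. -/
structure Resc where
  a : ℕ
  b : ℕ
  c : ℕ
  e : ℕ
  p : ℕ
  q : ℕ

/-- Remove the factor `T^p cW^q`. -/
def down (p q : ℕ) : List Atom → Option (List Atom)
  | [] => some []
  | (w, i, j) :: l =>
    if p ≤ i ∧ q ≤ j then (down p q l).map ((w, i - p, j - q) :: ·) else none

lemma eval_down {p q : ℕ} {T : ℝ} : ∀ {l r : List Atom}, down p q l = some r →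
    eval l T = T ^ p * cW T ^ q * eval r T
  | [], r, h => by obtain rfl := Option.some.inj h; simp [eval]
  | (w, i, j) :: l, r, h => by
    simp only [down] at h
    split_ifs at h with hc
    obtain ⟨u, hu, rfl⟩ := Option.map_eq_some_iff.1 h
    simp only [eval, eval_down hu]
    obtain ⟨i, rfl⟩ := Nat.exists_eq_add_of_le hc.1
    obtain ⟨j, rfl⟩ := Nat.exists_eq_add_of_le hc.2
    simp only [Nat.add_sub_cancel_left, pow_add]
    ring

/-- The rescaled coefficient lists. -/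
def Resc.poly (r : Resc) (q : CellCert.Poly (List Atom)) : Option (CellCert.Poly (List Atom)) := do
  let c00 ← down r.p r.q q.c00
  let c10 ← down r.p r.q (shift r.a r.b q.c10)
  let c20 ← down r.p r.q (shift (2 * r.a) (2 * r.b) q.c20)
  let c30 ← down r.p r.q (shift (3 * r.a) (3 * r.b) q.c30)
  let c01 ← down r.p r.q (shift r.c r.e q.c01)
  let c11 ← down r.p r.q (shift (r.a + r.c) (r.b + r.e) q.c11)
  let c02 ← down r.p r.q (shift (2 * r.c) (2 * r.e) q.c02)
  return ⟨c00, c10, c20, c30, c01, c11, c02⟩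

lemma Resc.poly_val {r : Resc} {q q' : CellCert.Poly (List Atom)} (h : r.poly q = some q')
    (T δ ξ : ℝ) : (evP q T).val (δ * (T ^ r.a * cW T ^ r.b)) (ξ * (T ^ r.c * cW T ^ r.e)) =
      T ^ r.p * cW T ^ r.q * (evP q' T).val δ ξ := by
  simp only [Resc.poly, Option.bind_eq_bind, Option.pure_def, Option.bind_eq_some_iff,
    Option.some.injEq] at h
  obtain ⟨c0, h0, c1, h1, c2, h2, c3, h3, c4, h4, c5, h5, c6, h6, rfl⟩ := h
  have k0 := eval_down (T := T) h0
  have k1 := eval_down (T := T) h1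
  have k2 := eval_down (T := T) h2
  have k3 := eval_down (T := T) h3
  have k4 := eval_down (T := T) h4
  have k5 := eval_down (T := T) h5
  have k6 := eval_down (T := T) h6
  simp only [eval_shift, pow_add, pow_mul'] at k1 k2 k3 k4 k5 k6
  simp only [evP, CellCert.Poly.val]
  linear_combination k0 + δ * k1 + δ ^ 2 * k2 + δ ^ 3 * k3 + ξ * k4 + δ * ξ * k5 + ξ ^ 2 * k6

/-- The rescaled dense family of a vertex. -/
noncomputable def rfam (B : List (ℕ × ℕ)) (r : Resc) (m : ℕ) (p : APar) (s : Side) : Option VFam := do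
  let a ← (r.poly (vxLists m p s).1).bind (denseP B)
  let b ← (r.poly (vxLists m p s).2.1).bind (denseP B)
  let c ← (r.poly (vxLists m p s).2.2.1).bind (denseP B)
  let d ← (r.poly (vxLists m p s).2.2.2).bind (denseP B)
  return ⟨a.fn, b.fn, c.fn, d.fn⟩

/-- **A tested rescaled flat cell gives the vertex condition.** -/
theorem vxOk_of_flat {P : ℕ} {B : List (ℕ × ℕ)} {r : Resc} {m : ℕ} {p : APar} {s : Side}
    {F : VFam} {lo hi : List ℕ} {l h x0 x1 : ℤ} {T σ X δ ξ : ℝ}
    (hF : rfam B r m p s = some F) (ht : flatTest F lo hi l h x0 x1 = true)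
    (hc : TabB P T B lo hi) (hZ : 0 < p.Z) (hT : 0 < T)
    (eD : σ - T = δ * (T ^ r.a * cW T ^ r.b)) (eX : X = ξ * (T ^ r.c * cW T ^ r.e))
    (hD : δ ∈ Icc ((l : ℝ) / 2 ^ 32) ((h : ℝ) / 2 ^ 32))
    (hX : ξ ∈ Icc ((x0 : ℝ) / 2 ^ 32) ((x1 : ℝ) / 2 ^ 32)) :
    VxOk m (p.fam.at T) ((p.eps : ℝ) / p.Z) ((p.eta : ℝ) / p.Z) (ev p.Z s.th T)
      (s.ph p.Z T (σ - T)) (ev p.Z s.nu T) T σ X := by
  simp only [rfam, Option.bind_eq_bind, Option.pure_def, Option.bind_eq_some_iff,
    Option.some.injEq] at hF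
  obtain ⟨a, ⟨a', ha', ha⟩, b, ⟨b', hb', hb⟩, c, ⟨c', hc', hc2⟩, d, ⟨d', hd', hd⟩, rfl⟩ := hF
  have hq := flatTest_sound ht hc hD hX
  rw [denseP_at ha, denseP_at hb, denseP_at hc2, denseP_at hd] at hq
  have hq2 := hq.smul (mul_nonneg (pow_nonneg hT.le r.p) (pow_nonneg (cW_pos T).le r.q))
  rw [← Resc.poly_val ha', ← Resc.poly_val hb', ← Resc.poly_val hc', ← Resc.poly_val hd', ← eD,
    ← eX] at hq2
  exact vxOk_of_quad hZ hT rfl hq2

end Vale.Agent.P237.Cal.CellEnds
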