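import Vale.Agent.P237.Cal.Region
import Vale.Agent.P237.Cal.BridgeX

/-!
# P237: the range of the state `X`

With `s = √(1 - y²)` and `X₀ = (semiMom s - s y^k)/Y^k`, the value of `X` on the least profile,
every admissible point and every tail point has `X₀ ≤ X ≤ X₀ + (V - V₀)/Y^k`.
-/

open MeasureTheory Set Real intervalIntegral

namespace Vale.Agent.P237.Cal

variable {m : ℕ} {V Y t y d A : ℝ}

/-- The state on the least profile at height `y`. -/
noncomputable def Xlow (m : ℕ) (Y y : ℝ) : ℝ :=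
  (semiMom m √(1 - y ^ 2) - √(1 - y ^ 2) * y ^ (m + 1)) / Y ^ (m + 1)

lemma semi_le_of_ge {y x : ℝ} (hy : 0 ≤ y) (hx : √(1 - y ^ 2) ≤ x) : √(1 - x ^ 2) ≤ y := by
  rw [sqrt_le_left hy]
  have hx0 : 0 ≤ x := (sqrt_nonneg _).trans hx
  rcases le_or_gt (y ^ 2) 1 with h | h
  · have := pow_le_pow_left₀ (sqrt_nonneg _) hx 2
    rw [sq_sqrt (by linarith)] at this
    linarith
  · nlinarith

/-- `∫_s^b c^k ≤ (b - s) y^k` for `s = √(1-y²) ≤ b`. -/
lemma semiMom_sub_le {y b : ℝ} (hy : 0 ≤ y) (hb : √(1 - y ^ 2) ≤ b) :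
    semiMom m b - semiMom m √(1 - y ^ 2) ≤ (b - √(1 - y ^ 2)) * y ^ (m + 1) := by
  simp only [semiMom]
  rw [← integral_add_adjacent_intervals (semi_int (m := m) 0 √(1 - y ^ 2)) (semi_int _ b),
    add_sub_cancel_left]
  calc ∫ x in √(1 - y ^ 2)..b, √(1 - x ^ 2) ^ (m + 1)
      ≤ ∫ _x in √(1 - y ^ 2)..b, y ^ (m + 1) :=
        integral_mono_on hb (semi_int _ _) intervalIntegrable_const fun x hx =>
          pow_le_pow_left₀ (sqrt_nonneg _) (semi_le_of_ge hy hx.1) _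
    _ = _ := by simp

/-- The range of `X` at an admissible point. -/
theorem Xof_bounds (hA : AdmY m V Y t y d A) :
    Xlow m Y y ≤ Xof m Y t y A ∧
      Xof m Y t y A ≤ Xlow m Y y + (V - semiMom m 1) / Y ^ (m + 1) := by
  have hy := hA.adm.pos
  have hY : 0 < Y := lt_of_lt_of_le one_pos hA.one_le
  have hk : 0 < Y ^ (m + 1) := pow_pos hY _
  have hs : √(1 - y ^ 2) ≤ t := by
    rw [sqrt_le_left hA.adm.mem.1.le]
    have := pow_le_pow_left₀ (sqrt_nonneg _) hA.adm.semi 2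
    rw [sq_sqrt (by nlinarith [hA.adm.mem.1, hA.adm.mem.2])] at this
    linarith
  have h1 := hA.adm.nearSemi _ ⟨sqrt_nonneg _, hs⟩
  have h2 := hA.adm.upper
  have h3 := semiMom_sub_le (m := m) hy.le hs
  simp only [Xlow, Xof]
  refine ⟨(div_le_div_iff_of_pos_right hk).2 (by linarith), ?_⟩
  rw [← add_div]
  exact (div_le_div_iff_of_pos_right hk).2 (by linarith)

/-- `X ≤ t (1 - (y/Y)^k)`: the profile stays below `Y`. -/
theorem Xof_le_top (hA : AdmY m V Y t y d A) :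
    Xof m Y t y A ≤ t * (1 - (y / Y) ^ (m + 1)) := by
  have hY : 0 < Y := lt_of_lt_of_le one_pos hA.one_le
  simp only [Xof]
  rw [div_le_iff₀ (pow_pos hY _), div_pow]
  field_simp
  linarith [hA.mass_top]

/-- The range of `X` on the tail. -/
theorem Xtail_bounds {T : ℝ} (hY : 1 ≤ Y)
    (hH : hullMom m Y (Y / √(1 + T ^ 2)) ≤ V) :
    Xlow m Y (Y / √(1 + T ^ 2)) ≤ V / Y ^ (m + 1) - (√(1 + T ^ 2) ^ (m + 1))⁻¹ ∧
      V / Y ^ (m + 1) - (√(1 + T ^ 2) ^ (m + 1))⁻¹ ≤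
        Xlow m Y (Y / √(1 + T ^ 2)) + (V - semiMom m 1) / Y ^ (m + 1) := by
  have hY0 : 0 < Y := lt_of_lt_of_le one_pos hY
  have hW : 1 ≤ √(1 + T ^ 2) := one_le_sqrt.2 (by nlinarith)
  set z := Y / √(1 + T ^ 2) with hz
  have hz0 : 0 ≤ z := by positivity
  have hzY : z ≤ Y := div_le_self hY0.le hW
  have hk : 0 < Y ^ (m + 1) := pow_pos hY0 _
  have e : (√(1 + T ^ 2) ^ (m + 1))⁻¹ = z ^ (m + 1) / Y ^ (m + 1) := by
    rw [hz, div_pow]; field_simp
  have hs1 : √(1 - z ^ 2) ≤ 1 := by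
    rw [sqrt_le_one]; nlinarith
  have h1 : semiMom m √(1 - z ^ 2) + (1 - √(1 - z ^ 2)) * z ^ (m + 1) ≤ V := by
    refine le_trans ?_ hH
    simp only [hullMom, semiMom]
    rw [← integral_add_adjacent_intervals (b := √(1 - z ^ 2))
      (Continuous.intervalIntegrable (by fun_prop) _ _)
      (Continuous.intervalIntegrable (by fun_prop) _ _) (f := fun x =>
        max (√(1 - x ^ 2)) (Y + (z - Y) * x) ^ (m + 1))]
    refine add_le_add (integral_mono_on (sqrt_nonneg _) (semi_int _ _)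
      (Continuous.intervalIntegrable (by fun_prop) _ _) fun x _ =>
        pow_le_pow_left₀ (sqrt_nonneg _) (le_max_left _ _) _) ?_
    calc (1 - √(1 - z ^ 2)) * z ^ (m + 1) = ∫ _x in √(1 - z ^ 2)..1, z ^ (m + 1) := by simp
      _ ≤ _ := integral_mono_on hs1 intervalIntegrable_const
          (Continuous.intervalIntegrable (by fun_prop) _ _) fun x hx => by
        refine pow_le_pow_left₀ hz0 (le_max_of_le_right ?_) _
        nlinarith [hx.2]
  have h2 := semiMom_sub_le (m := m) hz0 hs1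
  simp only [Xlow]
  rw [e, ← sub_div]
  refine ⟨(div_le_div_iff_of_pos_right hk).2 (by linarith), ?_⟩
  rw [← add_div]
  exact (div_le_div_iff_of_pos_right hk).2 (by linarith)

/-- The bound `X ≤ t (1 - (y/Y)^k)` on the tail, where `t = 1`. -/
theorem Xtail_le_top {T : ℝ} (hY : 1 ≤ Y) (hV : V ≤ Y ^ (m + 1)) :
    V / Y ^ (m + 1) - (√(1 + T ^ 2) ^ (m + 1))⁻¹ ≤ 1 - (√(1 + T ^ 2) ^ (m + 1))⁻¹ := by
  have : V / Y ^ (m + 1) ≤ 1 :=
    (div_le_one (pow_pos (lt_of_lt_of_le one_pos hY) _)).2 hV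
  linarith

end Vale.Agent.P237.Cal
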