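import Vale.Agent.P237.Cal.FieldX
import Vale.Agent.P237.Cal.StateBounds

/-!
# P237: closed bounds for the centred state

At admissible and tail points `-(k (Y² - 1)) ∫₀ᵀ W^(-(n+2)) ≤ X - X₀(T) ≤ (V - V₀)/Y^k`, and at
admissible points also `X ≤ (σ/W)(1 - W^(-k))`.
-/

open MeasureTheory Set Filter Topology Real

namespace Vale.Agent.P237.Cal

variable {m : ℕ} {V Y t y d A : ℝ}

/-- The price of the lower bound of the centred state. -/
noncomputable def lowI (m : ℕ) (T : ℝ) : ℝ :=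
  ∫ u in (0 : ℝ)..T, ((m : ℝ) + 1) * (u ^ 0 / √(1 + u ^ 2) ^ (m + 4))

lemma hasDerivAt_lowI (T : ℝ) :
    HasDerivAt (lowI m) (((m : ℝ) + 1) / √(1 + T ^ 2) ^ (m + 4)) T := by
  refine (((mom_continuous 0 (m + 4)).const_mul ((m : ℝ) + 1)).integral_hasStrictDerivAt 0
    T).hasDerivAt.congr_deriv ?_
  simp [div_eq_mul_inv]

lemma lowI_le {T : ℝ} (hT : 0 ≤ T) : lowI m T ≤ ((m : ℝ) + 1) * mom 0 (m + 4) := by
  rw [lowI, intervalIntegral.integral_const_mul, intervalIntegral.integral_of_le hT]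
  refine mul_le_mul_of_nonneg_left ?_ (by positivity)
  refine setIntegral_mono_set (mom_integrable (by omega)) ?_ ?_
  · filter_upwards [ae_restrict_mem measurableSet_Ioi] with u hu
    have : (0 : ℝ) < u := hu
    positivity
  · exact (Ioc_subset_Ioi_self).eventuallyLE

/-- The derivative of the partial moment of the semicircle. -/
lemma hasDerivAt_semiMom (s : ℝ) :
    HasDerivAt (semiMom m) (√(1 - s ^ 2) ^ (m + 1)) s :=
  ((by fun_prop : Continuous fun x : ℝ => √(1 - x ^ 2) ^ (m + 1)).integral_hasStrictDerivAt 0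
    s).hasDerivAt

/-- The least state minus the state of the ball, at height `T`. -/
noncomputable def lowG (m : ℕ) (Y T : ℝ) : ℝ :=
  Xlow m Y (Y / √(1 + T ^ 2)) - X0 m T

lemma continuous_lowG (Y : ℝ) : Continuous (lowG m Y) := by
  have hw : Continuous fun T : ℝ => Y / √(1 + T ^ 2) :=
    continuous_const.div (by fun_prop) fun T => (w_pos T).ne'
  have hs : Continuous (semiMom m) :=
    continuous_iff_continuousAt.2 fun s => (hasDerivAt_semiMom s).continuousAt
  unfold lowG Xlow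
  have := continuous_X0 (m := m)
  fun_prop

lemma lowG_zero (hY : 1 ≤ Y) : lowG m Y 0 = 0 := by
  have h : √(1 - Y ^ 2) = 0 := Real.sqrt_eq_zero_of_nonpos (by nlinarith)
  simp [lowG, Xlow, h, X0_zero, semiMom]

/-- Below `√(Y²-1)` the least state vanishes. -/
lemma hasDerivAt_lowG_small {T : ℝ} (hT : T ^ 2 < Y ^ 2 - 1) :
    HasDerivAt (lowG m Y) (-(muX m T * T)) T := by
  have hev : (fun x => lowG m Y x) =ᶠ[𝓝 T] fun x => -X0 m x := by
    have : ∀ᶠ x in 𝓝 T, x ^ 2 < Y ^ 2 - 1 :=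
      (continuous_pow 2).continuousAt.eventually_lt_const hT
    filter_upwards [this] with x hx
    have h : √(1 - (Y / √(1 + x ^ 2)) ^ 2) = 0 := by
      refine Real.sqrt_eq_zero_of_nonpos ?_
      rw [div_pow, w_sq, sub_nonpos, one_le_div (by positivity)]
      linarith
    simp [lowG, Xlow, h, semiMom]
  exact (hasDerivAt_X0 T).neg.congr_of_eventuallyEq hev

/-- Above `√(Y²-1)` its derivative is `mu (√(T²+1-Y²) - T)`. -/
lemma hasDerivAt_lowG_large {T : ℝ} (hY : 0 < Y) (hT : Y ^ 2 - 1 < T ^ 2) :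
    HasDerivAt (lowG m Y) (muX m T * (√(T ^ 2 + 1 - Y ^ 2) - T)) T := by
  have hw := w_pos T
  have hws := w_sq T
  set y : ℝ → ℝ := fun x => Y / √(1 + x ^ 2) with hy
  set y' := -(Y * T / √(1 + T ^ 2) ^ 3) with hy'
  have hyd : HasDerivAt y y' T := by
    refine ((hasDerivAt_w_inv 1 T).const_mul Y).congr_of_eventuallyEq
      (Eventually.of_forall fun x => ?_) |>.congr_deriv ?_
    · simp [hy, div_eq_mul_inv]
    · simp only [hy']; push_cast; ring
  have hy0 : 0 < y T := by positivity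
  have hy1 : y T ^ 2 < 1 := by
    rw [hy]; simp only
    rw [div_pow, hws, div_lt_one (by positivity)]
    linarith
  have harg : 0 < 1 - y T ^ 2 := by linarith
  have hsd := ((hyd.fun_pow 2).const_sub 1).sqrt harg.ne'
  have hsm := (hasDerivAt_semiMom (m := m) √(1 - y T ^ 2)).comp T hsd
  have hback : √(1 - √(1 - y T ^ 2) ^ 2) = y T := by
    rw [sq_sqrt harg.le, sub_sub_cancel, sqrt_sq hy0.le]
  rw [hback] at hsm
  have key := ((hsm.sub (hsd.fun_mul (hyd.fun_pow (m + 1)))).div_const (Y ^ (m + 1))).sub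
    (hasDerivAt_X0 (m := m) T)
  refine (key.congr_of_eventuallyEq (Eventually.of_forall fun x => ?_)).congr_deriv ?_
  · simp [lowG, Xlow, hy, Function.comp_apply]
  · have hsq : √(1 - y T ^ 2) = √(T ^ 2 + 1 - Y ^ 2) / √(1 + T ^ 2) := by
      rw [← Real.sqrt_div' _ (by positivity)]
      congr 1
      rw [hy]; simp only
      rw [div_pow, hws]
      field_simp
      ring
    have hR : 0 < √(T ^ 2 + 1 - Y ^ 2) := sqrt_pos.2 (by linarith)
    simp only [muX, hy', Nat.add_sub_cancel, hsq]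
    simp only [hy, div_pow]
    push_cast
    rw [show m + 4 = m + 1 + 3 from rfl, pow_add]
    field_simp
    ring

/-- Two-sided bound for the least state. -/
lemma lowG_bounds (hY : 1 ≤ Y) {T : ℝ} (hT : 0 ≤ T) :
    -((Y ^ 2 - 1) * lowI m T) ≤ lowG m Y T ∧ lowG m Y T ≤ 0 := by
  have hY0 : 0 < Y := one_pos.trans_le hY
  set η := Y ^ 2 - 1 with hη
  have hη0 : 0 ≤ η := by rw [hη]; nlinarith
  set T0 := √η with hT0
  have hT0s : T0 ^ 2 = η := sq_sqrt hη0
  have hcI : Continuous (lowI m) :=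
    continuous_iff_continuousAt.2 fun x => (hasDerivAt_lowI x).continuousAt
  set H : ℝ → ℝ := fun x => lowG m Y x + η * lowI m x with hH
  have hcH : Continuous H := (continuous_lowG Y).add (continuous_const.mul hcI)
  -- the derivatives away from `T0`
  have hd : ∀ x, 0 < x → x ≠ T0 → ∃ g', HasDerivAt (lowG m Y) g' x ∧ g' ≤ 0 ∧
      0 ≤ g' + η * (((m : ℝ) + 1) / √(1 + x ^ 2) ^ (m + 4)) := by
    intro x hx hne
    have e : ∀ r, muX m x * r + η * (((m : ℝ) + 1) / √(1 + x ^ 2) ^ (m + 4)) =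
        (((m : ℝ) + 1) / √(1 + x ^ 2) ^ (m + 4)) * (x * r + η) := fun r => by
      simp only [muX]; ring
    have hmu : 0 ≤ muX m x := by unfold muX; positivity
    rcases hne.lt_or_gt with h | h
    · have hx2 : x ^ 2 < η := hT0s ▸ pow_lt_pow_left₀ h hx.le two_ne_zero
      refine ⟨_, hasDerivAt_lowG_small hx2, by nlinarith, ?_⟩
      rw [← mul_neg, e]
      exact mul_nonneg (by positivity) (by nlinarith)
    · have hx2 : η < x ^ 2 := hT0s ▸ pow_lt_pow_left₀ h (sqrt_nonneg _) two_ne_zero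
      refine ⟨_, hasDerivAt_lowG_large hY0 hx2, ?_, ?_⟩
      · refine mul_nonpos_of_nonneg_of_nonpos hmu (sub_nonpos.2 ?_)
        rw [sqrt_le_left hx.le]
        linarith
      · rw [e]
        refine mul_nonneg (by positivity) ?_
        have hr := sq_sqrt (by linarith : 0 ≤ x ^ 2 + 1 - Y ^ 2)
        have hr0 := sqrt_nonneg (x ^ 2 + 1 - Y ^ 2)
        have hrx : √(x ^ 2 + 1 - Y ^ 2) ≤ x := by rw [sqrt_le_left hx.le]; linarith
        nlinarith [mul_nonneg hr0 (sub_nonneg.2 hrx)]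
  have hT00 : 0 ≤ T0 := sqrt_nonneg _
  have hmem : ∀ a b, 0 ≤ a → (b ≤ T0 ∨ T0 ≤ a) → ∀ x ∈ Ioo a b, 0 < x ∧ x ≠ T0 := by
    intro a b ha hab x hx
    refine ⟨ha.trans_lt hx.1, ?_⟩
    rintro rfl
    rcases hab with h | h
    · exact absurd h (not_le.2 hx.2)
    · exact absurd h (not_le.2 hx.1)
  have hanti : ∀ a b, 0 ≤ a → (b ≤ T0 ∨ T0 ≤ a) → a ≤ b →
      lowG m Y b ≤ lowG m Y a ∧ H a ≤ H b := by
    intro a b ha hab hle
    constructor
    · refine antitoneOn_of_deriv_nonpos (convex_Icc a b) (continuous_lowG Y).continuousOn ?_ ?_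
        (left_mem_Icc.2 hle) (right_mem_Icc.2 hle) hle
      all_goals
        intro x hx
        rw [interior_Icc] at hx
        obtain ⟨g', h1, h2, -⟩ := hd x (hmem a b ha hab x hx).1 (hmem a b ha hab x hx).2
      · exact h1.differentiableAt.differentiableWithinAt
      · rw [h1.deriv]; exact h2
    · refine monotoneOn_of_deriv_nonneg (convex_Icc a b) hcH.continuousOn ?_ ?_
        (left_mem_Icc.2 hle) (right_mem_Icc.2 hle) hle
      all_goals
        intro x hx
        rw [interior_Icc] at hx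
        obtain ⟨g', h1, -, h3⟩ := hd x (hmem a b ha hab x hx).1 (hmem a b ha hab x hx).2
        have h4 : HasDerivAt H _ x := h1.fun_add ((hasDerivAt_lowI (m := m) x).const_mul η)
      · exact h4.differentiableAt.differentiableWithinAt
      · rw [h4.deriv]; exact h3
  have hH0 : H 0 = 0 := by simp [hH, lowG_zero hY, lowI]
  have main : lowG m Y T ≤ 0 ∧ 0 ≤ H T := by
    rcases le_total T T0 with h | h
    · have h1 := hanti 0 T le_rfl (Or.inl h) hT
      rw [lowG_zero hY, hH0] at h1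
      exact h1
    · have h1 := hanti 0 T0 le_rfl (Or.inl le_rfl) hT00
      have h2 := hanti T0 T hT00 (Or.inr le_rfl) h
      rw [lowG_zero hY, hH0] at h1
      exact ⟨h2.1.trans h1.1, h1.2.trans h2.2⟩
  refine ⟨?_, main.1⟩
  have := main.2
  simp only [hH] at this
  linarith

/-- The centred state at an admissible point. -/
theorem centred_Xof (hA : AdmY m V Y t y d A) :
    -((Y ^ 2 - 1) * lowI m (Tof Y y)) ≤ Xof m Y t y A - X0 m (Tof Y y) ∧
      Xof m Y t y A - X0 m (Tof Y y) ≤ (V - semiMom m 1) / Y ^ (m + 1) ∧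
      Xof m Y t y A ≤ (Y * t / y) / √(1 + Tof Y y ^ 2) *
        (1 - 1 / √(1 + Tof Y y ^ 2) ^ (m + 1)) := by
  have hy := hA.adm.pos
  have hY : 0 < Y := one_pos.trans_le hA.one_le
  have hW := Tof_sq hy hA.lt_top.le
  obtain ⟨h1, h2⟩ := Xof_bounds hA
  obtain ⟨g1, g2⟩ := lowG_bounds (m := m) hA.one_le (Tof_pos hy hA.lt_top).le
  have e : Y / √(1 + Tof Y y ^ 2) = y := by rw [hW]; field_simp
  simp only [lowG, e] at g1 g2
  refine ⟨by linarith, by linarith, ?_⟩
  rw [hW, show Y * t / y / (Y / y) = t by field_simp, div_pow, one_div_div,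
    mul_sub, mul_one, Xof, ← mul_div_assoc, div_le_iff₀ (pow_pos hY _), sub_mul,
    div_mul_cancel₀ _ (pow_pos hY _).ne']
  linarith [hA.mass_top]

/-- The centred state on the tail. -/
theorem centred_tail {T : ℝ} (hT : 0 ≤ T) (hY : 1 ≤ Y)
    (hH : hullMom m Y (Y / √(1 + T ^ 2)) ≤ V) :
    -((Y ^ 2 - 1) * lowI m T) ≤ V / Y ^ (m + 1) - (√(1 + T ^ 2) ^ (m + 1))⁻¹ - X0 m T ∧
      V / Y ^ (m + 1) - (√(1 + T ^ 2) ^ (m + 1))⁻¹ - X0 m T ≤
        (V - semiMom m 1) / Y ^ (m + 1) := by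
  obtain ⟨h1, h2⟩ := Xtail_bounds (m := m) hY hH
  obtain ⟨g1, g2⟩ := lowG_bounds (m := m) hY hT
  simp only [lowG] at g1 g2
  exact ⟨by linarith, by linarith⟩

end Vale.Agent.P237.Cal
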