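import Vale.Agent.P237.Cal.BoxFrame
import Vale.Agent.P237.Cal.Mass

/-!
# P237: a sharper rational form of the chord bound
-/

open MeasureTheory Set Real intervalIntegral

namespace Vale.Agent.P237.Cal

/-- The Taylor polynomial of `exp x - 1` of degree five, in Horner form. -/
noncomputable def expM5 (x : ℝ) : ℝ :=
  x * (1 + x / 2 * (1 + x / 3 * (1 + x / 4 * (1 + x / 5))))

lemma expM5_pos {x : ℝ} (hx : 0 < x) : 0 < expM5 x := by
  unfold expM5; positivity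

lemma one_add_expM5_le {x : ℝ} (hx : 0 ≤ x) : 1 + expM5 x ≤ exp x := by
  have h := sum_le_exp_of_nonneg hx 6
  simp only [Finset.sum_range_succ, Finset.sum_range_zero, Nat.factorial,
    Nat.succ_eq_add_one] at h
  norm_num at h
  simp only [expM5]
  linarith

lemma expM5_mono {x y : ℝ} (hx : 0 ≤ x) (hxy : x ≤ y) : expM5 x ≤ expM5 y := by
  have hy := hx.trans hxy
  unfold expM5
  gcongr

/-- `exp ((n s/2)/(1 + s/2)) ≤ W^n`, `W = √(1+s)`. -/
lemma exp_le_w_pow (n : ℕ) {s : ℝ} (hs : 0 ≤ s) :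
    exp ((n : ℝ) * s / 2 / (1 + s / 2)) ≤ √(1 + s) ^ n := by
  have hw : 0 < √(1 + s) := sqrt_pos.2 (by linarith)
  rw [← exp_log (pow_pos hw n), exp_le_exp, log_pow, log_sqrt (by linarith)]
  have h := mul_le_mul_of_nonneg_left (le_log_one_add_of_nonneg hs)
    (by positivity : (0 : ℝ) ≤ (n : ℝ) / 2)
  refine le_trans (le_of_eq ?_) (h.trans (le_of_eq ?_))
  · field_simp; ring
  · ring

/-- **The chord bound, sharp rational form.** -/
theorem chordFactor_le_tight {n : ℕ} (hn : 0 < n) {s : ℝ} (hs : 0 < s) :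
    (n : ℝ) * (√(1 + s) - 1) / (1 - (√(1 + s) ^ n)⁻¹) ≤
      (n : ℝ) * s / (√(1 + s) + 1) * (1 + 1 / expM5 ((n : ℝ) * s / 2 / (1 + s / 2))) := by
  have hn' : (0 : ℝ) < n := Nat.cast_pos.2 hn
  have hw : 0 < √(1 + s) := sqrt_pos.2 (by linarith)
  have e : (n : ℝ) * (√(1 + s) - 1) = (n : ℝ) * s / (√(1 + s) + 1) := by
    rw [eq_div_iff (by linarith)]
    nlinarith [sq_sqrt (by linarith : (0 : ℝ) ≤ 1 + s)]
  set x := (n : ℝ) * s / 2 / (1 + s / 2) with hx
  have hx0 : 0 < x := by positivity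
  have hP := expM5_pos hx0
  have hE : 1 + expM5 x ≤ √(1 + s) ^ n :=
    (one_add_expM5_le hx0.le).trans (exp_le_w_pow n hs.le)
  generalize √(1 + s) ^ n = E at hE ⊢
  have hE1 : 0 < E - 1 := by linarith
  have hE0 : 0 < E := by linarith
  rw [e, div_eq_mul_inv ((n : ℝ) * s / (√(1 + s) + 1))]
  refine mul_le_mul_of_nonneg_left ?_ (by positivity)
  rw [show (1 - E⁻¹)⁻¹ = 1 + 1 / (E - 1) by field_simp; ring]
  gcongr
  linarith

/-- The crude bound on `σ` on the closed region (tail included), from the excess bound. -/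
theorem crude_exc {m : ℕ} {V Y T σ h : ℝ} (hY : 1 ≤ Y) (hR : RegC Y T σ h)
    (hE : Exc m V Y T σ) :
    σ * (1 - (√(1 + T ^ 2) ^ (m + 2))⁻¹) ≤
      ((m : ℝ) + 2) * (√(1 + T ^ 2) - 1) * (V / Y ^ (m + 1)) := by
  have hY0 : 0 < Y := lt_of_lt_of_le one_pos hY
  have hW : 1 < √(1 + T ^ 2) := by
    rw [lt_sqrt zero_le_one]
    have := sq_pos_of_pos hR.T_pos
    linarith
  set W := √(1 + T ^ 2)
  have hW0 : 0 < W := by linarith
  have hyY : Y / W < Y := div_lt_self hY0 hW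
  have ht : 0 < σ / W := div_pos hR.σ_pos hW0
  have ht1 : σ / W ≤ 1 := (div_le_one hW0).2 hR.σ_le
  have h1 : σ / W * (Y ^ (m + 2) - (Y / W) ^ (m + 2)) / (((m : ℝ) + 2) * (Y - Y / W)) ≤ V := by
    rw [← chord_moment ht hyY]
    refine le_trans (integral_mono_on (g := fun x : ℝ =>
      max (√(1 - x ^ 2)) (Y + (Y / W - Y) * x / (σ / W)) ^ (m + 1)) ht.le (Continuous.intervalIntegrable (by fun_prop) _ _)
      (Continuous.intervalIntegrable (by fun_prop) _ _) fun x hx => ?_) ?_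
    · refine pow_le_pow_left₀ ?_ (le_max_right _ _) _
      have : (Y - Y / W) * (x / (σ / W)) ≤ Y - Y / W :=
        mul_le_of_le_one_right (by linarith) ((div_le_one ht).2 hx.2)
      have e : (Y / W - Y) * x / (σ / W) = -((Y - Y / W) * (x / (σ / W))) := by ring
      have : 0 ≤ Y / W := by positivity
      linarith
    · simp only [Exc] at hE
      rw [intervalIntegral.integral_sub (Continuous.intervalIntegrable (by fun_prop) _ _)
        (semi_int _ _)] at hE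
      have h3 : semiMom m (σ / W) ≤ semiMom m 1 := by
        simp only [semiMom]
        rw [← integral_add_adjacent_intervals (semi_int (m := m) 0 (σ / W)) (semi_int (σ / W) 1)]
        exact le_add_of_nonneg_right (integral_nonneg ht1 fun x _ => by positivity)
      simp only [semiMom] at h3 hE ⊢
      linarith
  rw [div_le_iff₀ (mul_pos (by positivity) (sub_pos.2 hyY))] at h1
  rw [← mul_div_assoc, le_div_iff₀ (pow_pos hY0 _)]
  have e1 : σ * (1 - (W ^ (m + 2))⁻¹) * Y ^ (m + 1) =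
      σ / W * (Y ^ (m + 2) - (Y / W) ^ (m + 2)) * (W / Y) := by
    rw [div_pow, pow_succ Y (m + 1)]; field_simp
  rw [e1]
  refine (mul_le_mul_of_nonneg_right h1 (by positivity)).trans (le_of_eq ?_)
  field_simp

/-- `√n V₀ ≤ 12534/10000`. -/
lemma sqrt_mul_semiMom_le (m : ℕ) : √((m : ℝ) + 2) * semiMom m 1 ≤ 12534 / 10000 := by
  have h0 : 0 ≤ semiMom m 1 := integral_nonneg zero_le_one fun x _ => by positivity
  have h := (semiMom_sq_bounds m).2
  rw [le_div_iff₀ (by positivity)] at h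
  have hv := sq_sqrt (show (0 : ℝ) ≤ (m : ℝ) + 2 by positivity)
  refine abs_le_of_sq_le_sq' ?_ (by norm_num) |>.2
  rw [mul_pow, hv]
  nlinarith [pi_lt_d4, sq_nonneg (semiMom m 1)]

/-- **The crude bound in rational form**: `√n σ ≤ Q 1.2534 (n s/(W+1)) (1 + 1/expM5 x)`. -/
theorem sigma_le_rat {m : ℕ} {V Y T σ h Q : ℝ} (hY : 1 ≤ Y) (hR : RegC Y T σ h)
    (hE : Exc m V Y T σ) (hQ : V / Y ^ (m + 1) = Q * semiMom m 1) (hQ0 : 0 ≤ Q) :
    √((m : ℝ) + 2) * σ ≤ Q * (12534 / 10000) *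
      (((m : ℝ) + 2) * T ^ 2 / (√(1 + T ^ 2) + 1) *
        (1 + 1 / expM5 (((m : ℝ) + 2) * T ^ 2 / 2 / (1 + T ^ 2 / 2)))) := by
  have hs : 0 < T ^ 2 := sq_pos_of_pos hR.T_pos
  have hW : 1 < √(1 + T ^ 2) := by rw [lt_sqrt zero_le_one]; linarith
  have h1 : 0 < 1 - (√(1 + T ^ 2) ^ (m + 2))⁻¹ :=
    sub_pos.2 (inv_lt_one_of_one_lt₀ (one_lt_pow₀ hW (by omega)))
  have hc := crude_exc hY hR hE
  rw [← le_div_iff₀ h1, hQ, mul_div_right_comm] at hc
  have hf := chordFactor_le_tight (n := m + 2) (by omega) hs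
  push_cast at hf
  have hF : 0 ≤ ((m : ℝ) + 2) * T ^ 2 / (√(1 + T ^ 2) + 1) *
      (1 + 1 / expM5 (((m : ℝ) + 2) * T ^ 2 / 2 / (1 + T ^ 2 / 2))) :=
    le_trans (div_nonneg (mul_nonneg (by positivity) (by linarith)) h1.le) hf
  have hV := sqrt_mul_semiMom_le m
  have h0 : 0 ≤ semiMom m 1 := integral_nonneg zero_le_one fun x _ => by positivity
  calc √((m : ℝ) + 2) * σ
      ≤ √((m : ℝ) + 2) * (((m : ℝ) + 2) * (√(1 + T ^ 2) - 1) /
          (1 - (√(1 + T ^ 2) ^ (m + 2))⁻¹) * (Q * semiMom m 1)) :=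
        mul_le_mul_of_nonneg_left hc (sqrt_nonneg _)
    _ ≤ √((m : ℝ) + 2) * ((((m : ℝ) + 2) * T ^ 2 / (√(1 + T ^ 2) + 1) *
          (1 + 1 / expM5 (((m : ℝ) + 2) * T ^ 2 / 2 / (1 + T ^ 2 / 2)))) * (Q * semiMom m 1)) :=
        mul_le_mul_of_nonneg_left (mul_le_mul_of_nonneg_right hf (mul_nonneg hQ0 h0)) (sqrt_nonneg _)
    _ = √((m : ℝ) + 2) * semiMom m 1 * (Q * (((m : ℝ) + 2) * T ^ 2 / (√(1 + T ^ 2) + 1) *
          (1 + 1 / expM5 (((m : ℝ) + 2) * T ^ 2 / 2 / (1 + T ^ 2 / 2))))) := by ring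
    _ ≤ 12534 / 10000 * (Q * (((m : ℝ) + 2) * T ^ 2 / (√(1 + T ^ 2) + 1) *
          (1 + 1 / expM5 (((m : ℝ) + 2) * T ^ 2 / 2 / (1 + T ^ 2 / 2))))) :=
        mul_le_mul_of_nonneg_right hV (mul_nonneg hQ0 hF)
    _ = _ := by ring

end Vale.Agent.P237.Cal
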