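import Vale.Agent.P237.Cal.Second
import Vale.Agent.P237.Cal.Elim

/-!
# P237: rule-independent bounds for the positive side of the pointwise inequality

Elimination of the slope without loss of a factor, a rational bound of the chord bound of `σ` and a
lower bound of the linear weight.
-/

open Real

namespace Vale.Agent.P237.Cal

/-- **Slope elimination.** Adding `G (h - 1)` costs the square of the asymmetry of the
coefficients. -/
theorem valQ_sharp {T σ h ε G : ℝ} (hh : 0 < h) (hA : 0 ≤ 1 - ε * σ ^ 2)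
    (hB : 0 ≤ 1 - ε * T ^ 2 + G) (hAB : 0 < (1 - ε * σ ^ 2) + (1 - ε * T ^ 2 + G)) :
    -(ε * (σ - T) ^ 2) - (ε * (σ - T) * (σ + T) + G) ^ 2 /
        ((1 - ε * σ ^ 2) + (1 - ε * T ^ 2 + G)) ≤ valQ ε T σ h + G * (h - 1) := by
  have e : valQ ε T σ h + G * (h - 1) = (1 - ε * σ ^ 2) / h + (1 - ε * T ^ 2 + G) * h -
      ((1 - ε * σ ^ 2) + (1 - ε * T ^ 2 + G)) - ε * (σ - T) ^ 2 := by
    unfold valQ; ring
  rw [e, show ε * (σ - T) * (σ + T) + G = (1 - ε * T ^ 2 + G) - (1 - ε * σ ^ 2) by ring]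
  generalize 1 - ε * σ ^ 2 = A at hA hAB ⊢
  generalize 1 - ε * T ^ 2 + G = B at hB hAB ⊢
  have h1 : 2 * √(A * B) ≤ A / h + B * h := two_sqrt_mul_le hA hB hh
  have h2 : -((B - A) ^ 2 / (A + B)) ≤ 2 * √(A * B) - (A + B) := by
    rw [neg_le, le_div_iff₀ hAB, sqrt_mul hA]
    have ha := sq_sqrt hA
    have hb := sq_sqrt hB
    have hu := sqrt_nonneg A
    have hv := sqrt_nonneg B
    generalize √A = u at ha hu ⊢
    generalize √B = v at hb hv ⊢
    subst ha hb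
    nlinarith [mul_nonneg (sq_nonneg (u - v)) (mul_nonneg hu hv)]
  linarith

/-- `x/(1 - e^(-x)) ≤ x + 1/(1 + x/2 + x²/6)`. -/
theorem div_one_sub_exp_le {x : ℝ} (hx : 0 < x) :
    x / (1 - exp (-x)) ≤ x + 1 / (1 + x / 2 + x ^ 2 / 6) := by
  have h := sum_le_exp_of_nonneg hx.le 4
  simp only [Finset.sum_range_succ, Finset.sum_range_zero, Nat.factorial,
    Nat.succ_eq_add_one] at h
  norm_num at h
  have he : 0 < exp x - 1 := by nlinarith [pow_pos hx 3, sq_nonneg x]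
  have e : x / (1 - exp (-x)) = x + x / (exp x - 1) := by
    rw [exp_neg]
    have := exp_pos x
    field_simp
    ring
  rw [e, add_le_add_iff_left, div_le_div_iff₀ he (by positivity)]
  nlinarith

/-- `x + 1/(1 + x/2 + x²/6)` increases on `x ≥ 0`. -/
theorem phiRat_mono {x y : ℝ} (hx : 0 ≤ x) (hxy : x ≤ y) :
    x + 1 / (1 + x / 2 + x ^ 2 / 6) ≤ y + 1 / (1 + y / 2 + y ^ 2 / 6) := by
  have hy := hx.trans hxy
  have hp : 0 < 1 + x / 2 + x ^ 2 / 6 := by positivity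
  have hq : 0 < 1 + y / 2 + y ^ 2 / 6 := by positivity
  have e : 1 / (1 + x / 2 + x ^ 2 / 6) - 1 / (1 + y / 2 + y ^ 2 / 6) =
      (y - x) * ((1 / 2 + (x + y) / 6) / ((1 + x / 2 + x ^ 2 / 6) * (1 + y / 2 + y ^ 2 / 6))) := by
    field_simp
    ring
  have h1 : (1 / 2 + (x + y) / 6) / ((1 + x / 2 + x ^ 2 / 6) * (1 + y / 2 + y ^ 2 / 6)) ≤ 1 := by
    rw [div_le_one (mul_pos hp hq)]
    nlinarith [mul_nonneg hx hy, mul_nonneg (mul_nonneg hx hy) (add_nonneg hx hy)]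
  nlinarith [mul_le_mul_of_nonneg_left h1 (sub_nonneg.2 hxy)]

/-- **The chord bound, rational form.** With `s = T²` and `x = n s/2`. -/
theorem chordFactor_le {n : ℕ} (hn : 0 < n) {s : ℝ} (hs : 0 < s) :
    (n : ℝ) * (√(1 + s) - 1) / (1 - (√(1 + s) ^ n)⁻¹) ≤
      (1 + s / 2) * ((n : ℝ) * s / 2 + 1 / (1 + (n : ℝ) * s / 4 + ((n : ℝ) * s) ^ 2 / 24)) := by
  have hn' : (0 : ℝ) < n := Nat.cast_pos.2 hn
  have hw : 1 < √(1 + s) := by rw [lt_sqrt zero_le_one]; linarith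
  have hw2 : √(1 + s) ^ 2 = 1 + s := sq_sqrt (by linarith)
  set L := (n : ℝ) / 2 * log (1 + s) with hL
  have hlog := le_log_one_add_of_nonneg hs.le
  set x' := (n : ℝ) * s / 2 / (1 + s / 2) with hx'
  have hx'0 : 0 < x' := by positivity
  have hxL : x' ≤ L := by
    have h1 := mul_le_mul_of_nonneg_left hlog (half_pos hn').le
    refine le_trans (le_of_eq ?_) h1
    rw [hx']; field_simp; ring
  have epow : (√(1 + s) ^ n)⁻¹ = exp (-L) := by
    rw [exp_neg]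
    congr 1
    rw [← exp_log (pow_pos (lt_trans one_pos hw) n), log_pow, log_sqrt (by linarith), hL]
    congr 1; ring
  have hexp : exp (-L) ≤ exp (-x') := exp_le_exp.2 (by linarith)
  have hden : 0 < 1 - exp (-x') := sub_pos.2 (exp_lt_one_iff.2 (by linarith))
  have hnum : (n : ℝ) * (√(1 + s) - 1) ≤ (1 + s / 2) * x' := by
    rw [hx', mul_div_cancel₀ _ (by positivity)]
    nlinarith [sq_nonneg (√(1 + s) - 1)]
  calc (n : ℝ) * (√(1 + s) - 1) / (1 - (√(1 + s) ^ n)⁻¹)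
      ≤ (1 + s / 2) * x' / (1 - exp (-x')) := by
        rw [epow]; exact div_le_div₀ (by positivity) hnum hden (by linarith)
    _ = (1 + s / 2) * (x' / (1 - exp (-x'))) := mul_div_assoc _ _ _
    _ ≤ (1 + s / 2) * ((n : ℝ) * s / 2 + 1 / (1 + (n : ℝ) * s / 4 + ((n : ℝ) * s) ^ 2 / 24)) := by
        refine mul_le_mul_of_nonneg_left ((div_one_sub_exp_le hx'0).trans ?_) (by positivity)
        refine (phiRat_mono hx'0.le (?_ : x' ≤ (n : ℝ) * s / 2)).trans (le_of_eq ?_)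
        · exact div_le_self (by positivity) (by linarith)
        · ring

/-- The linear weight through `w² - r²`, for `w` up to `M`. -/
theorem linWeight_ge {w r M : ℝ} (hw : 0 < w) (hwM : w ≤ M) (hr : 0 < r) :
    (w ^ 2 - r ^ 2) ^ 2 * ((2 * M + r) / (M ^ 2 * (M + r) ^ 2)) / r ^ 3 ≤
      (w - r) ^ 2 * (2 * w + r) / (r ^ 3 * w ^ 2) := by
  have hM := hw.trans_le hwM
  have key : (2 * M + r) / (M ^ 2 * (M + r) ^ 2) ≤ (2 * w + r) / (w ^ 2 * (w + r) ^ 2) := by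
    have h2 : (2 * M + r) / (M ^ 2 * (M + r) ^ 2) =
        1 / (M ^ 2 * (M + r)) + M / (M ^ 2 * (M + r) ^ 2) := by field_simp; ring
    have h3 : (2 * w + r) / (w ^ 2 * (w + r) ^ 2) =
        1 / (w ^ 2 * (w + r)) + w / (w ^ 2 * (w + r) ^ 2) := by field_simp; ring
    rw [h2, h3, show M / (M ^ 2 * (M + r) ^ 2) = 1 / (M * (M + r) ^ 2) by field_simp,
      show w / (w ^ 2 * (w + r) ^ 2) = 1 / (w * (w + r) ^ 2) by field_simp]
    gcongr
  have e : (w - r) ^ 2 * (2 * w + r) / (r ^ 3 * w ^ 2) =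
      (w ^ 2 - r ^ 2) ^ 2 * ((2 * w + r) / (w ^ 2 * (w + r) ^ 2)) / r ^ 3 := by
    field_simp
    ring
  rw [e]
  gcongr

end Vale.Agent.P237.Cal
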