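import Vale.Agent.P237.Cal.Relax

/-!
# P237: the elementary region in gauge variables

With `τ = t/y`, `u = 1/y` the gauge mass up to `τ` is `(n A - t y^k)/k` and the remaining mass is
`(n (V - A) + t y^k)/k`, `n = m + 2`, `k = m + 1`. The same height `τ` on the circle is `(t₀, y₀)`.
The elementary bounds used by the transport calibration follow from `Adm`.
-/

open Set Real MeasureTheory intervalIntegral

namespace Vale.Agent.P237.Cal

variable {m : ℕ} {V t y d A : ℝ}

lemma growth {r : ℝ} (j : ℕ) (hr : 1 ≤ r) :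
    ((j : ℝ) + 2) * r ^ (j + 1) ≤ ((j : ℝ) + 1) * r ^ (j + 2) + 1 := by
  induction j with
  | zero => norm_num; nlinarith [sq_nonneg (r - 1)]
  | succ j ih =>
    push_cast
    have h1 : (0 : ℝ) ≤ r ^ (j + 1) := by positivity
    have e1 : r ^ (j + 1 + 1) = r ^ (j + 1) * r := pow_succ _ _
    have e2 : r ^ (j + 1 + 2) = r ^ (j + 1) * r * r := by ring
    have e3 : r ^ (j + 2) = r ^ (j + 1) * r := by ring
    rw [e1, e2]
    rw [e3] at ih
    have hj : (0 : ℝ) ≤ (j : ℝ) := Nat.cast_nonneg j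
    have h2 : 0 ≤ (((j : ℝ) + 1 + 1) * (r - 1)) * ((r - 1) * r ^ (j + 1)) := by
      apply mul_nonneg <;> apply mul_nonneg <;> linarith
    have h3 : 1 ≤ r ^ (j + 1) := one_le_pow₀ hr
    nlinarith [mul_le_mul_of_nonneg_left ih (le_of_lt (lt_of_lt_of_le one_pos hr))]

/-- Remaining mass beats the tail beyond the point. -/
lemma Adm.tail_le (h : Adm m V t y d A) : y ^ (m + 1) * (1 - t) ≤ ((m : ℝ) + 2) * (V - A) := by
  have ht := h.mem
  have h1 : ∫ x in t..1, (y * (1 - x) / (1 - t)) ^ (m + 1) ≤ V - A := by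
    refine le_trans ?_ h.chord
    refine integral_mono_on ht.2.le (Continuous.intervalIntegrable (by fun_prop) _ _)
      (Continuous.intervalIntegrable (by fun_prop) _ _) fun x hx => ?_
    exact pow_le_pow_left₀ (div_nonneg (mul_nonneg h.pos.le (by linarith [hx.2]))
      (by linarith [ht.2])) (le_max_right _ _) _
  have hne : 1 - t ≠ 0 := by linarith [ht.2]
  have e : ∫ x in t..1, (y * (1 - x) / (1 - t)) ^ (m + 1) =
      y ^ (m + 1) * (1 - t) / ((m : ℝ) + 2) := by
    have e1 : ∀ x : ℝ, (y * (1 - x) / (1 - t)) ^ (m + 1) =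
        (y / (1 - t)) ^ (m + 1) * (1 - x) ^ (m + 1) := fun x => by
      rw [← mul_pow]; congr 1; ring
    simp only [e1]
    rw [intervalIntegral.integral_const_mul,
      integral_comp_sub_left (fun x => x ^ (m + 1)) 1, sub_self, integral_pow, div_pow]
    push_cast
    field_simp
    ring
  rw [e, div_le_iff₀ (by positivity)] at h1
  linarith

/-- The gauge mass before `τ` and after it dominate those of the ball. -/
theorem Adm.gauge_bands (h : Adm m V t y d A) :
    ((m : ℝ) + 2) * semiMom m (t / √(t ^ 2 + y ^ 2)) -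
        t / √(t ^ 2 + y ^ 2) * (y / √(t ^ 2 + y ^ 2)) ^ (m + 1) ≤
      ((m : ℝ) + 2) * A - t * y ^ (m + 1) ∧
    ((m : ℝ) + 2) * (semiMom m 1 - semiMom m (t / √(t ^ 2 + y ^ 2))) +
        t / √(t ^ 2 + y ^ 2) * (y / √(t ^ 2 + y ^ 2)) ^ (m + 1) ≤
      ((m : ℝ) + 2) * (V - A) + t * y ^ (m + 1) := by
  have ht := h.mem
  have hy := h.pos
  set r := √(t ^ 2 + y ^ 2) with hr
  have hr1 : 1 ≤ r := by
    rw [hr, one_le_sqrt]
    have h2 := pow_le_pow_left₀ (sqrt_nonneg _) h.semi 2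
    rw [sq_sqrt (by nlinarith [ht.1, ht.2])] at h2
    linarith
  have hr0 : 0 < r := by linarith
  set t₀ := t / r with ht₀
  set y₀ := y / r with hy₀
  have ht0 : t = r * t₀ := by rw [ht₀]; field_simp
  have hy0 : y = r * y₀ := by rw [hy₀]; field_simp
  have hy0p : 0 < y₀ := div_pos hy hr0
  have ht0p : 0 < t₀ := div_pos ht.1 hr0
  have hle : t₀ ≤ t := div_le_self ht.1.le hr1
  have hcirc : t₀ ^ 2 + y₀ ^ 2 = 1 := by
    rw [ht₀, hy₀, div_pow, div_pow, ← add_div, hr, sq_sqrt (by positivity), div_self (by positivity)]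
  have hy0e : √(1 - t₀ ^ 2) = y₀ := by
    rw [show 1 - t₀ ^ 2 = y₀ ^ 2 by linarith, sqrt_sq hy0p.le]
  constructor
  · have h1 := mul_le_mul_of_nonneg_left (h.nearSemi t₀ ⟨ht0p.le, hle⟩)
      (by positivity : (0 : ℝ) ≤ (m : ℝ) + 2)
    have h2 := mul_le_mul_of_nonneg_left (growth m hr1)
      (by positivity : 0 ≤ t₀ * y₀ ^ (m + 1))
    have e : ((m : ℝ) + 2) * ((t - t₀) * y ^ (m + 1)) - t * y ^ (m + 1) +
        t₀ * y₀ ^ (m + 1) = t₀ * y₀ ^ (m + 1) *
          (((m : ℝ) + 1) * r ^ (m + 2) - ((m : ℝ) + 2) * r ^ (m + 1) + 1) := by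
      rw [ht0, hy0, mul_pow]; ring
    nlinarith
  · have h1 : semiMom m 1 - semiMom m t ≤ V - A := by linarith [h.upper]
    have hI : semiMom m t - semiMom m t₀ ≤ (t - t₀) * y₀ ^ (m + 1) := by
      have e2 := integral_add_adjacent_intervals (semi_int (m := m) 0 t₀) (semi_int t₀ t)
      simp only [semiMom]
      calc _ = ∫ x in t₀..t, √(1 - x ^ 2) ^ (m + 1) := by linarith
        _ ≤ ∫ _x in t₀..t, y₀ ^ (m + 1) :=
          integral_mono_on hle (semi_int _ _) intervalIntegrable_const fun x hx => by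
            rw [← hy0e]
            gcongr
            exact hx.1
        _ = _ := by simp
    have hB : 1 + ((m : ℝ) + 2) * (r - 1) ≤ r ^ (m + 2) := by
      have := one_add_mul_le_pow (a := r - 1) (by linarith) (m + 2)
      simpa using this
    have h3 := mul_le_mul_of_nonneg_left hB (by positivity : 0 ≤ t₀ * y₀ ^ (m + 1))
    have e : t * y ^ (m + 1) = t₀ * y₀ ^ (m + 1) * r ^ (m + 2) := by
      rw [ht0, hy0, mul_pow]; ring
    have e' : ((m : ℝ) + 2) * ((t - t₀) * y₀ ^ (m + 1)) =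
        t₀ * y₀ ^ (m + 1) * (((m : ℝ) + 2) * (r - 1)) := by
      rw [ht0]; ring
    nlinarith

end Vale.Agent.P237.Cal
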