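import Vale.Agent.P237.Cal.BridgeX
import Vale.Agent.P237.Cal.Elim

/-!
# P237: slope elimination for a potential in `(T, σ, X)`
-/

open Set Real

namespace Vale.Agent.P237.Cal

variable {m : ℕ} {Y T σ h X ε μ a kap : ℝ} {dΨ : ℝ × ℝ × ℝ → (ℝ × ℝ × ℝ →L[ℝ] ℝ)}

/-- The pointwise inequality for `Ψ` from its slope-free form: the coefficient of `h` is
`∂σΨ`, the rest is the derivative along `(1, 0, k σ T / W^(n+2))`. -/
theorem pwX_of_elim (hh : 0 < h) (hk : 0 ≤ kap)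
    (hS : 0 ≤ (1 + T ^ 2) * (Y ^ 2 - (1 + T ^ 2)) * h - T ^ 2 * (Y ^ 2 + σ ^ 2) / h +
      2 * (1 + T ^ 2) * σ * T)
    (hA : 0 ≤ elimA m Y T σ ε kap)
    (hB : 0 ≤ elimB m Y T ε μ a kap fun _ => dΨ (T, σ, X) (0, 1, 0))
    (hle : dΨ (T, σ, X) (1, 0, ((m : ℝ) + 1) * σ * T / √(1 + T ^ 2) ^ (m + 4)) *
        √(1 + T ^ 2) ^ (m + 4) ≤
      2 * √(elimA m Y T σ ε kap * elimB m Y T ε μ a kap fun _ => dΨ (T, σ, X) (0, 1, 0)) +
        2 * (((m : ℝ) + 1) * ε - kap) * (1 + T ^ 2) * σ * T) :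
    PWX m ε μ a dΨ T σ h X := by
  set L := dΨ (T, σ, X) (1, 0, ((m : ℝ) + 1) * σ * T / √(1 + T ^ 2) ^ (m + 4)) with hL
  set g := dΨ (T, σ, X) (0, 1, 0) with hg
  have key : dΨ (T, σ, X) (1, h, ((m : ℝ) + 1) * σ * T / √(1 + T ^ 2) ^ (m + 4)) = L + h * g := by
    rw [hL, hg, ← smul_eq_mul (a := h), ← map_smul, ← map_add]
    simp
  have h1 := pw_of_elim (dG := fun _ => L + g) (Gam := fun _ => g) (dGam := fun _ => 0) hh hk hS hA hB
    (by linarith)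
  unfold PW at h1
  unfold PWX
  rw [key]
  linarith

end Vale.Agent.P237.Cal
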