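import Vale.Agent.P237.Cal.Assemble
import Vale.Agent.P237.Cal.Core

/-!
# P237: the fields linear and quadratic in `σ - T`

`E = -C (g (σ - T) + a (σ - T)²)`, `C = k T²/W^(n+2)`. Along admissible directions the core
inequality is `C (valQ + (g + 2 a D)(h - 1))` plus terms free of `h`, so the slope is eliminated by
`valQ_sharp`, after the tangent multiplier where needed.
-/

open Real

namespace Vale.Agent.P237.Cal

variable {m : ℕ}

/-- The prefactor of the second order part. -/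
noncomputable def pre (m : ℕ) (T : ℝ) : ℝ := ((m : ℝ) + 1) * T ^ 2 / √(1 + T ^ 2) ^ (m + 4)

/-- The derivative of `pre`. -/
noncomputable def dpre (m : ℕ) (T : ℝ) : ℝ :=
  ((m : ℝ) + 1) * T * (2 - ((m : ℝ) + 2) * T ^ 2) / √(1 + T ^ 2) ^ (m + 6)

lemma pre_nonneg (m : ℕ) (T : ℝ) : 0 ≤ pre m T := by
  unfold pre
  positivity

lemma hasDerivAt_pre (T : ℝ) : HasDerivAt (pre m) (dpre m T) T := by
  have h := ((hasDerivAt_pow 2 T).const_mul ((m : ℝ) + 1)).fun_mul (hasDerivAt_w_inv (m + 4) T)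
  refine (h.congr_of_eventuallyEq (Filter.Eventually.of_forall fun x => ?_)).congr_deriv ?_
  · simp only [pre]; ring
  · have hw := w_pos T
    have hs := w_sq T
    have e : √(1 + T ^ 2) ^ (m + 6) = √(1 + T ^ 2) ^ (m + 4) * (1 + T ^ 2) := by
      rw [show m + 6 = m + 4 + 2 from rfl, pow_add, hs]
    simp only [dpre, show m + 4 + 2 = m + 6 from rfl, show (2 : ℕ) - 1 = 1 from rfl, pow_one, e]
    push_cast
    field_simp
    ring

/-- The field. -/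
noncomputable def fieldE (m : ℕ) (g a : ℝ → ℝ) (p : ℝ × ℝ × ℝ) : ℝ :=
  -(pre m p.1 * (g p.1 * (p.2.1 - p.1) + a p.1 * (p.2.1 - p.1) ^ 2))

/-- The differential of the field. -/
noncomputable def dfieldE (m : ℕ) (g g' a a' : ℝ → ℝ) (p : ℝ × ℝ × ℝ) : ℝ × ℝ × ℝ →L[ℝ] ℝ :=
  -((dpre m p.1 * (g p.1 * (p.2.1 - p.1) + a p.1 * (p.2.1 - p.1) ^ 2) +
      pre m p.1 * (g' p.1 * (p.2.1 - p.1) + a' p.1 * (p.2.1 - p.1) ^ 2) -
      pre m p.1 * (g p.1 + 2 * a p.1 * (p.2.1 - p.1))) • ContinuousLinearMap.fst ℝ ℝ (ℝ × ℝ) +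
    (pre m p.1 * (g p.1 + 2 * a p.1 * (p.2.1 - p.1))) •
      (ContinuousLinearMap.fst ℝ ℝ ℝ).comp (ContinuousLinearMap.snd ℝ ℝ (ℝ × ℝ)))

variable {g g' a a' : ℝ → ℝ}

lemma fieldE_hasFDerivAt {T σ X : ℝ} (hg : HasDerivAt g (g' T) T) (ha : HasDerivAt a (a' T) T) :
    HasFDerivAt (fieldE m g a) (dfieldE m g g' a a' (T, σ, X)) (T, σ, X) := by
  have h1 : HasFDerivAt (fun p : ℝ × ℝ × ℝ => p.1) (ContinuousLinearMap.fst ℝ ℝ (ℝ × ℝ))
      (T, σ, X) := hasFDerivAt_fst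
  have h2 : HasFDerivAt (fun p : ℝ × ℝ × ℝ => p.2.1)
      ((ContinuousLinearMap.fst ℝ ℝ ℝ).comp (ContinuousLinearMap.snd ℝ ℝ (ℝ × ℝ))) (T, σ, X) :=
    ((ContinuousLinearMap.fst ℝ ℝ ℝ).comp (ContinuousLinearMap.snd ℝ ℝ (ℝ × ℝ))).hasFDerivAt
  have hD := h2.sub h1
  have key := (((hasDerivAt_pre (m := m) T).comp_hasFDerivAt_of_eq (T, σ, X) h1 rfl).mul
    (((hg.comp_hasFDerivAt_of_eq (T, σ, X) h1 rfl).mul hD).add
      ((ha.comp_hasFDerivAt_of_eq (T, σ, X) h1 rfl).mul (hD.pow 2)))).neg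
  refine key.congr_fderiv ?_
  ext <;> simp [dfieldE] <;> ring

/-- The core inequality from a bound free of the slope; `L` is any lower bound of the part of
`valQ` with the slope, e.g. from `valQ_sharp` or `valQ_sharp_tangent`. -/
theorem core_of_bound {ε μ c T σ h X LB L : ℝ}
    (hL : L ≤ valQ ε T σ h + (g T + 2 * a T * (σ - T)) * (h - 1))
    (hle : LB ≤ pre m T * L +
      (σ - T) * (ell m ε μ c T + dpre m T * g T + pre m T * g' T) +
      (σ - T) ^ 2 * (dpre m T * a T + pre m T * a' T)) :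
    LB + dfieldE m g g' a a' (T, σ, X)
        (1, h, ((m : ℝ) + 1) * σ * T / √(1 + T ^ 2) ^ (m + 4)) ≤
      ((m : ℝ) + 1) * T ^ 2 / √(1 + T ^ 2) ^ (m + 4) * valQ ε T σ h +
        ell m ε μ c T * (σ - T) := by
  have h1 := mul_le_mul_of_nonneg_left hL (pre_nonneg m T)
  simp only [dfieldE, neg_apply, add_apply,
    smul_apply, ContinuousLinearMap.coe_fst', ContinuousLinearMap.comp_apply,
    ContinuousLinearMap.coe_snd', smul_eq_mul, mul_one]
  rw [show ((m : ℝ) + 1) * T ^ 2 / √(1 + T ^ 2) ^ (m + 4) = pre m T from rfl]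
  linarith

/-- Slope elimination after the tangent multiplier `b`: the price is linear in `σ - T` and in
`η = b (Y² - 1)`. -/
theorem valQ_sharp_tangent {Y T σ h ε G b e G' : ℝ} (hb : 0 ≤ b) (hR : RegT Y T σ h)
    (he : e = (ε - b) / (1 + b))
    (hG : G' = (G - b * (Y ^ 2 - 1) * (2 + 1 / T ^ 2)) / (1 + b)) (hY : 1 ≤ Y)
    (hA : 0 ≤ 1 - e * σ ^ 2) (hB : 0 ≤ 1 - e * T ^ 2 + G')
    (hAB : 0 < (1 - e * σ ^ 2) + (1 - e * T ^ 2 + G')) :
    (1 + b) * (-(e * (σ - T) ^ 2) - (e * (σ - T) * (σ + T) + G') ^ 2 /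
          ((1 - e * σ ^ 2) + (1 - e * T ^ 2 + G'))) -
        2 * b * (σ - T) / T - b * (Y ^ 2 - 1) / T ^ 2 ≤
      valQ ε T σ h + G * (h - 1) := by
  have hT := hR.T_pos
  have hh := hR.h_pos
  have h1 := valQ_tangent (ε := ε) hb hR
  rw [← he] at h1
  have h2 := mul_le_mul_of_nonneg_left (valQ_sharp hh hA hB hAB)
    (by linarith : (0 : ℝ) ≤ 1 + b)
  have hη : 0 ≤ b * (Y ^ 2 - 1) := mul_nonneg hb (by nlinarith)
  have h3 : 0 ≤ b * (Y ^ 2 - 1) * ((h - 1) ^ 2 / h) := mul_nonneg hη (by positivity)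
  have e1 : (1 + b) * (valQ e T σ h + G' * (h - 1)) = (1 + b) * valQ e T σ h +
      G * (h - 1) - b * (Y ^ 2 - 1) * (2 + 1 / T ^ 2) * (h - 1) := by
    rw [hG]; field_simp; ring
  have e2 : b * (Y ^ 2 - 1) * ((1 + T ^ 2) * h - T ^ 2 / h) / T ^ 2 =
      b * (Y ^ 2 - 1) * (2 + 1 / T ^ 2) * (h - 1) + b * (Y ^ 2 - 1) / T ^ 2 -
        b * (Y ^ 2 - 1) * ((h - 1) ^ 2 / h) := by
    field_simp; ring
  linarith

end Vale.Agent.P237.Cal
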