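import Vale.Agent.P237.Cal.LowMoment
import Vale.Agent.P237.Cal.Fields

/-!
# P237: the flattened linear weight and its moment against the lower edge

With `n = m + 2`, `z = n s`, the field `g = pre · kap (1+ε) (3/2 + (3/4) z)/n` and the linear
coefficient `K = -kap (1+ε) (15/4)/n` the weight `ell + g' + K muX` is
`k T W^(-(n+4)) (1+ε) [(n+2)(W-r)²(2W+r)/r³ + (kap/n)(-(3/4)(z-1)² + s(3z/2 - 15/4))]`, so its
integral against `lo = √((T²+1-Y²)⁺) - T` is closed.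
-/

open MeasureTheory Set Filter Topology Real

namespace Vale.Agent.P237.Cal

variable {m : ℕ} {ε kap r T Y : ℝ}

/-- The flattening field. -/
noncomputable def gFlat (m : ℕ) (ε kap T : ℝ) : ℝ :=
  pre m T * (kap * (1 + ε) * (3 / 2 + 3 / 4 * (((m : ℝ) + 2) * T ^ 2)) / ((m : ℝ) + 2))

/-- Its derivative. -/
noncomputable def gFlat' (m : ℕ) (ε kap T : ℝ) : ℝ :=
  dpre m T * (kap * (1 + ε) * (3 / 2 + 3 / 4 * (((m : ℝ) + 2) * T ^ 2)) / ((m : ℝ) + 2)) +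
    pre m T * (kap * (1 + ε) * (3 / 2 * T))

/-- The linear coefficient of the centred state. -/
noncomputable def kFlat (m : ℕ) (ε kap : ℝ) : ℝ :=
  -(kap * (1 + ε) * (15 / 4) / ((m : ℝ) + 2))

/-- The bracket of the flattened weight, in `s = T²`. -/
noncomputable def flatB (m : ℕ) (kap r T : ℝ) : ℝ :=
  ((m : ℝ) + 4) * ((√(1 + T ^ 2) - r) ^ 2 * (2 * √(1 + T ^ 2) + r) / r ^ 3) +
    kap / ((m : ℝ) + 2) * (-(3 / 4) * (((m : ℝ) + 2) * T ^ 2 - 1) ^ 2 +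
      T ^ 2 * (3 / 2 * (((m : ℝ) + 2) * T ^ 2) - 15 / 4))

/-- The flattened weight. -/
noncomputable def ellFlat (m : ℕ) (ε kap r T : ℝ) : ℝ :=
  ell m ε (muT m ε r) (aT m ε r 0) T + gFlat' m ε kap T + kFlat m ε kap * muX m T

lemma hasDerivAt_gFlat (T : ℝ) : HasDerivAt (gFlat m ε kap) (gFlat' m ε kap T) T := by
  have h2 : HasDerivAt (fun x : ℝ =>
      kap * (1 + ε) * (3 / 2 + 3 / 4 * (((m : ℝ) + 2) * x ^ 2)) / ((m : ℝ) + 2))
      (kap * (1 + ε) * (3 / 2 * T)) T := by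
    refine (((((hasDerivAt_pow 2 T).const_mul ((m : ℝ) + 2)).const_mul (3 / 4 : ℝ)).const_add
      (3 / 2)).const_mul (kap * (1 + ε)) |>.div_const ((m : ℝ) + 2)).congr_deriv ?_
    push_cast
    field_simp
    ring
  exact (hasDerivAt_pre T).fun_mul h2

lemma continuous_gFlat : Continuous (gFlat m ε kap) :=
  continuous_iff_continuousAt.2 fun T => (hasDerivAt_gFlat T).continuousAt

lemma gFlat_zero : gFlat m ε kap 0 = 0 := by simp [gFlat, pre]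

lemma tendsto_gFlat (hm : 2 ≤ m) :
    Tendsto (fun T => gFlat m ε kap T * (T + 1)) atTop (𝓝 0) := by
  have key : ∀ b : ℕ, b ≤ 5 → Tendsto (fun T : ℝ => T ^ b / √(1 + T ^ 2) ^ (m + 4)) atTop (𝓝 0) :=
    fun b hb => mom_tendsto (by omega)
  have h := ((((key 5 le_rfl).add (key 4 (by omega))).const_mul
      (3 / 4 * ((m : ℝ) + 1) * (kap * (1 + ε)))).add
    (((key 3 (by omega)).add (key 2 (by omega))).const_mul
      (3 / 2 * ((m : ℝ) + 1) * (kap * (1 + ε)) / ((m : ℝ) + 2))))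
  simp only [add_zero, mul_zero] at h
  refine h.congr fun T => ?_
  simp only [gFlat, pre]
  field_simp
  ring

/-- The flattened weight in closed form. -/
theorem ellFlat_eq (hr : r ≠ 0) (T : ℝ) :
    ellFlat m ε kap r T =
      ((m : ℝ) + 1) * (1 + ε) * (T / √(1 + T ^ 2) ^ (m + 6)) * flatB m kap r T := by
  have hw := w_pos T
  have e : √(1 + T ^ 2) ^ (m + 6) = √(1 + T ^ 2) ^ (m + 4) * (1 + T ^ 2) := by
    rw [show m + 6 = m + 4 + 2 from rfl, pow_add, w_sq]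
  simp only [ellFlat, ell_tangent hr, gFlat', kFlat, dpre, pre, muX, flatB, e]
  field_simp
  ring

/-- The moment of `T W^(-(j+4))` against the lower edge. -/
noncomputable def loMom (j : ℕ) (Y : ℝ) : ℝ :=
  -((1 - 1 / Y ^ (j + 1)) * mom 0 (j + 4) / ((j : ℝ) + 1))

lemma loMom_nonpos (hY : 1 ≤ Y) (j : ℕ) : loMom j Y ≤ 0 := by
  have h : 0 ≤ 1 - 1 / Y ^ (j + 1) := by
    rw [sub_nonneg, div_le_one (by positivity)]
    exact one_le_pow₀ hY
  have := mom_nonneg 0 (j + 4)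
  simp only [loMom, neg_nonpos]
  positivity

/-- **The closed moment of the flattened weight against the lower edge**, `m = p + 2`. -/
theorem integral_ellFlat_loD {p : ℕ} (hr : r ≠ 0) (hY : 1 ≤ Y) :
    IntegrableOn (fun T => ellFlat (p + 2) ε kap r T * loD Y T) (Ioi 0) ∧
      ∫ T in Ioi (0 : ℝ), ellFlat (p + 2) ε kap r T * loD Y T =
        ((p : ℝ) + 3) * (1 + ε) *
          (((p : ℝ) + 6) / r ^ 3 * (2 * loMom (p + 1) Y - 3 * r * loMom (p + 2) Y +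
              r ^ 3 * loMom (p + 4) Y) +
            kap / ((p : ℝ) + 4) *
              ((3 / 2 * ((p : ℝ) + 4) - 3 / 4 * ((p : ℝ) + 4) ^ 2) * loMom p Y +
               (3 / 2 * ((p : ℝ) + 4) ^ 2 - 3 / 2 * ((p : ℝ) + 4) - 15 / 4) * loMom (p + 2) Y +
               (3 - 3 / 4 * ((p : ℝ) + 4) ^ 2) * loMom (p + 4) Y)) := by
  obtain ⟨i4, v4⟩ := integral_loD (m := p) hY
  obtain ⟨i3, v3⟩ := integral_loD (m := p + 1) hY
  obtain ⟨i2, v2⟩ := integral_loD (m := p + 2) hY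
  obtain ⟨i0, v0⟩ := integral_loD (m := p + 4) hY
  have e : (fun T => ellFlat (p + 2) ε kap r T * loD Y T) = fun T =>
      ((((p : ℝ) + 3) * (1 + ε) *
          (kap / ((p : ℝ) + 4) * (3 / 2 * ((p : ℝ) + 4) - 3 / 4 * ((p : ℝ) + 4) ^ 2))) *
        (T / √(1 + T ^ 2) ^ (p + 4) * loD Y T) +
      (((p : ℝ) + 3) * (1 + ε) * (((p : ℝ) + 6) / r ^ 3 * 2)) *
        (T / √(1 + T ^ 2) ^ (p + 1 + 4) * loD Y T)) +
      ((((p : ℝ) + 3) * (1 + ε) * (-(((p : ℝ) + 6) / r ^ 3 * (3 * r)) + kap / ((p : ℝ) + 4) *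
          (3 / 2 * ((p : ℝ) + 4) ^ 2 - 3 / 2 * ((p : ℝ) + 4) - 15 / 4))) *
        (T / √(1 + T ^ 2) ^ (p + 2 + 4) * loD Y T) +
      (((p : ℝ) + 3) * (1 + ε) * (((p : ℝ) + 6) / r ^ 3 * r ^ 3 + kap / ((p : ℝ) + 4) *
          (3 - 3 / 4 * ((p : ℝ) + 4) ^ 2))) *
        (T / √(1 + T ^ 2) ^ (p + 4 + 4) * loD Y T)) := by
    funext T
    have hw := w_pos T
    rw [ellFlat_eq hr]
    simp only [flatB]
    have e5 : √(1 + T ^ 2) ^ (p + 1 + 4) = √(1 + T ^ 2) ^ (p + 4) * √(1 + T ^ 2) := by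
      rw [show p + 1 + 4 = p + 4 + 1 from rfl, pow_succ]
    have e6 : √(1 + T ^ 2) ^ (p + 2 + 4) = √(1 + T ^ 2) ^ (p + 4) * √(1 + T ^ 2) ^ 2 := by
      rw [show p + 2 + 4 = p + 4 + 2 from rfl, pow_add]
    have e8 : √(1 + T ^ 2) ^ (p + 4 + 4) = √(1 + T ^ 2) ^ (p + 4) * √(1 + T ^ 2) ^ 4 := pow_add _ _ _
    have hs : T ^ 2 = √(1 + T ^ 2) ^ 2 - 1 := by rw [w_sq]; ring
    rw [e5, e6, e8]
    generalize √(1 + T ^ 2) = W at hw hs ⊢
    push_cast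
    field_simp
    rw [hs]
    ring
  rw [e]
  have j1 := (i4.const_mul (((p : ℝ) + 3) * (1 + ε) *
    (kap / ((p : ℝ) + 4) * (3 / 2 * ((p : ℝ) + 4) - 3 / 4 * ((p : ℝ) + 4) ^ 2)))).add
    (i3.const_mul (((p : ℝ) + 3) * (1 + ε) * (((p : ℝ) + 6) / r ^ 3 * 2)))
  have j2 := (i2.const_mul (((p : ℝ) + 3) * (1 + ε) * (-(((p : ℝ) + 6) / r ^ 3 * (3 * r)) +
      kap / ((p : ℝ) + 4) *
        (3 / 2 * ((p : ℝ) + 4) ^ 2 - 3 / 2 * ((p : ℝ) + 4) - 15 / 4)))).add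
    (i0.const_mul (((p : ℝ) + 3) * (1 + ε) * (((p : ℝ) + 6) / r ^ 3 * r ^ 3 + kap / ((p : ℝ) + 4) *
      (3 - 3 / 4 * ((p : ℝ) + 4) ^ 2))))
  refine ⟨j1.add j2, ?_⟩
  have k0 := integral_add j1 j2
  simp only [Pi.add_apply] at k0
  rw [k0, integral_add (i4.const_mul _) (i3.const_mul _),
    integral_add (i2.const_mul _) (i0.const_mul _), MeasureTheory.integral_const_mul,
    MeasureTheory.integral_const_mul, MeasureTheory.integral_const_mul,
    MeasureTheory.integral_const_mul, v4, v3, v2, v0]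
  simp only [loMom]
  ring

end Vale.Agent.P237.Cal
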