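import Vale.Agent.P237.Cal.EllFlat

/-!
# P237: the flattened weight is almost nonnegative

For `n = m + 2 ≥ 100`, `r = rr (m+1)` and `0 ≤ kap ≤ 1/2` the bracket of the flattened weight is at
least `-kap (5/2 W²/n² + n s³/10)`: the first term comes from the point `n s = 1`, the second one
only matters for `s > 8`.
-/

open MeasureTheory Set Filter Topology Real

namespace Vale.Agent.P237.Cal

variable {m : ℕ} {ε kap r T : ℝ}

/-- The position of the double root: `n (r² - 1) = 1 + O(1/n)`. -/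
lemma rr_sq_near (hm : 98 ≤ m) :
    |((m : ℝ) + 2) * (rr (m + 1) ^ 2 - 1) - 1| ≤ 1 / ((m : ℝ) + 2) := by
  obtain ⟨hlo, hhi⟩ := rr_bounds (k := m + 1) (by omega)
  push_cast at hlo hhi
  have hN : (100 : ℝ) ≤ (m : ℝ) + 2 := by
    have : (98 : ℝ) ≤ (m : ℝ) := by exact_mod_cast hm
    linarith
  set N := (m : ℝ) + 2 with hNdef
  rw [show 2 * ((m : ℝ) + 1) + 2 = 2 * N by rw [hNdef]; ring,
    show 2 * ((m : ℝ) + 1) + 1 = 2 * N - 1 by rw [hNdef]; ring,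
    show (m : ℝ) + 1 = N - 1 by rw [hNdef]; ring] at hlo hhi
  have he : 0 ≤ 1 / (4 * (N - 1) + 4) := by
    have : (0 : ℝ) < 4 * (N - 1) + 4 := by linarith
    positivity
  set d := 2 * N - 1 + 1 / (4 * (N - 1)) with hd
  have he1 : 1 / (4 * (N - 1)) ≤ 1 / 396 :=
    one_div_le_one_div_of_le (by norm_num) (by linarith)
  have he2 : (4 * (N - 1)) * (1 / (4 * (N - 1))) = 1 :=
    mul_one_div_cancel (by linarith)
  have he0 : 0 ≤ 1 / (4 * (N - 1)) := by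
    have : (0 : ℝ) < 4 * (N - 1) := by linarith
    positivity
  have hd0 : 0 < d := by rw [hd]; linarith
  have hhi' : rr (m + 1) ≤ 2 * N / (2 * N - 1) :=
    hhi.trans (div_le_div_of_nonneg_left (by linarith) (by linarith) (by linarith))
  have hr0 : 0 ≤ rr (m + 1) := le_trans (by positivity) hlo
  have h1 : d ^ 2 * ((N ^ 2 + N - 1) / N ^ 2) ≤ (2 * N) ^ 2 := by
    have hd2 : d ^ 2 ≤ 4 * N ^ 2 - 4 * N + 3 := by
      rw [hd]
      generalize 1 / (4 * (N - 1)) = e at he0 he1 he2 ⊢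
      have h2 : e * e ≤ 1 / 396 * (1 / 396) := mul_le_mul he1 he1 he0 (by norm_num)
      linarith
    rw [← mul_div_assoc, div_le_iff₀ (by positivity)]
    have h3 := mul_le_mul_of_nonneg_right hd2 (by nlinarith : (0 : ℝ) ≤ N ^ 2 + N - 1)
    nlinarith
  have h2 : (N ^ 2 + N - 1) / N ^ 2 ≤ rr (m + 1) ^ 2 := by
    refine le_trans ?_ (pow_le_pow_left₀ (by positivity) hlo 2)
    rw [div_pow, le_div_iff₀ (by positivity)]
    linarith
  have h3 : rr (m + 1) ^ 2 ≤ (2 * N / (2 * N - 1)) ^ 2 := pow_le_pow_left₀ hr0 hhi' 2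
  have hN0 : 0 < N := by linarith
  rw [abs_le]
  constructor
  · have := mul_le_mul_of_nonneg_left h2 hN0.le
    have e : N * ((N ^ 2 + N - 1) / N ^ 2) = N + 1 - 1 / N := by field_simp
    linarith
  · have := mul_le_mul_of_nonneg_left h3 hN0.le
    have e : N * (2 * N / (2 * N - 1)) ^ 2 ≤ N + 1 + 1 / N := by
      have h0 : 0 < 2 * N - 1 := by linarith
      rw [div_pow, mul_div_assoc', div_le_iff₀ (by positivity)]
      have e2 : (N + 1 + 1 / N) * (2 * N - 1) ^ 2 =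
          N * (2 * N) ^ 2 + (N + (1 / N) * 1 - 3) := by field_simp; ring
      rw [e2]
      have : 0 ≤ 1 / N := by positivity
      linarith
    linarith

/-- The main term dominates the flattening outside an exponentially small range. -/
lemma main_vs_flat {N W r : ℝ} (hN : 100 ≤ N) (hW : 1 ≤ W) (hr1 : 1 ≤ r)
    (hrW : r ≤ 1006 / 1000) (hr3' : r ^ 3 ≤ 1016 / 1000) :
    33 / 80 * (N * (W - r) ^ 2 * (W + r) ^ 2) - N * (W ^ 2 - 1) ^ 3 / 20 ≤
      (N + 2) * ((W - r) ^ 2 * (2 * W + r) / r ^ 3) := by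
  have hN0 : 0 < N := by linarith
  have hr0 : 0 < r := by linarith
  have hpos : 0 ≤ (N + 2) * ((W - r) ^ 2 * (2 * W + r) / r ^ 3) := by
    have : 0 ≤ 2 * W + r := by linarith
    positivity
  have hs0 : 0 ≤ W ^ 2 - 1 := by nlinarith
  rcases le_or_gt W (31 / 10) with h | h
  · have hc : 33 / 80 * (W + r) ^ 2 * r ^ 3 ≤ 2 * W + r := by
      have h1 : (W + r) ^ 2 ≤ (W + 1006 / 1000) ^ 2 :=
        pow_le_pow_left₀ (by linarith) (by linarith) 2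
      have h2 : 33 / 80 * (W + r) ^ 2 * r ^ 3 ≤
          33 / 80 * (W + 1006 / 1000) ^ 2 * (1016 / 1000) :=
        mul_le_mul (by linarith) hr3' (by positivity) (by positivity)
      nlinarith [mul_nonneg (sub_nonneg.2 hW) (sub_nonneg.2 h)]
    have h3 : 33 / 80 * (N * (W - r) ^ 2 * (W + r) ^ 2) ≤ (N + 2) * ((W - r) ^ 2 * (2 * W + r) / r ^ 3) := by
      rw [← mul_div_assoc, le_div_iff₀ (by positivity)]
      have h4 := mul_le_mul_of_nonneg_left hc (by positivity : 0 ≤ N * (W - r) ^ 2)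
      have h5 : 0 ≤ (W - r) ^ 2 * (2 * W + r) := mul_nonneg (sq_nonneg _) (by linarith)
      linarith
    have : 0 ≤ N * (W ^ 2 - 1) ^ 3 / 20 := by positivity
    linarith
  · have h1 : (W - r) ^ 2 * (W + r) ^ 2 ≤ (W ^ 2 - 1) ^ 2 := by
      rw [show (W - r) ^ 2 * (W + r) ^ 2 = (W ^ 2 - r ^ 2) ^ 2 by ring]
      exact pow_le_pow_left₀ (by nlinarith) (by nlinarith) 2
    have h2 : (8 + 1 / 4) ≤ W ^ 2 - 1 := by nlinarith
    have h3 := mul_le_mul_of_nonneg_left h2 (by positivity : 0 ≤ N / 20 * (W ^ 2 - 1) ^ 2)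
    have h4 := mul_le_mul_of_nonneg_left h1 (by positivity : 0 ≤ 33 / 80 * N)
    linarith

/-- The bracket at `kap = 1/2`, generic in `r`. -/
theorem flatB_half_ge (hm : 98 ≤ m) (hr1 : 1 ≤ r) (hr2 : r ≤ 1 + 1 / (2 * ((m : ℝ) + 2) - 1))
    (hr3 : |((m : ℝ) + 2) * (r ^ 2 - 1) - 1| ≤ 1 / ((m : ℝ) + 2)) (T : ℝ) :
    -(1 / 2) * (5 / 2 * √(1 + T ^ 2) ^ 2 / ((m : ℝ) + 2) ^ 2 +
      ((m : ℝ) + 2) * (T ^ 2) ^ 3 / 10) ≤ flatB m (1 / 2) r T := by
  have hN : (100 : ℝ) ≤ (m : ℝ) + 2 := by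
    have : (98 : ℝ) ≤ (m : ℝ) := by exact_mod_cast hm
    linarith
  have hW := one_le_w T
  have hs := w_sq T
  simp only [flatB]
  rw [show (m : ℝ) + 4 = (m : ℝ) + 2 + 2 by ring]
  set N := (m : ℝ) + 2 with hNdef
  clear_value N
  rw [show T ^ 2 = √(1 + T ^ 2) ^ 2 - 1 by rw [hs]; ring]
  rw [show √(1 + (√(1 + T ^ 2) ^ 2 - 1)) = √(1 + T ^ 2) by
    rw [add_sub_cancel, sqrt_sq (w_pos T).le]]
  generalize √(1 + T ^ 2) = W at hW ⊢
  have hN0 : 0 < N := by linarith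
  set u := W - r with hu
  set q := N * (r ^ 2 - 1) - 1 with hq
  -- square of `N s - 1`
  have hz : (N * (W ^ 2 - 1) - 1) ^ 2 ≤
      11 / 10 * (N ^ 2 * u ^ 2 * (W + r) ^ 2) + 11 * (1 / N) ^ 2 := by
    have e : N * (W ^ 2 - 1) - 1 = N * u * (W + r) + q := by rw [hu, hq]; ring
    have hq2 : q ^ 2 ≤ (1 / N) ^ 2 := sq_le_sq' (abs_le.1 hr3).1 (abs_le.1 hr3).2
    rw [e]
    nlinarith [sq_nonneg (N * u * (W + r) - 10 * q)]
  -- the term linear in `s`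
  have hl : -(75 / 32) / N ≤ (W ^ 2 - 1) * (3 / 2 * (N * (W ^ 2 - 1)) - 15 / 4) := by
    rw [div_le_iff₀ hN0]
    nlinarith [sq_nonneg (N * (W ^ 2 - 1) - 5 / 4)]
  have hr0 : 0 < r := by linarith
  have hr4 : r ≤ 1 + 1 / 199 := by
    have h199 : (199 : ℝ) ≤ 2 * N - 1 := by linarith
    have h5 := one_div_le_one_div_of_le (by norm_num : (0 : ℝ) < 199) h199
    linarith
  have hr3' : r ^ 3 ≤ 1016 / 1000 := (pow_le_pow_left₀ hr0.le hr4 3).trans (by norm_num)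
  have hrW : r ≤ 1006 / 1000 := by linarith
  have hmain := main_vs_flat hN hW hr1 hrW hr3'
  have hfl : 1 / 2 / N * (-(3 / 4) * (11 / 10 * (N ^ 2 * u ^ 2 * (W + r) ^ 2) +
      11 * (1 / N) ^ 2) - 75 / 32 / N) ≤
      1 / 2 / N * (-(3 / 4) * (N * (W ^ 2 - 1) - 1) ^ 2 +
        (W ^ 2 - 1) * (3 / 2 * (N * (W ^ 2 - 1)) - 15 / 4)) := by
    refine mul_le_mul_of_nonneg_left ?_ (by positivity)
    rw [neg_div] at hl
    linarith
  have e : 1 / 2 / N * (-(3 / 4) * (11 / 10 * (N ^ 2 * u ^ 2 * (W + r) ^ 2) +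
      11 * (1 / N) ^ 2) - 75 / 32 / N) =
      -(33 / 80 * (N * u ^ 2 * (W + r) ^ 2)) - (33 / 8 * (1 / N) + 75 / 64) * (1 / N) ^ 2 := by
    field_simp
    ring
  have hsmall : (33 / 8 * (1 / N) + 75 / 64) * (1 / N) ^ 2 ≤ 1 / 2 * (5 / 2 * W ^ 2 / N ^ 2) := by
    rw [show 1 / 2 * (5 / 2 * W ^ 2 / N ^ 2) = (5 / 4 * W ^ 2) * (1 / N) ^ 2 by ring]
    refine mul_le_mul_of_nonneg_right ?_ (by positivity)
    have h6 : 1 / N ≤ 1 / 100 := one_div_le_one_div_of_le (by norm_num) hN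
    have h7 : (1 : ℝ) ≤ W ^ 2 := one_le_pow₀ hW
    linarith
  clear hz hl hN hW hr1 hr2 hr3 hrW hr3' hs
  linarith

/-- **The lower bound.** -/
theorem ellFlat_ge (hm : 98 ≤ m) (hε : 0 ≤ 1 + ε) (hk0 : 0 ≤ kap) (hk : kap ≤ 1 / 2)
    (hT : 0 ≤ T) :
    -(kap * (1 + ε) * ((5 / 2 / ((m : ℝ) + 2) ^ 2) * muX m T +
        ((m : ℝ) + 2) / 10 * (((m : ℝ) + 1) * (T ^ 7 / √(1 + T ^ 2) ^ (m + 6))))) ≤
      ellFlat m ε kap (rr (m + 1)) T := by
  have hr1 := (one_lt_rr (k := m + 1) (by omega)).le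
  have hr0 : 0 < rr (m + 1) := one_pos.trans_le hr1
  have hr2 := rr_le (k := m + 1) (by omega)
  push_cast at hr2
  rw [show 2 * ((m : ℝ) + 1) + 1 = 2 * ((m : ℝ) + 2) - 1 by ring] at hr2
  have h := flatB_half_ge hm hr1 hr2 (rr_sq_near hm) T
  have h0 : 0 ≤ flatB m 0 (rr (m + 1)) T := by
    simp only [flatB, zero_div, zero_mul, add_zero]
    have := one_le_w T
    positivity
  have hlin : flatB m kap (rr (m + 1)) T =
      (1 - 2 * kap) * flatB m 0 (rr (m + 1)) T + 2 * kap * flatB m (1 / 2) (rr (m + 1)) T := by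
    simp only [flatB]; ring
  have h1 := mul_nonneg (by linarith : (0 : ℝ) ≤ 1 - 2 * kap) h0
  have h2 := mul_le_mul_of_nonneg_left h (by linarith : 0 ≤ 2 * kap)
  have h3 : -(kap * (5 / 2 * √(1 + T ^ 2) ^ 2 / ((m : ℝ) + 2) ^ 2 +
      ((m : ℝ) + 2) * (T ^ 2) ^ 3 / 10)) ≤ flatB m kap (rr (m + 1)) T := by linarith
  have hw := w_pos T
  have h4 := mul_le_mul_of_nonneg_left h3
    (by positivity : 0 ≤ ((m : ℝ) + 1) * (1 + ε) * (T / √(1 + T ^ 2) ^ (m + 6)))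
  rw [← ellFlat_eq hr0.ne' T] at h4
  refine le_trans (le_of_eq ?_) h4
  simp only [muX]
  rw [show √(1 + T ^ 2) ^ (m + 6) = √(1 + T ^ 2) ^ (m + 4) * √(1 + T ^ 2) ^ 2 from pow_add _ _ 2]
  field_simp

end Vale.Agent.P237.Cal
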