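import Vale.Agent.P237.Cal.LBInt

/-!
# P237: the flattened weight in the tangent zone `ε T² ≥ 1/2`, `n ≥ 256`

Together with its slack it exceeds `2 b pre/T` for `b = (ε T² - 1/2)/(T² + 1/2)`.
-/

open Real

namespace Vale.Agent.P237.Cal

variable {m : ℕ}

/-- The polynomial below `W = 3/2`. -/
lemma flat_tan_poly1 {W : ℝ} (hW : 105 / 100 ≤ W) (h : W ≤ 3 / 2) :
    4 * W ^ 2 * (W ^ 2 - 1) / 256 ≤ 99 / 100 * ((W - 1002 / 1000) ^ 2 * (2 * W + 1)) -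
      3 / 8 * (W ^ 2 - 1) ^ 2 + (W ^ 2 - 1) ^ 3 / 20 := by
  obtain ⟨t, ht, rfl⟩ : ∃ t, 0 ≤ t ∧ W = 105 / 100 + t := ⟨W - 105 / 100, by linarith, by ring⟩
  have h' : t ≤ 45 / 100 := by linarith
  have p2 : 0 ≤ t ^ 2 := sq_nonneg t
  have p3 : 0 ≤ t ^ 3 := pow_nonneg ht 3
  have p4 : 0 ≤ t ^ 4 := pow_nonneg ht 4
  have p5 : 0 ≤ t ^ 5 := pow_nonneg ht 5
  have p6 : 0 ≤ t ^ 6 := pow_nonneg ht 6
  linarith

/-- The polynomial on `[3/2, 293/100]`. -/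
lemma flat_tan_poly2 {W : ℝ} (hW : 3 / 2 ≤ W) (h : W ≤ 293 / 100) :
    2 * W ^ 2 / 256 ≤ 99 / 100 * ((W - 1002 / 1000) ^ 2 * (2 * W + 1)) -
      3 / 8 * (W ^ 2 - 1) ^ 2 + (W ^ 2 - 1) ^ 3 / 20 := by
  obtain ⟨t, ht, rfl⟩ : ∃ t, 0 ≤ t ∧ W = 3 / 2 + t := ⟨W - 3 / 2, by linarith, by ring⟩
  have h' : t ≤ 143 / 100 := by linarith
  have p2 : 0 ≤ t ^ 2 := sq_nonneg t
  have p3 : 0 ≤ t ^ 3 := pow_nonneg ht 3
  have p4 : 0 ≤ t ^ 4 := pow_nonneg ht 4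
  have p5 : 0 ≤ t ^ 5 := pow_nonneg ht 5
  have p6 : 0 ≤ t ^ 6 := pow_nonneg ht 6
  linarith

/-- The polynomial for `W ≥ 29/10`. -/
lemma flat_tan_poly3 {W : ℝ} (hW : 29 / 10 ≤ W) :
    2 * W ^ 2 ≤ 256 * (99 / 100 * ((W - 1002 / 1000) ^ 2 * (2 * W + 1))) := by
  have a : W / 2 ≤ W - 1002 / 1000 := by linarith
  have b := mul_le_mul (pow_le_pow_left₀ (by linarith) a 2)
    (show (1 : ℝ) ≤ 2 * W + 1 by linarith) zero_le_one (sq_nonneg _)
  nlinarith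

/-- The remainder of the flattening. -/
lemma flat_tan_rest {W s N : ℝ} (hN : 256 ≤ N) (hs : 1025 / 10000 ≤ s) :
    0 ≤ (3 / 2 * s ^ 2) / N +
      (3 / 2 * s - 3 / (4 * N) - 15 / 4 * s / N + 5 / 2 * W ^ 2 / N ^ 2) / N := by
  have hN0 : 0 < N := by linarith
  have a1 : 3 / (4 * N) ≤ 3 / 1024 := by rw [div_le_div_iff₀] <;> linarith
  have a2 : 15 / 4 * s / N ≤ s := by rw [div_le_iff₀ hN0]; nlinarith
  have a3 : 0 ≤ 5 / 2 * W ^ 2 / N ^ 2 := by positivity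
  have a4 : 0 ≤ 3 / 2 * s - 3 / (4 * N) - 15 / 4 * s / N + 5 / 2 * W ^ 2 / N ^ 2 := by linarith
  have : 0 ≤ (3 / 2 * s ^ 2) / N := by positivity
  linarith [div_nonneg a4 hN0.le]

/-- The real inequality. -/
lemma flat_tan {W r N kap : ℝ} (hN : 256 ≤ N) (hW : 105 / 100 ≤ W) (hr1 : 1 ≤ r)
    (hr2 : r ≤ 1002 / 1000) (hk0 : 0 ≤ kap) (hk : kap ≤ 1 / 2) :
    4 * W ^ 2 * ((W ^ 2 - 1) / (1 + 2 * (W ^ 2 - 1))) ≤
      (N + 2) * ((W - r) ^ 2 * (2 * W + r) / r ^ 3) +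
        kap / N * (-(3 / 4) * (N * (W ^ 2 - 1) - 1) ^ 2 +
          (W ^ 2 - 1) * (3 / 2 * (N * (W ^ 2 - 1)) - 15 / 4)) +
        kap * (5 / 2 * W ^ 2 / N ^ 2 + N * (W ^ 2 - 1) ^ 3 / 10) := by
  have hN0 : 0 < N := by linarith
  have hr0 : 0 < r := by linarith
  set s := W ^ 2 - 1 with hs
  have hs0 : 1025 / 10000 ≤ s := by rw [hs]; nlinarith
  have hr3 : r ^ 3 ≤ (1002 / 1000) ^ 3 := pow_le_pow_left₀ hr0.le hr2 3
  have hWr : 0 ≤ W - 1002 / 1000 := by linarith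
  have hmain : N * (99 / 100 * ((W - 1002 / 1000) ^ 2 * (2 * W + 1))) ≤
      (N + 2) * ((W - r) ^ 2 * (2 * W + r) / r ^ 3) := by
    have h1 : (W - 1002 / 1000) ^ 2 * (2 * W + 1) ≤ (W - r) ^ 2 * (2 * W + r) :=
      mul_le_mul (pow_le_pow_left₀ hWr (by linarith) 2) (by linarith) (by linarith) (sq_nonneg _)
    have h2 : 99 / 100 * ((W - r) ^ 2 * (2 * W + r)) ≤ (W - r) ^ 2 * (2 * W + r) / r ^ 3 := by
      rw [le_div_iff₀ (by positivity)]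
      have h3 : 0 ≤ (W - r) ^ 2 * (2 * W + r) := mul_nonneg (sq_nonneg _) (by linarith)
      have h4 := mul_le_mul_of_nonneg_left hr3 h3
      linarith
    have h5 : 99 / 100 * ((W - 1002 / 1000) ^ 2 * (2 * W + 1)) ≤
        (W - r) ^ 2 * (2 * W + r) / r ^ 3 := by linarith
    refine mul_le_mul (by linarith) h5 (by
      have : 0 ≤ 2 * W + 1 := by linarith
      positivity) (by linarith)
  have h1 := flat_tan_rest (W := W) hN hs0
  have e : kap / N * (-(3 / 4) * (N * s - 1) ^ 2 + s * (3 / 2 * (N * s) - 15 / 4)) +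
      kap * (5 / 2 * W ^ 2 / N ^ 2 + N * s ^ 3 / 10) =
      kap * N * (-(3 / 4) * s ^ 2 + s ^ 3 / 10 + (3 / 2 * s ^ 2) / N +
        (3 / 2 * s - 3 / (4 * N) - 15 / 4 * s / N + 5 / 2 * W ^ 2 / N ^ 2) / N) := by
    field_simp
    ring
  have ht0 : 0 ≤ 4 * W ^ 2 := by positivity
  rw [add_assoc, e]
  set G := -(3 / 4) * s ^ 2 + s ^ 3 / 10 + (3 / 2 * s ^ 2) / N +
    (3 / 2 * s - 3 / (4 * N) - 15 / 4 * s / N + 5 / 2 * W ^ 2 / N ^ 2) / N with hG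
  have hmain0 : 0 ≤ 99 / 100 * ((W - 1002 / 1000) ^ 2 * (2 * W + 1)) :=
    mul_nonneg (by norm_num) (mul_nonneg (sq_nonneg _) (by linarith))
  rcases le_or_gt s (15 / 2) with h | h
  · have h3 : -(3 / 4) * s ^ 2 + s ^ 3 / 10 ≤ 0 := by
      nlinarith [mul_le_mul_of_nonneg_left h (sq_nonneg s)]
    have h4 := mul_le_mul_of_nonpos_right hk h3
    have h5 := mul_le_mul_of_nonneg_left
      (show -(3 / 8) * s ^ 2 + s ^ 3 / 20 ≤ kap * G by
        rw [hG]; linarith [mul_nonneg hk0 h1]) hN0.le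
    have hW3 : W ≤ 293 / 100 := by
      refine le_of_pow_le_pow_left₀ two_ne_zero (by norm_num) ?_
      norm_num
      linarith
    have hpoly : 4 * W ^ 2 * (s / (1 + 2 * s)) / 256 ≤
        99 / 100 * ((W - 1002 / 1000) ^ 2 * (2 * W + 1)) - 3 / 8 * s ^ 2 + s ^ 3 / 20 := by
      have hb1 : s / (1 + 2 * s) ≤ s := div_le_self (by linarith) (by linarith)
      have hb2 : s / (1 + 2 * s) ≤ 1 / 2 := by rw [div_le_div_iff₀] <;> linarith
      rcases le_or_gt W (3 / 2) with h6 | h6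
      · refine le_trans (div_le_div_of_nonneg_right
          (mul_le_mul_of_nonneg_left hb1 ht0) (by norm_num)) ?_
        rw [hs]
        exact flat_tan_poly1 hW h6
      · refine le_trans (div_le_div_of_nonneg_right
          (mul_le_mul_of_nonneg_left hb2 ht0) (by norm_num)) ?_
        rw [hs, show 4 * W ^ 2 * (1 / 2) = 2 * W ^ 2 by ring]
        exact flat_tan_poly2 h6.le hW3
    have h7 := mul_le_mul_of_nonneg_left hpoly hN0.le
    have hb0 : 0 ≤ s / (1 + 2 * s) := div_nonneg (by linarith) (by linarith)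
    have h8 := mul_le_mul_of_nonneg_right hN (show 0 ≤ 4 * W ^ 2 * (s / (1 + 2 * s)) / 256 by positivity)
    generalize 4 * W ^ 2 * (s / (1 + 2 * s)) = t at h7 h8 ⊢
    generalize 99 / 100 * ((W - 1002 / 1000) ^ 2 * (2 * W + 1)) = M at h7 hmain
    generalize (N + 2) * ((W - r) ^ 2 * (2 * W + r) / r ^ 3) = MM at hmain ⊢
    linarith
  · have h3 : 0 ≤ -(3 / 4) * s ^ 2 + s ^ 3 / 10 := by
      nlinarith [mul_le_mul_of_nonneg_left h.le (sq_nonneg s)]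
    have h5 : 0 ≤ kap * N * G :=
      mul_nonneg (mul_nonneg hk0 hN0.le) (by rw [hG]; linarith)
    have hW3 : 29 / 10 ≤ W := by
      refine le_of_pow_le_pow_left₀ two_ne_zero (by linarith) ?_
      norm_num
      linarith
    have hb2 : s / (1 + 2 * s) ≤ 1 / 2 := by rw [div_le_div_iff₀] <;> linarith
    have h9 : 4 * W ^ 2 * (s / (1 + 2 * s)) ≤ 2 * W ^ 2 :=
      (mul_le_mul_of_nonneg_left hb2 ht0).trans_eq (by ring)
    have h10 := flat_tan_poly3 hW3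
    have h11 := mul_le_mul_of_nonneg_right hN hmain0
    exact h9.trans (h10.trans (h11.trans (hmain.trans (le_add_of_nonneg_right h5))))

/-- **The weight in the tangent zone.** -/
theorem ellFlat_tangent {ε kap T b : ℝ} (hm : 254 ≤ m) (hε1 : 7 / 2 ≤ ε) (hε2 : ε ≤ 203 / 50)
    (hk0 : 0 ≤ kap) (hk : kap ≤ 1 / 2) (hT : 0 < T) (hz : 1 / 2 ≤ ε * T ^ 2)
    (hb : b = (ε * T ^ 2 - 1 / 2) / (T ^ 2 + 1 / 2)) :
    2 * b * pre m T / T ≤ ellFlat m ε kap (rr (m + 1)) T + nuFlat m ε kap T := by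
  have hm' : (254 : ℝ) ≤ (m : ℝ) := by exact_mod_cast hm
  have hr1 := (one_lt_rr (k := m + 1) (by omega)).le
  have hr0 : 0 < rr (m + 1) := one_pos.trans_le hr1
  have hr2 : rr (m + 1) ≤ 1002 / 1000 := by
    have h := rr_le (k := m + 1) (by omega)
    push_cast at h
    have h5 : (500 : ℝ) ≤ 2 * ((m : ℝ) + 1) + 1 := by linarith
    have := one_div_le_one_div_of_le (by norm_num : (0 : ℝ) < 500) h5
    linarith
  have hs : 25 / 203 ≤ T ^ 2 := by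
    have := mul_le_mul_of_nonneg_right hε2 (sq_nonneg T)
    linarith
  have hW : 105 / 100 ≤ √(1 + T ^ 2) := by
    rw [le_sqrt (by norm_num) (by positivity)]; norm_num; linarith
  have h := flat_tan (N := (m : ℝ) + 2) (by linarith) hW hr1 hr2 hk0 hk
  rw [show (m : ℝ) + 2 + 2 = (m : ℝ) + 4 by ring, w_sq, add_sub_cancel_left] at h
  have hbε : b ≤ ε * (2 * (T ^ 2 / (1 + 2 * T ^ 2))) := by
    rw [hb, show ε * (2 * (T ^ 2 / (1 + 2 * T ^ 2))) = ε * T ^ 2 / (T ^ 2 + 1 / 2) by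
      rw [show T ^ 2 + 1 / 2 = (1 + 2 * T ^ 2) / 2 by ring, div_div_eq_mul_div]; ring]
    exact div_le_div_of_nonneg_right (by linarith) (by positivity)
  have hu : 0 ≤ T ^ 2 / (1 + 2 * T ^ 2) := by positivity
  have h1 : 2 * b ≤ (1 + ε) * (4 * (T ^ 2 / (1 + 2 * T ^ 2))) := by
    have := mul_le_mul_of_nonneg_right (show ε ≤ 1 + ε by linarith) hu
    linarith
  have hq : 0 ≤ ((m : ℝ) + 1) * (T / √(1 + T ^ 2) ^ (m + 6)) := by positivity
  have h2 := mul_le_mul_of_nonneg_left h1 (mul_nonneg hq (sq_nonneg √(1 + T ^ 2)))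
  have h3 := mul_le_mul_of_nonneg_left h (mul_nonneg hq (by linarith : 0 ≤ 1 + ε))
  have hw := w_pos T
  have e1 : 2 * b * pre m T / T =
      ((m : ℝ) + 1) * (T / √(1 + T ^ 2) ^ (m + 6)) * √(1 + T ^ 2) ^ 2 * (2 * b) := by
    rw [pre, show m + 6 = m + 4 + 2 from rfl, pow_add]
    field_simp
    ring
  have e2 : nuFlat m ε kap T = ((m : ℝ) + 1) * (T / √(1 + T ^ 2) ^ (m + 6)) * (1 + ε) *
      (kap * (5 / 2 * (1 + T ^ 2) / ((m : ℝ) + 2) ^ 2 + ((m : ℝ) + 2) * (T ^ 2) ^ 3 / 10)) := by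
    have e : √(1 + T ^ 2) ^ (m + 6) = √(1 + T ^ 2) ^ (m + 4) * (1 + T ^ 2) := by
      rw [show m + 6 = m + 4 + 2 from rfl, pow_add, w_sq]
    simp only [nuFlat, muX, e]
    field_simp
  rw [e1, ellFlat_eq hr0.ne' T, e2, w_sq]
  rw [w_sq] at h2
  simp only [flatB]
  linarith

end Vale.Agent.P237.Cal
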