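import Vale.Agent.P237.Cal.BoxCal
import Vale.Agent.P237.Cal.CellCert

/-!
# P237: the vertex condition of a family given by atom lists

All fields are sums of atoms `T^i W^(-j)` with integer weights over one denominator `Z`. Then the
four polynomials of `VxOk` in `(D, Xc)` have atom lists as coefficients, over `Z²`.
-/

open MeasureTheory Set Filter Topology Real

namespace Vale.Agent.P237.Cal.FamAtoms

open AtomCert CellCert

variable {m : ℕ}

/-- A family with atom lists for its fields and integer constants, all over `Z`. -/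
structure APar where
  Z : ℕ
  g : List Atom
  P : List Atom
  C : List Atom
  S : List Atom
  U : List Atom
  LB : List Atom
  eps : ℤ
  eta : ℤ
  mu : ℤ
  a : ℤ
  K : ℤ

/-- The multipliers on one side of `D = 0`: `th`, `ph = ph1 D + ph2 D²` and `nu`, over `Z`. -/
structure Side where
  th : List Atom
  ph1 : List Atom
  ph2 : List Atom
  nu : List Atom

/-- The weights of the atoms with a given property, summed. -/
def wsum (f : Atom → Bool) (l : List Atom) : ℤ := ((l.filter f).map (·.1)).sum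

/-- The value of a list over `Z`. -/
noncomputable def ev (Z : ℕ) (l : List Atom) (T : ℝ) : ℝ := eval l T / Z

/-- The family. -/
noncomputable def APar.fam (p : APar) : Fam where
  g := ev p.Z p.g
  g' := ev p.Z (deriv1 p.g)
  P := ev p.Z p.P
  P' := ev p.Z (deriv1 p.P)
  C := ev p.Z p.C
  C' := ev p.Z (deriv1 p.C)
  S := ev p.Z p.S
  S' := ev p.Z (deriv1 p.S)
  U := ev p.Z p.U
  U' := ev p.Z (deriv1 p.U)
  LB := ev p.Z p.LB
  K := p.K / p.Z
  μ := p.mu / p.Z
  a := p.a / p.Z
  uinf := (wsum (fun x => decide (x.2.1 = x.2.2)) p.U : ℤ) / p.Z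

/-- The value of `ph`. -/
noncomputable def Side.ph (s : Side) (Z : ℕ) (T D : ℝ) : ℝ := ev Z s.ph1 T * D + ev Z s.ph2 T * D ^ 2

/-- Multiplication by `pre`. -/
def mulPre (m : ℕ) (l : List Atom) : List Atom := scale ((m : ℤ) + 1) (shift 2 (m + 4) l)

/-- The coefficients of `vxA`. -/
def listA (m : ℕ) (p : APar) (s : Side) : CellCert.Poly (List Atom) :=
  let Z : ℤ := p.Z
  ⟨mulPre m ([(Z * Z, 0, 0), (-(p.eps * Z), 2, 0)] ++ scale (Z + p.eta) s.th ++
      scale Z (shift 2 0 s.th)),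
    mulPre m ([(-(2 * p.eps * Z), 1, 0)] ++ scale (2 * Z) (shift 1 0 s.th) ++ scale Z s.ph1),
    mulPre m ([(-(p.eps * Z), 0, 0)] ++ scale Z s.th ++ scale Z s.ph2),
    [], [], [], []⟩

/-- The coefficients of `vxB`. -/
def listB (m : ℕ) (p : APar) (s : Side) : CellCert.Poly (List Atom) :=
  let Z : ℤ := p.Z
  let k : ℤ := (m : ℤ) + 1
  ⟨mulPre m [(Z * Z, 0, 0), (-(p.eps * Z), 2, 0)] ++ scale (k * Z) (shift 0 m s.th) ++
      scale (-(k * (Z + p.eta))) (shift 0 (m + 2) s.th) ++ scale Z p.g,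
    scale (2 * Z) p.P, scale (3 * Z) p.C, [], scale (2 * Z) p.S, [], []⟩

/-- The weight `ell` over `Z`. -/
def ellL (m : ℕ) (p : APar) : List Atom :=
  let Z : ℤ := p.Z
  let k : ℤ := (m : ℤ) + 1
  let n : ℤ := (m : ℤ) + 2
  [(k * p.mu, 1, m + 3), (-(n * p.a + k * (n * (Z + 2 * p.eps) - 2 * p.eps)), 1, m + 4),
    (k * (n + 2) * (Z + p.eps), 1, m + 6)]

/-- The coefficients of `vxR`. -/
def listR (m : ℕ) (p : APar) (s : Side) : CellCert.Poly (List Atom) :=
  let Z : ℤ := p.Z
  let k : ℤ := (m : ℤ) + 1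
  ⟨mulPre m [(-(2 * Z * Z), 0, 0), (2 * p.eps * Z, 2, 0)] ++
      scale (-(2 * k * Z)) (shift 2 (m + 2) s.th) ++ scale (-Z) (p.g ++ p.LB),
    mulPre m [(2 * p.eps * Z, 1, 0)] ++ scale (-(k * Z)) (shift 1 (m + 3) s.ph1) ++
      scale (-(2 * k * Z)) (shift 1 (m + 2) s.th) ++ scale (-(2 * Z)) p.P ++
      scale Z (ellL m p ++ deriv1 p.g ++ [(k * p.K, 1, m + 4)]) ++
      scale (-(2 * Z)) (shift 1 0 s.nu),
    scale (-(k * Z)) (shift 1 (m + 3) s.ph2) ++ scale (-(3 * Z)) p.C ++ scale Z (deriv1 p.P) ++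
      scale (2 * k * Z) (shift 1 (m + 4) p.S) ++ scale (-Z) s.nu,
    scale Z (deriv1 p.C), scale (-(2 * Z)) p.S,
    scale (2 * Z) (deriv1 p.S ++ scale k (shift 1 (m + 4) p.U)), scale Z (deriv1 p.U)⟩

/-- The sum of three coefficient polynomials. -/
def addP (a b c : CellCert.Poly (List Atom)) : CellCert.Poly (List Atom) :=
  ⟨a.c00 ++ b.c00 ++ c.c00, a.c10 ++ b.c10 ++ c.c10, a.c20 ++ b.c20 ++ c.c20,
    a.c30 ++ b.c30 ++ c.c30, a.c01 ++ b.c01 ++ c.c01, a.c11 ++ b.c11 ++ c.c11,
    a.c02 ++ b.c02 ++ c.c02⟩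

/-- The coefficient of `D⁰` of `A + B + R`, after the cancellation by `T² W⁻² = 1 - W⁻²`. -/
def sumC00 (m : ℕ) (p : APar) (s : Side) : List Atom :=
  scale (-(((m : ℤ) + 1) * p.eta)) (shift 0 (m + 4) s.th) ++ scale (-(p.Z : ℤ)) p.LB

/-- The coefficient of `D` of `A + B + R`, after the same cancellation. -/
def sumC10 (m : ℕ) (p : APar) (s : Side) : List Atom :=
  let Z : ℤ := p.Z
  let k : ℤ := (m : ℤ) + 1
  scale (k * Z) (shift 2 (m + 4) s.ph1) ++ scale (-(k * Z)) (shift 1 (m + 3) s.ph1) ++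
    scale (-(2 * k * Z)) (shift 1 (m + 4) s.th) ++
    scale Z (ellL m p ++ deriv1 p.g ++ [(k * p.K, 1, m + 4)]) ++
    scale (-(2 * Z)) (shift 1 0 s.nu)

/-- The coefficient of `D⁰` of `A - B`, after the same cancellation. -/
def difC00 (m : ℕ) (p : APar) (s : Side) : List Atom :=
  scale (((m : ℤ) + 1) * p.eta) (shift 2 (m + 4) s.th ++ shift 0 (m + 2) s.th) ++
    scale (-(p.Z : ℤ)) p.g

/-- The four coefficient polynomials: `A`, `B`, `A + B + R`, `A - B`. The coefficients in which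
the circle multiplier cancels are kept in cancelled form: this keeps the error of a cell small. -/
def vxLists (m : ℕ) (p : APar) (s : Side) :
    CellCert.Poly (List Atom) × CellCert.Poly (List Atom) × CellCert.Poly (List Atom) × CellCert.Poly (List Atom) :=
  let A := listA m p s
  let B := listB m p s
  (A, B, { addP A B (listR m p s) with c00 := sumC00 m p s, c10 := sumC10 m p s },
    ⟨difC00 m p s, A.c10 ++ scale (-1) B.c10, A.c20 ++ scale (-1) B.c20,
      A.c30 ++ scale (-1) B.c30, A.c01 ++ scale (-1) B.c01, A.c11 ++ scale (-1) B.c11,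
      A.c02 ++ scale (-1) B.c02⟩)

/-- The coefficient values at `T`. -/
noncomputable def evP (q : CellCert.Poly (List Atom)) (T : ℝ) : CellCert.Poly ℝ :=
  ⟨eval q.c00 T, eval q.c10 T, eval q.c20 T, eval q.c30 T, eval q.c01 T, eval q.c11 T,
    eval q.c02 T⟩

lemma addP_val (a b c : CellCert.Poly (List Atom)) (T D X : ℝ) :
    (evP (addP a b c) T).val D X = (evP a T).val D X + (evP b T).val D X + (evP c T).val D X := by
  simp only [evP, addP, CellCert.Poly.val, eval_append]; ring

section Values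

variable {p : APar} {s : Side} {T D X : ℝ}

lemma w_eq (T : ℝ) : √(1 + T ^ 2) = 1 / cW T := by simp [cW]

lemma one_add_sq (T : ℝ) : 1 + T ^ 2 = 1 / cW T ^ 2 := by
  simp only [cW, inv_pow, sq_sqrt (by positivity : (0 : ℝ) ≤ 1 + T ^ 2), one_div, inv_inv]

lemma valA (hZ : 0 < p.Z) :
    (evP (listA m p s) T).val D X =
      (p.Z : ℝ) ^ 2 * vxA m ((p.eps : ℝ) / p.Z) ((p.eta : ℝ) / p.Z) (ev p.Z s.th T)
        (s.ph p.Z T D) T (T + D) := by
  have hZ' : (p.Z : ℝ) ≠ 0 := Nat.cast_ne_zero.2 hZ.ne'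
  simp only [evP, listA, mulPre, CellCert.Poly.val, vxA, preT, Side.ph, ev, eval_append, eval_scale,
    eval_shift, eval, w_eq, Int.cast_mul, Int.cast_neg, Int.cast_add, Int.cast_one, Int.cast_ofNat,
    Int.cast_natCast, div_pow, one_pow]
  have hc := (cW_pos T).ne'
  field_simp
  ring

lemma valB (hZ : 0 < p.Z) (hT : 0 < T) :
    (evP (listB m p s) T).val D X =
      (p.Z : ℝ) ^ 2 * vxB m (p.fam.at T) ((p.eps : ℝ) / p.Z) ((p.eta : ℝ) / p.Z) (ev p.Z s.th T) T
        (T + D) X := by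
  have hZ' : (p.Z : ℝ) ≠ 0 := Nat.cast_ne_zero.2 hZ.ne'
  have e : muX m T / T * (ev p.Z s.th T * (1 + T ^ 2) * (1 + T ^ 2 - (1 + (p.eta : ℝ) / p.Z))) =
      ((m : ℝ) + 1) * cW T ^ (m + 4) *
        (ev p.Z s.th T * (1 / cW T ^ 2) * (1 / cW T ^ 2 - (1 + (p.eta : ℝ) / p.Z))) := by
    rw [← one_add_sq, muX, w_eq, div_pow, one_pow]
    have hc := (cW_pos T).ne'
    field_simp
  simp only [vxB, e]
  simp only [evP, listB, mulPre, CellCert.Poly.val, preT, vxGc, ev, Fam.at, APar.fam, eval_append,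
    eval_scale, eval_shift, eval, w_eq, Int.cast_mul, Int.cast_neg, Int.cast_add, Int.cast_one,
    Int.cast_ofNat, Int.cast_natCast, div_pow, one_pow]
  have hc := (cW_pos T).ne'
  field_simp
  ring

lemma valR (hZ : 0 < p.Z) (hT : 0 < T) :
    (evP (listR m p s) T).val D X =
      (p.Z : ℝ) ^ 2 * vxR m (p.fam.at T) ((p.eps : ℝ) / p.Z) (ev p.Z s.th T) (s.ph p.Z T D)
        (ev p.Z s.nu T) T (T + D) X := by
  have hZ' : (p.Z : ℝ) ≠ 0 := Nat.cast_ne_zero.2 hZ.ne'
  have e : 2 * muX m T * ev p.Z s.th T * (1 + T ^ 2) =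
      2 * muX m T * ev p.Z s.th T * (1 / cW T ^ 2) := by rw [← one_add_sq]
  simp only [vxR, e]
  simp only [evP, listR, ellL, mulPre, CellCert.Poly.val, preT, vxGc, muX, ell, Side.ph, ev, Fam.at,
    APar.fam, eval_append, eval_scale, eval_shift, eval, w_eq, Int.cast_mul, Int.cast_neg,
    Int.cast_add, Int.cast_sub, Int.cast_one, Int.cast_ofNat, Int.cast_natCast, div_pow, one_pow]
  have hc := (cW_pos T).ne'
  field_simp
  ring

lemma sumC00_eq (T : ℝ) : eval (sumC00 m p s) T =
    eval ((listA m p s).c00 ++ (listB m p s).c00 ++ (listR m p s).c00) T := by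
  have h : (T ^ 2 + 1) * cW T ^ 2 = 1 := by
    rw [add_comm, one_add_sq, one_div_mul_cancel (pow_ne_zero _ (cW_pos T).ne')]
  simp only [sumC00, listA, listB, listR, mulPre, eval_append, eval_scale, eval_shift, eval,
    Int.cast_mul, Int.cast_neg, Int.cast_add, Int.cast_one, Int.cast_ofNat, Int.cast_natCast]
  linear_combination (-(((m : ℝ) + 1) * eval s.th T * cW T ^ m *
    ((p.eta : ℝ) * cW T ^ 2 + (p.Z : ℝ) * (T ^ 2 * cW T ^ 2 - 1)))) * h

lemma sumC10_eq (T : ℝ) : eval (sumC10 m p s) T =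
    eval ((listA m p s).c10 ++ (listB m p s).c10 ++ (listR m p s).c10) T := by
  have h : (T ^ 2 + 1) * cW T ^ 2 = 1 := by
    rw [add_comm, one_add_sq, one_div_mul_cancel (pow_ne_zero _ (cW_pos T).ne')]
  simp only [sumC10, listA, listB, listR, ellL, mulPre, eval_append, eval_scale, eval_shift, eval,
    Int.cast_mul, Int.cast_neg, Int.cast_add, Int.cast_sub, Int.cast_one, Int.cast_ofNat,
    Int.cast_natCast]
  linear_combination (-(2 * ((m : ℝ) + 1) * (p.Z : ℝ) * eval s.th T * T * cW T ^ (m + 2))) * h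

lemma difC00_eq (T : ℝ) : eval (difC00 m p s) T =
    eval ((listA m p s).c00 ++ scale (-1) (listB m p s).c00) T := by
  have h : (T ^ 2 + 1) * cW T ^ 2 = 1 := by
    rw [add_comm, one_add_sq, one_div_mul_cancel (pow_ne_zero _ (cW_pos T).ne')]
  simp only [difC00, listA, listB, mulPre, eval_append, eval_scale, eval_shift, eval,
    Int.cast_mul, Int.cast_neg, Int.cast_add, Int.cast_one, Int.cast_natCast]
  linear_combination (-(((m : ℝ) + 1) * (p.Z : ℝ) * eval s.th T * cW T ^ m *
    (T ^ 2 * cW T ^ 2 + 1))) * h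

/-- The third polynomial is `A + B + R`. -/
lemma vxN_val (m : ℕ) (p : APar) (s : Side) (T D X : ℝ) :
    (evP (vxLists m p s).2.2.1 T).val D X = (evP (listA m p s) T).val D X +
      (evP (listB m p s) T).val D X + (evP (listR m p s) T).val D X := by
  have e0 := sumC00_eq (m := m) (p := p) (s := s) T
  have e1 := sumC10_eq (m := m) (p := p) (s := s) T
  simp only [eval_append] at e0 e1
  simp only [vxLists, evP, addP, CellCert.Poly.val, eval_append, e0, e1]
  ring

/-- The fourth polynomial is `A - B`. -/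
lemma vxd_val (m : ℕ) (p : APar) (s : Side) (T D X : ℝ) :
    (evP (vxLists m p s).2.2.2 T).val D X =
      (evP (listA m p s) T).val D X - (evP (listB m p s) T).val D X := by
  have e0 := difC00_eq (m := m) (p := p) (s := s) T
  simp only [eval_append, eval_scale, Int.cast_neg, Int.cast_one] at e0
  simp only [vxLists, evP, CellCert.Poly.val, eval_append, eval_scale, Int.cast_neg, Int.cast_one,
    e0]
  ring

/-- **`Quad` of the four polynomials gives the vertex condition.** -/
theorem vxOk_of_quad {σ : ℝ} (hZ : 0 < p.Z) (hT : 0 < T) (hD : D = σ - T)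
    (h : Quad ((evP (vxLists m p s).1 T).val D X) ((evP (vxLists m p s).2.1 T).val D X)
      ((evP (vxLists m p s).2.2.1 T).val D X) ((evP (vxLists m p s).2.2.2 T).val D X)) :
    VxOk m (p.fam.at T) ((p.eps : ℝ) / p.Z) ((p.eta : ℝ) / p.Z) (ev p.Z s.th T) (s.ph p.Z T D)
      (ev p.Z s.nu T) T σ X := by
  have hσ : σ = T + D := by linarith
  subst hσ
  rw [vxd_val, vxN_val] at h
  simp only [vxLists] at h
  rw [valA hZ, valB hZ hT, valR hZ hT, ← mul_add, ← mul_add, ← mul_sub] at h
  have h2 := h.smul (inv_nonneg.2 (sq_nonneg (p.Z : ℝ)))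
  have hZ2 : (p.Z : ℝ) ^ 2 ≠ 0 := pow_ne_zero _ (Nat.cast_ne_zero.2 hZ.ne')
  simp only [inv_mul_cancel_left₀ hZ2] at h2
  exact ⟨h2.ha, h2.hb, h2.core⟩

/-- Dense coefficient vectors. -/
noncomputable def denseP (B : List (ℕ × ℕ)) (q : CellCert.Poly (List Atom)) : Option (CellCert.Poly (List ℤ)) := do
  let a ← dense B q.c00
  let b ← dense B q.c10
  let c ← dense B q.c20
  let d ← dense B q.c30
  let e ← dense B q.c01
  let f ← dense B q.c11
  let g ← dense B q.c02
  return ⟨a, b, c, d, e, f, g⟩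

lemma denseP_at {B : List (ℕ × ℕ)} {q : CellCert.Poly (List Atom)} {r : CellCert.Poly (List ℤ)}
    (h : denseP B q = some r) (T : ℝ) : r.at B T = evP q T := by
  simp only [denseP, Option.bind_eq_bind, Option.pure_def, Option.bind_eq_some_iff, Option.some.injEq] at h
  obtain ⟨a, ha, b, hb, c, hc, d, hd, e, he, f, hf, g, hg, rfl⟩ := h
  simp only [CellCert.Poly.at, evP, eval_dense ha, eval_dense hb, eval_dense hc, eval_dense hd,
    eval_dense he, eval_dense hf, eval_dense hg]

/-- The dense family of a vertex. -/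
noncomputable def vfam (B : List (ℕ × ℕ)) (m : ℕ) (p : APar) (s : Side) : Option VFam := do
  let a ← denseP B (vxLists m p s).1
  let b ← denseP B (vxLists m p s).2.1
  let c ← denseP B (vxLists m p s).2.2.1
  let d ← denseP B (vxLists m p s).2.2.2
  return ⟨a.fn, b.fn, c.fn, d.fn⟩

/-- **A tested cell gives the vertex condition on it.** -/
theorem vxOk_of_cell {P : ℕ} {B : List (ℕ × ℕ)} {n n' : Node} {C : Cell} {F : VFam} {σ : ℝ}
    (hF : vfam B m p s = some F) (ht : cellTest F C = true)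
    (hc : colTest P n B C.lo C.hi = true) (hc' : colTest P n' B C.lo' C.hi' = true)
    (he : errTest P n n' B C.er = true) (hZ : 0 < p.Z) (hT0 : 0 < T)
    (hT : T ∈ Icc (nodeT n) (nodeT n'))
    (hD : σ - T ∈ Icc ((C.l : ℝ) / 2 ^ 32) ((C.h : ℝ) / 2 ^ 32))
    (hX : X ∈ Icc ((C.x0 : ℝ) / 2 ^ 32) ((C.x1 : ℝ) / 2 ^ 32)) :
    VxOk m (p.fam.at T) ((p.eps : ℝ) / p.Z) ((p.eta : ℝ) / p.Z) (ev p.Z s.th T)
      (s.ph p.Z T (σ - T)) (ev p.Z s.nu T) T σ X := by
  simp only [vfam, Option.bind_eq_bind, Option.pure_def, Option.bind_eq_some_iff, Option.some.injEq] at hF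
  obtain ⟨a, ha, b, hb, c, hc2, d, hd, rfl⟩ := hF
  have hq := cellTest_sound ht hc hc' he hT hD hX
  rw [denseP_at ha, denseP_at hb, denseP_at hc2, denseP_at hd] at hq
  exact vxOk_of_quad hZ hT0 rfl hq

end Values

section Ok

/-- All atoms satisfy `i + d ≤ j`. -/
def degOk (d : ℕ) (l : List Atom) : Bool := l.all fun x => decide (x.2.1 + d ≤ x.2.2)

lemma continuous_eval (l : List Atom) : Continuous (eval l) :=
  continuous_iff_continuousAt.2 fun T => (hasDerivAt_eval l T).continuousAt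

lemma cW_mul_le (T : ℝ) (hT : 0 ≤ T) : T * cW T ≤ 1 := by
  rw [cW, ← div_eq_mul_inv, div_le_one (sqrt_pos.2 (by positivity))]
  exact le_sqrt_of_sq_le (by linarith)

lemma atom_eq (i j : ℕ) (T : ℝ) : T ^ i * cW T ^ j = T ^ i / √(1 + T ^ 2) ^ j := by
  rw [cW, inv_pow, div_eq_mul_inv]

lemma eval_zero' (l : List Atom) : eval l 0 = (wsum (fun x => decide (x.2.1 = 0)) l : ℤ) := by
  induction l with
  | nil => simp [eval, wsum]
  | cons a l ih =>
    obtain ⟨w, i, j⟩ := a
    have hc : cW 0 = 1 := by simp [cW]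
    rcases i with _ | i <;> simp [eval, wsum, ih, hc, List.filter_cons]

/-- The limit of a list times `(T + 1)^d`, `d ≥ 1`, is `0`. -/
lemma tendsto_mul_pow {d : ℕ} : ∀ {l : List Atom}, degOk (d + 1) l = true →
    Tendsto (fun T => eval l T * (T + 1) ^ d) atTop (𝓝 0)
  | [], _ => by simp [eval]
  | (w, i, j) :: l, h => by
    simp only [degOk, List.all_cons, Bool.and_eq_true, decide_eq_true_eq] at h
    have hl := tendsto_mul_pow (d := d) (l := l) (by simpa [degOk] using h.2)
    have hb := (mom_tendsto (a := i + d) (m := j) h.1).const_mul (|(w : ℝ)| * 2 ^ d)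
    rw [mul_zero] at hb
    have hh : Tendsto (fun T : ℝ => (w : ℝ) * (T ^ i * cW T ^ j) * (T + 1) ^ d) atTop (𝓝 0) := by
      refine squeeze_zero_norm' ?_ hb
      filter_upwards [eventually_ge_atTop (1 : ℝ)] with T hT
      have hp : 0 ≤ T ^ i * cW T ^ j := mul_nonneg (by positivity) (pow_nonneg (cW_pos T).le _)
      rw [Real.norm_eq_abs, abs_mul, abs_mul, abs_of_nonneg hp,
        abs_of_nonneg (by positivity : (0 : ℝ) ≤ (T + 1) ^ d)]
      calc |(w : ℝ)| * (T ^ i * cW T ^ j) * (T + 1) ^ d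
          ≤ |(w : ℝ)| * (T ^ i * cW T ^ j) * (2 * T) ^ d := by gcongr; linarith
        _ = _ := by rw [atom_eq, pow_add, mul_pow]; ring
    simpa [eval, add_mul] using hh.add hl

/-- The limit of a list with `i ≤ j`. -/
lemma tendsto_eval : ∀ {l : List Atom}, degOk 0 l = true →
    Tendsto (eval l) atTop (𝓝 ((wsum (fun x => decide (x.2.1 = x.2.2)) l : ℤ) : ℝ))
  | [], _ => by simp [eval, wsum]
  | (w, i, j) :: l, h => by
    simp only [degOk, List.all_cons, Bool.and_eq_true, decide_eq_true_eq, add_zero] at h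
    have hl := tendsto_eval (l := l) (by simpa [degOk] using h.2)
    rcases h.1.eq_or_lt with e | e
    · subst e
      have h1 : Tendsto (fun T => T * cW T) atTop (𝓝 1) := by
        have hq : Tendsto (fun T : ℝ => √(1 - cW T ^ 2)) atTop (𝓝 1) := by
          have hc : Tendsto cW atTop (𝓝 0) := by
            refine ((mom_tendsto (a := 0) (m := 1) le_rfl).congr fun T => ?_)
            simp [cW]
          simpa using (((hc.pow 2).const_sub 1).sqrt)
        refine hq.congr' ?_
        filter_upwards [eventually_ge_atTop (0 : ℝ)] with T hT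
        rw [sqrt_eq_iff_eq_sq ?_ (mul_nonneg hT (cW_pos T).le)]
        · rw [mul_pow, cW, inv_pow, sq_sqrt (by positivity)]; field_simp; ring
        · rw [cW, inv_pow, sq_sqrt (by positivity), sub_nonneg, inv_le_one_iff₀]
          right; nlinarith
      have := ((h1.pow i).const_mul (w : ℝ)).add hl
      simpa [eval, wsum, List.filter_cons, mul_pow] using this
    · have hh := ((mom_tendsto (a := i) (m := j) e).const_mul (w : ℝ)).add hl
      rw [mul_zero, zero_add] at hh
      simpa [eval, wsum, List.filter_cons, e.ne, atom_eq] using hh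

lemma integrableOn_eval : ∀ {l : List Atom}, degOk 2 l = true →
    IntegrableOn (eval l) (Ioi 0)
  | [], _ => by simp [eval]
  | (w, i, j) :: l, h => by
    simp only [degOk, List.all_cons, Bool.and_eq_true, decide_eq_true_eq] at h
    have hl := integrableOn_eval (l := l) (by simpa [degOk] using h.2)
    have := ((mom_integrable (a := i) (m := j) h.1).const_mul (w : ℝ)).add hl
    refine this.congr (Filter.Eventually.of_forall fun T => ?_)
    simp [eval, atom_eq]

/-- The decidable condition for `Fam.Ok`. -/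
def APar.okTest (p : APar) : Bool :=
  degOk 2 p.g && degOk 3 p.P && degOk 4 p.C && degOk 2 p.S && degOk 0 p.U && degOk 2 p.LB &&
    decide (0 ≤ wsum (fun x => decide (x.2.1 = 0)) p.g) &&
    decide (0 ≤ wsum (fun x => decide (x.2.1 = 0)) p.P) &&
    decide (0 ≤ wsum (fun x => decide (x.2.1 = 0)) p.C) && decide (0 ≤ p.mu)

/-- **A tested family is admissible.** -/
theorem APar.ok {p : APar} (h : p.okTest = true) : p.fam.Ok := by
  simp only [APar.okTest, Bool.and_eq_true, decide_eq_true_eq] at h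
  obtain ⟨⟨⟨⟨⟨⟨⟨⟨⟨hg, hP⟩, hC⟩, hS⟩, hU⟩, hLB⟩, g0⟩, P0⟩, C0⟩, hmu⟩ := h
  have cont : ∀ l, Continuous (ev p.Z l) := fun l => (continuous_eval l).div_const _
  have der : ∀ l T, HasDerivAt (ev p.Z l) (ev p.Z (deriv1 l) T) T := fun l T =>
    (hasDerivAt_eval l T).div_const _
  have lim : ∀ {d : ℕ} {l : List Atom}, degOk (d + 1) l = true →
      Tendsto (fun T => ev p.Z l T * (T + 1) ^ d) atTop (𝓝 0) := fun hl => by
    simpa [ev, div_mul_eq_mul_div] using (tendsto_mul_pow hl).div_const (p.Z : ℝ)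
  have at0 : ∀ {l : List Atom}, 0 ≤ wsum (fun x => decide (x.2.1 = 0)) l → 0 ≤ ev p.Z l 0 :=
    fun hl => by rw [ev, eval_zero']; exact div_nonneg (by exact_mod_cast hl) (Nat.cast_nonneg _)
  exact {
    cg := cont _
    cP := cont _
    cC := cont _
    cS := cont _
    cU := cont _
    cLB := cont _
    iLB := (integrableOn_eval hLB).div_const _
    dg := fun T _ => der _ T
    dP := fun T _ => der _ T
    dC := fun T _ => der _ T
    dS := fun T _ => der _ T
    dU := fun T _ => der _ T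
    tg := by simpa [APar.fam] using lim (d := 1) hg
    tP := lim hP
    tC := lim hC
    tS := by simpa [APar.fam] using lim (d := 1) hS
    tU := (tendsto_eval hU).div_const _
    g0 := at0 g0
    P0 := at0 P0
    C0 := at0 C0
    μ0 := div_nonneg (by exact_mod_cast hmu) (Nat.cast_nonneg _) }

end Ok

end Vale.Agent.P237.Cal.FamAtoms
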