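import Vale.Agent.P237.Cal.QuickCtrl

/-!
# P237: cell tests on differences of natural numbers

The kernel adds and multiplies integers much more slowly than natural numbers, so both ends of an
enclosure are kept as differences `lp - ln`, `hp - hn` of natural numbers. A control value is
formed in units of `2 ^ 96` by nested quotients, rounded to the safe side; so no literal ends in
64 zero bits (which the kernel hashes badly). The test gives `famTest`.
-/

namespace Vale.Agent.P237.Cal.FastCell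

open AtomCert CellCert CellCert2 CellGlue2 PackGlue2

/-- Pass a natural number on as a literal, by the plain recursor (three times cheaper in the kernel
than a match). -/
noncomputable def frc {α : Sort _} (n : ℕ) (k : ℕ → α) : α :=
  @Nat.rec (fun _ => α) (k 0) (fun m _ => k (Nat.succ m)) n

lemma frc_eq {α : Sort _} (n : ℕ) (k : ℕ → α) : frc n k = k n := by cases n <;> rfl

/-- Pass an integer on as a literal, by the plain recursors. -/
noncomputable def frcI {α : Sort _} (z : ℤ) (k : ℤ → α) : α :=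
  @Int.rec (fun _ => α) (fun n => frc n fun a => k (Int.ofNat a))
    (fun n => frc n fun a => k (Int.negSucc a)) z

lemma frcI_eq {α : Sort _} (z : ℤ) (k : ℤ → α) : frcI z k = k z := by
  cases z <;> simp [frcI, frc_eq]

/-- An interval `[lp - ln, hp - hn]`. -/
structure IV where
  lp : ℕ
  ln : ℕ
  hp : ℕ
  hn : ℕ

/-- The list of length `n` with the listed entries at increasing positions and zeros elsewhere. -/
noncomputable def sprN (n : ℕ) (l : List (ℕ × ℕ)) : List ℕ :=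
  @Nat.rec (fun _ => ℕ → List (ℕ × ℕ) → List ℕ) (fun _ _ => [])
    (fun _ ih j l => @List.rec (ℕ × ℕ) (fun _ => List ℕ) (0 :: ih (Nat.succ j) [])
      (fun a t _ => @Bool.rec (fun _ => List ℕ) (0 :: ih (Nat.succ j) (a :: t))
        (a.2 :: ih (Nat.succ j) t) (Nat.beq a.1 j)) l) n 0 l

/-- The interval in integers. -/
def toI (v : IV) : ℤ × ℤ := ((v.lp : ℤ) - v.ln, (v.hp : ℤ) - v.hn)

/-- The intervals of a record in integers. -/
def toP (p : CellCert.Poly IV) : CellCert.Poly (ℤ × ℤ) :=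
  ⟨toI p.c00, toI p.c10, toI p.c20, toI p.c30, toI p.c01, toI p.c11, toI p.c02⟩

/-- The larger number, on the accelerated comparison. -/
noncomputable def nmax (a b : ℕ) : ℕ := Bool.rec a b (Nat.ble a b)

lemma nmax_eq (a b : ℕ) : nmax a b = max a b := by
  by_cases k : a ≤ b
  · have h : Nat.ble a b = true := by simpa using k
    simp only [nmax, h]; omega
  · have h : Nat.ble a b = false := Bool.eq_false_iff.2 fun e => k (Nat.le_of_ble_eq_true e)
    simp only [nmax, h]; omega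

/-- The digits in base `D`, on raw operations. -/
noncomputable def digitsD (D n : ℕ) : ℕ → List ℕ :=
  @Nat.rec (fun _ => ℕ → List ℕ) (fun _ => [])
    (fun _ ih S => frc (Nat.div S D) fun q => frc (Nat.mod S D) fun r => r :: ih q) n

lemma digitsD_eq (W : ℕ) : ∀ n S : ℕ, digitsD (2 ^ W) n S = digits W n S
  | 0, _ => rfl
  | n + 1, S => by
    show frc (Nat.div S (2 ^ W)) (fun q => frc (Nat.mod S (2 ^ W)) fun r =>
      r :: digitsD (2 ^ W) n q) = _
    simp only [digits, frc_eq, forceN_eq, digitsD_eq W n]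
    rfl

/-- The chord bound of a cell, on raw operations. -/
def upF (d x : ℕ) : ℕ :=
  Nat.div (Nat.add (Nat.mul (Nat.mul d d) x) 8796093022207) 8796093022208

lemma upF_eq (d x : ℕ) : upF d x = up43 d x := by
  simp only [upF, up43, Nat.add_eq, Nat.mul_eq, show ∀ a b : ℕ, Nat.div a b = a / b from fun _ _ => rfl]
  norm_num

/-- Absolute bounds of the signed slots. -/
noncomputable def magF (H : ℕ) : List ℕ → List ℕ → List ℕ
  | a :: l, b :: r =>
    nmax (nmax (Nat.sub a H) (Nat.sub H a)) (nmax (Nat.sub b H) (Nat.sub H b)) :: magF H l r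
  | _, _ => []

lemma magF_eq (H : ℕ) : ∀ l r : List ℕ, magF H l r = magL H l r
  | [], _ => rfl
  | _ :: _, [] => rfl
  | a :: l, b :: r => by
    simp only [magF, magL, forceN_eq, nmax_eq, magI, Nat.sub_eq, magF_eq H l r, List.cons.injEq,
      and_true]
    omega

/-- The bounds of a signed derivative at all nodes from the two signed rows. -/
noncomputable def magsF (D H n R : ℕ) (pn np ca cb : List ℕ) : List ℕ :=
  magF H (digitsD D n (Nat.sub (Nat.add (fdot pn ca) R) (fdot pn cb)))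
    (digitsD D n (Nat.sub (Nat.add (fdot np cb) R) (fdot np ca)))

lemma magsF_eq (W n R : ℕ) (f : Fn) (ca cb : List ℕ) :
    magsF (2 ^ W) (half W) n R (f.1 ++ f.2.1) (f.2.1 ++ f.1) ca cb = magsR W n R f ca cb := by
  simp only [magsF, magsR, forceN_eq, magF_eq, digitsD_eq, Nat.add_eq, Nat.sub_eq]

/-- The values at the nodes from the four lists of positive and negative parts. -/
def valsF : List ℕ → List ℕ → List ℕ → List ℕ → List IV
  | a :: p, b :: q, c :: r, d :: s => ⟨a, b, c, d⟩ :: valsF p q r s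
  | _, _, _, _ => []

lemma valsF_map {β : Type} (p q r s : β → ℕ) : ∀ l : List β,
    valsF (l.map p) (l.map q) (l.map r) (l.map s) = l.map fun x => ⟨p x, q x, r x, s x⟩
  | [] => rfl
  | x :: l => by simp [valsF, valsF_map p q r s l]

/-- A value widened by an error. -/
def wideF (v : IV) (E : ℕ) : IV := ⟨v.lp, Nat.add v.ln E, Nat.add v.hp E, v.hn⟩

/-- The two enclosures on every cell, from values, bounds and sums. -/
noncomputable def encF : List CellCert2.Cell → List IV → List ℕ → List ℕ → List ℕ → List (IV × IV)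
  | C :: cs, v :: v' :: V, g :: g' :: G, f :: f' :: F, e :: es =>
    (wideF v (upF C.d (Nat.add (nmax g g') (upF C.d (Nat.add (nmax f f') (upF C.d e))))),
      wideF v' (upF C.d (Nat.add (nmax g g') (upF C.d (Nat.add (nmax f f') (upF C.d e)))))) ::
        encF cs (v' :: V) (g' :: G) (f' :: F) es
  | _, _, _, _, _ => []

/-- The two enclosures of a function on a cell. -/
def enclF (f : Fn) (C : CellCert2.Cell) : IV × IV :=
  (wideF ⟨dot f.1 C.lo, dot f.2.1 C.hi, dot f.1 C.hi, dot f.2.1 C.lo⟩ (errF f C),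
    wideF ⟨dot f.1 C.lo', dot f.2.1 C.hi', dot f.1 C.hi', dot f.2.1 C.lo'⟩ (errF f C))

lemma toI_enclF (f : Fn) (C : CellCert2.Cell) :
    (toI (enclF f C).1, toI (enclF f C).2) = encl2 f C := by
  simp only [toI, enclF, wideF, encl2, widen, valI, Nat.add_eq, Prod.mk.injEq]
  refine ⟨⟨?_, ?_⟩, ?_, ?_⟩ <;> push_cast <;> ring

lemma encF_eq {f : Fn} : ∀ {cs : List CellCert2.Cell} {N : List NTab}, linkOk cs N = true →
    encF cs (N.map fun t => ⟨dot f.1 t.lo, dot f.2.1 t.hi, dot f.1 t.hi, dot f.2.1 t.lo⟩)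
      (N.map fun t => magI (derI f t.dlo t.dhi)) (N.map fun t => magI (derI f t.flo t.fhi))
      (cs.map fun C => dot f.2.2 C.e6) = cs.map fun C => enclF f C
  | [], [_], _ => rfl
  | [], [], h => by simp [linkOk] at h
  | [], _ :: _ :: _, h => by simp [linkOk] at h
  | _ :: _, [], h => by simp [linkOk] at h
  | _ :: _, [_], h => by simp [linkOk] at h
  | C :: cs, a :: b :: l, h => by
    simp only [linkOk, Bool.and_eq_true, eqNs_iff, eqZs_iff] at h
    obtain ⟨⟨⟨⟨⟨⟨⟨⟨⟨⟨⟨⟨e1, e2⟩, e3⟩, e4⟩, e5⟩, e6⟩, e7⟩, e8⟩, g1⟩, g2⟩, g3⟩, g4⟩, h'⟩ := h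
    have ih := encF_eq (f := f) h'
    simp only [List.map_cons] at ih ⊢
    simp only [encF, nmax_eq, upF_eq, Nat.add_eq, ih, enclF, errF, chordErr, e1, e2, e3, e4, e5,
      e6, e7, e8, g1, g2, g3, g4]

/-- The zero interval. -/
def zeroIV : IV := ⟨0, 0, 0, 0⟩

/-- The enclosures of a function on the cells of a chunk. -/
noncomputable def fnEncF (W R : ℕ) (f : Fn) (cs : List CellCert2.Cell) (Q : Cols) : List (IV × IV) :=
  if zeroFn f then cs.map fun _ => (zeroIV, zeroIV)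
  else
    frc (2 ^ W) fun D => frc (half W) fun H => frc (Q.k + 1) fun n =>
    encF cs
      (valsF (digitsD D n (fdot f.1 Q.lo)) (digitsD D n (fdot f.2.1 Q.hi))
        (digitsD D n (fdot f.1 Q.hi)) (digitsD D n (fdot f.2.1 Q.lo)))
      (magsF D H n R (f.1 ++ f.2.1) (f.2.1 ++ f.1) Q.da Q.db)
      (magsF D H n R (f.1 ++ f.2.1) (f.2.1 ++ f.1) Q.fa Q.fb)
      (digitsD D Q.k (fdot f.2.2 Q.e6))

lemma enclF_zero {f : Fn} (h : zeroFn f = true) (C : CellCert2.Cell) :
    enclF f C = (zeroIV, zeroIV) := by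
  simp only [zeroFn, Bool.and_eq_true] at h
  obtain ⟨⟨h1, h2⟩, h3⟩ := h
  have u : ∀ d, up43 d 0 = 0 := fun d => by
    simp only [up43, Nat.mul_zero, Nat.zero_add]
    exact Nat.div_eq_of_lt (by norm_num)
  simp [enclF, zeroIV, wideF, errF, chordErr, derI, magI, dot_zero _ h1, dot_zero _ h2,
    dot_zero _ h3, dotZ_zero _ h1, dotZ_zero _ h2, u]

variable {W K M M2 M4 : ℕ} {cs : List CellCert2.Cell} {N : List NTab} {Q : Cols}

lemma fnEncF_eq (hc : chunkOk W K M M2 M4 cs N Q = true) {f : Fn}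
    (hf : fnFits W K M M2 M4 f = true) :
    fnEncF W (offC W (Q.k + 1)) f cs Q = cs.map fun C => enclF f C := by
  rcases Bool.eq_false_or_eq_true (zeroFn f) with hz | hz
  · rw [fnEncF, if_pos hz]
    exact List.map_congr_left fun C _ => (enclF_zero hz C).symm
  simp only [chunkOk, Bool.and_eq_true, List.all_eq_true, Nat.beq_eq] at hc
  obtain ⟨⟨⟨⟨⟨⟨⟨⟨hk, hlen⟩, hl⟩, hh⟩, hA⟩, hB⟩, hA4⟩, hB4⟩, he⟩ := hc
  simp only [fnFits, Bool.and_eq_true, Nat.beq_eq, decide_eq_true_eq] at hf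
  obtain ⟨⟨⟨⟨⟨hp, hn⟩, hval⟩, h2⟩, h4⟩, hs⟩ := hf
  have hm := magsR_eq (dl := NTab.dlo) (dh := NTab.dhi) (fun t ht => (hlen t ht).1.1) hA hB hp hn h2
  have hm4 := magsR_eq (dl := NTab.flo) (dh := NTab.fhi)
    (fun t ht => ⟨(hlen t ht).1.2, (hlen t ht).2⟩) hA4 hB4 hp hn h4
  simp only [fnSumOk, Bool.and_eq_true, decide_eq_true_eq] at hval
  have hle : 2 ^ W / 2 ≤ 2 ^ W := Nat.div_le_self _ _
  have s1 : sumOk W M f.1 = true := decide_eq_true (hval.1.trans_le hle)
  have s2 : sumOk W M f.2.1 = true := decide_eq_true (hval.2.trans_le hle)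
  rw [fnEncF, if_neg (by simp [hz])]
  simp only [frc_eq, magsF_eq, digitsD_eq, hm, hm4]
  simp only [fdot_eq, digits_dot hl s1, digits_dot hl s2, digits_dot hh s1, digits_dot hh s2,
    digits_dot he hs, List.map_map, Function.comp_def, valsF_map]
  exact encF_eq hk

/-- The enclosures of a polynomial's coefficients on the cells of a chunk. -/
noncomputable def polyEncF (W : ℕ) (p : CellCert.Poly Fn) (cs : List CellCert2.Cell) (Q : Cols) :
    List (CellCert.Poly (IV × IV)) :=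
  frc (offC W (Q.k + 1)) fun R =>
    zip7 (fnEncF W R p.c00 cs Q) (fnEncF W R p.c10 cs Q) (fnEncF W R p.c20 cs Q)
      (fnEncF W R p.c30 cs Q) (fnEncF W R p.c01 cs Q) (fnEncF W R p.c11 cs Q)
      (fnEncF W R p.c02 cs Q)

/-- A pair of records from a record of pairs. -/
def unzipF (p : CellCert.Poly (IV × IV)) : CellCert.Poly IV × CellCert.Poly IV :=
  (⟨p.c00.1, p.c10.1, p.c20.1, p.c30.1, p.c01.1, p.c11.1, p.c02.1⟩,
    ⟨p.c00.2, p.c10.2, p.c20.2, p.c30.2, p.c01.2, p.c11.2, p.c02.2⟩)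

/-- Pass a list of records on as two records each; the intervals are literals already. -/
noncomputable def forceL {α : Type} : List (CellCert.Poly (IV × IV)) →
    (List (CellCert.Poly IV × CellCert.Poly IV) → α) → α
  | [], k => k []
  | ⟨(a, a'), (b, b'), (c, c'), (d, d'), (e, e'), (f, f'), (g, g')⟩ :: l, k =>
      forceL l fun r => k ((⟨a, b, c, d, e, f, g⟩, ⟨a', b', c', d', e', f', g'⟩) :: r)

lemma forceL_eq {α : Type} : ∀ (l : List (CellCert.Poly (IV × IV)))
    (k : List (CellCert.Poly IV × CellCert.Poly IV) → α), forceL l k = k (l.map unzipF)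
  | [], _ => rfl
  | p :: l, k => by
    obtain ⟨⟨a, a'⟩, ⟨b, b'⟩, ⟨c, c'⟩, ⟨d, d'⟩, ⟨e, e'⟩, ⟨f, f'⟩, ⟨g, g'⟩⟩ := p
    simp [forceL, unzipF, forceL_eq l]

/-- The two records of a cell. -/
def enclPF (p : CellCert.Poly Fn) (C : CellCert2.Cell) : CellCert.Poly IV × CellCert.Poly IV :=
  unzipF ⟨enclF p.c00 C, enclF p.c10 C, enclF p.c20 C, enclF p.c30 C, enclF p.c01 C,
    enclF p.c11 C, enclF p.c02 C⟩

lemma toP_enclPF (p : CellCert.Poly Fn) (C : CellCert2.Cell) :
    (toP (enclPF p C).1, toP (enclPF p C).2) = enclP2 p C := by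
  have h := fun f => toI_enclF f C
  simp only [toP, enclPF, unzipF, enclP2, ← h]

lemma polyEncF_eq (hc : chunkOk W K M M2 M4 cs N Q = true) {p : CellCert.Poly Fn}
    (hp : polyFits W K M M2 M4 p = true) :
    (polyEncF W p cs Q).map unzipF = cs.map fun C => enclPF p C := by
  simp only [polyFits, Bool.and_eq_true] at hp
  obtain ⟨⟨⟨⟨⟨⟨g0, g1⟩, g2⟩, g3⟩, g4⟩, g5⟩, g6⟩ := hp
  simp only [polyEncF, frc_eq, fnEncF_eq hc g0, fnEncF_eq hc g1, fnEncF_eq hc g2,
    fnEncF_eq hc g3, fnEncF_eq hc g4, fnEncF_eq hc g5, fnEncF_eq hc g6, zip7_map, List.map_map]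
  rfl

/-- A column plus a shifted column, on raw operations. -/
noncomputable def zipD (D : ℕ) (r : List ℕ) : List ℕ → List ℕ :=
  @List.rec ℕ (fun _ => List ℕ → List ℕ) (fun _ => [])
    (fun a _ ih c => @List.rec ℕ (fun _ => List ℕ) []
      (fun b t _ => Nat.add a (Nat.mul D b) :: ih t) c) r

lemma zipD_eq (W : ℕ) : ∀ r c : List ℕ,
    zipD (2 ^ W) r c = List.zipWith (fun a b => a + 2 ^ W * b) r c
  | [], _ => by simp [zipD]
  | a :: r, [] => by simp [zipD]
  | a :: r, b :: c => by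
    show Nat.add a (Nat.mul (2 ^ W) b) :: zipD (2 ^ W) r c = _
    simp [zipD_eq W r c]

/-- The packed columns, on raw operations. -/
noncomputable def packD (D K : ℕ) (rows : List (List ℕ)) : List ℕ :=
  @List.rec (List ℕ) (fun _ => List ℕ) (List.replicate K 0) (fun r _ ih => zipD D r ih) rows

lemma packD_eq (W K : ℕ) : ∀ rows : List (List ℕ), packD (2 ^ W) K rows = packCols W K rows
  | [] => rfl
  | r :: rows => by
    show zipD (2 ^ W) r (packD (2 ^ W) K rows) = _
    simp [packCols, packD_eq W K rows, zipD_eq]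

/-- All entries are at most `M`, on raw operations. -/
noncomputable def leF (M : ℕ) (l : List ℕ) : Bool :=
  @List.rec ℕ (fun _ => Bool) true (fun a _ ih => @Bool.rec (fun _ => Bool) false ih (Nat.ble a M)) l

lemma leF_eq (M : ℕ) : ∀ l : List ℕ, leF M l = leAll M l
  | [] => rfl
  | a :: l => by
    show @Bool.rec (fun _ => Bool) false (leF M l) (Nat.ble a M) = _
    rw [leF_eq M l]
    by_cases k : a ≤ M
    · have h : Nat.ble a M = true := by simpa using k
      simp [h, leAll, k]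
    · have h : Nat.ble a M = false := Bool.eq_false_iff.2 fun e => k (Nat.le_of_ble_eq_true e)
      simp [h, leAll, k]

/-- The test of packed columns, on raw operations. -/
noncomputable def colsF (W K M n : ℕ) (rows : List (List ℕ)) (cols : List ℕ) : Bool :=
  Nat.beq rows.length n && (rows.all fun r => Nat.beq r.length K && leF M r) &&
    frc (2 ^ W) fun D => eqNs (packD D K rows) cols

lemma colsF_eq (W K M n : ℕ) (rows : List (List ℕ)) (cols : List ℕ) :
    colsF W K M n rows cols = colsOk W K M n rows cols := by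
  simp only [colsF, colsOk, frc_eq, leF_eq, packD_eq]
  congr 1
  exact Bool.eq_iff_iff.2 (by simp [eqNs_iff])

/-- `chunkOk` on raw operations. -/
noncomputable def chunkF (W K M M2 M4 : ℕ) (cs : List CellCert2.Cell) (N : List NTab) (Q : Cols) : Bool :=
  linkOk cs N && (N.all fun t => Nat.beq t.dlo.length K && Nat.beq t.dhi.length K &&
      Nat.beq t.flo.length K && Nat.beq t.fhi.length K) &&
    colsF W K M (Q.k + 1) (N.map (·.lo)) Q.lo && colsF W K M (Q.k + 1) (N.map (·.hi)) Q.hi &&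
    colsF W (K + K) M2 (Q.k + 1) (N.map fun t => rowS t.dlo t.dhi) Q.da &&
    colsF W (K + K) M2 (Q.k + 1) (N.map fun t => rowT t.dlo t.dhi) Q.db &&
    colsF W (K + K) M4 (Q.k + 1) (N.map fun t => rowS t.flo t.fhi) Q.fa &&
    colsF W (K + K) M4 (Q.k + 1) (N.map fun t => rowT t.flo t.fhi) Q.fb &&
    colsF W K M4 Q.k (cs.map (·.e6)) Q.e6

/-- **The fast test of a chunk gives `chunkOk`.** -/
theorem chunkOk_of_fast {W K M M2 M4 : ℕ} {cs : List CellCert2.Cell} {N : List NTab} {Q : Cols}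
    (h : chunkF W K M M2 M4 cs N Q = true) : chunkOk W K M M2 M4 cs N Q = true := by
  simpa only [chunkF, chunkOk, colsF_eq] using h

/-- Positive part of the lower end of a scaled interval. -/
noncomputable def loP (w : ℤ) (v : IV) : ℕ :=
  Int.rec (fun n => Nat.mul n v.lp) (fun n => Nat.mul (Nat.succ n) v.hn) w

/-- Negative part of the lower end of a scaled interval. -/
noncomputable def loN (w : ℤ) (v : IV) : ℕ :=
  Int.rec (fun n => Nat.mul n v.ln) (fun n => Nat.mul (Nat.succ n) v.hp) w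

/-- Positive part of the upper end of a scaled interval. -/
noncomputable def hiP (w : ℤ) (v : IV) : ℕ :=
  Int.rec (fun n => Nat.mul n v.hp) (fun n => Nat.mul (Nat.succ n) v.ln) w

/-- Negative part of the upper end of a scaled interval. -/
noncomputable def hiN (w : ℤ) (v : IV) : ℕ :=
  Int.rec (fun n => Nat.mul n v.hn) (fun n => Nat.mul (Nat.succ n) v.lp) w

lemma lo_eq (w : ℤ) (v : IV) : (iscale w (toI v)).1 = (loP w v : ℤ) - loN w v := by
  rw [← mulLo_eq]
  cases w <;> simp [mulLo, toI, loP, loN, Nat.mul_eq, Int.negSucc_eq] <;> ring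

lemma hi_eq (w : ℤ) (v : IV) : (iscale w (toI v)).2 = (hiP w v : ℤ) - hiN w v := by
  rw [← mulHi_eq]
  cases w <;> simp [mulHi, toI, hiP, hiN, Nat.mul_eq, Int.negSucc_eq] <;> ring

/-- The weights of a blossom triple in `D`. -/
structure DW where
  w1 : ℤ
  w2 : ℤ
  w3 : ℤ
  s : ℤ

/-- The weights of a pair in `X`. -/
structure XW where
  v1 : ℤ
  v2 : ℤ
  t : ℤ

/-- The weights of a triple. -/
def mkDW (d1 d2 d3 : ℤ) : DW :=
  ⟨2 * (d1 + d2 + d3), 2 * (d1 * d2 + d1 * d3 + d2 * d3), 6 * (d1 * d2 * d3), d1 + d2 + d3⟩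

/-- The weights of a pair. -/
def mkXW (x1 x2 : ℤ) : XW := ⟨3 * (x1 + x2), 6 * (x1 * x2), x1 + x2⟩

/-- Pass weights on as literals. -/
noncomputable def forceDW {α : Type} : DW → (DW → α) → α
  | ⟨a, b, c, d⟩, k => frcI a fun a => frcI b fun b => frcI c fun c => frcI d fun d =>
    k ⟨a, b, c, d⟩

/-- Pass weights on as literals. -/
noncomputable def forceXW {α : Type} : XW → (XW → α) → α
  | ⟨a, b, c⟩, k => frcI a fun a => frcI b fun b => frcI c fun c => k ⟨a, b, c⟩

lemma forceDW_eq {α : Type} (v : DW) (k : DW → α) : forceDW v k = k v := by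
  cases v; simp [forceDW, frcI_eq]

lemma forceXW_eq {α : Type} (v : XW) (k : XW → α) : forceXW v k = k v := by
  cases v; simp [forceXW, frcI_eq]

/-- The ten parts of the five values of a linear form. -/
structure V10 where
  pa : ℕ
  na : ℕ
  pb : ℕ
  nb : ℕ
  pN : ℕ
  nN : ℕ
  pl : ℕ
  nl : ℕ
  ph : ℕ
  nh : ℕ

/-- The part in `D` alone, in units of `2 ^ 96`, rounded down. -/
def hornD (c00 t1 t2 t3 : ℕ) : ℕ :=
  Nat.add (Nat.mul 6 c00)
    (Nat.div (Nat.add (Nat.div (Nat.add (Nat.div t3 4294967296) t2) 4294967296) t1) 4294967296)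

/-- The part in `X` alone, in units of `2 ^ 96`, rounded down. -/
def hornX (t1 t2 : ℕ) : ℕ := Nat.div (Nat.add (Nat.div t2 4294967296) t1) 4294967296

/-- A whole value, less than three units below the exact one. -/
def joinV (D X q : ℕ) : ℕ := Nat.add (Nat.add D X) (Nat.div q 18446744073709551616)

lemma hornD_bound (c00 t1 t2 t3 : ℕ) :
    79228162514264337593543950336 * hornD c00 t1 t2 t3 ≤
        79228162514264337593543950336 * (6 * c00) + 18446744073709551616 * t1 + 4294967296 * t2 + t3 ∧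
      79228162514264337593543950336 * (6 * c00) + 18446744073709551616 * t1 + 4294967296 * t2 + t3 ≤
        79228162514264337593543950336 * (hornD c00 t1 t2 t3 + 1) := by
  simp only [hornD, Nat.add_eq, Nat.mul_eq, show ∀ a b : ℕ, Nat.div a b = a / b from fun _ _ => rfl]
  omega

lemma hornX_bound (t1 t2 : ℕ) :
    79228162514264337593543950336 * hornX t1 t2 ≤ 18446744073709551616 * t1 + 4294967296 * t2 ∧
      18446744073709551616 * t1 + 4294967296 * t2 ≤
        79228162514264337593543950336 * (hornX t1 t2 + 1) := by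
  simp only [hornX, Nat.add_eq, show ∀ a b : ℕ, Nat.div a b = a / b from fun _ _ => rfl]
  omega

lemma joinV_bound (c00 t1 t2 t3 x1 x2 q : ℕ) :
    79228162514264337593543950336 * joinV (hornD c00 t1 t2 t3) (hornX x1 x2) q ≤
        79228162514264337593543950336 * (6 * c00) + 18446744073709551616 * t1 + 4294967296 * t2 + t3 +
          18446744073709551616 * x1 + 4294967296 * x2 + 4294967296 * q ∧
      79228162514264337593543950336 * (6 * c00) + 18446744073709551616 * t1 + 4294967296 * t2 + t3 +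
          18446744073709551616 * x1 + 4294967296 * x2 + 4294967296 * q ≤
        79228162514264337593543950336 * (joinV (hornD c00 t1 t2 t3) (hornX x1 x2) q + 3) := by
  have h1 := hornD_bound c00 t1 t2 t3
  have h2 := hornX_bound x1 x2
  simp only [joinV, Nat.add_eq, show ∀ a b : ℕ, Nat.div a b = a / b from fun _ _ => rfl]
  generalize hornD c00 t1 t2 t3 = D at h1
  generalize hornX x1 x2 = X at h2
  omega

/-- The `D`-part. -/
noncomputable def dParts (a b N d : CellCert.Poly IV) (w : DW) : V10 :=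
  ⟨hornD a.c00.lp (loP w.w1 a.c10) (loP w.w2 a.c20) (loP w.w3 a.c30),
    hornD a.c00.ln (loN w.w1 a.c10) (loN w.w2 a.c20) (loN w.w3 a.c30),
    hornD b.c00.lp (loP w.w1 b.c10) (loP w.w2 b.c20) (loP w.w3 b.c30),
    hornD b.c00.ln (loN w.w1 b.c10) (loN w.w2 b.c20) (loN w.w3 b.c30),
    hornD N.c00.lp (loP w.w1 N.c10) (loP w.w2 N.c20) (loP w.w3 N.c30),
    hornD N.c00.ln (loN w.w1 N.c10) (loN w.w2 N.c20) (loN w.w3 N.c30),
    hornD d.c00.lp (loP w.w1 d.c10) (loP w.w2 d.c20) (loP w.w3 d.c30),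
    hornD d.c00.ln (loN w.w1 d.c10) (loN w.w2 d.c20) (loN w.w3 d.c30),
    hornD d.c00.hp (hiP w.w1 d.c10) (hiP w.w2 d.c20) (hiP w.w3 d.c30),
    hornD d.c00.hn (hiN w.w1 d.c10) (hiN w.w2 d.c20) (hiN w.w3 d.c30)⟩

/-- The `X`-part. -/
noncomputable def xParts (a b N d : CellCert.Poly IV) (v : XW) : V10 :=
  ⟨hornX (loP v.v1 a.c01) (loP v.v2 a.c02), hornX (loN v.v1 a.c01) (loN v.v2 a.c02),
    hornX (loP v.v1 b.c01) (loP v.v2 b.c02), hornX (loN v.v1 b.c01) (loN v.v2 b.c02),
    hornX (loP v.v1 N.c01) (loP v.v2 N.c02), hornX (loN v.v1 N.c01) (loN v.v2 N.c02),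
    hornX (loP v.v1 d.c01) (loP v.v2 d.c02), hornX (loN v.v1 d.c01) (loN v.v2 d.c02),
    hornX (hiP v.v1 d.c01) (hiP v.v2 d.c02), hornX (hiN v.v1 d.c01) (hiN v.v2 d.c02)⟩

/-- The quadruple test on natural numbers. -/
def fq (a b N d : ℕ) : Bool :=
  Nat.ble (Nat.mul d d) (Nat.mul N (Nat.add a b)) ||
    Nat.ble (Nat.mul (Nat.sub (Nat.mul d d) (Nat.mul N (Nat.add a b)))
        (Nat.sub (Nat.mul d d) (Nat.mul N (Nat.add a b))))
      (Nat.mul (Nat.mul 4 (Nat.mul N N)) (Nat.mul a b))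

/-- The test of one quadruple from its parts; `q` is the weight of `D X` over `2 ^ 32`. -/
noncomputable def fTest (a b N d : CellCert.Poly IV) (t s : V10) (q : ℤ) : Bool :=
  Nat.ble (Nat.add (joinV t.na s.na (loN q a.c11)) 3) (joinV t.pa s.pa (loP q a.c11)) &&
  (Nat.ble (Nat.add (joinV t.nb s.nb (loN q b.c11)) 3) (joinV t.pb s.pb (loP q b.c11)) &&
  (Nat.ble (Nat.add (joinV t.nN s.nN (loN q N.c11)) 3) (joinV t.pN s.pN (loP q N.c11)) &&
  fq (Nat.sub (joinV t.pa s.pa (loP q a.c11)) (Nat.add (joinV t.na s.na (loN q a.c11)) 3))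
    (Nat.sub (joinV t.pb s.pb (loP q b.c11)) (Nat.add (joinV t.nb s.nb (loN q b.c11)) 3))
    (Nat.sub (joinV t.pN s.pN (loP q N.c11)) (Nat.add (joinV t.nN s.nN (loN q N.c11)) 3))
    (nmax
      (nmax (Nat.sub (Nat.add (joinV t.ph s.ph (hiP q d.c11)) 3) (joinV t.nh s.nh (hiN q d.c11)))
        (Nat.sub (Nat.add (joinV t.nh s.nh (hiN q d.c11)) 3) (joinV t.ph s.ph (hiP q d.c11))))
      (nmax (Nat.sub (Nat.add (joinV t.pl s.pl (loP q d.c11)) 3) (joinV t.nl s.nl (loN q d.c11)))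
        (Nat.sub (Nat.add (joinV t.nl s.nl (loN q d.c11)) 3) (joinV t.pl s.pl (loP q d.c11)))))))

/-- The tests of one triple. -/
noncomputable def fRow (a b N d : CellCert.Poly IV) (w : DW) (v00 v01 v11 : XW)
    (s00 s01 s11 : V10) : Bool :=
    fTest a b N d (dParts a b N d w) s00 (w.s * v00.t) &&
      fTest a b N d (dParts a b N d w) s01 (w.s * v01.t) &&
      fTest a b N d (dParts a b N d w) s11 (w.s * v11.t)

/-- The twelve quadruples at one node. -/
noncomputable def fNode (a b N d : CellCert.Poly IV) (w0 w1 w2 w3 : DW) (v00 v01 v11 : XW) : Bool :=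
  fRow a b N d w0 v00 v01 v11 (xParts a b N d v00) (xParts a b N d v01) (xParts a b N d v11) &&
    fRow a b N d w1 v00 v01 v11 (xParts a b N d v00) (xParts a b N d v01) (xParts a b N d v11) &&
    fRow a b N d w2 v00 v01 v11 (xParts a b N d v00) (xParts a b N d v01) (xParts a b N d v11) &&
    fRow a b N d w3 v00 v01 v11 (xParts a b N d v00) (xParts a b N d v01) (xParts a b N d v11)

/-- Both nodes of a cell on one range of `D`. -/
noncomputable def fPair (a b N d : CellCert.Poly IV × CellCert.Poly IV) (v00 v01 v11 : XW)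
    (l h : ℤ) : Bool :=
  frcI l fun l => frcI h fun h =>
  forceDW (mkDW l l l) fun w0 => forceDW (mkDW l l h) fun w1 => forceDW (mkDW l h h) fun w2 =>
  forceDW (mkDW h h h) fun w3 =>
    fNode a.1 b.1 N.1 d.1 w0 w1 w2 w3 v00 v01 v11 && fNode a.2 b.2 N.2 d.2 w0 w1 w2 w3 v00 v01 v11

/-- The segments of one cell from its enclosures. -/
noncomputable def segF (a b N d : CellCert.Poly IV × CellCert.Poly IV) (v00 v01 v11 : XW) :
    ℤ → List ℤ → ℤ → Bool
  | l, [], h => fPair a b N d v00 v01 v11 l h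
  | l, c :: cs, h => fPair a b N d v00 v01 v11 l c && segF a b N d v00 v01 v11 c cs h

/-- The segments of one cell on one range of the centred state. -/
noncomputable def pieceF (a b N d : CellCert.Poly IV × CellCert.Poly IV) (r : Rng) (x0 x1 : ℤ) : Bool :=
  frcI x0 fun x0 => frcI x1 fun x1 =>
  forceXW (mkXW x0 x0) fun v00 => forceXW (mkXW x0 x1) fun v01 => forceXW (mkXW x1 x1) fun v11 =>
    segF a b N d v00 v01 v11 r.l r.cuts r.h

/-- The cells of a chunk from their enclosures. -/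
noncomputable def walkF : List (CellCert.Poly IV × CellCert.Poly IV) →
    List (CellCert.Poly IV × CellCert.Poly IV) → List (CellCert.Poly IV × CellCert.Poly IV) →
    List (CellCert.Poly IV × CellCert.Poly IV) → List Rng → Bool
  | a :: la, b :: lb, N :: lN, d :: ld, r :: rs =>
    xsT (pieceF a b N d r) r.x0 r.xs r.x1 && walkF la lb lN ld rs
  | [], [], [], [], [] => true
  | _, _, _, _, _ => false

/-- The fast test of a family on a chunk of cells from packed columns. -/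
noncomputable def ffamTest (W : ℕ) (F : VFam) (cs : List CellCert2.Cell) (Q : Cols)
    (rs : List Rng) : Bool :=
  forceL (polyEncF W F.a cs Q) fun la => forceL (polyEncF W F.b cs Q) fun lb =>
  forceL (polyEncF W F.N cs Q) fun lN => forceL (polyEncF W F.d cs Q) fun ld =>
    walkF la lb lN ld rs

lemma fq_imp {a b N d : ℕ} (h : fq a b N d = true) :
    quadTest (a : ℤ) (b : ℤ) (N : ℤ) (d : ℤ) = true := by
  simp only [fq, Bool.or_eq_true, Nat.ble_eq, Nat.mul_eq, Nat.add_eq, Nat.sub_eq] at h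
  simp only [quadTest, Bool.and_eq_true, Bool.or_eq_true, decide_eq_true_eq]
  refine ⟨⟨⟨Int.natCast_nonneg a, Int.natCast_nonneg b⟩, Int.natCast_nonneg N⟩, ?_⟩
  rcases le_total (d * d) (N * (a + b)) with h1 | h1
  · exact Or.inl (by exact_mod_cast h1)
  · rcases h with h | h
    · exact Or.inl (by exact_mod_cast h)
    · refine Or.inr ?_
      have e : ((d * d - N * (a + b) : ℕ) : ℤ) = (d : ℤ) * d - N * (a + b) := by
        rw [Nat.cast_sub h1]; push_cast; ring
      rw [← e]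
      have h' : (((d * d - N * (a + b)) * (d * d - N * (a + b)) : ℕ) : ℤ) ≤
          ((4 * (N * N) * (a * b) : ℕ) : ℤ) := Int.ofNat_le.2 h
      refine (le_of_eq ?_).trans (h'.trans (le_of_eq ?_)) <;> push_cast <;> ring

lemma fTest_imp {a b N d : CellCert.Poly IV} {d1 d2 d3 x1 x2 : ℤ}
    (h : fTest a b N d (dParts a b N d (mkDW d1 d2 d3)) (xParts a b N d (mkXW x1 x2))
      ((d1 + d2 + d3) * (x1 + x2)) = true) :
    ctrlTest (toP a) (toP b) (toP N) (toP d) (wts (2 ^ 32) d1 d2 d3 x1 x2) = true := by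
  simp only [fTest, Bool.and_eq_true, Nat.ble_eq] at h
  set w := wts (2 ^ 32 : ℤ) d1 d2 d3 x1 x2 with hw
  have sc : ∀ (c x : ℤ) (v : IV), 0 ≤ c →
      (iscale (c * x) (toI v)).1 = c * (iscale x (toI v)).1 ∧
        (iscale (c * x) (toI v)).2 = c * (iscale x (toI v)).2 := by
    intro c x v hc
    rcases eq_or_lt_of_le hc with rfl | hc'
    · simp [iscale]
    by_cases hx : 0 ≤ x
    · simp [iscale, hx, mul_nonneg hc hx, mul_assoc]
    · have : ¬ 0 ≤ c * x := not_le.2 (mul_neg_of_pos_of_neg hc' (not_le.1 hx))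
      simp [iscale, hx, this, mul_assoc]
  set w1 := 2 * (d1 + d2 + d3) with hw1
  set w2 := 2 * (d1 * d2 + d1 * d3 + d2 * d3) with hw2
  set w3 := 6 * (d1 * d2 * d3) with hw3
  set v1 := 3 * (x1 + x2) with hv1
  set v2 := 6 * (x1 * x2) with hv2
  set q := (d1 + d2 + d3) * (x1 + x2) with hq
  have ew : w = (⟨2 ^ 96 * 6, 2 ^ 64 * w1, 2 ^ 32 * w2, w3, 2 ^ 64 * v1, 2 ^ 32 * q,
      2 ^ 32 * v2⟩ : CellCert.Poly ℤ) := by
    simp only [hw, wts, hw1, hw2, hw3, hv1, hv2, hq, CellCert.Poly.mk.injEq]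
    refine ⟨?_, ?_, ?_, ?_, ?_, ?_, ?_⟩ <;> first | trivial | ring
  have h32 : (0 : ℤ) ≤ 2 ^ 32 := by norm_num
  have h64 : (0 : ℤ) ≤ 2 ^ 64 := by norm_num
  have s0 : ∀ v : IV, iscale (2 ^ 96 * 6) (toI v) =
      (2 ^ 96 * 6 * ((v.lp : ℤ) - v.ln), 2 ^ 96 * 6 * ((v.hp : ℤ) - v.hn)) := fun v => by
    simp only [iscale, toI, show (0 : ℤ) ≤ 2 ^ 96 * 6 by norm_num, if_true]
  have hl : ∀ p : CellCert.Poly IV,
      2 ^ 96 * ((joinV (hornD p.c00.lp (loP w1 p.c10) (loP w2 p.c20) (loP w3 p.c30))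
          (hornX (loP v1 p.c01) (loP v2 p.c02)) (loP q p.c11) : ℤ) -
        ((joinV (hornD p.c00.ln (loN w1 p.c10) (loN w2 p.c20) (loN w3 p.c30))
          (hornX (loN v1 p.c01) (loN v2 p.c02)) (loN q p.c11) : ℤ) + 3)) ≤ (pairI w (toP p)).1 ∧
      (pairI w (toP p)).1 ≤ 2 ^ 96 * (((joinV (hornD p.c00.lp (loP w1 p.c10) (loP w2 p.c20) (loP w3 p.c30))
          (hornX (loP v1 p.c01) (loP v2 p.c02)) (loP q p.c11) : ℤ) + 3) -
        (joinV (hornD p.c00.ln (loN w1 p.c10) (loN w2 p.c20) (loN w3 p.c30))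
          (hornX (loN v1 p.c01) (loN v2 p.c02)) (loN q p.c11) : ℤ)) := fun p => by
    have bP := joinV_bound p.c00.lp (loP w1 p.c10) (loP w2 p.c20) (loP w3 p.c30)
      (loP v1 p.c01) (loP v2 p.c02) (loP q p.c11)
    have bN := joinV_bound p.c00.ln (loN w1 p.c10) (loN w2 p.c20) (loN w3 p.c30)
      (loN v1 p.c01) (loN v2 p.c02) (loN q p.c11)
    rw [ew]
    simp only [pairI, toP, s0, (sc _ _ _ h32).1, (sc _ _ _ h64).1, lo_eq]
    norm_num
    omega
  have hh : ∀ p : CellCert.Poly IV,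
      2 ^ 96 * ((joinV (hornD p.c00.hp (hiP w1 p.c10) (hiP w2 p.c20) (hiP w3 p.c30))
          (hornX (hiP v1 p.c01) (hiP v2 p.c02)) (hiP q p.c11) : ℤ) -
        ((joinV (hornD p.c00.hn (hiN w1 p.c10) (hiN w2 p.c20) (hiN w3 p.c30))
          (hornX (hiN v1 p.c01) (hiN v2 p.c02)) (hiN q p.c11) : ℤ) + 3)) ≤ (pairI w (toP p)).2 ∧
      (pairI w (toP p)).2 ≤ 2 ^ 96 * (((joinV (hornD p.c00.hp (hiP w1 p.c10) (hiP w2 p.c20) (hiP w3 p.c30))
          (hornX (hiP v1 p.c01) (hiP v2 p.c02)) (hiP q p.c11) : ℤ) + 3) -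
        (joinV (hornD p.c00.hn (hiN w1 p.c10) (hiN w2 p.c20) (hiN w3 p.c30))
          (hornX (hiN v1 p.c01) (hiN v2 p.c02)) (hiN q p.c11) : ℤ)) := fun p => by
    have bP := joinV_bound p.c00.hp (hiP w1 p.c10) (hiP w2 p.c20) (hiP w3 p.c30)
      (hiP v1 p.c01) (hiP v2 p.c02) (hiP q p.c11)
    have bN := joinV_bound p.c00.hn (hiN w1 p.c10) (hiN w2 p.c20) (hiN w3 p.c30)
      (hiN v1 p.c01) (hiN v2 p.c02) (hiN q p.c11)
    rw [ew]
    simp only [pairI, toP, s0, (sc _ _ _ h32).2, (sc _ _ _ h64).2, hi_eq]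
    norm_num
    omega
  obtain ⟨eA, -⟩ := hl a
  obtain ⟨eB, -⟩ := hl b
  obtain ⟨eN, -⟩ := hl N
  obtain ⟨eL, eL'⟩ := hl d
  obtain ⟨eH', eH⟩ := hh d
  simp only [dParts, xParts, mkDW, mkXW, nmax_eq, Nat.sub_eq, Nat.add_eq, ← hw1, ← hw2, ← hw3,
    ← hv1, ← hv2] at h
  obtain ⟨ha, hb, hN, hquad⟩ := h
  have h' := fq_imp hquad
  rw [Nat.cast_sub ha, Nat.cast_sub hb, Nat.cast_sub hN] at h'
  push_cast at h'
  simp only [ctrlTest]
  have key : ∀ pl nl ph nh : ℕ, ∀ z1 z2 : ℤ,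
      2 ^ 96 * ((pl : ℤ) - (nl + 3)) ≤ z1 → z1 ≤ 2 ^ 96 * ((pl + 3 : ℤ) - nl) →
      2 ^ 96 * ((ph : ℤ) - (nh + 3)) ≤ z2 → z2 ≤ 2 ^ 96 * ((ph + 3 : ℤ) - nh) →
      |((max z2 (-z1) : ℤ) : ℝ)| ≤ |2 ^ 96 * ((((max (max (ph + 3 - nh) (nh + 3 - ph))
        (max (pl + 3 - nl) (nl + 3 - pl)) : ℕ) : ℤ)) : ℝ)| := by
    intro pl nl ph nh z1 z2 h1 h2 h3 h4
    have k : |max z2 (-z1)| ≤ 2 ^ 96 * ((max (max (ph + 3 - nh) (nh + 3 - ph))
        (max (pl + 3 - nl) (nl + 3 - pl)) : ℕ) : ℤ) := by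
      norm_num at h1 h2 h3 h4 ⊢
      exact abs_le.2 ⟨by omega, by omega⟩
    exact_mod_cast k.trans (le_abs_self _)
  refine QuickCtrl.quadTest_of_quad
    (((quad_of_test h').smul (s := 2 ^ 96) (by positivity)).mono ?_ ?_ ?_ ?_)
  · exact_mod_cast eA
  · exact_mod_cast eB
  · exact_mod_cast eN
  · push_cast
    exact_mod_cast key _ _ _ _ _ _ eL eL' eH' eH

lemma fNode_imp {a b N d : CellCert.Poly IV} {l h x0 x1 : ℤ}
    (ht : fNode a b N d (mkDW l l l) (mkDW l l h) (mkDW l h h) (mkDW h h h)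
      (mkXW x0 x0) (mkXW x0 x1) (mkXW x1 x1) = true) :
    ctrlAll (toP a) (toP b) (toP N) (toP d) l h x0 x1 = true := by
  simp only [fNode, fRow, Bool.and_eq_true] at ht
  obtain ⟨⟨⟨⟨⟨h00, h01⟩, h02⟩, ⟨⟨h10, h11⟩, h12⟩⟩, ⟨⟨h20, h21⟩, h22⟩⟩, ⟨⟨h30, h31⟩, h32⟩⟩ := ht
  simp only [ctrlAll, Bool.and_eq_true]
  exact ⟨⟨⟨⟨⟨fTest_imp h00, fTest_imp h01⟩, fTest_imp h02⟩,
    ⟨⟨fTest_imp h10, fTest_imp h11⟩, fTest_imp h12⟩⟩,
    ⟨⟨fTest_imp h20, fTest_imp h21⟩, fTest_imp h22⟩⟩,
    ⟨⟨fTest_imp h30, fTest_imp h31⟩, fTest_imp h32⟩⟩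

lemma fPair_imp {F : VFam} {C : CellCert2.Cell} {l h x0 x1 : ℤ}
    (ht : fPair (enclPF F.a C) (enclPF F.b C) (enclPF F.N C) (enclPF F.d C)
      (mkXW x0 x0) (mkXW x0 x1) (mkXW x1 x1) l h = true) :
    CellCert2.cellTest F (setRange C l h x0 x1) = true := by
  simp only [fPair, frcI_eq, forceDW_eq, Bool.and_eq_true] at ht
  have e : ∀ p : CellCert.Poly Fn, enclP2 p (setRange C l h x0 x1) =
      (toP (enclPF p C).1, toP (enclPF p C).2) := fun p => (toP_enclPF p C).symm
  simp only [CellCert2.cellTest, Bool.and_eq_true, e]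
  exact ⟨fNode_imp ht.1, fNode_imp ht.2⟩

lemma segF_imp {F : VFam} {C : CellCert2.Cell} {x0 x1 : ℤ} : ∀ {l : ℤ} {cs : List ℤ} {h : ℤ},
    segF (enclPF F.a C) (enclPF F.b C) (enclPF F.N C) (enclPF F.d C)
      (mkXW x0 x0) (mkXW x0 x1) (mkXW x1 x1) l cs h = true → segTest F C x0 x1 l cs h = true
  | l, [], h, ht => by
    simp only [segF] at ht
    simp only [segTest]
    exact fPair_imp ht
  | l, c :: cs, h, ht => by
    simp only [segF, Bool.and_eq_true] at ht
    simp only [segTest, Bool.and_eq_true]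
    exact ⟨fPair_imp ht.1, segF_imp ht.2⟩

lemma walkF_imp (F : VFam) : ∀ (cs : List CellCert2.Cell) (rs : List Rng),
    walkF (cs.map fun C => enclPF F.a C) (cs.map fun C => enclPF F.b C)
      (cs.map fun C => enclPF F.N C) (cs.map fun C => enclPF F.d C) rs = true →
      famTest F cs rs = true
  | [], [], _ => rfl
  | [], _ :: _, h => by simp [walkF] at h
  | _ :: _, [], h => by simp [walkF] at h
  | C :: cs, r :: rs, h => by
    simp only [List.map_cons, walkF, Bool.and_eq_true] at h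
    simp only [famTest, Bool.and_eq_true]
    refine ⟨QuickCtrl.xsT_imp (fun x y hxy => ?_) h.1, walkF_imp F cs rs h.2⟩
    simp only [pieceF, frcI_eq, forceXW_eq] at hxy
    exact segF_imp hxy

/-- **The fast packed test of a chunk gives the test of a family on it.** -/
theorem famTest_of_ffam {W K M M2 M4 : ℕ} {cs : List CellCert2.Cell} {N : List NTab} {Q : Cols}
    (hc : chunkOk W K M M2 M4 cs N Q = true) {F : VFam} (hF : famFits W K M M2 M4 F = true)
    {rs : List Rng} (h : ffamTest W F cs Q rs = true) : famTest F cs rs = true := by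
  simp only [famFits, Bool.and_eq_true] at hF
  obtain ⟨⟨⟨fa, fb⟩, fN⟩, fd⟩ := hF
  simp only [ffamTest, forceL_eq, polyEncF_eq hc fa, polyEncF_eq hc fb, polyEncF_eq hc fN,
    polyEncF_eq hc fd] at h
  exact walkF_imp F cs rs h

end Vale.Agent.P237.Cal.FastCell
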