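import Vale.Agent.P237.Cal.PackCell

/-!
# P237: a faster evaluation of the twelve control quadruples

The monomials in `D` alone depend on the blossom triple, those in `X` alone on the pair, so their
parts are computed four resp. three times and shared; only `D X` is per quadruple. The values are
those of `ctrlAll`.
-/

namespace Vale.Agent.P237.Cal.CellCert

open AtomCert

/-- Lower end of a scaled interval. -/
def mulLo : ℤ → ℤ × ℤ → ℤ
  | Int.ofNat n, x => Int.ofNat n * x.1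
  | Int.negSucc n, x => Int.negSucc n * x.2

/-- Upper end of a scaled interval. -/
def mulHi : ℤ → ℤ × ℤ → ℤ
  | Int.ofNat n, x => Int.ofNat n * x.2
  | Int.negSucc n, x => Int.negSucc n * x.1

lemma mulLo_eq (w : ℤ) (x : ℤ × ℤ) : mulLo w x = (iscale w x).1 := by
  cases w <;> simp [mulLo, iscale]

lemma mulHi_eq (w : ℤ) (x : ℤ × ℤ) : mulHi w x = (iscale w x).2 := by
  cases w <;> simp [mulHi, iscale]

/-- The lower ends for `a, b, N, d` and the upper end for `d`. -/
structure V5 where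
  a : ℤ
  b : ℤ
  N : ℤ
  dl : ℤ
  dh : ℤ

/-- Pass five values on as literals. -/
def forceV {α : Type} : V5 → (V5 → α) → α
  | ⟨va, vb, vN, vl, vh⟩, k => forceI va fun a => forceI vb fun b => forceI vN fun N =>
    forceI vl fun dl => forceI vh fun dh => k ⟨a, b, N, dl, dh⟩

lemma forceV_eq {α : Type} (v : V5) (k : V5 → α) : forceV v k = k v := by
  cases v; simp [forceV, forceI_eq]

/-- The five values of a linear form given by its two ends. -/
def mk5 (a b N d : Poly (ℤ × ℤ)) (lo hi : Poly (ℤ × ℤ) → ℤ) : V5 :=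
  ⟨lo a, lo b, lo N, lo d, hi d⟩

/-- The `D`-part of a triple. -/
def dPart (a b N d : Poly (ℤ × ℤ)) (u d1 d2 d3 : ℤ) : V5 :=
  forceI (6 * u ^ 3) fun w0 => forceI (2 * u ^ 2 * (d1 + d2 + d3)) fun w1 =>
  forceI (2 * u * (d1 * d2 + d1 * d3 + d2 * d3)) fun w2 => forceI (6 * (d1 * d2 * d3)) fun w3 =>
  mk5 a b N d
    (fun p => mulLo w0 p.c00 + mulLo w1 p.c10 + mulLo w2 p.c20 + mulLo w3 p.c30)
    (fun p => mulHi w0 p.c00 + mulHi w1 p.c10 + mulHi w2 p.c20 + mulHi w3 p.c30)

/-- The `X`-part of a pair. -/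
def xPart (a b N d : Poly (ℤ × ℤ)) (u x1 x2 : ℤ) : V5 :=
  forceI (3 * u ^ 2 * (x1 + x2)) fun w1 => forceI (6 * u * (x1 * x2)) fun w2 =>
  mk5 a b N d (fun p => mulLo w1 p.c01 + mulLo w2 p.c02)
    (fun p => mulHi w1 p.c01 + mulHi w2 p.c02)

/-- The test of one quadruple from its parts; `q` is the weight of `D X`. -/
def gTest (a b N d : Poly (ℤ × ℤ)) (t s : V5) (q : ℤ) : Bool :=
  forceI q fun q => forceI (t.a + s.a + mulLo q a.c11) fun va =>
  forceI (t.b + s.b + mulLo q b.c11) fun vb => forceI (t.N + s.N + mulLo q N.c11) fun vN =>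
  forceI (t.dl + s.dl + mulLo q d.c11) fun e1 => forceI (t.dh + s.dh + mulHi q d.c11) fun e2 =>
  forceI (max e2 (-e1)) fun vd => quadTest va vb vN vd

/-- The tests of one triple. -/
def gRow (a b N d : Poly (ℤ × ℤ)) (u x0 x1 : ℤ) (s00 s01 s11 : V5) (d1 d2 d3 : ℤ) : Bool :=
  forceV (dPart a b N d u d1 d2 d3) fun t => forceI (u * (d1 + d2 + d3)) fun q =>
    gTest a b N d t s00 (q * (x0 + x0)) && gTest a b N d t s01 (q * (x0 + x1)) &&
      gTest a b N d t s11 (q * (x1 + x1))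

/-- The tests of all twelve quadruples. -/
def gctrlAll (a b N d : Poly (ℤ × ℤ)) (l h x0 x1 : ℤ) : Bool :=
  forceI l fun l => forceI h fun h => forceI x0 fun x0 => forceI x1 fun x1 =>
  forceI 4294967296 fun u =>
  forceV (xPart a b N d u x0 x0) fun s00 => forceV (xPart a b N d u x0 x1) fun s01 =>
  forceV (xPart a b N d u x1 x1) fun s11 =>
  gRow a b N d u x0 x1 s00 s01 s11 l l l && gRow a b N d u x0 x1 s00 s01 s11 l l h &&
    gRow a b N d u x0 x1 s00 s01 s11 l h h && gRow a b N d u x0 x1 s00 s01 s11 h h h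

lemma gTest_eq (a b N d : Poly (ℤ × ℤ)) (u d1 d2 d3 x1 x2 : ℤ) :
    gTest a b N d (dPart a b N d u d1 d2 d3) (xPart a b N d u x1 x2)
        (u * (d1 + d2 + d3) * (x1 + x2)) =
      ctrlTest a b N d (wts u d1 d2 d3 x1 x2) := by
  have hl : ∀ p : Poly (ℤ × ℤ),
      (mulLo (6 * u ^ 3) p.c00 + mulLo (2 * u ^ 2 * (d1 + d2 + d3)) p.c10 +
          mulLo (2 * u * (d1 * d2 + d1 * d3 + d2 * d3)) p.c20 +
          mulLo (6 * (d1 * d2 * d3)) p.c30) +
        (mulLo (3 * u ^ 2 * (x1 + x2)) p.c01 + mulLo (6 * u * (x1 * x2)) p.c02) +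
        mulLo (u * (d1 + d2 + d3) * (x1 + x2)) p.c11 =
      (pairI (wts u d1 d2 d3 x1 x2) p).1 := fun p => by
    simp only [mulLo_eq, pairI, wts]; ring
  have hh : ∀ p : Poly (ℤ × ℤ),
      (mulHi (6 * u ^ 3) p.c00 + mulHi (2 * u ^ 2 * (d1 + d2 + d3)) p.c10 +
          mulHi (2 * u * (d1 * d2 + d1 * d3 + d2 * d3)) p.c20 +
          mulHi (6 * (d1 * d2 * d3)) p.c30) +
        (mulHi (3 * u ^ 2 * (x1 + x2)) p.c01 + mulHi (6 * u * (x1 * x2)) p.c02) +
        mulHi (u * (d1 + d2 + d3) * (x1 + x2)) p.c11 =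
      (pairI (wts u d1 d2 d3 x1 x2) p).2 := fun p => by
    simp only [mulHi_eq, pairI, wts]; ring
  simp only [gTest, dPart, xPart, mk5, forceI_eq, hl, hh, ctrlTest]

lemma gctrlAll_eq (a b N d : Poly (ℤ × ℤ)) (l h x0 x1 : ℤ) :
    gctrlAll a b N d l h x0 x1 = ctrlAll a b N d l h x0 x1 := by
  simp only [gctrlAll, gRow, forceI_eq, forceV_eq, gTest_eq, ctrlAll,
    show (4294967296 : ℤ) = 2 ^ 32 by norm_num]

/-- The test of a packed family at one node, with the faster controls. -/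
def gnodeTest (W K : ℕ) (F : PFam) (lo hi er : ℕ) (l h x0 x1 : ℤ) : Bool :=
  forceN lo fun lo => forceN hi fun hi => forceN er fun er =>
  forcePoly (penclP W K F.a lo hi er) fun a => forcePoly (penclP W K F.b lo hi er) fun b =>
  forcePoly (penclP W K F.N lo hi er) fun N => forcePoly (penclP W K F.d lo hi er) fun d =>
  gctrlAll a b N d l h x0 x1

lemma gnodeTest_eq (W K : ℕ) (F : PFam) (lo hi er : ℕ) (l h x0 x1 : ℤ) :
    gnodeTest W K F lo hi er l h x0 x1 = pnodeTest W K F lo hi er l h x0 x1 := by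
  simp only [gnodeTest, pnodeTest, forceN_eq, forcePoly_eq, fctrlAll_eq, gctrlAll_eq]

/-- The test of a packed family on a packed cell, with the faster controls. -/
def gcellTest (W K : ℕ) (F : PFam) (C : PCell) (l h x0 x1 : ℤ) : Bool :=
  gnodeTest W K F C.lo C.hi C.er l h x0 x1 && gnodeTest W K F C.lo' C.hi' C.er l h x0 x1

lemma gcellTest_eq (W K : ℕ) (F : PFam) (C : PCell) (l h x0 x1 : ℤ) :
    gcellTest W K F C l h x0 x1 = pcellTest W K F C l h x0 x1 := by
  simp only [gcellTest, pcellTest, gnodeTest_eq]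

end Vale.Agent.P237.Cal.CellCert
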