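import Vale.Agent.P237.Cal.ProfileY
import Vale.Agent.P237.Higher.Four.Cert
import Vale.Agent.P237.Higher.Four.Profile

/-!
# P237: calibrations give Petty's inequality with the equality case in every dimension
-/

open MeasureTheory Set Filter Metric Real intervalIntegral
open scoped RealInnerProductSpace Pointwise

namespace Vale.Agent.P237.Cal

open Exact Full

variable {m : ℕ}

/-- Calibrations for every central value imply the step. -/
theorem stepProp_of_profileCal (hm : 1 ≤ m) (h : ProfileCal m) : StepProp m := by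
  refine stepProp_of_small hm fun P hsmall hP => ?_
  obtain ⟨k₀⟩ := P.exists_index
  have hκ : 0 < Statement.ballVol (m + 2) := ballVol_pos (m + 1)
  obtain ⟨ρ, hρ, hρv⟩ := exists_root (n := m + 2) (by omega)
    (V := (volume P.L).toReal / Statement.ballVol (m + 2)) (div_nonneg P.volume_pos.le hκ.le)
  have hρv' : Statement.ballVol (m + 2) * ρ ^ (m + 2) = (volume P.L).toReal := by
    rw [hρv, mul_div_cancel₀ _ hκ.ne']
  have hρ0 : 0 < ρ := by
    rcases hρ.eq_or_lt with h0 | h0
    · rw [← h0, zero_pow (by omega : m + 2 ≠ 0), mul_zero] at hρv'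
      exact absurd hρv'.symm P.volume_pos.ne'
    · exact h0
  set V := ∫ t in (0 : ℝ)..1, P.shape k₀ t ^ (m + 1) with hV
  have hmom : ∀ k, ∫ t in (0 : ℝ)..1, P.shape k t ^ (m + 1) = V := fun k => by
    have h1 := P.volume_eq k
    rw [P.volume_eq k₀, P.mom_shape, P.mom_shape] at h1
    have := mul_left_cancel₀ (ballVol_pos m).ne' h1
    rw [hV]; linarith
  have hvol : (volume P.L).toReal = 2 * Statement.ballVol (m + 1) * V := by
    rw [P.volume_eq k₀, P.mom_shape, hV]; ring
  have hsk : ∀ k, ∀ t ∈ Icc (-1 : ℝ) 1, √(1 - t ^ 2) ≤ P.prof k t := fun k t ht =>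
    P.semi_le_prof k ht
  have hs₀ : semiMom m 1 ≤ V :=
    semi_le_part (P.cshape k₀) (hsk k₀) ⟨le_rfl, zero_le_one⟩ ⟨zero_le_one, le_rfl⟩ zero_le_one
  rcases hs₀.eq_or_lt with hb | hb
  · refine ⟨k₀, ?_⟩
    have hc := P.cshape k₀
    have main : ∀ x ∈ Ico (0 : ℝ) 1, P.prof k₀ x ≤ √(1 - x ^ 2) := by
      intro x hx
      by_contra hlt
      push Not at hlt
      have hlt' : semiMom m 1 < V := by
        refine integral_lt_integral_of_continuousOn_of_le_of_exists_lt zero_lt_one (by fun_prop)
          (hc.shape.cont.pow _) (fun y hy => pow_le_pow_left₀ (sqrt_nonneg _)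
            (semi_le_shape hc (hsk k₀) (Ioc_subset_Icc_self hy)) _)
          ⟨x, Ico_subset_Icc_self hx, ?_⟩
        rw [hc.agree x hx.2]
        exact pow_lt_pow_left₀ hlt (sqrt_nonneg _) (Nat.succ_ne_zero m)
      linarith
    intro t ht
    rcases le_or_gt 0 t with h2 | h2
    · exact main t ⟨h2, ht.2⟩
    · rw [← P.prof_even k₀ t, ← neg_sq t]
      exact main (-t) ⟨by linarith, by linarith [ht.1]⟩
  obtain ⟨w, hw, hY⟩ := h V ρ hb hρ0 (by rw [hρv', hvol]) (by rw [← hvol]; exact hsmall)
  have key : ∀ k, w * ((m : ℝ) + 1) * (ρ ^ 2 * bnum m (P.shape k) (P.slopeR k) - V) + V -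
      anum m (P.shape k) (P.slopeR k) < 0 := fun k => by
    have h1 : (1 : ℝ) ≤ P.shape k 0 := by
      simpa using semi_le_shape (P.cshape k) (hsk k) (t := 0) ⟨le_rfl, zero_le_one⟩
    have h2 := hullMom_le (m := m) (P.cshape k) (hsk k) (z := 0) le_rfl
      (P.cshape k).shape.one_nonneg
    rw [hmom k] at h2
    have h3 := hullTan_le (m := m) (P.cshape k) (hsk k)
    rw [hmom k] at h3
    obtain ⟨lam, Φ, dΦ, hcal⟩ := hY _ h1 h2 h3
    exact profileY hm (P.cshape k) (hsk k) (hmom k)
      (by rw [← P.mom_shape, ← P.mom_shape]; exact hP k) hcal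
  have hA : ∑ k, P.c k * anum m (P.shape k) (P.slopeR k) ≤ ((m : ℝ) + 2) * V := P.anum_sum k₀
  have hB : 0 ≤ ∑ k, P.c k * (ρ ^ 2 * bnum m (P.shape k) (P.slopeR k) - V) :=
    P.bnum_sum hm hρ0 hρv' k₀
  set g : Fin P.M → ℝ := fun k => P.c k *
    (w * ((m : ℝ) + 1) * (ρ ^ 2 * bnum m (P.shape k) (P.slopeR k) - V) + V -
      anum m (P.shape k) (P.slopeR k)) with hg
  have hsum : ∑ k, g k = w * ((m : ℝ) + 1) *
      (∑ k, P.c k * (ρ ^ 2 * bnum m (P.shape k) (P.slopeR k) - V)) + ((m : ℝ) + 2) * V -
      ∑ k, P.c k * anum m (P.shape k) (P.slopeR k) := by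
    rw [Finset.mul_sum, ← P.csum, Finset.sum_mul, ← Finset.sum_add_distrib,
      ← Finset.sum_sub_distrib]
    exact Finset.sum_congr rfl fun k _ => by simp only [hg]; ring
  have h0 : 0 ≤ ∑ k, g k := by
    rw [hsum]
    have : 0 ≤ w * ((m : ℝ) + 1) * ∑ k, P.c k * (ρ ^ 2 * bnum m (P.shape k) (P.slopeR k) - V) :=
      mul_nonneg (by positivity) hB
    linarith
  exact absurd h0 (not_le.2 (Finset.sum_neg (fun k _ => mul_neg_of_pos_of_neg (P.cpos k) (key k))
    ⟨k₀, Finset.mem_univ k₀⟩))

/-- Petty's bound in dimension four. -/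
theorem pettyBound_two : PettyBound 2 :=
  Full.pettyBound_succ Four.pettyBound_one (Higher.Four.profileDim_two Higher.Four.certFour)

/-- `PettyBound (i + 2)` from the calibrations for `3 ≤ m ≤ i + 2`. -/
theorem pettyBound_upto : ∀ i, (∀ m, 3 ≤ m → m ≤ i + 2 → ProfileCal m) → PettyBound (i + 2)
  | 0, _ => pettyBound_two
  | i + 1, h => pettyBound_succ_exact (pettyBound_upto i fun m h1 h2 => h m h1 (by omega))
      (stepProp_of_profileCal (by omega) (h (i + 2 + 1) (by omega) (by omega)))

/-- **Petty's conjecture with the equality case in dimensions `3 ≤ n`, from the calibrations for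
`3 ≤ m ≤ n - 2`.** -/
theorem petty_upto {n : ℕ} (h : ∀ m, 3 ≤ m → m + 2 ≤ n → ProfileCal m) (hn : 3 ≤ n)
    (K : Set (Statement.Space n)) (hK : Statement.IsConvexBody K) :
    Statement.pettyConst n * Statement.vol K ^ (n - 1) ≤
        Statement.vol (Statement.projectionBody K) ∧
      (Statement.vol (Statement.projectionBody K) =
          Statement.pettyConst n * Statement.vol K ^ (n - 1) ↔
        ∃ (a : Statement.Space n) (T : Statement.Space n →ₗ[ℝ] Statement.Space n),
          Function.Injective T ∧ K = (fun x => a + T x) '' Metric.closedBall 0 1) := by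
  obtain ⟨i, rfl⟩ : ∃ i, n = i + 3 := ⟨n - 3, by omega⟩
  match i with
  | 0 => rw [pettyConst_three]; exact petty_space hK
  | 1 => exact Higher.Four.petty_four Higher.Four.certFour hK
  | i + 2 =>
    obtain ⟨hc, hk, hi⟩ := hK
    obtain ⟨h1, heq⟩ := Exact.petty_step
      (pettyBound_upto i fun m h1 h2 => h m h1 (by omega))
      (stepProp_of_profileCal (by omega) (h (i + 2 + 1) (by omega) (by omega))) ⟨hc, hk⟩ hi
    have hV : 0 < (volume K).toReal := ENNReal.toReal_pos
      ((isOpen_interior.measure_pos volume hi).trans_le (measure_mono interior_subset)).ne'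
      hk.measure_lt_top.ne
    have hp : petty (i + 2 + 1) = Statement.pettyConst (i + 2 + 3) := rfl
    rw [projectionBody_eq, Statement.vol, Statement.vol]
    rw [ratio, hp] at h1 heq
    rw [le_div_iff₀ (pow_pos hV _)] at h1
    rw [div_eq_iff (pow_pos hV _).ne'] at heq
    refine ⟨h1, heq.trans (exists_congr fun a => exists_congr fun T => and_congr_right fun _ => ?_)⟩
    rw [← image_vadd, image_image]
    rfl

/-- **Petty's conjecture with the equality case in every dimension, from calibrations.** -/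
theorem petty_all (h : ∀ m, 3 ≤ m → ProfileCal m) {n : ℕ} (hn : 3 ≤ n)
    (K : Set (Statement.Space n)) (hK : Statement.IsConvexBody K) :
    Statement.pettyConst n * Statement.vol K ^ (n - 1) ≤
        Statement.vol (Statement.projectionBody K) ∧
      (Statement.vol (Statement.projectionBody K) =
          Statement.pettyConst n * Statement.vol K ^ (n - 1) ↔
        ∃ (a : Statement.Space n) (T : Statement.Space n →ₗ[ℝ] Statement.Space n),
          Function.Injective T ∧ K = (fun x => a + T x) '' Metric.closedBall 0 1) :=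
  petty_upto (fun m h1 _ => h m h1) hn K hK

end Vale.Agent.P237.Cal
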