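import Vale.Agent.P237.Cal.CentredState

/-!
# P237: the closed moment of the lower edge

With `lo = √((T² + 1 - Y²)⁺) - T` and every `m`,
`∫₀^∞ T lo W^(-(m+4)) = -(1 - Y^(-(m+1))) V₀ / (m+1)`: this is the least state at infinity.
-/

open MeasureTheory Set Filter Topology Real

namespace Vale.Agent.P237.Cal

variable {m : ℕ} {Y : ℝ}

/-- The lower edge of `σ - T`. -/
noncomputable def loD (Y T : ℝ) : ℝ := √(T ^ 2 + 1 - Y ^ 2) - T

lemma loD_nonpos (hY : 1 ≤ Y) {T : ℝ} (hT : 0 ≤ T) : loD Y T ≤ 0 := by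
  rw [loD, sub_nonpos, sqrt_le_left hT]
  nlinarith

lemma neg_le_loD (Y T : ℝ) : -T ≤ loD Y T := by
  unfold loD
  linarith [sqrt_nonneg (T ^ 2 + 1 - Y ^ 2)]

/-- The least state is the integral of `muX lo`. -/
theorem lowG_eq_integral (hY : 1 ≤ Y) {T : ℝ} (hT : 0 ≤ T) :
    lowG m Y T = ∫ u in (0 : ℝ)..T, muX m u * loD Y u := by
  have hY0 : 0 < Y := one_pos.trans_le hY
  have hc : Continuous fun u => muX m u * loD Y u := by
    unfold muX loD
    exact (Continuous.div (by fun_prop) (by fun_prop) fun u => pow_ne_zero _ (w_pos u).ne').mul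
      (by fun_prop)
  have h := MeasureTheory.integral_eq_of_hasDerivAt_off_countable_of_le (lowG m Y)
    (fun u => muX m u * loD Y u) hT (s := {√(Y ^ 2 - 1)}) (countable_singleton _)
    (continuous_lowG Y).continuousOn ?_ (hc.intervalIntegrable _ _)
  · rw [h, lowG_zero hY, sub_zero]
  rintro u ⟨hu, hne⟩
  have hne : u ≠ √(Y ^ 2 - 1) := hne
  have h0 : 0 ≤ Y ^ 2 - 1 := by nlinarith
  rcases hne.lt_or_gt with h | h
  · have hu2 : u ^ 2 < Y ^ 2 - 1 :=
      (sq_sqrt h0) ▸ pow_lt_pow_left₀ h hu.1.le two_ne_zero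
    refine (hasDerivAt_lowG_small hu2).congr_deriv ?_
    rw [loD, Real.sqrt_eq_zero_of_nonpos (by linarith)]
    ring
  · have hu2 : Y ^ 2 - 1 < u ^ 2 :=
      (sq_sqrt h0) ▸ pow_lt_pow_left₀ h (sqrt_nonneg _) two_ne_zero
    exact hasDerivAt_lowG_large hY0 hu2

lemma integrableOn_muX_loD (hY : 1 ≤ Y) :
    IntegrableOn (fun u => muX m u * loD Y u) (Ioi 0) := by
  have hc : Continuous fun u => muX m u * loD Y u := by
    unfold muX loD
    exact (Continuous.div (by fun_prop) (by fun_prop) fun u => pow_ne_zero _ (w_pos u).ne').mul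
      (by fun_prop)
  refine ((mom_integrable (a := 2) (m := m + 4) (by omega)).const_mul ((m : ℝ) + 1)).mono'
    hc.aestronglyMeasurable.restrict ?_
  filter_upwards [ae_restrict_mem measurableSet_Ioi] with u hu
  have hu : (0 : ℝ) < u := hu
  have hmu : 0 ≤ muX m u := by unfold muX; positivity
  rw [norm_mul, norm_of_nonneg hmu, Real.norm_eq_abs, abs_of_nonpos (loD_nonpos hY hu.le)]
  calc muX m u * -loD Y u ≤ muX m u * u :=
        mul_le_mul_of_nonneg_left (by linarith [neg_le_loD Y u]) hmu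
    _ = ((m : ℝ) + 1) * (u ^ 2 / √(1 + u ^ 2) ^ (m + 4)) := by unfold muX; ring

/-- The least state at infinity. -/
lemma tendsto_lowG :
    Tendsto (lowG m Y) atTop (𝓝 (semiMom m 1 / Y ^ (m + 1) - semiMom m 1)) := by
  have h1 : Tendsto (fun T : ℝ => Y / √(1 + T ^ 2)) atTop (𝓝 0) := by
    have := (mom_tendsto (a := 0) (m := 1) le_rfl).const_mul Y
    simpa [div_eq_mul_inv] using this
  have hs : Continuous (semiMom m) :=
    continuous_iff_continuousAt.2 fun s => (hasDerivAt_semiMom s).continuousAt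
  have hX : Continuous fun y : ℝ => Xlow m Y y := by
    unfold Xlow; fun_prop
  have h2 := ((hX.tendsto 0).comp h1).sub (tendsto_X0 (m := m))
  have e : Xlow m Y 0 = semiMom m 1 / Y ^ (m + 1) := by simp [Xlow]
  rw [e] at h2
  exact h2

/-- The closed moment. -/
theorem integral_muX_loD (hY : 1 ≤ Y) :
    ∫ u in Ioi (0 : ℝ), muX m u * loD Y u = semiMom m 1 / Y ^ (m + 1) - semiMom m 1 := by
  refine tendsto_nhds_unique
    (intervalIntegral_tendsto_integral_Ioi (0 : ℝ) (integrableOn_muX_loD hY) tendsto_id)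
    ((tendsto_lowG).congr' ?_)
  filter_upwards [eventually_ge_atTop 0] with T hT
  exact lowG_eq_integral hY hT

/-- The same in the moments. -/
theorem integral_loD (hY : 1 ≤ Y) :
    IntegrableOn (fun u => u / √(1 + u ^ 2) ^ (m + 4) * loD Y u) (Ioi 0) ∧
      ∫ u in Ioi (0 : ℝ), u / √(1 + u ^ 2) ^ (m + 4) * loD Y u =
        -((1 - 1 / Y ^ (m + 1)) * mom 0 (m + 4) / ((m : ℝ) + 1)) := by
  have hm : ((m : ℝ) + 1) ≠ 0 := by positivity
  have e : (fun u => u / √(1 + u ^ 2) ^ (m + 4) * loD Y u) =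
      fun u => ((m : ℝ) + 1)⁻¹ * (muX m u * loD Y u) := funext fun u => by
    unfold muX; field_simp
  rw [e, MeasureTheory.integral_const_mul, integral_muX_loD hY, semiMom_one]
  refine ⟨(integrableOn_muX_loD hY).const_mul _, ?_⟩
  field_simp
  ring

end Vale.Agent.P237.Cal
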