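import Vale.Agent.P237.Cal.StateW
import Vale.Agent.P237.Cal.LowMoment

/-!
# P237: envelopes of the lower state part against the lower edge

The negative part `a` of `2 S Xc/pre` satisfies `a² ≤ UM² W⁴ (-lo/T) c` for `c = 2d/(1 + n T²/3)`
(when `n d ≤ 16`) and for `c = (53/50) T²`, so its loss integrates against `muX · (-lo)`.
-/

open Real

namespace Vale.Agent.P237.Cal

variable {m : ℕ} {V Y T σ X : ℝ}

/-- The edge in the variable `P = √(1 + T² - Y²)/T`. -/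
lemma sqrt_low_eq (hY : 1 ≤ Y) (hT : 0 < T) :
    ∃ P : ℝ, 0 ≤ P ∧ P ≤ 1 ∧ -loD Y T / T = 1 - P ∧
      ((Y ^ 2 - 1) / T ^ 2 = 1 - P ^ 2 ∨ (P = 0 ∧ 1 ≤ (Y ^ 2 - 1) / T ^ 2)) := by
  refine ⟨√(T ^ 2 + 1 - Y ^ 2) / T, by positivity, ?_, ?_, ?_⟩
  · rw [div_le_one hT, sqrt_le_left hT.le]
    linarith [one_le_pow₀ (n := 2) hY]
  · rw [loD]; field_simp; ring
  · rcases le_total 0 (T ^ 2 + 1 - Y ^ 2) with h | h
    · left
      rw [div_pow, sq_sqrt h]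
      field_simp
      ring
    · right
      refine ⟨by rw [sqrt_eq_zero'.2 h, zero_div], ?_⟩
      rw [le_div_iff₀ (by positivity)]
      linarith

/-- `min(d/T, 2T/3)² ≤ (53/50) T² (-lo/T)`. -/
lemma low_env_cube (hY : 1 ≤ Y) (hT : 0 < T) :
    min ((Y ^ 2 - 1) / T) (2 * T / 3) ^ 2 ≤ 53 / 50 * T ^ 2 * (-loD Y T / T) := by
  obtain ⟨P, hP0, hP1, hlo, hu⟩ := sqrt_low_eq hY hT
  set u := (Y ^ 2 - 1) / T ^ 2
  have e : (Y ^ 2 - 1) / T = T * u := by simp only [u]; field_simp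
  rw [hlo, e, show 2 * T / 3 = T * (2 / 3) by ring, ← mul_min_of_nonneg _ _ hT.le, mul_pow,
    show 53 / 50 * T ^ 2 * (1 - P) = T ^ 2 * (53 / 50 * (1 - P)) by ring]
  refine mul_le_mul_of_nonneg_left ?_ (sq_nonneg T)
  have hu0 : 0 ≤ u := by
    have : 0 ≤ Y ^ 2 - 1 := by linarith [one_le_pow₀ (n := 2) hY]
    positivity
  have hm0 : 0 ≤ min u (2 / 3) := le_min hu0 (by norm_num)
  rcases le_or_gt P (289 / 500) with h | h
  · refine (pow_le_pow_left₀ hm0 (min_le_right _ _) 2).trans ?_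
    linarith
  · obtain hu' | ⟨h0, -⟩ := hu
    · refine (pow_le_pow_left₀ hm0 (min_le_left _ _) 2).trans ?_
      rw [hu', show (1 - P ^ 2) ^ 2 = (1 - P) * ((1 - P) * (1 + P) ^ 2) by ring, mul_comm (53 / 50)]
      refine mul_le_mul_of_nonneg_left ?_ (by linarith)
      nlinarith [mul_nonneg (sub_nonneg.2 h.le) (sub_nonneg.2 hP1), sq_nonneg (P - 289 / 500),
        mul_nonneg hP0 (sq_nonneg (P - 289 / 500))]
    · linarith

/-- `min(d/(T R), 2T/3)² ≤ 2 d (-lo/T)/R²`, `R² = 1 + n T²/3`, `n d ≤ 16`. -/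
lemma low_env_decay (hY : 1 ≤ Y) (hT : 0 < T) {N R : ℝ} (hN : 0 ≤ N) (hR0 : 0 < R)
    (hR : R ^ 2 = 1 + N * T ^ 2 / 3) (hd : N * (Y ^ 2 - 1) ≤ 16) :
    min ((Y ^ 2 - 1) / (T * R)) (2 * T / 3) ^ 2 ≤
      2 * (Y ^ 2 - 1) / R ^ 2 * (-loD Y T / T) := by
  obtain ⟨P, hP0, hP1, hlo, hu⟩ := sqrt_low_eq hY hT
  set d := Y ^ 2 - 1
  have hd0 : 0 ≤ d := by simp only [d]; linarith [one_le_pow₀ (n := 2) hY]
  have hm0 : 0 ≤ min (d / (T * R)) (2 * T / 3) := le_min (by positivity) (by positivity)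
  rw [hlo, div_mul_eq_mul_div, le_div_iff₀ (by positivity)]
  have h1 : (d / (T * R)) ^ 2 * R ^ 2 = d * (d / T ^ 2) := by field_simp
  obtain hu' | ⟨h0, -⟩ := hu
  · have h2 := mul_le_mul_of_nonneg_right (pow_le_pow_left₀ hm0 (min_le_left _ _) 2) (sq_nonneg R)
    rw [h1, hu'] at h2
    refine h2.trans ?_
    have : 1 - P ^ 2 ≤ 2 * (1 - P) := by linarith [sq_nonneg (1 - P)]
    have h3 := mul_le_mul_of_nonneg_left this hd0
    linarith
  · rw [h0, sub_zero, mul_one]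
    rcases le_or_gt (T ^ 2) (d / 2) with h | h
    · refine (mul_le_mul_of_nonneg_right (pow_le_pow_left₀ hm0 (min_le_right _ _) 2)
        (sq_nonneg R)).trans ?_
      rw [hR]
      have h4 := mul_le_mul_of_nonneg_left h hN
      have h5 : 1 + N * T ^ 2 / 3 ≤ 11 / 3 := by linarith
      have h6 := mul_le_mul h h5 (by positivity) (by positivity)
      linarith
    · refine (mul_le_mul_of_nonneg_right (pow_le_pow_left₀ hm0 (min_le_left _ _) 2)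
        (sq_nonneg R)).trans ?_
      rw [h1]
      refine le_trans (mul_le_mul_of_nonneg_left ?_ hd0) (le_of_eq (mul_comm d 2))
      rw [div_le_iff₀ (by positivity)]
      linarith

/-- **The state part from below with decay.** -/
theorem stateG_low' {c₀ c₁ : ℝ} (hm : 2 ≤ m) (hY : 1 ≤ Y) (hT : 0 < T)
    (hU : 0 ≤ shUM m c₀ c₁) (hB : XBox m V Y T σ X) :
    -(shUM m c₀ c₁ * (1 + T ^ 2) *
        min ((Y ^ 2 - 1) / (T * √(1 + ((m : ℝ) + 2) * T ^ 2 / 3))) (2 * T / 3)) ≤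
      2 * shS m c₀ c₁ T * (X - X0 m T) / pre m T := by
  have hk : (0 : ℝ) < (m : ℝ) + 1 := by positivity
  have hR : 0 < √(1 + ((m : ℝ) + 2) * T ^ 2 / 3) := sqrt_pos.2 (by positivity)
  rw [show 2 * shS m c₀ c₁ T * (X - X0 m T) / pre m T =
    2 * (shS m c₀ c₁ T / pre m T) * (X - X0 m T) by ring, shS_div_pre hT.ne']
  set R := √(1 + ((m : ℝ) + 2) * T ^ 2 / 3) with hRdef
  have h1 : -(X - X0 m T) ≤
      ((m : ℝ) + 1) * T ^ 2 / 2 * min ((Y ^ 2 - 1) / (T * R)) (2 * T / 3) := by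
    rw [mul_min_of_nonneg _ _ (by positivity), le_min_iff]
    have a := X0_sub_XL_le_decay (m := m) hm hY hT.le
    have b := X0_sub_XL_le_cube (m := m) (Y := Y) hT.le
    rw [← hRdef] at a
    have e1 : ((m : ℝ) + 1) * T ^ 2 / 2 * ((Y ^ 2 - 1) / (T * R)) =
        ((m : ℝ) + 1) * (Y ^ 2 - 1) / 2 * (T / R) := by field_simp
    have e2 : ((m : ℝ) + 1) * T ^ 2 / 2 * (2 * T / 3) = ((m : ℝ) + 1) * T ^ 3 / 3 := by ring
    constructor
    · linarith [hB.low]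
    · linarith [hB.low]
  have h2 := mul_le_mul_of_nonneg_left h1
    (show 0 ≤ 2 * (shUM m c₀ c₁ * (1 + T ^ 2) / (((m : ℝ) + 1) * T ^ 2)) by positivity)
  have e : 2 * (shUM m c₀ c₁ * (1 + T ^ 2) / (((m : ℝ) + 1) * T ^ 2)) *
      (((m : ℝ) + 1) * T ^ 2 / 2 * min ((Y ^ 2 - 1) / (T * R)) (2 * T / 3)) =
      shUM m c₀ c₁ * (1 + T ^ 2) * min ((Y ^ 2 - 1) / (T * R)) (2 * T / 3) := by field_simp
  rw [e] at h2
  linarith

/-- **The loss of the negative state part against the lower edge.** -/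
theorem stateLow_sq_le (hY : 1 ≤ Y) (hT : 0 < T) (hd : ((m : ℝ) + 2) * (Y ^ 2 - 1) ≤ 16) :
    min ((Y ^ 2 - 1) / (T * √(1 + ((m : ℝ) + 2) * T ^ 2 / 3))) (2 * T / 3) ^ 2 ≤
      min (2 * (Y ^ 2 - 1) / (1 + ((m : ℝ) + 2) * T ^ 2 / 3)) (53 / 50 * T ^ 2) *
        (-loD Y T / T) := by
  have hd0 : 0 ≤ Y ^ 2 - 1 := by linarith [one_le_pow₀ (n := 2) hY]
  have hR : 0 < √(1 + ((m : ℝ) + 2) * T ^ 2 / 3) := sqrt_pos.2 (by positivity)
  have hlo : 0 ≤ -loD Y T / T := div_nonneg (neg_nonneg.2 (loD_nonpos hY hT.le)) hT.le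
  rw [min_mul_of_nonneg _ _ hlo, le_min_iff]
  refine ⟨?_, ?_⟩
  · have h := low_env_decay hY hT (by positivity : (0 : ℝ) ≤ (m : ℝ) + 2) hR
      (sq_sqrt (by positivity)) hd
    rwa [sq_sqrt (by positivity : (0 : ℝ) ≤ 1 + ((m : ℝ) + 2) * T ^ 2 / 3)] at h
  · refine (pow_le_pow_left₀ (le_min (by positivity) (by positivity)) (min_le_min ?_ le_rfl) 2).trans
      (low_env_cube hY hT)
    refine div_le_div_of_nonneg_left hd0 hT (le_mul_of_one_le_right hT.le (one_le_sqrt.2 ?_))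
    have : 0 ≤ ((m : ℝ) + 2) * T ^ 2 / 3 := by positivity
    linarith

end Vale.Agent.P237.Cal
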