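import Vale.Agent.P237.Cal.ScalarFlat

/-!
# P237: the closed scalar for `Q ≥ 1`, with the curvature integrated

On `1 ≤ Q` the second derivative is at least `(2 + 37/N)/Q`.
-/

open Real Set

namespace Vale.Agent.P237.Cal.SF

variable {N A y Q : ℝ}

/-- The curvature for `Q ≥ 1`. -/
lemma curvature_upper (h : Par N A y) (hQ : 1 ≤ Q) (hQ1 : Q ≤ 83 / 50) :
    (2 + 73 / 2 / N) * Q ≤ Q ^ 2 * totDD N A y Q := by
  have hZ1 : exp (-y) ≤ 1 := exp_le_one_iff.2 (neg_nonpos.2 h.y0)
  have hQZ : exp (-y) ≤ Q := hZ1.trans hQ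
  obtain ⟨he, he', -⟩ := eS_bounds h hQZ
  have he' := he' hQ1
  obtain ⟨-, -, hd2⟩ := curv_coef h he he'
  have hq := curv_coef_upper h he
  have hR := curv_R_upper h
  have hg1 := gS_le h hQ1
  have hN := h.hN
  have hN0 : 0 < N := by linarith
  have hQ0 : 0 < Q := by linarith
  have hD : qb N Q - Q ≤ 0 := by
    have e : (N - 2) / (N - 1) * log Q ≤ 1 * log Q :=
      mul_le_mul_of_nonneg_right (by rw [div_le_one] <;> linarith) (log_nonneg hQ)
    have := exp_le_exp.2 e
    rw [one_mul, exp_log hQ0] at this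
    simp only [qb]
    linarith
  have hD2 := mul_nonneg_of_nonpos_of_nonpos hD hd2
  have idn : Q ^ 2 * totDD N A y Q =
      Q * (2 * A / (N - 1) * (1 + eS N y Q) + 2 * eS N y Q / N * (A - 2 * (N - 1)) * (1 + 2 / N) +
          2 * eS N y Q / N * (1 - 2 / N) * (2 * A / (N - 2))) +
        (qb N Q - Q) * (A / (N - 1) * (2 - eS N y Q * (2 - 4 / N ^ 2))) -
        2 * eS N y Q / N * (1 - 2 / N) * (exp (-y) * (2 * (N - 1) * A / (N - 2) * exp (y / (N - 1)) -
          3 * A + (N - 1) * exp (-(2 * (y / (N - 1))))) + gS N y Q) +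
        4 / N * eS N y Q * Q * ((1 - exp (-y)) / 2 * (15 / 4 / N)) := by
    simp only [totDD, dB, MS]
    generalize eS N y Q = e
    generalize gS N y Q = g
    generalize qb N Q = b
    generalize exp (-y) = Z
    generalize exp (y / (N - 1)) = Y
    generalize exp (-(2 * (y / (N - 1)))) = v
    have : N - 1 ≠ 0 := by linarith
    have : N - 2 ≠ 0 := by linarith
    field_simp
    ring
  have hpos : 0 ≤ 4 / N * eS N y Q * Q * ((1 - exp (-y)) / 2 * (15 / 4 / N)) := by
    have : 0 ≤ eS N y Q := by linarith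
    have : 0 ≤ 1 - exp (-y) := by linarith
    positivity
  set F := 2 * eS N y Q / N * (1 - 2 / N) with hFd
  have hF0 : 0 ≤ F := by
    have : 0 ≤ eS N y Q := by linarith
    refine mul_nonneg (by positivity) ?_
    rw [sub_nonneg, div_le_one] <;> linarith
  have hF : F ≤ 203 / 25 / N := by
    calc F ≤ 2 * eS N y Q / N * 1 :=
          mul_le_mul_of_nonneg_left (by linarith [show 0 ≤ 2 / N by positivity])
            (div_nonneg (by linarith) hN0.le)
      _ ≤ _ := by rw [mul_one]; gcongr; linarith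
  have h5 : 51 / 10 / N ≤ 51 / 1000 := by rw [div_le_iff₀ hN0]; linarith
  have hin := mul_le_mul_of_nonneg_left (show exp (-y) * (2 * (N - 1) * A / (N - 2) * exp (y / (N - 1)) -
      3 * A + (N - 1) * exp (-(2 * (y / (N - 1))))) + gS N y Q ≤ 231 / 1000 by linarith) hF0
  have hin2 := mul_le_mul_of_nonneg_right hF (show (0 : ℝ) ≤ 231 / 1000 by norm_num)
  have h6 : 19 / 10 / N ≤ 19 / 10 / N * Q := le_mul_of_one_le_right (by positivity) hQ
  have h7 : 203 / 25 / N * (231 / 1000) ≤ 19 / 10 / N := by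
    rw [div_mul_eq_mul_div]; gcongr; norm_num
  have hQc := mul_le_mul_of_nonneg_left hq hQ0.le
  have h9 : 0 ≤ 1 / 10 / N * Q := by positivity
  have h8 : (2 + 385 / 10 / N) * Q = (2 + 73 / 2 / N) * Q + 19 / 10 / N * Q + 1 / 10 / N * Q := by ring
  rw [idn]
  linarith

/-- **The closed scalar for `Q ≥ 1`.** -/
theorem tot_ge_upper (h : Par N A y) (hQ : 1 ≤ Q) (hQ1 : Q ≤ 83 / 50) :
    (y + log Q) / (3 * N) + (3 / 4 + 137 / 10 / N) * (Q - 1) ^ 2 +
      3 / 20 / N * ((1 - exp (-y)) * y) + 7 / 2 / N * (1 - exp (-y)) ^ 2 ≤ tot N A y Q := by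
  have hN := h.hN
  have hN0 : 0 < N := by linarith
  have hy := h.y0
  have f1 := tot_one h
  have d1 := totD_one_low h
  set a := 2 + 73 / 2 / N with ha
  have hphi := phi_margin hN h
  have ht := taylor_lower (f := fun t => tot N A y t - a * (t * log t - t))
    (f' := fun t => totD N A y t - a * log t) (f'' := fun t => totDD N A y t - a / t) (c := 0)
    (left_mem_Icc.2 (by norm_num : (1 : ℝ) ≤ 83 / 50)) ⟨hQ, hQ1⟩
    (fun t ht => by
      have ht0 : 0 < t := one_pos.trans_le ht.1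
      refine ((hasDerivAt_tot hN ht0).fun_sub
        ((((hasDerivAt_id t).fun_mul (hasDerivAt_log ht0.ne')).fun_sub (hasDerivAt_id t)).const_mul a)).congr_deriv ?_
      simp only [id_eq]; field_simp; ring)
    (fun t ht => by
      have ht0 : 0 < t := one_pos.trans_le ht.1
      exact ((hasDerivAt_totD hN ht0).fun_sub ((hasDerivAt_log ht0.ne').const_mul a)).congr_deriv
        (by simp only [div_eq_mul_inv]))
    (fun t ht => by
      have ht0 : 0 < t := one_pos.trans_le ht.1
      have hc := curvature_upper h ht.1 ht.2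
      rw [sub_nonneg, div_le_iff₀ ht0, ← mul_le_mul_iff_left₀ ht0]
      linarith)
  simp only [log_one] at ht
  set x := Q - 1 with hx
  have hx0 : 0 ≤ x := sub_nonneg.2 hQ
  have hlog : x ^ 2 * (50 / 133) ≤ Q * log Q - x := by
    have h1 := le_log_one_add_of_nonneg hx0
    rw [show 1 + x = Q by rw [hx]; ring] at h1
    have h2 := mul_le_mul_of_nonneg_left h1 (show 0 ≤ Q by linarith)
    have h3 : x ^ 2 * (50 / 133) ≤ Q * (2 * x / (x + 2)) - x := by
      rw [le_sub_iff_add_le, ← mul_div_assoc Q, le_div_iff₀ (by linarith)]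
      have := mul_le_mul_of_nonneg_left (show x + 2 ≤ 133 / 50 by linarith) (sq_nonneg x)
      rw [show Q = 1 + x by rw [hx]; ring]
      linarith
    linarith
  have ha2 : (3 / 4 + 137 / 10 / N) * x ^ 2 ≤ a * (x ^ 2 * (50 / 133)) := by
    have : 3 / 4 + 137 / 10 / N ≤ a * (50 / 133) := by
      rw [ha, show (2 + 73 / 2 / N) * (50 / 133) = 100 / 133 + 1825 / 133 / N by ring]
      exact add_le_add (by norm_num) (div_le_div_of_nonneg_right (by norm_num) hN0.le)
    have := mul_le_mul_of_nonneg_right this (sq_nonneg x)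
    linarith
  have hlog2 := mul_le_mul_of_nonneg_left hlog (show 0 ≤ a by positivity)
  have hl : log Q ≤ x := log_le_sub_one_of_pos (by linarith)
  have h5 := mul_le_mul_of_nonneg_right d1 hx0
  have h4 : (y + log Q) / (3 * N) + 3 / 20 / N * ((1 - exp (-y)) * y) +
      7 / 2 / N * (1 - exp (-y)) ^ 2 ≤ tot N A y 1 + totD N A y 1 * x := by
    rw [show (y + log Q) / (3 * N) + 3 / 20 / N * ((1 - exp (-y)) * y) +
        7 / 2 / N * (1 - exp (-y)) ^ 2 =
      ((y + log Q) / 3 + 3 / 20 * ((1 - exp (-y)) * y) + 7 / 2 * (1 - exp (-y)) ^ 2) / N by ring,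
      div_le_iff₀ hN0]
    linarith
  linarith

end Vale.Agent.P237.Cal.SF
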