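import Vale.Agent.P237.Cal.FieldX

/-!
# P237: closed shapes of the quadratic field in the centred state

`S = UM W^(-n)`, `U = n UM/k` constant and
`P = -k W^(-n) (B (1 - W^(-n)) + c₁/(n+2) (1 - W^(-2)))` with `UM = c₀ + 2 c₁/(n+2)`, `B = UM/n`:
then `S' + mu U = 0`, `P' + 2 mu S = mu (c₀ + c₁ s/W²)`, `P ≤ 0`, `P 0 = 0` and
`-P ≤ (c₀/2 + 2 c₁/(n+2)) · k s W^(-(n+2))`.
-/

open MeasureTheory Set Filter Topology Real

namespace Vale.Agent.P237.Cal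

variable {m : ℕ} {c₀ c₁ : ℝ}

/-- The value `UM`. -/
noncomputable def shUM (m : ℕ) (c₀ c₁ : ℝ) : ℝ := c₀ + 2 * c₁ / ((m : ℝ) + 4)

/-- The field `S`. -/
noncomputable def shS (m : ℕ) (c₀ c₁ T : ℝ) : ℝ := shUM m c₀ c₁ / √(1 + T ^ 2) ^ (m + 2)

/-- The derivative of `S`. -/
noncomputable def shS' (m : ℕ) (c₀ c₁ T : ℝ) : ℝ :=
  -((((m : ℝ) + 2) * shUM m c₀ c₁) * T / √(1 + T ^ 2) ^ (m + 4))

/-- The constant field `U`. -/
noncomputable def shU (m : ℕ) (c₀ c₁ : ℝ) (_T : ℝ) : ℝ :=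
  ((m : ℝ) + 2) * shUM m c₀ c₁ / ((m : ℝ) + 1)

/-- The field `P`. -/
noncomputable def shP (m : ℕ) (c₀ c₁ T : ℝ) : ℝ :=
  -(((m : ℝ) + 1) / √(1 + T ^ 2) ^ (m + 2) *
    (shUM m c₀ c₁ / ((m : ℝ) + 2) * (1 - 1 / √(1 + T ^ 2) ^ (m + 2)) +
      c₁ / ((m : ℝ) + 4) * (1 - 1 / √(1 + T ^ 2) ^ 2)))

/-- The derivative of `P`. -/
noncomputable def shP' (m : ℕ) (c₀ c₁ T : ℝ) : ℝ :=
  muX m T * (c₀ + c₁ * (T ^ 2 / √(1 + T ^ 2) ^ 2)) - 2 * muX m T * shS m c₀ c₁ T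

lemma shS'_add (T : ℝ) : shS' m c₀ c₁ T + muX m T * shU m c₀ c₁ T = 0 := by
  simp only [shS', muX, shU]
  field_simp
  ring

lemma shP'_add (T : ℝ) :
    shP' m c₀ c₁ T + 2 * muX m T * shS m c₀ c₁ T =
      muX m T * (c₀ + c₁ * (T ^ 2 / √(1 + T ^ 2) ^ 2)) := by
  simp only [shP']; ring

lemma hasDerivAt_shS (T : ℝ) : HasDerivAt (shS m c₀ c₁) (shS' m c₀ c₁ T) T := by
  refine ((hasDerivAt_w_inv (m + 2) T).const_mul (shUM m c₀ c₁)).congr_of_eventuallyEq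
    (Filter.Eventually.of_forall fun x => ?_) |>.congr_deriv ?_
  · simp only [shS]; ring
  · simp only [shS', show m + 2 + 2 = m + 4 from rfl]
    push_cast
    ring

lemma hasDerivAt_shP (T : ℝ) : HasDerivAt (shP m c₀ c₁) (shP' m c₀ c₁ T) T := by
  have h1 := hasDerivAt_w_inv (m + 2) T
  have h2 := hasDerivAt_w_inv (m + 4) T
  have h3 := hasDerivAt_w_inv (2 * m + 4) T
  have h := ((h1.const_mul (-(((m : ℝ) + 1) *
      (shUM m c₀ c₁ / ((m : ℝ) + 2) + c₁ / ((m : ℝ) + 4))))).add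
    (h2.const_mul (((m : ℝ) + 1) * (c₁ / ((m : ℝ) + 4))))).add
    (h3.const_mul (((m : ℝ) + 1) * (shUM m c₀ c₁ / ((m : ℝ) + 2))))
  refine (h.congr_of_eventuallyEq (Filter.Eventually.of_forall fun x => ?_)).congr_deriv ?_
  · have hw := w_pos x
    simp only [shP, Pi.add_apply, show m + 4 = m + 2 + 2 from rfl, pow_add,
      show 2 * m + 4 = m + 2 + (m + 2) by omega]
    field_simp
    ring
  · have hw := w_pos T
    have hs := w_sq T
    simp only [shP', shS, muX, shUM, show m + 2 + 2 = m + 4 from rfl,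
      show 2 * m + 4 + 2 = m + 4 + (m + 2) by omega, pow_add]
    push_cast
    field_simp
    rw [hs]
    ring

lemma continuous_shS : Continuous (shS m c₀ c₁) :=
  continuous_iff_continuousAt.2 fun T => (hasDerivAt_shS T).continuousAt

lemma continuous_shP : Continuous (shP m c₀ c₁) :=
  continuous_iff_continuousAt.2 fun T => (hasDerivAt_shP T).continuousAt

lemma shP_zero : shP m c₀ c₁ 0 = 0 := by simp [shP]

/-- `1 - b^n ≤ (n/2)(1 - b²)` on `[0, 1]` for `n ≥ 2`. -/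
lemma one_sub_pow_le {b : ℝ} (h0 : 0 ≤ b) (h1 : b ≤ 1) (j : ℕ) :
    1 - b ^ (j + 2) ≤ ((j : ℝ) + 2) / 2 * (1 - b ^ 2) := by
  induction j with
  | zero => simp
  | succ j ih =>
    have hp : b ^ (j + 2) ≤ (1 + b) / 2 := by
      calc b ^ (j + 2) ≤ b ^ 1 := pow_le_pow_of_le_one h0 h1 (by omega)
        _ ≤ (1 + b) / 2 := by rw [pow_one]; linarith
    have h2 := mul_le_mul_of_nonneg_right hp (by linarith : (0 : ℝ) ≤ 1 - b)
    rw [show j + 1 + 2 = j + 2 + 1 from rfl, pow_succ]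
    push_cast
    linarith

lemma shS_nonneg (h0 : 0 ≤ c₀) (h1 : 0 ≤ c₁) (T : ℝ) : 0 ≤ shS m c₀ c₁ T := by
  unfold shS shUM; positivity

lemma shP_nonpos (h0 : 0 ≤ c₀) (h1 : 0 ≤ c₁) (T : ℝ) : shP m c₀ c₁ T ≤ 0 := by
  have hw := one_le_w T
  have e1 : 1 / √(1 + T ^ 2) ^ (m + 2) ≤ 1 :=
    div_le_one_of_le₀ (one_le_pow₀ hw) (by positivity)
  have e2 : 1 / √(1 + T ^ 2) ^ 2 ≤ 1 := div_le_one_of_le₀ (one_le_pow₀ hw) (by positivity)
  have hU : 0 ≤ shUM m c₀ c₁ := by unfold shUM; positivity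
  simp only [shP, neg_nonpos]
  exact mul_nonneg (by positivity)
    (add_nonneg (mul_nonneg (by positivity) (by linarith)) (mul_nonneg (by positivity)
      (by linarith)))

/-- `-P` is at most a constant times the prefactor of the second order part. -/
lemma neg_shP_le (h0 : 0 ≤ c₀) (h1 : 0 ≤ c₁) (T : ℝ) :
    -shP m c₀ c₁ T ≤ (c₀ / 2 + 2 * c₁ / ((m : ℝ) + 4)) *
      (((m : ℝ) + 1) * T ^ 2 / √(1 + T ^ 2) ^ (m + 4)) := by
  have hw := w_pos T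
  have hU : 0 ≤ shUM m c₀ c₁ := by unfold shUM; positivity
  have hb := one_sub_pow_le (b := 1 / √(1 + T ^ 2)) (by positivity)
    (div_le_one_of_le₀ (one_le_w T) hw.le) m
  rw [div_pow, div_pow, one_pow, one_pow] at hb
  have e : 1 - 1 / √(1 + T ^ 2) ^ 2 = T ^ 2 / √(1 + T ^ 2) ^ 2 := by
    field_simp
    rw [w_sq]; ring
  simp only [shP, neg_neg]
  calc ((m : ℝ) + 1) / √(1 + T ^ 2) ^ (m + 2) *
      (shUM m c₀ c₁ / ((m : ℝ) + 2) * (1 - 1 / √(1 + T ^ 2) ^ (m + 2)) +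
        c₁ / ((m : ℝ) + 4) * (1 - 1 / √(1 + T ^ 2) ^ 2))
      ≤ ((m : ℝ) + 1) / √(1 + T ^ 2) ^ (m + 2) *
          (shUM m c₀ c₁ / ((m : ℝ) + 2) * ((((m : ℝ) + 2) / 2) * (1 - 1 / √(1 + T ^ 2) ^ 2)) +
            c₁ / ((m : ℝ) + 4) * (1 - 1 / √(1 + T ^ 2) ^ 2)) := by
        gcongr
    _ = (c₀ / 2 + 2 * c₁ / ((m : ℝ) + 4)) *
        (((m : ℝ) + 1) * T ^ 2 / √(1 + T ^ 2) ^ (m + 4)) := by
      rw [e, show m + 4 = m + 2 + 2 from rfl, pow_add]
      simp only [shUM]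
      field_simp
      ring

/-- Limits at infinity. -/
lemma shX_tendsto (hm : 1 ≤ m) :
    Tendsto (fun T => shP m c₀ c₁ T * (T + 1) ^ 2) atTop (𝓝 0) ∧
      Tendsto (fun T => shS m c₀ c₁ T * (T + 1)) atTop (𝓝 0) := by
  have key : ∀ b : ℕ, b ≤ 2 → Tendsto (fun T : ℝ => T ^ b / √(1 + T ^ 2) ^ (m + 2)) atTop (𝓝 0) :=
    fun b hb => mom_tendsto (by omega)
  have hq : ∀ j : ℕ, j ≤ 2 →
      Tendsto (fun T : ℝ => (T + 1) ^ j / √(1 + T ^ 2) ^ (m + 2)) atTop (𝓝 0) := by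
    intro j hj
    interval_cases j
    · simpa using key 0 (by omega)
    · refine (((key 1 (by omega)).add (key 0 (by omega))).congr fun T => ?_).trans (by simp)
      ring
    · refine ((((key 2 le_rfl).add ((key 1 (by omega)).const_mul 2)).add
        (key 0 (by omega))).congr fun T => ?_).trans (by simp)
      ring
  have hinv : ∀ j : ℕ, 0 < j →
      Tendsto (fun T : ℝ => 1 / √(1 + T ^ 2) ^ j) atTop (𝓝 0) := fun j hj => by
    simpa using mom_tendsto (a := 0) (m := j) (by omega)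
  constructor
  · have h := (((hq 2 le_rfl).const_mul (-((m : ℝ) + 1))).mul
      (((hinv (m + 2) (by omega)).const_sub 1).const_mul (shUM m c₀ c₁ / ((m : ℝ) + 2)) |>.add
        (((hinv 2 (by omega)).const_sub 1).const_mul (c₁ / ((m : ℝ) + 4)))))
    simp only [mul_zero, zero_mul] at h
    refine h.congr fun T => ?_
    simp only [shP]; ring
  · have h := (hq 1 (by omega)).const_mul (shUM m c₀ c₁)
    simp only [mul_zero] at h
    refine h.congr fun T => ?_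
    simp only [shS, pow_one]; ring

end Vale.Agent.P237.Cal
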