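import Vale.Agent.P237.Cal.EllFlat
import Vale.Agent.P237.Cal.ShapeX
import Vale.Agent.P237.Cal.ScalarFlatUpper

/-!
# P237: the scalar inequality of the flattened calibration, `ω = 4`, `n ≥ 100`

The scalar of `isCalY_of_field` with the multipliers `muT`, `aT`, the moment of `ellFlat` against
the lower edge and the linear coefficient `kFlat` is at least
`log q/(3n) + 22 (Q-1)²/n + 3 (1 - Y^(-k)) log(Y^k)/(20 n) + 7 (1 - Y^(-k))²/(2 n)`.
-/

open MeasureTheory Set Real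

namespace Vale.Agent.P237.Cal

/-- The range of `(n+2)/r²`. -/
lemma A_range {N r : ℝ} (hN : 100 ≤ N) (h1 : 2 * N / (2 * N - 1 + 1 / (4 * (N - 1))) ≤ r)
    (h2 : r ≤ 2 * N / (2 * N - 1 + 1 / (4 * N))) :
    -(3 / 2) ≤ N * ((N + 2) / r ^ 2 - (N + 1)) ∧ N * ((N + 2) / r ^ 2 - (N + 1)) ≤ -(372 / 250) := by
  set d := 1 / (4 * N) with hd
  set e := 1 / (4 * (N - 1)) with he
  have hd1 : 4 * N * d = 1 := mul_one_div_cancel (by linarith)
  have he1 : 4 * (N - 1) * e = 1 := mul_one_div_cancel (by linarith)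
  have hd0 : 0 < d := by rw [hd]; exact one_div_pos.2 (by linarith)
  have he0 : 0 < e := by rw [he]; exact one_div_pos.2 (by linarith)
  have he2 : e ≤ 1 / 396 := one_div_le_one_div_of_le (by norm_num) (by linarith)
  have hpe : 0 < 2 * N - 1 + e := by linarith
  have hpd : 0 < 2 * N - 1 + d := by linarith
  have hr : 0 < r := lt_of_lt_of_le (div_pos (by linarith) hpe) h1
  constructor
  · have h3 : (N + 2) * (2 * N - 1 + d) ^ 2 / (4 * N ^ 2) ≤ (N + 2) / r ^ 2 := by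
      have h4 := mul_le_mul_of_nonneg_left h2 hpd.le
      rw [mul_div_cancel₀ _ hpd.ne'] at h4
      have h5 := pow_le_pow_left₀ (by positivity) h4 2
      have h6 := mul_le_mul_of_nonneg_left h5 (show 0 ≤ N + 2 by linarith)
      rw [div_le_div_iff₀ (by positivity) (by positivity)]
      linarith
    have h7 := mul_le_mul_of_nonneg_left h3 (show 0 ≤ N by linarith)
    refine le_trans ?_ (sub_le_sub_right h7 (N * (N + 1)) |>.trans_eq (by ring))
    rw [le_sub_iff_add_le, ← mul_div_assoc, le_div_iff₀ (by positivity)]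
    have a1 := mul_nonneg (show 0 ≤ N + 2 by linarith) (sq_nonneg d)
    have a2 : 0 ≤ N - 100 := by linarith
    nlinarith [mul_nonneg a2 hd0.le]
  · have h3 : (N + 2) / r ^ 2 ≤ (N + 2) * (2 * N - 1 + e) ^ 2 / (4 * N ^ 2) := by
      have h4 := mul_le_mul_of_nonneg_left h1 hpe.le
      rw [mul_div_cancel₀ _ hpe.ne'] at h4
      have h5 := pow_le_pow_left₀ (by linarith) h4 2
      have h6 := mul_le_mul_of_nonneg_left h5 (show 0 ≤ N + 2 by linarith)
      rw [div_le_div_iff₀ (by positivity) (by positivity)]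
      linarith
    have h7 := mul_le_mul_of_nonneg_left h3 (show 0 ≤ N by linarith)
    refine (le_of_eq_of_le (by ring) (sub_le_sub_right h7 (N * (N + 1)))).trans ?_
    rw [sub_le_iff_le_add, ← mul_div_assoc, div_le_iff₀ (by positivity)]
    have a2 : 0 ≤ N - 100 := by linarith
    have a3 := mul_le_mul he2 he2 he0.le (by norm_num)
    have a4 := mul_le_mul_of_nonneg_left a3 (show 0 ≤ N * (N + 2) by nlinarith)
    nlinarith [mul_nonneg a2 he0.le]

/-- `r^k ≤ 83/50`. -/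
lemma rr_pow_le (m : ℕ) : rr (m + 1) ^ (m + 1) ≤ 83 / 50 := by
  have h := rr_le (k := m + 1) (by omega)
  have h0 : 0 ≤ rr (m + 1) := div_nonneg (mom_nonneg ..) (mom_nonneg ..)
  refine (pow_le_pow_left₀ h0 (h.trans (le_trans (le_of_eq (add_comm _ _)) (add_one_le_exp _))) _).trans ?_
  rw [← exp_nat_mul]
  refine (exp_le_exp.2 ?_).trans ((SF.exp_frac (1 / 2) (by norm_num) (by norm_num)).trans (by norm_num))
  push_cast
  rw [mul_one_div, div_le_iff₀ (by positivity)]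
  linarith

/-- The scalar of `isCalY_of_field` without the term of `uinf`; `I` is the integral of the lower
bound over `V₀`. -/
noncomputable def scalarLin (m : ℕ) (ε kap Q I : ℝ) : ℝ :=
  (1 - aT m ε (rr (m + 1)) 0 * ((m : ℝ) + 2) / ((m : ℝ) + 1)) * (1 - Q) +
    ((m : ℝ) + 1) * (4 * Q - ε) -
    muT m ε (rr (m + 1)) * (((m : ℝ) + 1) / (m : ℝ)) * rr (m + 1) *
      (Q ^ ((m : ℝ) / ((m : ℝ) + 1)) - 1) + I - kFlat m ε kap * (Q - 1)

/-- **The scalar inequality.** -/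
theorem scalar_flat_ge {m : ℕ} (hm : 98 ≤ m) {q Y Q ε kap : ℝ} (hY : 1 ≤ Y)
    (hYk : Y ^ (m + 1) ≤ 2 * ((m : ℝ) + 2)) (hq : 1 ≤ q) (hQ : Q = q / Y ^ (m + 1))
    (hQr : Q ≤ rr (m + 1) ^ (m + 1)) (hε : ε = 4 * q ^ (2 / ((m : ℝ) + 2)) / Y ^ 2)
    (hkap : kap = (1 - (Y ^ (m + 1))⁻¹) / 2) :
    (7 / 2 ≤ ε ∧ ε ≤ 203 / 50) ∧
      Real.log q / (3 * ((m : ℝ) + 2)) + 22 / ((m : ℝ) + 2) * (Q - 1) ^ 2 +
          3 / 20 / ((m : ℝ) + 2) * ((1 - (Y ^ (m + 1))⁻¹) * (((m : ℝ) + 1) * Real.log Y)) +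
          7 / 2 / ((m : ℝ) + 2) * (1 - (Y ^ (m + 1))⁻¹) ^ 2 ≤
        scalarLin m ε kap Q
          ((∫ T in Ioi (0 : ℝ), ellFlat m ε kap (rr (m + 1)) T * loD Y T) / semiMom m 1) ∧
      (1 ≤ Q → Real.log q / (3 * ((m : ℝ) + 2)) +
          (3 / 4 + 137 / 10 / ((m : ℝ) + 2)) * (Q - 1) ^ 2 +
          3 / 20 / ((m : ℝ) + 2) * ((1 - (Y ^ (m + 1))⁻¹) * (((m : ℝ) + 1) * Real.log Y)) +
          7 / 2 / ((m : ℝ) + 2) * (1 - (Y ^ (m + 1))⁻¹) ^ 2 ≤
        scalarLin m ε kap Q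
          ((∫ T in Ioi (0 : ℝ), ellFlat m ε kap (rr (m + 1)) T * loD Y T) / semiMom m 1)) := by
  obtain ⟨p, rfl⟩ : ∃ p, m = p + 2 := ⟨m - 2, by omega⟩
  set N := ((p + 2 : ℕ) : ℝ) + 2 with hNd
  have hN : 100 ≤ N := by
    have : ((98 : ℕ) : ℝ) ≤ ((p + 2 : ℕ) : ℝ) := by exact_mod_cast hm
    push_cast at this ⊢
    rw [hNd]; push_cast; linarith
  have hpN : (p : ℝ) = N - 4 := by rw [hNd]; push_cast; ring
  have hmN : ((p + 2 : ℕ) : ℝ) = N - 2 := by rw [hNd]; ring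
  have hY0 : 0 < Y := one_pos.trans_le hY
  set r := rr (p + 2 + 1) with hr
  have hrr : r = mom 0 (p + 5) / mom 0 (p + 6) := rfl
  have hV : 0 < mom 0 (p + 6) := mom_zero_pos (p + 4)
  have hr0 : 0 < r := div_pos (mom_zero_pos (p + 3)) hV
  set y := (N - 1) * Real.log Y with hy
  have hyY : exp y = Y ^ (p + 2 + 1) := by
    rw [hy, ← Real.exp_log (pow_pos hY0 (p + 2 + 1)), Real.log_pow]
    push_cast
    rw [hpN]; ring_nf
  obtain ⟨hb1, hb2⟩ := rr_bounds (k := p + 2 + 1) (by omega)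
  push_cast at hb1 hb2
  obtain ⟨hA1, hA2⟩ := A_range hN
    (le_of_eq_of_le (by rw [hpN]; ring_nf) hb1) (hb2.trans_eq (by rw [hpN]; ring_nf))
  have hpar : SF.Par N ((N + 2) / r ^ 2) y :=
    ⟨hN, hA1, hA2, mul_nonneg (by linarith) (Real.log_nonneg hY), hyY ▸ hYk⟩
  have hZ : exp (-y) = (Y ^ (p + 2 + 1))⁻¹ := by rw [exp_neg, hyY]
  have hQ0 : 0 < Q := by rw [hQ]; positivity
  have hQZ : exp (-y) ≤ Q := by
    rw [hZ, hQ, inv_eq_one_div]; exact div_le_div_of_nonneg_right hq (by positivity)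
  have main := SF.tot_ge hpar hQZ (hQr.trans (rr_pow_le (p + 2)))
  have hlog : y + Real.log Q = Real.log q := by
    rw [hQ, Real.log_div (by linarith) (pow_ne_zero _ hY0.ne'), ← hyY, Real.log_exp]; ring
  rw [hlog] at main
  obtain ⟨eb1, eb2, -⟩ := SF.eS_bounds hpar hQZ
  have eb2 := eb2 (hQr.trans (rr_pow_le (p + 2)))
  have hlY : y / (N - 1) = Real.log Y := mul_div_cancel_left₀ _ (by linarith)
  have hY1 : exp (y / (N - 1)) = Y := by rw [hlY, Real.exp_log hY0]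
  have hY2 : exp (2 * (y / (N - 1))) = Y ^ 2 := by
    rw [hlY, show (2 : ℝ) * Real.log Y = Real.log (Y ^ 2) by rw [Real.log_pow]; norm_num,
      Real.exp_log (by positivity)]
  have hY3 : exp (-(2 * (y / (N - 1)))) = (Y ^ 2)⁻¹ := by rw [exp_neg, hY2]
  have hqb : SF.qb N Q = Q ^ ((N - 2) / (N - 1)) := by
    rw [SF.qb, Real.rpow_def_of_pos hQ0]; ring_nf
  have he : SF.eS N y Q = ε := by
    rw [SF.eS, hε, hlY, show 2 / N * (Real.log Q - Real.log Y) =
      Real.log q * (2 / N) + -(2 * Real.log Y) by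
        rw [← hlog, ← hlY]; field_simp [show N - 1 ≠ 0 by linarith]; ring,
      exp_add, ← Real.rpow_def_of_pos (by linarith), exp_neg, ← hlY, hY2]
    ring
  rw [show (((p + 2 : ℕ) : ℝ) + 1) * Real.log Y = y by rw [hy, hNd]; ring, ← hZ]
  suffices hEq : SF.tot N ((N + 2) / r ^ 2) y Q = scalarLin (p + 2) ε kap Q
      ((∫ T in Ioi (0 : ℝ), ellFlat (p + 2) ε kap r T * loD Y T) / semiMom (p + 2) 1) by
    refine ⟨⟨he ▸ eb1, he ▸ eb2⟩, main.trans_eq hEq, fun h1 => ?_⟩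
    have hu := SF.tot_ge_upper hpar h1 (hQr.trans (rr_pow_le (p + 2)))
    rw [hlog] at hu
    exact hu.trans_eq hEq
  have e0 : mom 0 (p + 4) = N / (N - 1) * mom 0 (p + 6) := by
    have := mom_exp (a := 0) (m := p + 4) (by omega)
    push_cast at this
    rw [hpN] at this
    rw [div_mul_eq_mul_div, eq_div_iff (by linarith)]
    linarith
  have e4 : mom 0 (p + 4 + 4) = (N + 1) / (N + 2) * mom 0 (p + 6) := by
    have := mom_exp (a := 0) (m := p + 6) (by omega)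
    push_cast at this
    rw [hpN] at this
    rw [div_mul_eq_mul_div, eq_div_iff (by linarith)]
    linarith
  have e1 : mom 0 (p + 1 + 4) = r * mom 0 (p + 6) := by rw [hrr, div_mul_cancel₀ _ hV.ne']
  rw [(integral_ellFlat_loD hr0.ne' hY).2]
  simp only [scalarLin, SF.tot, SF.MS, SF.gS, SF.NI, muT, aT, kFlat, loMom, semiMom_one, ← hr]
  rw [hqb, he, hY1, hY2, hY3, hZ, hkap, e0, e4, e1, show p + 2 + 4 = p + 6 from rfl]
  push_cast
  rw [hpN]
  have : N - 1 ≠ 0 := by linarith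
  have : N - 2 ≠ 0 := by linarith
  have : N - 3 ≠ 0 := by linarith
  have : N + 2 ≠ 0 := by linarith
  have : N ≠ 0 := by linarith
  have : Y ≠ 0 := hY0.ne'
  have : N + 1 ≠ 0 := by linarith
  rw [show Y ^ (p + 1) = Y ^ (p + 2 + 1) / Y ^ 2 by field_simp; ring,
    show Y ^ (p + 1 + 1) = Y ^ (p + 2 + 1) / Y by field_simp; ring,
    show Y ^ (p + 4 + 1) = Y ^ (p + 2 + 1) * Y ^ 2 by ring]
  rw [show N - 4 + 6 = N + 2 by ring, show N - 4 + 2 + 4 = N + 2 by ring,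
    show N - 4 + 2 + 2 = N by ring, show N - 4 + 2 + 1 = N - 1 by ring, show N - 4 + 1 + 1 = N - 2 by ring,
    show N - 4 + 4 + 1 = N + 1 by ring, show N - 4 + 4 = N by ring, show N - 4 + 3 = N - 1 by ring,
    show N - 4 + 1 = N - 3 by ring, show N - 4 + 2 = N - 2 by ring]
  have hW : Y ^ (p + 2 + 1) ≠ 0 := pow_ne_zero _ hY0.ne'
  generalize Y ^ (p + 2 + 1) = W at hW ⊢
  generalize Q ^ ((N - 2) / (N - 1)) = B
  have := hV.ne'
  generalize mom 0 (p + 6) = V at this ⊢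
  field_simp
  ring

/-- The constant field `U` with `c₀ = 9ε/(5√n)`, `c₁ = 6ε√n/5`, `ε ≤ 203/50` costs at most
`22 (Q-1)²/n`. -/
theorem shU_le {m : ℕ} (hm : 98 ≤ m) {ε c₀ c₁ : ℝ} (hε0 : 0 ≤ ε) (hε : ε ≤ 203 / 50)
    (hc₀ : c₀ = 9 / 5 * ε / √((m : ℝ) + 2)) (hc₁ : c₁ = 6 / 5 * ε * √((m : ℝ) + 2)) (T : ℝ) :
    shU m c₀ c₁ T * semiMom m 1 ≤ 22 / ((m : ℝ) + 2) := by
  have hN : 100 ≤ (m : ℝ) + 2 := by
    have : (98 : ℝ) ≤ (m : ℝ) := by exact_mod_cast hm
    linarith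
  have hV : semiMom m 1 = Uniform.S (m + 2) / 2 := by
    rw [semiMom_one, ← mom_zero_wallis]
  have hS := Uniform.S_sq_le (m + 2)
  simp only [Uniform.hh] at hS
  push_cast at hS
  set N := (m : ℝ) + 2 with hNd
  set v := √N with hvd
  have hv : 0 < v := sqrt_pos.2 (by linarith)
  have hv2 : v ^ 2 = N := sq_sqrt (by linarith)
  set V := semiMom m 1 with hVd
  have hV0 : 0 ≤ V := by rw [hVd, semiMom_one]; exact mom_nonneg ..
  have h1 : v * V ≤ 12534 / 10000 := by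
    refine le_of_pow_le_pow_left₀ two_ne_zero (by norm_num) ?_
    have h2 : Uniform.S (m + 2) ^ 2 * (2 * N) ≤ 4 * π := by
      refine le_trans (mul_le_mul_of_nonneg_left ?_ (sq_nonneg _)) hS
      have : 0 ≤ 1 / (4 * N + 4) := by positivity
      linarith
    rw [mul_pow, hv2, hV]
    linarith [Real.pi_lt_d4]
  have e : shU m c₀ c₁ T = N / (N - 1) * (9 / 5 + 12 / 5 * (N / (N + 2))) * ε / v := by
    simp only [shU, shUM, hc₀, hc₁, ← hNd]
    rw [show (m : ℝ) + 1 = N - 1 by rw [hNd]; ring, show (m : ℝ) + 4 = N + 2 by rw [hNd]; ring]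
    have : N - 1 ≠ 0 := by linarith
    have : N + 2 ≠ 0 := by linarith
    field_simp
    rw [hv2]
    ring
  have h3 : N / (N - 1) ≤ 100 / 99 := by rw [div_le_div_iff₀] <;> linarith
  have h4 : N / (N + 2) ≤ 1 := by rw [div_le_one] <;> linarith
  have h5 : N / (N - 1) * (9 / 5 + 12 / 5 * (N / (N + 2))) * ε ≤ 100 / 99 * (21 / 5) * (203 / 50) := by
    have : 0 ≤ N / (N + 2) := by positivity
    have : 0 ≤ N / (N - 1) := div_nonneg (by linarith) (by linarith)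
    gcongr
    linarith
  rw [e, le_div_iff₀ (by linarith : 0 < N)]
  calc N / (N - 1) * (9 / 5 + 12 / 5 * (N / (N + 2))) * ε / v * V * N
      = N / (N - 1) * (9 / 5 + 12 / 5 * (N / (N + 2))) * ε * (v * V) := by
        field_simp; rw [hv2]; ring
    _ ≤ 100 / 99 * (21 / 5) * (203 / 50) * (12534 / 10000) :=
        mul_le_mul h5 h1 (by positivity) (by norm_num)
    _ ≤ 22 := by norm_num

end Vale.Agent.P237.Cal
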