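import Vale.Agent.P237.Cal.LossDef
import Vale.Agent.P237.Cal.LowEnv
import Vale.Agent.P237.Cal.ScalarFlatHsc
import Vale.Agent.P237.Cal.ChordTight

/-!
# P237: the envelopes of the coefficient of `h - 1` for `n ≥ 384`

With `z = n T²`: the coefficient lies in `[gG - negE, gG + stateUp]`; `negE ≤ 1/10`, `≤ 2/25` for
`z ≤ 6`, `≤ 7/100` for `z ≥ 17`; on `[28/5, 17]` both squares are at most `(23/100)/√n`;
`negE ≤ gG` for `z ≥ 64` and `(9/20) u negE ≤ gG` everywhere.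
-/

open Real

namespace Vale.Agent.P237.Cal

variable {m : ℕ} {V Y T σ X ε c₀ c₁ : ℝ}

/-- The data of the large range. -/
structure LargeP (m : ℕ) (ε Y c₀ c₁ : ℝ) : Prop where
  hm : 382 ≤ m
  e1 : 7 / 2 ≤ ε
  e2 : ε ≤ 203 / 50
  hY : 1 ≤ Y
  hYk : Y ^ (m + 1) ≤ 2 * ((m : ℝ) + 2)
  h₀ : c₀ = 9 / 5 * ε / √((m : ℝ) + 2)
  h₁ : c₁ = 6 / 5 * ε * √((m : ℝ) + 2)

namespace LargeP

variable (P : LargeP m ε Y c₀ c₁)
include P

lemma n_ge : 384 ≤ (m : ℝ) + 2 := by
  have : (382 : ℝ) ≤ (m : ℝ) := by exact_mod_cast P.hm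
  linarith

lemma v_ge : 1959 / 100 ≤ √((m : ℝ) + 2) := by
  rw [le_sqrt (by norm_num) (by positivity)]
  linarith [P.n_ge]

lemma UM_nonneg : 0 ≤ shUM m c₀ c₁ := by
  have : 0 ≤ ε := by linarith [P.e1]
  rw [shUM, P.h₀, P.h₁]
  positivity

lemma UM_le : shUM m c₀ c₁ ≤ 21 / 5 * ε / √((m : ℝ) + 2) := by
  have he : 0 ≤ ε := by linarith [P.e1]
  set v := √((m : ℝ) + 2) with hv
  have hv0 : 0 < v := by rw [hv]; positivity
  have hv2 : v ^ 2 = (m : ℝ) + 2 := sq_sqrt (by positivity)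
  have : 2 * c₁ / ((m : ℝ) + 4) ≤ 12 / 5 * (ε / v) := by
    rw [div_le_iff₀ (by positivity), P.h₁,
      show 6 / 5 * ε * v = 6 / 5 * (ε / v) * v ^ 2 by field_simp, hv2]
    have := mul_le_mul_of_nonneg_left (show ((m : ℝ) + 2) ≤ (m : ℝ) + 4 by linarith)
      (div_nonneg he hv0.le)
    linarith
  have e : c₀ = 9 / 5 * (ε / v) := by rw [P.h₀]; ring
  rw [shUM, show 21 / 5 * ε / v = 21 / 5 * (ε / v) by ring]
  linarith

lemma y_nonneg : 0 ≤ ((m : ℝ) + 1) * log Y := mul_nonneg (by positivity) (log_nonneg P.hY)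

lemma exp_y : exp (((m : ℝ) + 1) * log Y) = Y ^ (m + 1) := by
  rw [show (m : ℝ) + 1 = ((m + 1 : ℕ) : ℝ) by push_cast; ring, exp_nat_mul,
    exp_log (one_pos.trans_le P.hY)]

lemma log_le : log Y ≤ 18 / 1000 := by
  have hm := P.n_ge
  by_contra h
  push Not at h
  have h1 : exp (18 / 1000 * 383) * (18 / 1000 * ((m : ℝ) + 1 - 383) + 1) ≤ 2 * ((m : ℝ) + 2) := by
    refine (mul_le_mul_of_nonneg_left (add_one_le_exp _) (exp_pos _).le).trans ?_
    rw [← exp_add]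
    refine le_trans (exp_le_exp.2 ?_) (P.exp_y.le.trans P.hYk)
    have := mul_le_mul_of_nonneg_left h.le (show (0 : ℝ) ≤ (m : ℝ) + 1 by positivity)
    linarith
  have h2 : 900 ≤ exp (18 / 1000 * 383) := by
    rw [show (18 : ℝ) / 1000 * 383 = ((6 : ℕ) : ℝ) * 1 + 894 / 1000 by norm_num, exp_add,
      exp_nat_mul]
    have a := pow_le_pow_left₀ (by norm_num) (exp_one_gt_d9.le) 6
    have b := quadratic_le_exp_of_nonneg (show (0 : ℝ) ≤ 894 / 1000 by norm_num)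
    refine le_trans ?_ (mul_le_mul a b (by norm_num) (by positivity))
    norm_num
  have h3 := mul_le_mul_of_nonneg_right h2
    (show 0 ≤ 18 / 1000 * ((m : ℝ) + 1 - 383) + 1 by linarith)
  linarith

lemma d_nonneg : 0 ≤ Y ^ 2 - 1 := by linarith [one_le_pow₀ (n := 2) P.hY]

lemma d_le : Y ^ 2 - 1 ≤ 367 / 10000 ∧
    ((m : ℝ) + 2) * (Y ^ 2 - 1) ≤ 2044 / 1000 * (((m : ℝ) + 1) * log Y) := by
  have h0 := log_nonneg P.hY
  have h1 := P.log_le
  obtain ⟨-, -, -, -, h5⟩ := SF.exp_two_bounds h0 (by linarith)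
  rw [two_mul, exp_add, exp_log (one_pos.trans_le P.hY)] at h5
  have h2 := mul_le_mul_of_nonneg_left h1 h0
  have hd : Y ^ 2 - 1 ≤ 20378 / 10000 * log Y := by linarith
  refine ⟨by linarith, ?_⟩
  have h3 := mul_le_mul_of_nonneg_left hd (show (0 : ℝ) ≤ (m : ℝ) + 2 by positivity)
  have := P.n_ge
  have h4 := mul_nonneg (show (0 : ℝ) ≤ ((m : ℝ) + 1) * 62 / 10000 - 20378 / 10000 by linarith) h0
  linarith

lemma y_le_sqrt : ((m : ℝ) + 1) * log Y ≤ 341 / 1000 * √((m : ℝ) + 2) := by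
  have hv := P.v_ge
  have h1 : exp (((m : ℝ) + 1) * log Y) ≤ 2 * ((m : ℝ) + 2) := P.exp_y.le.trans P.hYk
  refine exp_le_exp.1 (h1.trans ?_)
  have hv2 : √((m : ℝ) + 2) ^ 2 = (m : ℝ) + 2 := sq_sqrt (by positivity)
  set v := √((m : ℝ) + 2)
  have e : 341 / 1000 * v = ((6 : ℕ) : ℝ) * 1 + (341 / 1000 * (1959 / 100) - 6) +
      341 / 1000 * (v - 1959 / 100) := by push_cast; ring
  rw [e, exp_add, exp_add, exp_nat_mul]
  have a := pow_le_pow_left₀ (by norm_num) (exp_one_gt_d9.le) 6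
  have b := quadratic_le_exp_of_nonneg
    (show (0 : ℝ) ≤ 341 / 1000 * (1959 / 100) - 6 by norm_num)
  have hab := mul_le_mul a b (by norm_num) (by positivity)
  have hab' : 770 ≤ exp 1 ^ 6 * exp (341 / 1000 * (1959 / 100) - 6) := by
    refine le_trans ?_ hab
    norm_num
  have c := quadratic_le_exp_of_nonneg (show 0 ≤ 341 / 1000 * (v - 1959 / 100) by linarith)
  refine le_trans ?_ (mul_le_mul hab' c (by positivity) (by positivity))
  rw [← hv2]
  nlinarith [sq_nonneg (v - 1959 / 100)]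

lemma negE_nonneg (hT : 0 ≤ T) : 0 ≤ negE m Y c₀ c₁ T :=
  mul_nonneg (mul_nonneg P.UM_nonneg (by positivity))
    (le_min (div_nonneg P.d_nonneg (by positivity)) (by positivity))

/-- The state part from below, the cubic branch. -/
lemma negE_le_T (hT : 0 < T) :
    negE m Y c₀ c₁ T ≤ 14 / 5 * ε * (1 + T ^ 2) * (√((m : ℝ) + 2) * T) / ((m : ℝ) + 2) := by
  have he : 0 ≤ ε := by linarith [P.e1]
  set v := √((m : ℝ) + 2) with hv
  have hv0 : 0 < v := by rw [hv]; positivity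
  have hv2 : v ^ 2 = (m : ℝ) + 2 := sq_sqrt (by positivity)
  rw [← hv2]
  refine le_trans (mul_le_mul (mul_le_mul_of_nonneg_right P.UM_le (by positivity))
    (min_le_right _ _) (le_min (div_nonneg P.d_nonneg (by positivity)) (by positivity))
    (by positivity)) (le_of_eq ?_)
  rw [← hv]
  field_simp
  ring

/-- The state part from below, the branch of `d`. -/
lemma negE_le_d (hT : 0 < T) :
    negE m Y c₀ c₁ T ≤ 21 / 5 * ε * (1 + T ^ 2) * (((m : ℝ) + 2) * (Y ^ 2 - 1)) /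
      (√((m : ℝ) + 2) * T * √(1 + ((m : ℝ) + 2) * T ^ 2 / 3)) / ((m : ℝ) + 2) := by
  have he : 0 ≤ ε := by linarith [P.e1]
  have := P.d_nonneg
  set v := √((m : ℝ) + 2) with hv
  have hv0 : 0 < v := by rw [hv]; positivity
  have hv2 : v ^ 2 = (m : ℝ) + 2 := sq_sqrt (by positivity)
  refine le_trans (mul_le_mul (mul_le_mul_of_nonneg_right P.UM_le (by positivity))
    (min_le_left _ _) (le_min (div_nonneg P.d_nonneg (by positivity)) (by positivity))
    (by positivity)) (le_of_eq ?_)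
  rw [← hv]
  field_simp

/-- `negE ≤ 17.052 (1+s) √z 2/(3n)` in numbers. -/
lemma negE_low {w : ℝ} (hT : 0 < T) (hw : √((m : ℝ) + 2) * T ≤ w) :
    negE m Y c₀ c₁ T ≤ 11369 / 1000 * (1 + w ^ 2 / 384) * w / ((m : ℝ) + 2) := by
  refine (P.negE_le_T hT).trans (div_le_div_of_nonneg_right ?_ (by positivity))
  have he : 0 ≤ ε := by linarith [P.e1]
  have h0 : 0 < √((m : ℝ) + 2) * T := by positivity
  have h2 : T ^ 2 ≤ w ^ 2 / 384 := by
    rw [le_div_iff₀ (by norm_num)]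
    have h3 := pow_le_pow_left₀ h0.le hw 2
    rw [mul_pow, sq_sqrt (by positivity)] at h3
    have h4 := mul_le_mul_of_nonneg_right P.n_ge (sq_nonneg T)
    linarith
  exact mul_le_mul (mul_le_mul (by linarith [P.e2]) (by linarith) (by positivity) (by norm_num))
    hw h0.le (by positivity)

/-- `(1+s)/√(z (1+z/3))` beyond `z = a`. -/
lemma negE_high {a c : ℝ} (hT : 0 < T) (ha : 0 < a) (hc : 0 ≤ c)
    (hz : a ≤ ((m : ℝ) + 2) * T ^ 2) (hac : (1 + a / 384) ^ 2 ≤ c ^ 2 * (a * (1 + a / 3)))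
    (hslope : 2 / 384 + a / 384 ^ 2 + 1 / a ≤ c ^ 2 * (1 + a / 3)) :
    negE m Y c₀ c₁ T ≤
      17052 / 1000 * c * (((m : ℝ) + 2) * (Y ^ 2 - 1)) / ((m : ℝ) + 2) := by
  refine (P.negE_le_d hT).trans (div_le_div_of_nonneg_right ?_ (by positivity))
  have he : 0 ≤ ε := by linarith [P.e1]
  have hd := mul_nonneg (show (0 : ℝ) ≤ (m : ℝ) + 2 by positivity) P.d_nonneg
  set z := ((m : ℝ) + 2) * T ^ 2 with hzdef
  have hz0 : 0 < z := ha.trans_le hz
  have hs : T ^ 2 ≤ z / 384 := by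
    rw [le_div_iff₀ (by norm_num), hzdef]
    linarith [mul_le_mul_of_nonneg_right P.n_ge (sq_nonneg T)]
  have hD : 0 < √((m : ℝ) + 2) * T * √(1 + z / 3) := by positivity
  have hDsq : (√((m : ℝ) + 2) * T * √(1 + z / 3)) ^ 2 = z * (1 + z / 3) := by
    rw [mul_pow, mul_pow, sq_sqrt (by positivity), sq_sqrt (by positivity)]
  have hkey : 1 + T ^ 2 ≤ c * (√((m : ℝ) + 2) * T * √(1 + z / 3)) := by
    refine le_of_pow_le_pow_left₀ two_ne_zero (by positivity) ?_
    rw [mul_pow, hDsq]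
    refine (pow_le_pow_left₀ (by positivity) (add_le_add le_rfl hs) 2).trans ?_
    have h1 : (1 + z / 384) ^ 2 / z ≤ c ^ 2 * (1 + z / 3) := by
      rw [div_le_iff₀ hz0]
      have k1 := mul_nonneg (sub_nonneg.2 hz)
        (show 0 ≤ c ^ 2 * (1 + a / 3) + c ^ 2 * z / 3 - 2 / 384 - (z + a) / 384 ^ 2 by
          have hc2 : 1 / 384 ^ 2 ≤ c ^ 2 / 3 := by
            by_contra hh
            push Not at hh
            have := mul_le_mul_of_nonneg_right hh.le (show (0 : ℝ) ≤ 3 + a by linarith)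
            have : 0 < 1 / a := by positivity
            linarith
          have := mul_le_mul_of_nonneg_right hc2 hz0.le
          have : 0 ≤ 1 / a := by positivity
          linarith)
      linarith
    rw [div_le_iff₀ hz0] at h1
    linarith
  rw [div_le_iff₀ hD]
  have h1 := mul_le_mul (show 21 / 5 * ε ≤ 17052 / 1000 by linarith [P.e2]) hkey (by positivity)
    (by norm_num)
  have h2 := mul_le_mul_of_nonneg_right h1 hd
  linarith

/-- `negE ≤ 1/10`. -/
theorem negE_le (hT : 0 < T) : negE m Y c₀ c₁ T ≤ 1 / 10 := by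
  have hn := P.n_ge
  rcases le_total (√((m : ℝ) + 2) * T) (3233 / 1000) with h | h
  · refine (P.negE_low hT h).trans ?_
    rw [div_le_iff₀ (by positivity)]
    norm_num
    linarith
  · have hz : 1045 / 100 ≤ ((m : ℝ) + 2) * T ^ 2 := by
      have h3 := pow_le_pow_left₀ (by norm_num) h 2
      rw [mul_pow, sq_sqrt (by positivity)] at h3
      linarith
    refine (P.negE_high (a := 1045 / 100) (c := 1506 / 10000) hT (by norm_num) (by norm_num) hz
      (by norm_num) (by norm_num)).trans ?_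
    rw [div_le_iff₀ (by positivity)]
    have := mul_le_mul_of_nonneg_left P.d_le.1 (show (0 : ℝ) ≤ (m : ℝ) + 2 by positivity)
    linarith

/-- `negE ≤ 2/25` for `z ≤ 6`. -/
theorem negE_le_six (hT : 0 < T) (hz : ((m : ℝ) + 2) * T ^ 2 ≤ 6) :
    negE m Y c₀ c₁ T ≤ 2 / 25 := by
  have hn := P.n_ge
  have h : √((m : ℝ) + 2) * T ≤ 245 / 100 := by
    refine le_of_pow_le_pow_left₀ two_ne_zero (by norm_num) ?_
    rw [mul_pow, sq_sqrt (by positivity)]
    linarith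
  refine (P.negE_low hT h).trans ?_
  rw [div_le_iff₀ (by positivity)]
  norm_num
  linarith

/-- `negE ≤ 7/100` for `z ≥ 17`. -/
theorem negE_le_seventeen (hT : 0 < T) (hz : 17 ≤ ((m : ℝ) + 2) * T ^ 2) :
    negE m Y c₀ c₁ T ≤ 7 / 100 := by
  refine (P.negE_high (a := 17) (c := 11 / 100) hT (by norm_num) (by norm_num) hz
    (by norm_num) (by norm_num)).trans ?_
  rw [div_le_iff₀ (by positivity)]
  have := mul_le_mul_of_nonneg_left P.d_le.1 (show (0 : ℝ) ≤ (m : ℝ) + 2 by positivity)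
  linarith

/-- `negE² ≤ (23/100)/√n` on `[28/5, 17]`. -/
theorem negE_sq_le (hT : 0 < T) (hz : ((m : ℝ) + 2) * T ^ 2 ≤ 17) :
    negE m Y c₀ c₁ T ^ 2 ≤ 23 / 100 / √((m : ℝ) + 2) := by
  have hn := P.n_ge
  have hv := P.v_ge
  set v := √((m : ℝ) + 2) with hvdef
  have hv0 : 0 < v := by linarith
  have hv2 : v ^ 2 = (m : ℝ) + 2 := sq_sqrt (by positivity)
  have h0 := P.negE_nonneg (T := T) hT.le
  suffices h : negE m Y c₀ c₁ T ≤ 2098 / 1000 / v by
    refine (pow_le_pow_left₀ h0 h 2).trans ?_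
    rw [div_pow, div_le_div_iff₀ (by positivity) hv0]
    have := mul_le_mul_of_nonneg_left hv (show (0 : ℝ) ≤ 23 / 100 * v by positivity)
    linarith
  rcases le_total (v * T) (3233 / 1000) with h | h
  · refine (P.negE_low hT h).trans ?_
    rw [div_le_div_iff₀ (by positivity) hv0, ← hv2]
    have := mul_le_mul_of_nonneg_left hv (show (0 : ℝ) ≤ 2098 / 1000 * v by positivity)
    norm_num
    linarith
  · have hz' : 1045 / 100 ≤ ((m : ℝ) + 2) * T ^ 2 := by
      have h3 := pow_le_pow_left₀ (by norm_num) h 2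
      rw [mul_pow, hv2] at h3
      linarith
    refine (P.negE_high (a := 1045 / 100) (c := 1506 / 10000) hT (by norm_num) (by norm_num) hz'
      (by norm_num) (by norm_num)).trans ?_
    rw [div_le_div_iff₀ (by positivity) hv0, ← hv2]
    have h4 := P.d_le.2
    have h5 := P.y_le_sqrt
    rw [← hv2] at h4
    rw [← hvdef] at h5
    have h6 := mul_le_mul_of_nonneg_right (h4.trans
      (mul_le_mul_of_nonneg_left h5 (by norm_num))) hv0.le
    linarith [sq_nonneg v]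

lemma u_bounds : 0 ≤ 1 - (Y ^ (m + 1))⁻¹ ∧ 1 - (Y ^ (m + 1))⁻¹ ≤ 1 :=
  ⟨sub_nonneg.2 (inv_le_one_of_one_le₀ (one_le_pow₀ P.hY)),
    sub_le_self _ (inv_nonneg.2 (pow_nonneg (zero_le_one.trans P.hY) _))⟩

/-- `gG` from both sides. -/
lemma gG_bounds {kap : ℝ} (hkap : kap = (1 - (Y ^ (m + 1))⁻¹) / 2) :
    (1 - (Y ^ (m + 1))⁻¹) * ε * (9346 / 10000 + 4673 / 10000 * (((m : ℝ) + 2) * T ^ 2)) /
        ((m : ℝ) + 2) ≤ gG m ε kap T ∧
      gG m ε kap T ≤ (3795 / 1000 + 18975 / 10000 * (((m : ℝ) + 2) * T ^ 2)) / ((m : ℝ) + 2) ∧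
      0 ≤ gG m ε kap T := by
  obtain ⟨h0, h1⟩ := P.u_bounds
  have he : 0 ≤ ε := by linarith [P.e1]
  have hb : 0 ≤ 3 / 2 + 3 / 4 * (((m : ℝ) + 2) * T ^ 2) := by positivity
  have h2 : (1 - (Y ^ (m + 1))⁻¹) * (12463 / 20000 * ε) ≤ kap * (1 + ε) := by
    rw [hkap]
    have := mul_le_mul_of_nonneg_left (show 12463 / 10000 * ε ≤ 1 + ε by linarith [P.e2]) h0
    linarith
  have h3 : kap * (1 + ε) ≤ 253 / 100 := by
    rw [hkap]
    have := mul_le_mul h1 (show 1 + ε ≤ 253 / 50 by linarith [P.e2]) (by positivity) zero_le_one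
    linarith
  have h4 := mul_le_mul_of_nonneg_right h2 hb
  have h5 := mul_le_mul_of_nonneg_right h3 hb
  refine ⟨?_, ?_, gG_nonneg (by linarith) (by rw [hkap]; linarith)⟩
  · rw [gG]
    refine div_le_div_of_nonneg_right ?_ (by positivity)
    have := mul_nonneg (mul_nonneg h0 he) (show (0 : ℝ) ≤ ((m : ℝ) + 2) * T ^ 2 by positivity)
    linarith [mul_nonneg h0 he]
  · rw [gG]
    refine div_le_div_of_nonneg_right ?_ (by positivity)
    linarith

lemma gG_nonneg' {kap : ℝ} (hkap : kap = (1 - (Y ^ (m + 1))⁻¹) / 2) :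
    0 ≤ gG m ε kap T := (P.gG_bounds hkap).2.2

/-- The state part from above is nonnegative. -/
lemma stateUp_nonneg (hT : 0 ≤ T) (hV : semiMom m 1 ≤ V) : 0 ≤ stateUp m V Y c₀ c₁ T := by
  refine mul_nonneg (mul_nonneg P.UM_nonneg (by positivity)) (le_min (by positivity) ?_)
  exact div_nonneg (mul_nonneg zero_le_two (div_nonneg (sub_nonneg.2 hV)
    (pow_nonneg (zero_le_one.trans P.hY) _))) (by positivity)

/-- `(gG + stateUp)² ≤ (23/100)/√n` on `[28/5, 17]`. -/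
theorem up_sq_le {kap q Q : ℝ} (hkap : kap = (1 - (Y ^ (m + 1))⁻¹) / 2) (hq : 1 ≤ q)
    (hQ : Q = q / Y ^ (m + 1)) (hQr : Q ≤ rr (m + 1) ^ (m + 1)) (hT : 0 < T)
    (hz1 : 28 / 5 ≤ ((m : ℝ) + 2) * T ^ 2) (hz2 : ((m : ℝ) + 2) * T ^ 2 ≤ 17) :
    (gG m ε kap T + stateUp m (q * semiMom m 1) Y c₀ c₁ T) ^ 2 ≤
      23 / 100 / √((m : ℝ) + 2) := by
  have hn := P.n_ge
  have hv := P.v_ge
  have he : 0 ≤ ε := by linarith [P.e1]
  have hV0 : 0 ≤ semiMom m 1 := by rw [semiMom_one]; exact mom_nonneg ..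
  have hVV : semiMom m 1 ≤ q * semiMom m 1 := le_mul_of_one_le_left hV0 hq
  set V := q * semiMom m 1 with hVdef
  have h0 : 0 ≤ gG m ε kap T + stateUp m V Y c₀ c₁ T :=
    add_nonneg (P.gG_nonneg' hkap) (P.stateUp_nonneg hT.le hVV)
  have hUM := P.UM_le
  have hVN : √((m : ℝ) + 2) * ((V - semiMom m 1) / Y ^ (m + 1)) ≤ 2081 / 1000 := by
    have hYp : 0 < Y ^ (m + 1) := pow_pos (one_pos.trans_le P.hY) _
    have a : (V - semiMom m 1) / Y ^ (m + 1) ≤ 83 / 50 * semiMom m 1 := by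
      refine le_trans ?_ (mul_le_mul_of_nonneg_right (hQr.trans (rr_pow_le m)) hV0)
      rw [hQ, div_mul_eq_mul_div]
      exact div_le_div_of_nonneg_right (by linarith) hYp.le
    have b := mul_le_mul_of_nonneg_left a (sqrt_nonneg ((m : ℝ) + 2))
    have c := sqrt_mul_semiMom_le m
    linarith
  set v := √((m : ℝ) + 2) with hvdef
  have hv0 : 0 < v := by linarith
  have hv2 : v ^ 2 = (m : ℝ) + 2 := sq_sqrt (by positivity)
  set z := ((m : ℝ) + 2) * T ^ 2 with hzdef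
  have hz0 : 0 < z := by linarith
  have hm1 : 383 / 384 * ((m : ℝ) + 2) ≤ (m : ℝ) + 1 := by linarith
  have hB : v * (2 * ((V - semiMom m 1) / Y ^ (m + 1)) / (((m : ℝ) + 1) * T ^ 2)) ≤
      4174 / 1000 / z := by
    rw [mul_div_assoc', div_le_div_iff₀ (by positivity) hz0]
    have a := mul_le_mul_of_nonneg_left hVN (show 0 ≤ 2 * z by positivity)
    have b := mul_le_mul_of_nonneg_right hm1 (sq_nonneg T)
    linarith
  have hs : 1 + T ^ 2 ≤ 1 + z / 384 := by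
    have h : T ^ 2 ≤ z / 384 := by
      rw [le_div_iff₀ (by norm_num), hzdef]
      linarith [mul_le_mul_of_nonneg_right hn (sq_nonneg T)]
    linarith
  have hup : ((m : ℝ) + 2) * stateUp m V Y c₀ c₁ T ≤
      17052 / 1000 * (1 + z / 384) * (4174 / 1000 / z) := by
    have hmin : 0 ≤ min (T / 3)
        (2 * ((V - semiMom m 1) / Y ^ (m + 1)) / (((m : ℝ) + 1) * T ^ 2)) :=
      le_min (by positivity) (div_nonneg (mul_nonneg zero_le_two (div_nonneg (sub_nonneg.2 hVV)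
        (pow_nonneg (zero_le_one.trans P.hY) _))) (by positivity))
    have a : v * shUM m c₀ c₁ ≤ 17052 / 1000 := by
      have := mul_le_mul_of_nonneg_left hUM hv0.le
      rw [mul_div_cancel₀ _ hv0.ne'] at this
      linarith [P.e2]
    have b : v * min (T / 3)
        (2 * ((V - semiMom m 1) / Y ^ (m + 1)) / (((m : ℝ) + 1) * T ^ 2)) ≤ 4174 / 1000 / z :=
      (mul_le_mul_of_nonneg_left (min_le_right _ _) hv0.le).trans hB
    have := mul_le_mul (mul_le_mul a hs (by positivity) (by norm_num)) b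
      (mul_nonneg hv0.le hmin) (by positivity)
    rw [stateUp, ← hv2]
    linarith
  have hg := (P.gG_bounds (T := T) hkap).2.1
  rw [le_div_iff₀ (by positivity)] at hg
  have hf : 17052 / 1000 * (1 + z / 384) * (4174 / 1000 / z) +
      (3795 / 1000 + 18975 / 10000 * z) ≤ 405 / 10 := by
    rw [← le_sub_iff_add_le, mul_div_assoc', div_le_iff₀ hz0]
    linarith [mul_nonneg (sub_nonneg.2 hz1) (sub_nonneg.2 hz2)]
  have hsum : gG m ε kap T + stateUp m V Y c₀ c₁ T ≤ 405 / 10 / ((m : ℝ) + 2) := by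
    rw [le_div_iff₀ (by positivity)]
    linarith
  refine (pow_le_pow_left₀ h0 hsum 2).trans ?_
  rw [div_pow, div_le_div_iff₀ (by positivity) hv0, ← hv2]
  have h3 := pow_le_pow_left₀ (by norm_num) hv 3
  have := mul_le_mul_of_nonneg_left h3 (show (0 : ℝ) ≤ 23 / 100 * v by positivity)
  linarith

/-- `(9/20) u negE ≤ gG` for `z ≤ 64`. -/
lemma theta_le_low {kap : ℝ} (hkap : kap = (1 - (Y ^ (m + 1))⁻¹) / 2) (hT : 0 < T)
    (hz : ((m : ℝ) + 2) * T ^ 2 ≤ 64) :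
    9 / 20 * (1 - (Y ^ (m + 1))⁻¹) * negE m Y c₀ c₁ T ≤ gG m ε kap T := by
  obtain ⟨h0, -⟩ := P.u_bounds
  have he : 0 ≤ ε := by linarith [P.e1]
  refine le_trans (mul_le_mul_of_nonneg_left (P.negE_le_T hT) (by positivity)) ?_
  refine le_trans ?_ (P.gG_bounds hkap).1
  rw [mul_div_assoc']
  refine div_le_div_of_nonneg_right ?_ (by positivity)
  have hw : (√((m : ℝ) + 2) * T) ^ 2 = ((m : ℝ) + 2) * T ^ 2 := by
    rw [mul_pow, sq_sqrt (by positivity)]
  rw [← hw] at hz ⊢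
  have hw0 : 0 ≤ √((m : ℝ) + 2) * T := by positivity
  have hs : T ^ 2 ≤ (√((m : ℝ) + 2) * T) ^ 2 / 384 := by
    rw [le_div_iff₀ (by norm_num), hw]
    linarith [mul_le_mul_of_nonneg_right P.n_ge (sq_nonneg T)]
  generalize √((m : ℝ) + 2) * T = w at hz hw0 hs ⊢
  have hw8 : w ≤ 8 := le_of_pow_le_pow_left₀ two_ne_zero (by norm_num) (by linarith)
  have k1 := mul_le_mul_of_nonneg_right hs hw0
  have k2 := mul_le_mul_of_nonneg_left hw8 (sq_nonneg w)
  have k3 : 63 / 50 * (1 + T ^ 2) * w ≤ 9346 / 10000 + 4673 / 10000 * w ^ 2 := by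
    linarith [sq_nonneg (w - 1428 / 1000)]
  have := mul_le_mul_of_nonneg_left k3 (mul_nonneg h0 he)
  linarith

/-- `negE ≤ gG` for `z ≥ 64`. -/
theorem negE_le_gG {kap : ℝ} (hkap : kap = (1 - (Y ^ (m + 1))⁻¹) / 2) (hT : 0 < T)
    (hz : 64 ≤ ((m : ℝ) + 2) * T ^ 2) : negE m Y c₀ c₁ T ≤ gG m ε kap T := by
  obtain ⟨h0, h1⟩ := P.u_bounds
  have hn := P.n_ge
  have he : 0 ≤ ε := by linarith [P.e1]
  have hy0 := P.y_nonneg
  refine le_trans ?_ (P.gG_bounds hkap).1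
  set u := 1 - (Y ^ (m + 1))⁻¹ with hu
  set y := ((m : ℝ) + 1) * log Y with hy
  have huy : y / (1 + y) ≤ u := by
    rw [hu, ← P.exp_y, ← hy, div_le_iff₀ (by positivity)]
    have a := mul_le_mul_of_nonneg_left (add_one_le_exp y) (inv_pos.2 (exp_pos y)).le
    rw [inv_mul_cancel₀ (exp_pos y).ne'] at a
    linarith
  rw [div_le_iff₀ (by positivity)] at huy
  set z := ((m : ℝ) + 2) * T ^ 2 with hzdef
  have hz0 : 0 < z := by linarith
  have hbr : 4673 / 10000 * z ≤ 9346 / 10000 + 4673 / 10000 * z := by linarith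
  have dbranch : (∀ r, 1488 / 100 * (1 / z + 1 / ((m : ℝ) + 2)) * y ≤ r → r ≤ u * (4673 / 10000 * z) →
      negE m Y c₀ c₁ T ≤ u * ε * (9346 / 10000 + 4673 / 10000 * z) / ((m : ℝ) + 2)) := by
    intro r hr1 hr2
    refine (P.negE_le_d hT).trans (div_le_div_of_nonneg_right ?_ (by positivity))
    rw [← hzdef]
    have hD : 0 < √((m : ℝ) + 2) * T * √(1 + z / 3) := by positivity
    have hDlb : 577 / 1000 * z ≤ √((m : ℝ) + 2) * T * √(1 + z / 3) := by
      refine le_of_pow_le_pow_left₀ two_ne_zero hD.le ?_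
      rw [mul_pow (√((m : ℝ) + 2) * T), mul_pow (√((m : ℝ) + 2)), sq_sqrt (by positivity),
        sq_sqrt (by positivity), ← hzdef]
      linarith [sq_nonneg z]
    have hnd := P.d_le.2
    have a : (1 + T ^ 2) * (((m : ℝ) + 2) * (Y ^ 2 - 1)) /
        (√((m : ℝ) + 2) * T * √(1 + z / 3)) ≤
        (1 + T ^ 2) * (2044 / 1000 * y) / (577 / 1000 * z) := by
      gcongr
    have e : (1 + T ^ 2) / z = 1 / z + 1 / ((m : ℝ) + 2) := by
      rw [hzdef]; field_simp
    have b : 21 / 5 * ((1 + T ^ 2) * (2044 / 1000 * y) / (577 / 1000 * z)) ≤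
        1488 / 100 * ((1 + T ^ 2) / z * y) := by
      have : 0 ≤ (1 + T ^ 2) / z * y := by positivity
      linarith [show (1 + T ^ 2) * (2044 / 1000 * y) / (577 / 1000 * z) =
        2044 / 577 * ((1 + T ^ 2) / z * y) by field_simp]
    rw [e] at b
    have c := mul_le_mul_of_nonneg_left
      ((mul_le_mul_of_nonneg_left a (by norm_num : (0 : ℝ) ≤ 21 / 5)).trans
        (b.trans (le_of_eq (by ring)) |>.trans hr1) |>.trans hr2) he
    have := mul_le_mul_of_nonneg_left hbr (mul_nonneg h0 he)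
    refine le_trans (le_trans (le_of_eq ?_) c) (le_trans (le_of_eq ?_) this) <;> ring
  have hzi : 1 / z ≤ 1 / 64 := div_le_div_of_nonneg_left zero_le_one (by norm_num) hz
  have hni : 1 / ((m : ℝ) + 2) ≤ 1 / 384 := div_le_div_of_nonneg_left zero_le_one (by norm_num) hn
  rcases le_or_gt y 8 with h8 | h8
  · refine dbranch _ le_rfl ?_
    have a := mul_le_mul_of_nonneg_right (add_le_add hzi hni) hy0
    have b : y ≤ 9 * u := huy.trans (by
      linarith [mul_le_mul_of_nonneg_left (show 1 + y ≤ 9 by linarith) h0])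
    have c := mul_le_mul_of_nonneg_left hz h0
    linarith
  have hu9 : 999 / 1000 ≤ u := by
    rw [hu, ← P.exp_y, ← hy]
    have a : 1000 ≤ exp y := by
      refine le_trans ?_ (exp_le_exp.2 h8.le)
      rw [show (8 : ℝ) = ((8 : ℕ) : ℝ) * 1 by norm_num, exp_nat_mul]
      refine le_trans ?_ (pow_le_pow_left₀ (by norm_num) exp_one_gt_d9.le 8)
      norm_num
    have b := inv_anti₀ (by norm_num) a
    linarith
  rcases le_or_gt (T ^ 2) 4 with h4 | h4
  · refine (P.negE_le_T hT).trans (div_le_div_of_nonneg_right ?_ (by positivity))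
    have hw : (√((m : ℝ) + 2) * T) ^ 2 = z := by rw [mul_pow, sq_sqrt (by positivity)]
    have hs : T ^ 2 ≤ z / 384 := by
      rw [le_div_iff₀ (by norm_num), hzdef]
      linarith [mul_le_mul_of_nonneg_right hn (sq_nonneg T)]
    rw [← hw] at hz hs ⊢
    have hw0 : 0 < √((m : ℝ) + 2) * T := by positivity
    generalize √((m : ℝ) + 2) * T = w at hz hs hw0 ⊢
    have hw8 : 8 ≤ w := le_of_pow_le_pow_left₀ two_ne_zero hw0.le (by linarith)
    have k : 14 / 5 * (1 + T ^ 2) ≤ 4668 / 10000 * w := by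
      rcases le_or_gt w (392 / 10) with hw | hw
      · linarith [mul_nonneg (sub_nonneg.2 hw8) (sub_nonneg.2 hw)]
      · linarith
    have k1 := mul_le_mul_of_nonneg_right k hw0.le
    have k2 := mul_le_mul_of_nonneg_left k1 he
    have k3 := mul_le_mul_of_nonneg_right hu9 (show 0 ≤ ε * (9346 / 10000 + 4673 / 10000 * w ^ 2) by
      positivity)
    linarith [mul_nonneg he (sq_nonneg w)]
  · refine dbranch _ le_rfl ?_
    have hyn : y ≤ 2 * ((m : ℝ) + 2) := by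
      have := (add_one_le_exp y).trans ((hy ▸ P.exp_y).le.trans P.hYk)
      linarith
    have hz4 : 4 * ((m : ℝ) + 2) ≤ z := by
      rw [hzdef]; linarith [mul_le_mul_of_nonneg_left h4.le (show (0 : ℝ) ≤ (m : ℝ) + 2 by positivity)]
    have a : (1 / z + 1 / ((m : ℝ) + 2)) * y ≤ 5 / 2 := by
      have hz' : 1 / z ≤ 1 / (4 * ((m : ℝ) + 2)) :=
        div_le_div_of_nonneg_left zero_le_one (by positivity) hz4
      calc _ ≤ (1 / (4 * ((m : ℝ) + 2)) + 1 / ((m : ℝ) + 2)) * (2 * ((m : ℝ) + 2)) := by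
            gcongr
        _ = 5 / 2 := by field_simp; ring
    have c := mul_le_mul hu9 hz (by norm_num) h0
    have d := mul_le_mul hu9 hz4 (by positivity) h0
    linarith

/-- `(9/20) u negE ≤ gG` everywhere. -/
theorem theta_le {kap : ℝ} (hkap : kap = (1 - (Y ^ (m + 1))⁻¹) / 2) (hT : 0 < T) :
    9 / 20 * (1 - (Y ^ (m + 1))⁻¹) * negE m Y c₀ c₁ T ≤ gG m ε kap T := by
  rcases le_or_gt (((m : ℝ) + 2) * T ^ 2) 64 with h | h
  · exact P.theta_le_low hkap hT h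
  · obtain ⟨h0, h1⟩ := P.u_bounds
    refine (mul_le_of_le_one_left (P.negE_nonneg hT.le) ?_).trans (P.negE_le_gG hkap hT h.le)
    linarith

/-- `(negE - gG)⁺ ≤ (1 - (9/20) u) negE`. -/
theorem neg_part_le {kap : ℝ} (hkap : kap = (1 - (Y ^ (m + 1))⁻¹) / 2) (hT : 0 < T) :
    max (negE m Y c₀ c₁ T - gG m ε kap T) 0 ≤
      (1 - 9 / 20 * (1 - (Y ^ (m + 1))⁻¹)) * negE m Y c₀ c₁ T := by
  obtain ⟨h0, h1⟩ := P.u_bounds
  refine max_le (by linarith [P.theta_le hkap hT]) (mul_nonneg (by linarith) (P.negE_nonneg hT.le))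

/-- **The coefficient on the side `σ ≤ T`.** -/
theorem G2_range (g : ℝ) (hT : 0 < T) (hσ : σ ≤ T) (hB : XBox m V Y T σ X) :
    g - negE m Y c₀ c₁ T ≤ g + 2 * shS m c₀ c₁ T * (X - X0 m T) / pre m T ∧
      g + 2 * shS m c₀ c₁ T * (X - X0 m T) / pre m T ≤ g + stateUp m V Y c₀ c₁ T := by
  have h1 := stateG_low' (c₀ := c₀) (c₁ := c₁) (le_trans (by norm_num) P.hm) P.hY hT P.UM_nonneg hB
  have h2 := stateG_high (c₀ := c₀) (c₁ := c₁) (le_trans (by norm_num) P.hm) P.hY hT hσ P.UM_nonneg hB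
  rw [negE, stateUp]
  constructor <;> linarith

/-- **The coefficient without its part in `D`, side `σ ≥ T`.** -/
theorem Gp_range (g : ℝ) (hT : 0 < T) (hσ : T ≤ σ) (hV : semiMom m 1 ≤ V)
    (hB : XBox m V Y T σ X) :
    ∃ δ G' : ℝ, 0 ≤ δ ∧ δ ≤ 2 * shUM m c₀ c₁ * √(1 + T ^ 2) / (4 + ((m : ℝ) + 1) * T ^ 2) ∧
      g + 2 * shS m c₀ c₁ T * (X - X0 m T) / pre m T = G' + 2 * δ * (σ - T) ∧
      g - negE m Y c₀ c₁ T ≤ G' ∧ G' ≤ g + stateUp m V Y c₀ c₁ T := by
  obtain ⟨δ, G', a, b, c, d, e⟩ := state_shift (g := g) (le_trans (by norm_num) P.hm) P.hY hT hσ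
    P.UM_nonneg hB
  refine ⟨δ, G', a, b, c, ?_, d⟩
  rcases e with e | e
  · have h1 := stateG_low' (c₀ := c₀) (c₁ := c₁) (le_trans (by norm_num) P.hm) P.hY hT P.UM_nonneg hB
    rw [e, negE]
    linarith
  · rw [e]
    linarith [P.stateUp_nonneg (T := T) hT.le hV, P.negE_nonneg (T := T) hT.le]

end LargeP

end Vale.Agent.P237.Cal
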