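import Vale.Agent.P237.Cal.TanLog

/-!
# P237: the ranges of `ε = 4 q^(2/n)/Y²` in the two cases of zone II
-/

open Real

namespace Vale.Agent.P237.Cal

variable {m : ℕ} {q Y Q ε : ℝ}

/-- A crude line above `log n` anchored at `512`. -/
lemma log_n_le (m : ℕ) :
    log ((m : ℝ) + 2) ≤ 9 * (6932 / 10000) + ((m : ℝ) + 2) / 512 - 1 := by
  have hn : (0 : ℝ) < (m : ℝ) + 2 := by positivity
  have h := log_le_sub_one_of_pos (div_pos hn (by norm_num : (0 : ℝ) < 512))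
  rw [log_div hn.ne' (by norm_num), show (512 : ℝ) = 2 ^ 9 by norm_num, log_pow] at h
  rw [show (512 : ℝ) = 2 ^ 9 by norm_num]
  push_cast at h
  linarith [log_two_lt_d9]

/-- `ε` through logarithms: `log (ε/4) = (2/n) log q - 2 log Y`. -/
lemma eps_log (hq : 0 < q) (hY : 1 ≤ Y) (hε : ε = 4 * q ^ (2 / ((m : ℝ) + 2)) / Y ^ 2) :
    ε = 4 * exp (2 / ((m : ℝ) + 2) * log q - 2 * log Y) := by
  have hY0 : 0 < Y := lt_of_lt_of_le one_pos hY
  rw [hε, rpow_def_of_pos hq, exp_sub, show (2 : ℝ) * log Y = log (Y ^ 2) by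
    rw [log_pow]; norm_num, exp_log (by positivity)]
  ring_nf

/-- The exponent of `ε/4` in `log Q` and `log Y`. -/
lemma eps_arg (hQ0 : 0 < Q) (hY : 1 ≤ Y) (hQ : q = Q * Y ^ (m + 1)) :
    2 / ((m : ℝ) + 2) * log q - 2 * log Y = 2 / ((m : ℝ) + 2) * (log Q - log Y) := by
  have hY0 : 0 < Y := lt_of_lt_of_le one_pos hY
  rw [hQ, log_mul hQ0.ne' (pow_pos hY0 _).ne', log_pow]
  field_simp
  push_cast
  ring

/-- **Case A**: `1 ≤ Q ≤ 1.6488`. -/
theorem eps_range_A (hm : 382 ≤ m) (hY : 1 ≤ Y) (hQ : q = Q * Y ^ (m + 1)) (hQ1 : 1 ≤ Q)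
    (hQ2 : Q ≤ 16488 / 10000) (hlog : ((m : ℝ) + 1) * log Y ≤ 3 / 4 * log ((m : ℝ) + 2) - 6 / 10)
    (hε : ε = 4 * q ^ (2 / ((m : ℝ) + 2)) / Y ^ 2) :
    3988 / 1000 ≤ ε ∧ ε ≤ 4011 / 1000 := by
  have hm' : (382 : ℝ) ≤ (m : ℝ) := by exact_mod_cast hm
  have hY0 : 0 < Y := lt_of_lt_of_le one_pos hY
  have hQ0 : 0 < Q := lt_of_lt_of_le one_pos hQ1
  have hq : 0 < q := by rw [hQ]; positivity
  rw [eps_log hq hY hε, eps_arg hQ0 hY hQ]
  set n := (m : ℝ) + 2 with hn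
  have hn0 : 384 ≤ n := by linarith
  have hlY : 0 ≤ log Y := log_nonneg hY
  have hlY1 : log Y ≤ 2 / 100 := by
    have h1 := log_n_le m
    rw [← hn] at h1
    refine le_of_mul_le_mul_left (a := (m : ℝ) + 1) ?_ (by linarith)
    linarith
  have hlQ : log Q ≤ 501 / 1000 := by
    have h1 : (16488 : ℝ) / 10000 ≤ exp (501 / 1000) := by
      have := sum_le_exp_of_nonneg (x := (501 : ℝ) / 1000) (by norm_num) 5
      simp only [Finset.sum_range_succ, Finset.sum_range_zero, Nat.factorial,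
        Nat.succ_eq_add_one] at this
      norm_num at this
      linarith
    rw [← log_exp (501 / 1000)]
    exact log_le_log hQ0 (hQ2.trans h1)
  have hlQ0 : 0 ≤ log Q := log_nonneg hQ1
  have hinv : 2 / n ≤ 1 / 192 := by rw [div_le_iff₀ (by linarith)]; linarith
  have hinv0 : 0 ≤ 2 / n := by positivity
  set w := 2 / n * (log Q - log Y)
  have hw1 : w ≤ 501 / 192000 := by
    have := mul_le_mul_of_nonneg_left (show log Q - log Y ≤ 501 / 1000 by linarith) hinv0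
    have := mul_le_mul_of_nonneg_right hinv (by norm_num : (0 : ℝ) ≤ 501 / 1000)
    linarith
  have hw0 : -(2 / 19200) ≤ w := by
    have := mul_le_mul_of_nonneg_left (show -(2 / 100) ≤ log Q - log Y by linarith) hinv0
    have := mul_le_mul_of_nonneg_right hinv (by norm_num : (0 : ℝ) ≤ 2 / 100)
    linarith
  constructor
  · linarith [add_one_le_exp w]
  · have h1 : exp w * (1 - w) ≤ 1 := by
      calc exp w * (1 - w) ≤ exp w * exp (-w) :=
            mul_le_mul_of_nonneg_left (by linarith [add_one_le_exp (-w)]) (exp_pos w).le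
        _ = 1 := by rw [← exp_add, add_neg_cancel, exp_zero]
    have h2 := mul_le_mul_of_nonneg_left (show (1 : ℝ) - 501 / 192000 ≤ 1 - w by linarith)
      (exp_pos w).le
    linarith

/-- **Case B**: `Q ≤ 1 < q`. -/
theorem eps_range_B (hm : 382 ≤ m) (hY : 1 ≤ Y) (hq1 : 1 ≤ q) (hQ : q = Q * Y ^ (m + 1))
    (hQ2 : Q ≤ 1) (hlog : ((m : ℝ) + 1) * log Y ≤ log ((m : ℝ) + 2) + 6932 / 10000)
    (hε : ε = 4 * q ^ (2 / ((m : ℝ) + 2)) / Y ^ 2) :
    3799 / 1000 ≤ ε ∧ ε ≤ 4 := by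
  have hm' : (382 : ℝ) ≤ (m : ℝ) := by exact_mod_cast hm
  have hY0 : 0 < Y := lt_of_lt_of_le one_pos hY
  have hQ0 : 0 < Q := by
    rcases lt_or_ge 0 Q with h | h
    · exact h
    · have := mul_nonpos_of_nonpos_of_nonneg h (pow_nonneg hY0.le (m + 1))
      linarith
  have hq : 0 < q := by linarith
  rw [eps_log hq hY hε]
  set n := (m : ℝ) + 2 with hn
  have hlY : 0 ≤ log Y := log_nonneg hY
  have hlY1 : log Y ≤ 2 / 100 := by
    have h1 := log_n_le m
    rw [← hn] at h1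
    refine le_of_mul_le_mul_left (a := (m : ℝ) + 1) ?_ (by linarith)
    linarith
  have hlq : 0 ≤ log q := log_nonneg hq1
  have hinv0 : 0 ≤ 2 / n := by positivity
  constructor
  · have h1 := add_one_le_exp (2 / n * log q - 2 * log Y)
    have := mul_nonneg hinv0 hlq
    linarith
  · rw [eps_arg hQ0 hY hQ, ← hn]
    have h2 : 2 / n * (log Q - log Y) ≤ 0 :=
      mul_nonpos_of_nonneg_of_nonpos hinv0 (by linarith [log_nonpos hQ0.le hQ2])
    linarith [exp_le_one_iff.2 h2]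

end Vale.Agent.P237.Cal
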