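import Mathlib

/-!
# P237: one-variable bounds for the closed scalar of the flattened field

`N = n`, `k = N - 1`, `w = y/k`, `Y = exp w`, `Z = exp (-y) = Y^(-k)`, `A = (N+2)/r²`.
-/

open Real Set

namespace Vale.Agent.P237.Cal.SF

/-- The flattening part at `Q = 1`, times `N`. -/
noncomputable def NI (N y : ℝ) : ℝ :=
  3 / 4 * N ^ 2 * (N - 2) / (N - 3) * (1 - exp (-y) * exp (2 * (y / (N - 1)))) -
    (3 / 2 * N ^ 2 - 3 / 2 * N - 15 / 4) * (1 - exp (-y)) +
    3 / 4 * (N - 2) * (N - 1) * (1 - exp (-y) * exp (-(2 * (y / (N - 1)))))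

/-- The main bracket at `Q = 1`, plus `k`. -/
noncomputable def G (N A y : ℝ) : ℝ :=
  3 * A * (1 - exp (-y)) -
    2 * (N - 1) * A / (N - 2) * (1 - exp (-y) * exp (y / (N - 1))) - (N - 1) +
    (N - 1) * (exp (-y) * exp (-(2 * (y / (N - 1)))))

/-- Hypotheses on the parameters. -/
structure Par (N A y : ℝ) : Prop where
  hN : 100 ≤ N
  hA1 : -(3 / 2) ≤ N * (A - (N + 1))
  hA2 : N * (A - (N + 1)) ≤ -(372 / 250)
  y0 : 0 ≤ y
  hy : exp y ≤ 2 * N

variable {N A y : ℝ}

lemma Par.A_bounds (h : Par N A y) : N + 1 - 3 / 200 ≤ A ∧ A ≤ N + 1 := by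
  obtain ⟨hN, h1, h2, -, -⟩ := h
  constructor <;> nlinarith

lemma Par.y_le (h : Par N A y) : y ≤ 433 / 100 + N / 100 := by
  have h1 : y ≤ log (2 * N) := by
    rw [le_log_iff_exp_le (by linarith [h.hN])]; exact h.hy
  have h2 : log (2 * N) = 8 * log 2 + log (2 * N / 256) := by
    rw [show (8 : ℝ) * log 2 = log (2 ^ 8) by rw [log_pow]; norm_num,
      ← log_mul (by norm_num) (by linarith [h.hN])]
    congr 1; ring
  have h3 := log_le_sub_one_of_pos (show (0 : ℝ) < 2 * N / 256 by linarith [h.hN])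
  have h4 := Real.log_two_lt_d9
  linarith [h.hN]

lemma Par.w_le (h : Par N A y) : y / (N - 1) ≤ 27 / 500 := by
  rw [div_le_iff₀ (by linarith [h.hN])]
  have := h.y_le
  linarith [h.hN]

lemma Par.w0 (h : Par N A y) : 0 ≤ y / (N - 1) := div_nonneg h.y0 (by linarith [h.hN])

lemma exp_two_bounds {w : ℝ} (h0 : 0 ≤ w) (h1 : w ≤ 27 / 500) :
    1 + w ≤ exp w ∧ exp w ≤ 1 + w + 13 / 25 * w ^ 2 ∧ 1 - 2 * w ≤ exp (-(2 * w)) ∧
      exp (-(2 * w)) ≤ 1 - 2 * w + 2 * w ^ 2 ∧ exp (2 * w) ≤ 1 + 2 * w + 21 / 10 * w ^ 2 := by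
  refine ⟨by linarith [add_one_le_exp w], ?_, by linarith [add_one_le_exp (-(2 * w))], ?_, ?_⟩
  · have h := Real.exp_bound (x := w) (by rw [abs_of_nonneg h0]; linarith)
      (n := 3) (by norm_num)
    simp only [Finset.sum_range_succ, Finset.sum_range_zero, Nat.factorial] at h
    norm_num [abs_of_nonneg h0] at h
    nlinarith [(abs_le.1 h).2, mul_le_mul_of_nonneg_right h1 (sq_nonneg w)]
  · have hp : 0 < 1 + 2 * w + 2 * w ^ 2 := by positivity
    have h := quadratic_le_exp_of_nonneg (x := 2 * w) (by linarith)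
    have e : exp (-(2 * w)) = 1 / exp (2 * w) := by rw [exp_neg, one_div]
    rw [e, div_le_iff₀ (exp_pos _)]
    have h4 : 0 ≤ 1 - 2 * w + 2 * w ^ 2 := by nlinarith
    nlinarith [mul_le_mul_of_nonneg_left h h4, pow_nonneg h0 4]
  · have h := Real.exp_bound (x := 2 * w) (by rw [abs_of_nonneg (by linarith)]; linarith)
      (n := 3) (by norm_num)
    simp only [Finset.sum_range_succ, Finset.sum_range_zero, Nat.factorial] at h
    norm_num [abs_of_nonneg h0] at h
    nlinarith [(abs_le.1 h).2, mul_le_mul_of_nonneg_right h1 (sq_nonneg w)]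

/-- Upper and lower bounds of the flattening part. -/
lemma NI_bounds (h : Par N A y) :
    15 / 2 * (1 - exp (-y)) - exp (-y) * (152 / 25 * y + 79 / 25 * y ^ 2) ≤ NI N y ∧
      NI N y ≤ 758 / 100 * (1 - exp (-y)) := by
  have hN := h.hN
  have hy := h.y0
  obtain ⟨-, -, h3, h4, h5⟩ := exp_two_bounds h.w0 h.w_le
  have hu : 0 ≤ 1 - exp (-y) := by
    have := exp_le_one_iff.2 (neg_nonpos.2 hy); linarith
  have hZ := exp_pos (-y)
  set w := y / (N - 1) with hw
  have hyw : y = (N - 1) * w := (mul_div_cancel₀ y (show N - 1 ≠ 0 by linarith)).symm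
  have hw0 : 0 ≤ w := h.w0
  set q := 1 / (N - 3) with hq
  have hq1 : (N - 3) * q = 1 := mul_one_div_cancel (by linarith)
  have hq0 : 0 < q := by rw [hq]; exact one_div_pos.2 (by linarith)
  have hq97 : q ≤ 1 / 97 := one_div_le_one_div_of_le (by norm_num) (by linarith)
  have hqN : N * q ≤ 100 / 97 := by linarith
  have hqN1 : 1 ≤ N * q := by linarith
  set a0 := 3 / 4 * N ^ 2 * (N - 2) / (N - 3) with ha0
  have ea : a0 = 3 / 4 * N ^ 2 + 3 / 4 * N + 9 / 4 * (N * q) := by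
    rw [ha0, div_eq_iff (show N - 3 ≠ 0 by linarith)]
    linear_combination (-(9 / 4) * N) * hq1
  have es : NI N y = (a0 + 3 / 4 * (N - 2) * (N - 1) - (3 / 2 * N ^ 2 - 3 / 2 * N - 15 / 4)) *
      (1 - exp (-y)) + exp (-y) * (3 / 4 * (N - 2) * (N - 1) * (1 - exp (-(2 * w))) -
        a0 * (exp (2 * w) - 1)) := by rw [NI, ← ha0, ← hw]; ring
  rw [es]
  have hs : (15 : ℝ) / 2 ≤ a0 + 3 / 4 * (N - 2) * (N - 1) - (3 / 2 * N ^ 2 - 3 / 2 * N - 15 / 4) ∧
      a0 + 3 / 4 * (N - 2) * (N - 1) - (3 / 2 * N ^ 2 - 3 / 2 * N - 15 / 4) ≤ 758 / 100 := by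
    rw [ea]; constructor <;> linarith
  have ha : 0 ≤ a0 := by rw [ea]; linarith [sq_nonneg N]
  have hc : 0 ≤ 3 / 4 * (N - 2) * (N - 1) :=
    mul_nonneg (mul_nonneg (by norm_num) (by linarith)) (by linarith)
  constructor
  · have hb : -(152 / 25 * y + 79 / 25 * y ^ 2) ≤
        3 / 4 * (N - 2) * (N - 1) * (1 - exp (-(2 * w))) - a0 * (exp (2 * w) - 1) := by
      have e1 := mul_le_mul_of_nonneg_left (show 2 * w - 2 * w ^ 2 ≤ 1 - exp (-(2 * w)) by linarith) hc
      have e2 := mul_le_mul_of_nonneg_left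
        (show exp (2 * w) - 1 ≤ 2 * w + 21 / 10 * w ^ 2 by linarith) ha
      have e3 := mul_le_mul_of_nonneg_left hqN (show (0 : ℝ) ≤ 9 / 4 * (2 * w + 21 / 10 * w ^ 2) by positivity)
      have e5 : 2 * (3 / 4 * (N - 2) * (N - 1)) + 21 / 10 * (3 / 4 * N ^ 2 + 3 / 4 * N + 9 / 4 * (100 / 97))
          ≤ 79 / 25 * (N - 1) ^ 2 := by
        linarith [mul_le_mul_of_nonneg_right hN (show (0 : ℝ) ≤ N by linarith)]
      have e6 := mul_le_mul_of_nonneg_right e5 (sq_nonneg w)
      have e7 : (2 : ℝ) * (3 * N - 3 / 2 + 9 / 4 * (100 / 97)) * w ≤ 152 / 25 * (N - 1) * w :=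
        mul_le_mul_of_nonneg_right (by linarith) hw0
      rw [hyw]
      rw [ea] at e2 ⊢
      linarith
    have := mul_le_mul_of_nonneg_left hb hZ.le
    have := mul_le_mul_of_nonneg_right hs.1 hu
    linarith
  · have hb : 3 / 4 * (N - 2) * (N - 1) * (1 - exp (-(2 * w))) - a0 * (exp (2 * w) - 1) ≤ 0 := by
      have h6 : 1 - exp (-(2 * w)) ≤ 2 * w := by linarith
      have e1 := mul_le_mul_of_nonneg_left h6 hc
      have e2 := mul_le_mul_of_nonneg_left
        (show 2 * w ≤ exp (2 * w) - 1 by linarith [add_one_le_exp (2 * w)]) ha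
      have e3 : 3 / 4 * (N - 2) * (N - 1) ≤ a0 := by rw [ea]; linarith
      have e4 := mul_le_mul_of_nonneg_right e3 (show 0 ≤ 2 * w by linarith)
      linarith
    have := mul_le_mul_of_nonneg_left hb hZ.le
    have := mul_le_mul_of_nonneg_right hs.2 hu
    linarith

lemma NI_nonneg (h : Par N A y) : 0 ≤ NI N y := by
  refine le_trans ?_ (NI_bounds h).1
  have h1 := quadratic_le_exp_of_nonneg h.y0
  have e : exp (-y) * exp y = 1 := by rw [← exp_add]; simp
  have h2 := mul_le_mul_of_nonneg_left h1 (exp_pos (-y)).le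
  have h3 := mul_nonneg (exp_pos (-y)).le h.y0
  have h4 := mul_nonneg (exp_pos (-y)).le (sq_nonneg y)
  linarith

/-- The main bracket at `Q = 1` is nonpositive and almost nonnegative. -/
lemma G_bounds (h : Par N A y) :
    -(3 / 2 * (1 - exp (-y)) + 13 / 4 * (2 - exp (-y) * (y ^ 2 + 2 * y + 2))) ≤ N * G N A y ∧
      G N A y ≤ 0 := by
  obtain ⟨hAl, hAu⟩ := h.A_bounds
  have hN := h.hN
  set Z : ℝ → ℝ := fun t => exp (-t) with hZd
  set hh : ℝ → ℝ := fun t => 3 * A - 2 * A * exp (t / (N - 1)) -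
    (N + 1) * exp (-(2 * (t / (N - 1)))) with hhd
  have hG : ∀ t, HasDerivAt (G N A) (exp (-t) * hh t) t := by
    intro t
    have d1 : HasDerivAt (fun t : ℝ => exp (-t)) (-exp (-t)) t := by
      simpa using (hasDerivAt_id t).fun_neg.exp
    have d2 : HasDerivAt (fun t : ℝ => exp (t / (N - 1))) (exp (t / (N - 1)) * (1 / (N - 1))) t := by
      simpa using ((hasDerivAt_id t).div_const (N - 1)).exp
    have d3 : HasDerivAt (fun t : ℝ => exp (-(2 * (t / (N - 1)))))
        (exp (-(2 * (t / (N - 1)))) * (-(2 * (1 / (N - 1))))) t := by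
      simpa using (((hasDerivAt_id t).div_const (N - 1)).const_mul 2).fun_neg.exp
    have := ((((d1.const_sub 1).const_mul (3 * A)).fun_sub
      (((d1.fun_mul d2).const_sub 1).const_mul (2 * (N - 1) * A / (N - 2)))).sub_const (N - 1)).fun_add
      ((d1.fun_mul d3).const_mul (N - 1))
    refine this.congr_deriv ?_
    simp only [hhd]
    have : N - 1 ≠ 0 := by linarith
    have : N - 2 ≠ 0 := by linarith
    field_simp
    ring
  have hb : ∀ t ∈ Icc 0 y, -(3 / 2 + 13 / 4 * t ^ 2) ≤ N * hh t ∧ hh t ≤ 0 := by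
    rintro t ⟨ht0, ht1⟩
    have hp : Par N A t := ⟨hN, h.hA1, h.hA2, ht0, (exp_le_exp.2 ht1).trans h.hy⟩
    obtain ⟨e1, e2, e3, e4, -⟩ := exp_two_bounds hp.w0 hp.w_le
    set w := t / (N - 1) with hw
    have htw : t = (N - 1) * w := (mul_div_cancel₀ t (show N - 1 ≠ 0 by linarith)).symm
    have hw0 : 0 ≤ w := hp.w0
    have hw1 : w ≤ 27 / 500 := hp.w_le
    constructor
    · have f1 := mul_le_mul_of_nonneg_left e2 (show (0 : ℝ) ≤ 2 * A * N by nlinarith)
      have f2 := mul_le_mul_of_nonneg_left e4 (show (0 : ℝ) ≤ (N + 1) * N by nlinarith)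
      have f4 := mul_le_mul_of_nonneg_right h.hA1 (show (0 : ℝ) ≤ 1 - 2 * w by linarith)
      have f5 := mul_le_mul_of_nonneg_right hAu (show (0 : ℝ) ≤ 26 / 25 * N * w ^ 2 by positivity)
      have f6 : 76 / 25 * (N + 1) * N * w ^ 2 ≤ 13 / 4 * ((N - 1) * w) ^ 2 := by
        rw [mul_pow, ← mul_assoc]
        exact mul_le_mul_of_nonneg_right (by nlinarith) (sq_nonneg w)
      simp only [hhd, ← hw]
      rw [htw]
      linarith
    · have f1 := mul_le_mul_of_nonneg_left e1 (show (0 : ℝ) ≤ 2 * A by linarith)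
      have f2 := mul_le_mul_of_nonneg_left e3 (show (0 : ℝ) ≤ N + 1 by linarith)
      have f3 := mul_nonpos_of_nonpos_of_nonneg (show A - (N + 1) ≤ 0 by linarith)
        (show (0 : ℝ) ≤ 1 - 2 * w by linarith)
      simp only [hhd, ← hw]
      linarith
  have h0 : G N A 0 = 0 := by simp [G]
  constructor
  · set F : ℝ → ℝ := fun t => N * G N A t + (3 / 2 * (1 - exp (-t)) +
      13 / 4 * (2 - exp (-t) * (t ^ 2 + 2 * t + 2))) with hF
    have hFd : ∀ t, HasDerivAt F (exp (-t) * (N * hh t + (3 / 2 + 13 / 4 * t ^ 2))) t := by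
      intro t
      have d1 : HasDerivAt (fun t : ℝ => exp (-t)) (-exp (-t)) t := by
        simpa using (hasDerivAt_id t).fun_neg.exp
      have d2 : HasDerivAt (fun t : ℝ => t ^ 2 + 2 * t + 2) (2 * t + 2) t := by
        simpa using ((hasDerivAt_pow 2 t).fun_add ((hasDerivAt_id t).const_mul 2)).add_const 2
      refine (((hG t).const_mul N).fun_add (((d1.const_sub 1).const_mul (3 / 2)).fun_add
        (((d1.fun_mul d2).const_sub 2).const_mul (13 / 4)))).congr_deriv ?_
      ring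
    have := monotoneOn_of_hasDerivWithinAt_nonneg (convex_Icc 0 y)
      (fun t _ => (hFd t).continuousAt.continuousWithinAt) (fun t _ => (hFd t).hasDerivWithinAt)
      (fun t ht => mul_nonneg (exp_pos _).le (by linarith [(hb t (interior_subset ht)).1]))
      (left_mem_Icc.2 h.y0) (right_mem_Icc.2 h.y0) h.y0
    simp only [hF, h0] at this
    norm_num at this
    linarith
  · have := antitoneOn_of_hasDerivWithinAt_nonpos (convex_Icc 0 y)
      (fun t _ => (hG t).continuousAt.continuousWithinAt) (fun t _ => (hG t).hasDerivWithinAt)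
      (fun t ht => mul_nonpos_of_nonneg_of_nonpos (exp_pos _).le (hb t (interior_subset ht)).2)
      (left_mem_Icc.2 h.y0) (right_mem_Icc.2 h.y0) h.y0
    linarith

end Vale.Agent.P237.Cal.SF
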