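import Vale.Agent.P237.Cal.PosX

/-!
# P237: the zone `ε σ² ≤ 1/4` of the side `σ ≥ T`, for `n ≥ 100`

With `c₀ = (9/5) ε/√n` and `c₁ = (6/5) ε √n` the coefficient of `D²` alone dominates, so neither the
mass bound nor the linear weight is used.
-/

open Real

namespace Vale.Agent.P237.Cal

variable {m : ℕ}

/-- The coefficient of `D²` over `ε` in the variable `τ = √n T`. -/
lemma quadCoef_ge {τ : ℝ} (hτ : 0 < τ) : 2847 / 1000 ≤ 9 / (5 * τ) + 1126 / 1000 * τ := by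
  rw [div_add' _ _ _ (by positivity), le_div_iff₀ (by positivity)]
  nlinarith [sq_nonneg (τ - 12643 / 10000)]

/-- The elementary inequality behind the zone `ε σ² ≤ 1/4`. -/
lemma zone0_coef {τ ε M N : ℝ} (hτ : 0 < τ) (hε : 0 < ε) (hε2 : ε ≤ 21 / 5) (hN : 99 / 100 ≤ N)
    (hM0 : 0 ≤ M) (hM : M ≤ ε * (51 / 100) ∨ M ≤ ε * (685 / 1000 - τ / 5)) :
    ε + 5 / 4 * M ^ 2 / N ≤ ε * (9 / (5 * τ) + 1126 / 1000 * τ) := by
  have hN0 : 0 < N := by linarith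
  have hc := quadCoef_ge hτ
  have key : 5 / 4 * M ^ 2 ≤ (ε * (9 / (5 * τ) + 1126 / 1000 * τ) - ε) * (99 / 100) := by
    rcases hM with h | h
    · have h2 := pow_le_pow_left₀ hM0 h 2
      nlinarith
    · have hb : 0 ≤ 685 / 1000 - τ / 5 := by
        by_contra hb
        nlinarith
      have h2 := pow_le_pow_left₀ hM0 h 2
      have h3 : 5 / 4 * (21 / 5) * (685 / 1000 - τ / 5) ^ 2 ≤
          (9 / (5 * τ) + 1126 / 1000 * τ - 1) * (99 / 100) := by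
        rw [show 9 / (5 * τ) + 1126 / 1000 * τ - 1 =
          (9 + 1126 / 200 * τ ^ 2 - 5 * τ) / (5 * τ) by field_simp; ring]
        refine le_of_le_of_eq ((le_div_iff₀ (by positivity : (0 : ℝ) < 5 * τ)).2 ?_)
          (div_mul_eq_mul_div _ _ _).symm
        nlinarith [sq_nonneg (τ - 3 / 2), mul_nonneg hτ.le hb,
          mul_nonneg (mul_nonneg hτ.le hb) hb]
      have h4 := mul_le_mul_of_nonneg_left h3 hε.le
      have h5 : 5 / 4 * (ε * (685 / 1000 - τ / 5)) ^ 2 ≤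
          ε * (5 / 4 * (21 / 5) * (685 / 1000 - τ / 5) ^ 2) := by
        nlinarith [mul_le_mul_of_nonneg_right hε2 (mul_nonneg hε.le (sq_nonneg (685 / 1000 - τ / 5)))]
      linarith
  have h6 : 5 / 4 * M ^ 2 / N ≤ ε * (9 / (5 * τ) + 1126 / 1000 * τ) - ε := by
    rw [div_le_iff₀ hN0]
    refine key.trans (mul_le_mul_of_nonneg_left hN ?_)
    nlinarith
  linarith

/-- The bound `M` of the square root part. -/
lemma zone0_M {ε T D v σ : ℝ} (hε : 0 < ε) (hv : 10 ≤ v) (hT : 0 ≤ T) (hD : T + D = σ)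
    (hD0 : 0 ≤ D) (hσ : σ ≤ 255 / 1000) :
    max (ε * (2 * T + D) - 2 * 0) (2 * (33 / 10 * ε / v) - 2 * ε * T) ≤ ε * (51 / 100) ∨
      max (ε * (2 * T + D) - 2 * 0) (2 * (33 / 10 * ε / v) - 2 * ε * T) ≤
        ε * (685 / 1000 - v * T / 5) := by
  have hv0 : 0 < v := by linarith
  have h1 : ε * (2 * T + D) - 2 * 0 ≤ ε * (51 / 100) := by
    have := mul_le_mul_of_nonneg_left (by linarith : 2 * T + D ≤ 51 / 100) hε.le
    linarith
  rcases le_or_gt (2 * (33 / 10 * ε / v) - 2 * ε * T) (ε * (2 * T + D) - 2 * 0) with h | h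
  · exact Or.inl ((max_eq_left h).trans_le h1)
  · right
    rw [max_eq_right h.le]
    have e2 : 2 * (33 / 10 * ε / v) - 2 * ε * T = 10 / v * (ε * (66 / 100 - v * T / 5)) := by
      field_simp; ring
    have hb : 0 ≤ ε * (66 / 100 - v * T / 5) := by
      by_contra hb
      have := mul_neg_of_pos_of_neg (div_pos (by norm_num : (0 : ℝ) < 10) hv0) (not_le.1 hb)
      rw [← e2] at this
      have : 0 ≤ ε * (2 * T + D) := mul_nonneg hε.le (by linarith)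
      linarith
    rw [e2]
    refine (mul_le_of_le_one_left hb ((div_le_one hv0).2 hv)).trans ?_
    exact mul_le_mul_of_nonneg_left (by linarith) hε.le

/-- The sum of the two coefficients stays above `11/10`. -/
lemma zone0_N {ε T D v σ g : ℝ} (hε : 0 < ε) (hε2 : ε ≤ 21 / 5) (hv : 10 ≤ v) (hT : 0 ≤ T)
    (hD : T + D = σ) (hD0 : 0 ≤ D) (hσ : σ ≤ 255 / 1000) (hθ : ε * σ ^ 2 ≤ 1 / 4)
    (hg : g ≤ 1 / 20) :
    99 / 100 ≤ 2 - ε * (T + D) ^ 2 - ε * T ^ 2 - 2 * (33 / 10 * ε / v) * D - g := by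
  have hP : 33 / 10 * ε / v ≤ 33 / 100 * ε := by
    rw [div_le_iff₀ (by linarith)]
    nlinarith [mul_le_mul_of_nonneg_left hv hε.le]
  have hB := mul_le_mul_of_nonneg_right hP hD0
  have hTT : 0 ≤ ε * T * (66 / 100 - T) := mul_nonneg (by positivity) (by linarith)
  have h2 : ε * (33 / 100) * σ ≤ 21 / 5 * (33 / 100) * (255 / 1000) :=
    mul_le_mul (mul_le_mul_of_nonneg_right hε2 (by norm_num)) hσ (by linarith) (by norm_num)
  rw [hD]
  have e : 33 / 100 * ε * D = ε * (33 / 100) * σ - ε * T * (33 / 100) := by rw [← hD]; ring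
  have e2 : ε * T * (66 / 100 - T) = 2 * (ε * T * (33 / 100)) - ε * T ^ 2 := by ring
  linarith

/-- The coefficient of `D²` over the prefactor. -/
lemma zone0_C {ε v T c₀ c₁ : ℝ} (hε : 0 ≤ ε) (hv : 0 < v) (hT : 0 < T)
    (hc₀ : c₀ = 9 / 5 * ε / v) (hc₁ : c₁ = 6 / 5 * ε * v) (hs : T ^ 2 ≤ 65 / 1000) :
    ε * (9 / (5 * (v * T)) + 1126 / 1000 * (v * T)) ≤
      (c₀ + c₁ * (T ^ 2 / √(1 + T ^ 2) ^ 2)) / T := by
  rw [w_sq, hc₀, hc₁]
  have e : (9 / 5 * ε / v + 6 / 5 * ε * v * (T ^ 2 / (1 + T ^ 2))) / T =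
      ε * (9 / (5 * (v * T)) + 6 / 5 / (1 + T ^ 2) * (v * T)) := by field_simp
  rw [e]
  have h3 : (1126 : ℝ) / 1000 ≤ 6 / 5 / (1 + T ^ 2) := by
    rw [le_div_iff₀ (by positivity)]
    linarith
  have h4 := mul_le_mul_of_nonneg_right h3 (mul_pos hv hT).le
  exact mul_le_mul_of_nonneg_left (by linarith) hε

/-- The quadratic field from below. -/
lemma zone0_P {ε v T c₀ c₁ : ℝ} (hε : 0 ≤ ε) (hv : 10 ≤ v) (hv2 : v ^ 2 = (m : ℝ) + 2)
    (hc₀ : c₀ = 9 / 5 * ε / v) (hc₁ : c₁ = 6 / 5 * ε * v) (hpre : 0 < pre m T) :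
    -(33 / 10 * ε / v) ≤ shP m c₀ c₁ T / pre m T := by
  have hv0 : 0 < v := by linarith
  have h0 : 0 ≤ c₀ := by rw [hc₀]; positivity
  have h1 : 0 ≤ c₁ := by rw [hc₁]; positivity
  have hc1n : c₁ / ((m : ℝ) + 4) ≤ 6 / 5 * ε / v := by
    rw [hc₁, show (m : ℝ) + 4 = v ^ 2 + 2 by rw [hv2]; ring,
      div_le_div_iff₀ (by positivity) hv0]
    nlinarith
  have hc0h : c₀ / 2 + 2 * c₁ / ((m : ℝ) + 4) ≤ 33 / 10 * ε / v := by
    have : 2 * c₁ / ((m : ℝ) + 4) = 2 * (c₁ / ((m : ℝ) + 4)) := mul_div_assoc _ _ _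
    have e : c₀ / 2 = 9 / 10 * ε / v := by rw [hc₀]; ring
    have e2 : 33 / 10 * ε / v = 9 / 10 * ε / v + 2 * (6 / 5 * ε / v) := by ring
    linarith
  have := neg_shP_le (m := m) h0 h1 T
  rw [show ((m : ℝ) + 1) * T ^ 2 / √(1 + T ^ 2) ^ (m + 4) = pre m T from rfl] at this
  have := mul_le_mul_of_nonneg_right hc0h hpre.le
  rw [le_div_iff₀ hpre]
  linarith

/-- **Zone `ε σ² ≤ 1/4`**, for `n = m + 2 ≥ 100` and `39/10 ≤ ε ≤ 21/5`. The conclusion feeds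
`core_of_boundX`; `G₂` is the part of the coefficient of `h - 1` without `P`. -/
theorem posX_zone0 {ε T σ h l G₂ g₂ c₀ c₁ : ℝ} (hm : 98 ≤ m) (hε1 : 39 / 10 ≤ ε)
    (hε2 : ε ≤ 21 / 5) (hc₀ : c₀ = 9 / 5 * ε / √((m : ℝ) + 2))
    (hc₁ : c₁ = 6 / 5 * ε * √((m : ℝ) + 2)) (hT : 0 < T) (hh : 0 < h) (hσ : T ≤ σ)
    (hθ : ε * σ ^ 2 ≤ 1 / 4) (hg : |G₂| ≤ g₂) (hg2 : g₂ ≤ 1 / 20) (hl : 0 ≤ l) :
    ∃ L, L ≤ valQ ε T σ h + (2 * (shP m c₀ c₁ T / pre m T) * (σ - T) + G₂) * (h - 1) ∧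
      -(pre m T * (500 / 99 * g₂ ^ 2)) ≤ pre m T * L + (σ - T) * l +
        (σ - T) ^ 2 * (shP' m c₀ c₁ T + 2 * muX m T * shS m c₀ c₁ T) := by
  have hm' : (98 : ℝ) ≤ (m : ℝ) := by exact_mod_cast hm
  set v := √((m : ℝ) + 2) with hv
  have hv10 : 10 ≤ v := by
    rw [hv, le_sqrt (by norm_num) (by linarith)]; norm_num; linarith
  have hv2 : v ^ 2 = (m : ℝ) + 2 := sq_sqrt (by linarith)
  have hε : 0 < ε := by linarith
  have hv0 : 0 < v := by linarith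
  have h0 : 0 ≤ c₀ := by rw [hc₀]; positivity
  have h1 : 0 ≤ c₁ := by rw [hc₁]; positivity
  have hpre : 0 < pre m T := by unfold pre; positivity
  have hσ2 : σ ^ 2 ≤ 65 / 1000 := by nlinarith [mul_le_mul_of_nonneg_right hε1 (sq_nonneg σ)]
  have hs : T ^ 2 ≤ σ ^ 2 := pow_le_pow_left₀ hT.le hσ 2
  have hσ1 : σ ≤ 255 / 1000 := by nlinarith
  set p := shP m c₀ c₁ T / pre m T with hp
  have hp2 : -(33 / 10 * ε / v) ≤ p := zone0_P hε.le hv10 hv2 hc₀ hc₁ hpre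
  have hp1 : p ≤ -0 := by
    rw [neg_zero, hp]; exact div_nonpos_of_nonpos_of_nonneg (shP_nonpos h0 h1 T) hpre.le
  set Ph := 33 / 10 * ε / v with hPh
  have hPh0 : 0 ≤ Ph := by positivity
  have hPh1 : Ph ≤ 33 / 100 * ε := by
    rw [hPh, div_le_iff₀ hv0]; nlinarith
  set D := σ - T with hD
  set M := max (ε * (2 * T + D) - 2 * 0) (2 * Ph - 2 * ε * T) with hM
  have hM0 : 0 ≤ M := le_max_of_le_left (by
    have : 0 ≤ 2 * T + D := by linarith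
    nlinarith)
  have hτ : 0 < v * T := mul_pos hv0 hT
  have hMor := zone0_M (ε := ε) (v := v) (σ := σ) hε hv10 hT.le (by rw [hD]; ring : T + D = σ)
    (sub_nonneg.2 hσ) hσ1
  have hNle : (99 : ℝ) / 100 ≤ 2 - ε * (T + D) ^ 2 - ε * T ^ 2 - 2 * Ph * D - g₂ :=
    zone0_N hε hε2 hv10 hT.le (by rw [hD]; ring : T + D = σ) (sub_nonneg.2 hσ) hσ1 hθ hg2
  have hcoef := zone0_coef hτ hε hε2 (le_refl (99 / 100 : ℝ)) hM0 hMor
  have hmu : muX m T * (c₀ + c₁ * (T ^ 2 / √(1 + T ^ 2) ^ 2)) =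
      pre m T * ((c₀ + c₁ * (T ^ 2 / √(1 + T ^ 2) ^ 2)) / T) := by
    simp only [muX, pre]; field_simp
  have hC := zone0_C (ε := ε) (v := v) hε.le hv0 hT hc₀ hc₁ (by linarith : T ^ 2 ≤ 65 / 1000)
  have hz : 0 ≤ muX m T * (c₀ + c₁ * (T ^ 2 / √(1 + T ^ 2) ^ 2)) -
      pre m T * (ε + 5 / 4 * M ^ 2 / (99 / 100)) := by
    rw [hmu, ← mul_sub]
    exact mul_nonneg hpre.le (sub_nonneg.2 (hcoef.trans hC))
  obtain ⟨L, hL, hle⟩ := posX_zone (π' := pre m T) (l := l)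
    (C := muX m T * (c₀ + c₁ * (T ^ 2 / √(1 + T ^ 2) ^ 2))) (ε := ε) (κ := 5 / 4) (Dm := D)
    (Pl := 0) (Ph := Ph) (M := M) (N := 99 / 100) hpre.le hh hε.le (by norm_num) hT.le hσ le_rfl hp1 hp2
    hPh0 hg (le_max_left _ _) (le_max_right _ _) (by rw [show T + D = σ by rw [hD]; ring]; linarith)
    (by nlinarith [mul_nonneg hε.le (sq_nonneg σ)]) (by norm_num) hNle hl
    (add_nonneg hl (mul_nonneg (by linarith) hz))
  refine ⟨L, hL, ?_⟩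
  rw [shP'_add]
  have e : (5 : ℝ) / 4 / (5 / 4 - 1) * g₂ ^ 2 / (99 / 100) = 500 / 99 * g₂ ^ 2 := by ring
  rw [e] at hle
  linarith

end Vale.Agent.P237.Cal
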