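import Vale.Agent.P237.Cal.PosRow
import Vale.Agent.P237.Cal.PosZero
import Vale.Agent.P237.Cal.ChordTight

/-!
# P237: the side `σ ≥ T` for `z = n T² ≤ 5/2`, `n ≥ 100`

Four rows of `posX_row`; the conclusion loses `2 G₂²` and `5 E²/(4 ε)`, where `-E` bounds the
linear weight from below, over the prefactor.
-/

open Real

namespace Vale.Agent.P237.Cal

variable {m : ℕ}

/-- The rational chord factor in `z = n s`, as used in the rows. -/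
noncomputable def phiR (z : ℝ) : ℝ := z / 2 + 1 / (1 + z / 4 + z ^ 2 / 24)

lemma phiR_mono {a b : ℝ} (ha : 0 ≤ a) (h : a ≤ b) : phiR a ≤ phiR b := by
  have := phiRat_mono (x := a / 2) (y := b / 2) (by linarith) (by linarith)
  simp only [phiR]
  convert this using 3 <;> ring

/-- The crude bound on `σ` in the variable `z`, for `Q ≤ 1.6488`. -/
theorem sig_le_phiR {V Y T σ h Q : ℝ} (hY : 1 ≤ Y) (hR : RegC Y T σ h) (hE : Exc m V Y T σ)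
    (hQ : V / Y ^ (m + 1) = Q * semiMom m 1) (hQ0 : 0 ≤ Q) (hQ1 : Q ≤ 16488 / 10000) :
    √((m : ℝ) + 2) * σ ≤
      20667 / 10000 * ((1 + T ^ 2 / 2) * phiR (((m : ℝ) + 2) * T ^ 2)) := by
  have hs : 0 < T ^ 2 := sq_pos_of_pos hR.T_pos
  have hz : 0 < ((m : ℝ) + 2) * T ^ 2 := by positivity
  refine (sigma_le_rat hY hR hE hQ hQ0).trans ?_
  set s := T ^ 2
  set z := ((m : ℝ) + 2) * s
  set x := z / 2 / (1 + s / 2) with hx
  have hx0 : 0 < x := by positivity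
  have hd : 0 < 1 + x / 2 + x ^ 2 / 6 := by positivity
  have h1 : x * (1 + x / 2 + x ^ 2 / 6) ≤ expM5 x := by
    have : expM5 x = x * (1 + x / 2 + x ^ 2 / 6) + (x ^ 4 / 24 + x ^ 5 / 120) := by
      simp only [expM5]; ring
    have : 0 ≤ x ^ 4 / 24 + x ^ 5 / 120 := by positivity
    linarith
  have h2 : x * (1 + 1 / expM5 x) ≤ x + 1 / (1 + x / 2 + x ^ 2 / 6) := by
    have h3 : 1 / expM5 x ≤ 1 / (x * (1 + x / 2 + x ^ 2 / 6)) :=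
      one_div_le_one_div_of_le (mul_pos hx0 hd) h1
    have h4 := mul_le_mul_of_nonneg_left h3 hx0.le
    have e : x * (1 / (x * (1 + x / 2 + x ^ 2 / 6))) = 1 / (1 + x / 2 + x ^ 2 / 6) := by field_simp
    linarith
  have hw : 2 ≤ √(1 + s) + 1 := by linarith [one_le_sqrt.2 (by linarith : (1 : ℝ) ≤ 1 + s)]
  have h5 : z / (√(1 + s) + 1) * (1 + 1 / expM5 x) ≤ (1 + s / 2) * phiR z := by
    have h0 : 0 ≤ 1 + 1 / expM5 x := by have := expM5_pos hx0; positivity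
    refine (mul_le_mul_of_nonneg_right
      (div_le_div_of_nonneg_left hz.le (by norm_num) hw) h0).trans ?_
    have e : z / 2 * (1 + 1 / expM5 x) = (1 + s / 2) * (x * (1 + 1 / expM5 x)) := by
      rw [hx]; field_simp
    rw [e]
    refine mul_le_mul_of_nonneg_left (h2.trans ((phiRat_mono hx0.le
      (?_ : x ≤ z / 2)).trans (le_of_eq ?_))) (by positivity)
    · exact div_le_self (by positivity) (by linarith)
    · simp only [phiR]; ring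
  have hp : 0 ≤ z / (√(1 + s) + 1) * (1 + 1 / expM5 x) := by
    have := expM5_pos hx0; positivity
  exact mul_le_mul (by linarith) h5 hp (by norm_num)

/-- The four vertices of a row, over `ε`, after multiplication by `τ`. -/
lemma low_vertices {τ ω S PL : ℝ} (hτ : 0 < τ)
    (h00 : 21 / 500 * τ * (2 * τ - 2 * PL) ^ 2 ≤
      (9 / 5 + 1126 / 1000 * τ ^ 2 - 6 / 5 * τ) * (193 / 100 - ω - 21 / 500 * (2 * τ ^ 2)))
    (h01 : 21 / 500 * τ * (2 * τ - 66 / 10) ^ 2 ≤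
      (9 / 5 + 1126 / 1000 * τ ^ 2 - 6 / 5 * τ) * (193 / 100 - ω - 21 / 500 * (2 * τ ^ 2)))
    (h10 : 21 / 500 * τ * (τ + S - 2 * PL) ^ 2 ≤
      (9 / 5 + 1126 / 1000 * τ ^ 2 - 6 / 5 * τ) *
        (193 / 100 - ω - 21 / 500 * (S ^ 2 + τ ^ 2 + 2 * PL * (S - τ))))
    (h11 : 21 / 500 * τ * (τ + S - 66 / 10) ^ 2 ≤
      (9 / 5 + 1126 / 1000 * τ ^ 2 - 6 / 5 * τ) *
        (193 / 100 - ω - 21 / 500 * (S ^ 2 + τ ^ 2 + 66 / 10 * (S - τ)))) :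
    let C := 9 / (5 * τ) + 1126 / 1000 * τ - 1 - 1 / 5
    0 ≤ vtxN (21 / 500) τ C ω (7 / 100) 0 PL ∧ 0 ≤ vtxN (21 / 500) τ C ω (7 / 100) 0 (33 / 10) ∧
      0 ≤ vtxN (21 / 500) τ C ω (7 / 100) (S - τ) PL ∧
      0 ≤ vtxN (21 / 500) τ C ω (7 / 100) (S - τ) (33 / 10) := by
  intro C
  have eC : C * τ = 9 / 5 + 1126 / 1000 * τ ^ 2 - 6 / 5 * τ := by
    simp only [C]; field_simp; ring
  have key : ∀ d P, 21 / 500 * τ * (2 * τ + d - 2 * P) ^ 2 ≤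
      (9 / 5 + 1126 / 1000 * τ ^ 2 - 6 / 5 * τ) *
        (193 / 100 - ω - 21 / 500 * ((τ + d) ^ 2 + τ ^ 2 + 2 * P * d)) →
      0 ≤ vtxN (21 / 500) τ C ω (7 / 100) d P := fun d P h => by
    refine nonneg_of_mul_nonneg_right ?_ hτ
    have e : τ * vtxN (21 / 500) τ C ω (7 / 100) d P =
        C * τ * (193 / 100 - ω - 21 / 500 * ((τ + d) ^ 2 + τ ^ 2 + 2 * P * d)) -
          21 / 500 * τ * (2 * τ + d - 2 * P) ^ 2 := by
      simp only [vtxN]; ring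
    rw [e, eC]; linarith
  refine ⟨key 0 PL ?_, key 0 (33 / 10) ?_, key (S - τ) PL ?_, key (S - τ) (33 / 10) ?_⟩
  · convert h00 using 1 <;> ring
  · convert h01 using 1 <;> ring
  · convert h10 using 1 <;> ring
  · convert h11 using 1 <;> ring

/-- The field from above on a row. -/
lemma low_P {ε v T z1 c₀ c₁ : ℝ} (hε : 0 ≤ ε) (hv : 10 ≤ v) (hv2 : v ^ 2 = (m : ℝ) + 2)
    (hc₀ : c₀ = 9 / 5 * ε / v) (hc₁ : c₁ = 6 / 5 * ε * v) (hpre : 0 < pre m T)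
    (hz : v ^ 2 * T ^ 2 ≤ z1) :
    shP m c₀ c₁ T / pre m T ≤ -(ε * (20 / 17 + 415 / 100 / (2 + z1)) / v) := by
  have hv0 : 0 < v := by linarith
  have h0 : 0 ≤ c₀ := by rw [hc₀]; positivity
  have h1 : 0 ≤ c₁ := by rw [hc₁]; positivity
  have hd : (0 : ℝ) < 2 + z1 := by nlinarith [sq_nonneg (v * T)]
  have hn : (20 : ℝ) / 17 * (ε / v) ≤ c₁ / ((m : ℝ) + 4) := by
    rw [hc₁, show (m : ℝ) + 4 = v ^ 2 + 2 by rw [hv2]; ring, le_div_iff₀ (by positivity)]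
    have : 20 / 17 * (ε / v) * (v ^ 2 + 2) = ε * (20 / 17 * v + 40 / 17 / v) := by field_simp; ring
    rw [this, show 6 / 5 * ε * v = ε * (6 / 5 * v) by ring]
    refine mul_le_mul_of_nonneg_left ?_ hε
    have : 40 / 17 / v ≤ 4 / 170 * v := by
      rw [div_le_iff₀ hv0]; nlinarith
    linarith
  have hU : 415 / 100 * (ε / v) ≤ shUM m c₀ c₁ := by
    have e : shUM m c₀ c₁ = c₀ + 2 * (c₁ / ((m : ℝ) + 4)) := by rw [shUM, mul_div_assoc]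
    have : c₀ = 9 / 5 * (ε / v) := by rw [hc₀]; ring
    have : 0 ≤ ε / v := by positivity
    linarith
  have hU' : 415 / 100 * (ε / v) / (2 + z1) ≤
      shUM m c₀ c₁ * (1 + T ^ 2) / (2 + ((m : ℝ) + 2) * T ^ 2) := by
    refine div_le_div₀ (by have : 0 ≤ shUM m c₀ c₁ := le_trans (by positivity) hU
                           positivity)
      (hU.trans (le_mul_of_one_le_right (le_trans (by positivity) hU) (by nlinarith)))
      (by positivity) (by rw [← hv2]; linarith)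
  have := neg_shP_ge (m := m) h0 h1 T
  have h2 := mul_le_mul_of_nonneg_right (add_le_add hn hU') hpre.le
  rw [div_le_iff₀ hpre]
  have e : ε * (20 / 17 + 415 / 100 / (2 + z1)) / v =
      20 / 17 * (ε / v) + 415 / 100 * (ε / v) / (2 + z1) := by field_simp
  rw [e]
  linarith

/-- One low row. -/
theorem low_row {ε T σ h l G₂ ω E z1 S PL c₀ c₁ : ℝ} (hm : 98 ≤ m) (hε1 : 7 / 2 ≤ ε)
    (hε2 : ε ≤ 21 / 5) (hc₀ : c₀ = 9 / 5 * ε / √((m : ℝ) + 2))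
    (hc₁ : c₁ = 6 / 5 * ε * √((m : ℝ) + 2)) (hT : 0 < T) (hh : 0 < h) (hσ : T ≤ σ)
    (hG : -(7 / 100) ≤ G₂) (hl : -(pre m T * E) ≤ l) (hω : 0 < ω) (hω2 : ω ≤ 1)
    (hz : ((m : ℝ) + 2) * T ^ 2 ≤ z1) (hz1 : z1 ≤ 5 / 2) (hS : √((m : ℝ) + 2) * σ ≤ S)
    (hS1 : 21 / 500 * S ^ 2 ≤ 1) (hPL : PL ≤ 20 / 17 + 415 / 100 / (2 + z1)) (τ : ℝ)
    (hτ : τ = √((m : ℝ) + 2) * T) (hS2 : 21 / 500 * (τ ^ 2 + 66 / 10 * (S - τ)) ≤ 93 / 100)
    (h00 : 21 / 500 * τ * (2 * τ - 2 * PL) ^ 2 ≤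
      (9 / 5 + 1126 / 1000 * τ ^ 2 - 6 / 5 * τ) * (193 / 100 - ω - 21 / 500 * (2 * τ ^ 2)))
    (h01 : 21 / 500 * τ * (2 * τ - 66 / 10) ^ 2 ≤
      (9 / 5 + 1126 / 1000 * τ ^ 2 - 6 / 5 * τ) * (193 / 100 - ω - 21 / 500 * (2 * τ ^ 2)))
    (h10 : 21 / 500 * τ * (τ + S - 2 * PL) ^ 2 ≤
      (9 / 5 + 1126 / 1000 * τ ^ 2 - 6 / 5 * τ) *
        (193 / 100 - ω - 21 / 500 * (S ^ 2 + τ ^ 2 + 2 * PL * (S - τ))))
    (h11 : 21 / 500 * τ * (τ + S - 66 / 10) ^ 2 ≤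
      (9 / 5 + 1126 / 1000 * τ ^ 2 - 6 / 5 * τ) *
        (193 / 100 - ω - 21 / 500 * (S ^ 2 + τ ^ 2 + 66 / 10 * (S - τ)))) :
    ∃ L, L ≤ valQ ε T σ h + (2 * (shP m c₀ c₁ T / pre m T) * (σ - T) + G₂) * (h - 1) ∧
      -(pre m T * (G₂ ^ 2 / ω + 5 * E ^ 2 / (4 * ε))) ≤ pre m T * L + (σ - T) * l +
        (σ - T) ^ 2 * (shP' m c₀ c₁ T + 2 * muX m T * shS m c₀ c₁ T) := by
  have hm' : (98 : ℝ) ≤ (m : ℝ) := by exact_mod_cast hm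
  set v := √((m : ℝ) + 2) with hv
  have hv10 : 10 ≤ v := by
    rw [hv, le_sqrt (by norm_num) (by linarith)]; norm_num; linarith
  have hv2 : v ^ 2 = (m : ℝ) + 2 := sq_sqrt (by linarith)
  have hε : 0 < ε := by linarith
  have hv0 : 0 < v := by linarith
  have hpre : 0 < pre m T := by unfold pre; positivity
  have hτ0 : 0 < τ := by rw [hτ]; exact mul_pos hv0 hT
  have hz' : τ ^ 2 ≤ z1 := by rw [hτ, mul_pow, hv2]; exact hz
  have hτS : τ ≤ S := by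
    rw [hτ]; exact (mul_le_mul_of_nonneg_left hσ hv0.le).trans hS
  obtain ⟨a00, a01, a10, a11⟩ := low_vertices (ω := ω) (S := S) (PL := PL) hτ0 h00 h01 h10 h11
  set C := 9 / (5 * τ) + 1126 / 1000 * τ - 1 - 1 / 5 with hC
  have hC0 : 0 < C := by have := quadCoef_ge hτ0; rw [hC]; linarith
  set K := muX m T * (c₀ + c₁ * (T ^ 2 / √(1 + T ^ 2) ^ 2)) with hK
  have hs : T ^ 2 ≤ 65 / 1000 := by
    linarith [mul_le_mul_of_nonneg_right (by linarith : (100 : ℝ) ≤ (m : ℝ) + 2) (sq_nonneg T)]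
  have hKge : pre m T * (ε + ε * C + ε / 5) ≤ K := by
    have hmu : K = pre m T * ((c₀ + c₁ * (T ^ 2 / √(1 + T ^ 2) ^ 2)) / T) := by
      simp only [hK, muX, pre]; field_simp
    rw [hmu]
    refine mul_le_mul_of_nonneg_left (le_trans (le_of_eq ?_)
      (zone0_C hε.le hv0 hT hc₀ hc₁ hs)) hpre.le
    rw [hC, hτ]; ring
  have hp2 := zone0_P (T := T) hε.le hv10 hv2 hc₀ hc₁ hpre
  rw [show 33 / 10 * ε / v = ε * (33 / 10) / v by ring] at hp2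
  have hp1 := low_P (T := T) hε.le hv10 hv2 hc₀ hc₁ hpre (z1 := z1) (by rw [hv2]; exact hz)
  obtain ⟨L, hL, hle⟩ := posX_row (π' := pre m T) (l := 0) (Cw := K - pre m T * (ε / 5))
    (v := v) (C := C) (E := 21 / 500) (S := S) (PL := PL) (PH := 33 / 10) (ω := ω)
    (gl := 7 / 100) le_rfl
    (by
      rw [zero_add]
      refine mul_nonneg ?_ (by linarith)
      rw [sub_nonneg, le_div_iff₀ hv0, mul_comm, ← hτ]; exact hτS)
    hh hε hv0 hC0 hω hT.le hσ hS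
    (hp1.trans (neg_le_neg (div_le_div_of_nonneg_right
      (mul_le_mul_of_nonneg_left hPL hε.le) hv0.le))) hp2 (by norm_num) hG (by linarith)
    (by rw [div_le_iff₀ (by positivity), hv2]; linarith) hS1
    (by rw [← hτ]; linarith) (by rw [← hτ]; exact a00) (by rw [← hτ]; exact a01)
    (by rw [← hτ]; exact a10) (by rw [← hτ]; exact a11)
  refine ⟨L, hL, ?_⟩
  rw [shP'_add, ← hK]
  have hD0 : 0 ≤ σ - T := sub_nonneg.2 hσ
  have h1 := mul_le_mul_of_nonneg_left hl hD0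
  have h2 : (σ - T) * E ≤ ε / 5 * (σ - T) ^ 2 + 5 * E ^ 2 / (4 * ε) := by
    have e : ε / 5 * (σ - T) ^ 2 + 5 * E ^ 2 / (4 * ε) - (σ - T) * E =
        (2 * ε * (σ - T) - 5 * E) ^ 2 / (20 * ε) := by field_simp; ring
    have : 0 ≤ (2 * ε * (σ - T) - 5 * E) ^ 2 / (20 * ε) := by positivity
    linarith
  have h3 := mul_le_mul_of_nonneg_left h2 hpre.le
  linarith

lemma row1_00 {τ : ℝ} (ha : 0 ≤ τ) (hb : τ ≤ 1) :
    21 / 500 * τ * (2 * τ - 2 * (2559 / 1000)) ^ 2 ≤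
      (9 / 5 + 1126 / 1000 * τ ^ 2 - 6 / 5 * τ) * (193 / 100 - 13 / 20 - 21 / 500 * (2 * τ ^ 2)) := by
  nlinarith [mul_nonneg (sub_nonneg.2 ha) (sub_nonneg.2 hb), sq_nonneg (τ - 1), sq_nonneg τ]

lemma row1_01 {τ : ℝ} (ha : 0 ≤ τ) (hb : τ ≤ 1) :
    21 / 500 * τ * (2 * τ - 66 / 10) ^ 2 ≤
      (9 / 5 + 1126 / 1000 * τ ^ 2 - 6 / 5 * τ) * (193 / 100 - 13 / 20 - 21 / 500 * (2 * τ ^ 2)) := by
  nlinarith [mul_nonneg (sub_nonneg.2 ha) (sub_nonneg.2 hb), sq_nonneg (τ - 1), sq_nonneg τ]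

lemma row1_10 {τ : ℝ} (ha : 0 ≤ τ) (hb : τ ≤ 1) :
    21 / 500 * τ * (τ + (2647 / 1000) - 2 * (2559 / 1000)) ^ 2 ≤
      (9 / 5 + 1126 / 1000 * τ ^ 2 - 6 / 5 * τ) * (193 / 100 - 13 / 20 - 21 / 500 * ((2647 / 1000) ^ 2 + τ ^ 2 + 2 * (2559 / 1000) * ((2647 / 1000) - τ))) := by
  nlinarith [mul_nonneg (sub_nonneg.2 ha) (sub_nonneg.2 hb), sq_nonneg (τ - 1), sq_nonneg τ]

lemma row1_11 {τ : ℝ} (ha : 0 ≤ τ) (hb : τ ≤ 1) :
    21 / 500 * τ * (τ + (2647 / 1000) - 66 / 10) ^ 2 ≤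
      (9 / 5 + 1126 / 1000 * τ ^ 2 - 6 / 5 * τ) * (193 / 100 - 13 / 20 - 21 / 500 * ((2647 / 1000) ^ 2 + τ ^ 2 + 66 / 10 * ((2647 / 1000) - τ))) := by
  nlinarith [mul_nonneg (sub_nonneg.2 ha) (sub_nonneg.2 hb), sq_nonneg (τ - 1), sq_nonneg τ]

lemma row2_00 {τ : ℝ} (ha : 1 ≤ τ) (hb : τ ≤ 49 / 40) :
    21 / 500 * τ * (2 * τ - 2 * (2362 / 1000)) ^ 2 ≤
      (9 / 5 + 1126 / 1000 * τ ^ 2 - 6 / 5 * τ) * (193 / 100 - 13 / 20 - 21 / 500 * (2 * τ ^ 2)) := by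
  nlinarith [mul_nonneg (sub_nonneg.2 ha) (sub_nonneg.2 hb), sq_nonneg (τ - 1), sq_nonneg τ]

lemma row2_01 {τ : ℝ} (ha : 1 ≤ τ) (hb : τ ≤ 49 / 40) :
    21 / 500 * τ * (2 * τ - 66 / 10) ^ 2 ≤
      (9 / 5 + 1126 / 1000 * τ ^ 2 - 6 / 5 * τ) * (193 / 100 - 13 / 20 - 21 / 500 * (2 * τ ^ 2)) := by
  nlinarith [mul_nonneg (sub_nonneg.2 ha) (sub_nonneg.2 hb), sq_nonneg (τ - 1), sq_nonneg τ]

lemma row2_10 {τ : ℝ} (ha : 1 ≤ τ) (hb : τ ≤ 49 / 40) :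
    21 / 500 * τ * (τ + (2980 / 1000) - 2 * (2362 / 1000)) ^ 2 ≤
      (9 / 5 + 1126 / 1000 * τ ^ 2 - 6 / 5 * τ) * (193 / 100 - 13 / 20 - 21 / 500 * ((2980 / 1000) ^ 2 + τ ^ 2 + 2 * (2362 / 1000) * ((2980 / 1000) - τ))) := by
  nlinarith [mul_nonneg (sub_nonneg.2 ha) (sub_nonneg.2 hb), sq_nonneg (τ - 1), sq_nonneg τ]

lemma row2_11 {τ : ℝ} (ha : 1 ≤ τ) (hb : τ ≤ 49 / 40) :
    21 / 500 * τ * (τ + (2980 / 1000) - 66 / 10) ^ 2 ≤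
      (9 / 5 + 1126 / 1000 * τ ^ 2 - 6 / 5 * τ) * (193 / 100 - 13 / 20 - 21 / 500 * ((2980 / 1000) ^ 2 + τ ^ 2 + 66 / 10 * ((2980 / 1000) - τ))) := by
  nlinarith [mul_nonneg (sub_nonneg.2 ha) (sub_nonneg.2 hb), sq_nonneg (τ - 1), sq_nonneg τ]

lemma row3_00 {τ : ℝ} (ha : 122 / 100 ≤ τ) (hb : τ ≤ 1415 / 1000) :
    21 / 500 * τ * (2 * τ - 2 * (2213 / 1000)) ^ 2 ≤
      (9 / 5 + 1126 / 1000 * τ ^ 2 - 6 / 5 * τ) * (193 / 100 - 13 / 20 - 21 / 500 * (2 * τ ^ 2)) := by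
  nlinarith [mul_nonneg (sub_nonneg.2 ha) (sub_nonneg.2 hb), sq_nonneg (τ - 1), sq_nonneg τ]

lemma row3_01 {τ : ℝ} (ha : 122 / 100 ≤ τ) (hb : τ ≤ 1415 / 1000) :
    21 / 500 * τ * (2 * τ - 66 / 10) ^ 2 ≤
      (9 / 5 + 1126 / 1000 * τ ^ 2 - 6 / 5 * τ) * (193 / 100 - 13 / 20 - 21 / 500 * (2 * τ ^ 2)) := by
  nlinarith [mul_nonneg (sub_nonneg.2 ha) (sub_nonneg.2 hb), sq_nonneg (τ - 1), sq_nonneg τ]

lemma row3_10 {τ : ℝ} (ha : 122 / 100 ≤ τ) (hb : τ ≤ 1415 / 1000) :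
    21 / 500 * τ * (τ + (3340 / 1000) - 2 * (2213 / 1000)) ^ 2 ≤
      (9 / 5 + 1126 / 1000 * τ ^ 2 - 6 / 5 * τ) * (193 / 100 - 13 / 20 - 21 / 500 * ((3340 / 1000) ^ 2 + τ ^ 2 + 2 * (2213 / 1000) * ((3340 / 1000) - τ))) := by
  nlinarith [mul_nonneg (sub_nonneg.2 ha) (sub_nonneg.2 hb), sq_nonneg (τ - 1), sq_nonneg τ]

lemma row3_11 {τ : ℝ} (ha : 122 / 100 ≤ τ) (hb : τ ≤ 1415 / 1000) :
    21 / 500 * τ * (τ + (3340 / 1000) - 66 / 10) ^ 2 ≤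
      (9 / 5 + 1126 / 1000 * τ ^ 2 - 6 / 5 * τ) * (193 / 100 - 13 / 20 - 21 / 500 * ((3340 / 1000) ^ 2 + τ ^ 2 + 66 / 10 * ((3340 / 1000) - τ))) := by
  nlinarith [mul_nonneg (sub_nonneg.2 ha) (sub_nonneg.2 hb), sq_nonneg (τ - 1), sq_nonneg τ]

lemma row4_00 {τ : ℝ} (ha : 141 / 100 ≤ τ) (hb : τ ≤ 1582 / 1000) :
    21 / 500 * τ * (2 * τ - 2 * (2098 / 1000)) ^ 2 ≤
      (9 / 5 + 1126 / 1000 * τ ^ 2 - 6 / 5 * τ) * (193 / 100 - 1 / 2 - 21 / 500 * (2 * τ ^ 2)) := by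
  nlinarith [mul_nonneg (sub_nonneg.2 ha) (sub_nonneg.2 hb), sq_nonneg (τ - 1), sq_nonneg τ]

lemma row4_01 {τ : ℝ} (ha : 141 / 100 ≤ τ) (hb : τ ≤ 1582 / 1000) :
    21 / 500 * τ * (2 * τ - 66 / 10) ^ 2 ≤
      (9 / 5 + 1126 / 1000 * τ ^ 2 - 6 / 5 * τ) * (193 / 100 - 1 / 2 - 21 / 500 * (2 * τ ^ 2)) := by
  nlinarith [mul_nonneg (sub_nonneg.2 ha) (sub_nonneg.2 hb), sq_nonneg (τ - 1), sq_nonneg τ]

lemma row4_10 {τ : ℝ} (ha : 141 / 100 ≤ τ) (hb : τ ≤ 1582 / 1000) :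
    21 / 500 * τ * (τ + (3726 / 1000) - 2 * (2098 / 1000)) ^ 2 ≤
      (9 / 5 + 1126 / 1000 * τ ^ 2 - 6 / 5 * τ) * (193 / 100 - 1 / 2 - 21 / 500 * ((3726 / 1000) ^ 2 + τ ^ 2 + 2 * (2098 / 1000) * ((3726 / 1000) - τ))) := by
  nlinarith [mul_nonneg (sub_nonneg.2 ha) (sub_nonneg.2 hb), sq_nonneg (τ - 1), sq_nonneg τ]

lemma row4_11 {τ : ℝ} (ha : 141 / 100 ≤ τ) (hb : τ ≤ 1582 / 1000) :
    21 / 500 * τ * (τ + (3726 / 1000) - 66 / 10) ^ 2 ≤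
      (9 / 5 + 1126 / 1000 * τ ^ 2 - 6 / 5 * τ) * (193 / 100 - 1 / 2 - 21 / 500 * ((3726 / 1000) ^ 2 + τ ^ 2 + 66 / 10 * ((3726 / 1000) - τ))) := by
  nlinarith [mul_nonneg (sub_nonneg.2 ha) (sub_nonneg.2 hb), sq_nonneg (τ - 1), sq_nonneg τ]

/-- **The side `σ ≥ T` for `n T² ≤ 5/2`**. -/
theorem posX_low {ε T σ h l G₂ E c₀ c₁ : ℝ} (hm : 98 ≤ m) (hε1 : 7 / 2 ≤ ε) (hε2 : ε ≤ 21 / 5)
    (hc₀ : c₀ = 9 / 5 * ε / √((m : ℝ) + 2)) (hc₁ : c₁ = 6 / 5 * ε * √((m : ℝ) + 2))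
    (hT : 0 < T) (hh : 0 < h) (hσ : T ≤ σ) (hG : -(7 / 100) ≤ G₂) (hl : -(pre m T * E) ≤ l)
    (hz : ((m : ℝ) + 2) * T ^ 2 ≤ 5 / 2)
    (hS : √((m : ℝ) + 2) * σ ≤
      20667 / 10000 * ((1 + T ^ 2 / 2) * phiR (((m : ℝ) + 2) * T ^ 2))) :
    ∃ L, L ≤ valQ ε T σ h + (2 * (shP m c₀ c₁ T / pre m T) * (σ - T) + G₂) * (h - 1) ∧
      -(pre m T * (2 * G₂ ^ 2 + 5 * E ^ 2 / (4 * ε))) ≤ pre m T * L + (σ - T) * l +
        (σ - T) ^ 2 * (shP' m c₀ c₁ T + 2 * muX m T * shS m c₀ c₁ T) := by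
  have hm' : (98 : ℝ) ≤ (m : ℝ) := by exact_mod_cast hm
  set z := ((m : ℝ) + 2) * T ^ 2 with hzdef
  set τ := √((m : ℝ) + 2) * T with hτ
  have hτ0 : 0 < τ := by positivity
  have hτ2 : τ ^ 2 = z := by rw [hτ, mul_pow, sq_sqrt (by linarith)]
  have hsz : T ^ 2 / 2 ≤ z / 200 := by
    rw [hzdef]; linarith [mul_le_mul_of_nonneg_right (by linarith : (100 : ℝ) ≤ (m : ℝ) + 2) (sq_nonneg T)]
  have hup : ∀ z1 S : ℝ, z ≤ z1 → 20667 / 10000 * ((1 + z1 / 200) * phiR z1) ≤ S →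
      √((m : ℝ) + 2) * σ ≤ S := fun z1 S h1 h2 => by
    refine hS.trans (le_trans (mul_le_mul_of_nonneg_left ?_ (by norm_num)) h2)
    have hp : 0 ≤ phiR z := by rw [← hτ2]; unfold phiR; positivity
    exact mul_le_mul (by linarith) (phiR_mono (by rw [← hτ2]; positivity) h1) hp
      (by linarith [sq_nonneg τ])
  have hmono : ∀ ω : ℝ, 1 / 2 ≤ ω → pre m T * (G₂ ^ 2 / ω + 5 * E ^ 2 / (4 * ε)) ≤
      pre m T * (2 * G₂ ^ 2 + 5 * E ^ 2 / (4 * ε)) := fun ω hω => by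
    refine mul_le_mul_of_nonneg_left ?_ (by unfold pre; positivity)
    have : G₂ ^ 2 / ω ≤ 2 * G₂ ^ 2 := by
      rw [div_le_iff₀ (by linarith)]
      linarith [mul_le_mul_of_nonneg_left hω (sq_nonneg G₂)]
    linarith
  have hlo : ∀ a : ℝ, 0 ≤ a → a ^ 2 ≤ z → a ≤ τ := fun a ha h => by
    rw [← hτ2] at h
    exact le_of_pow_le_pow_left₀ two_ne_zero hτ0.le h
  have hhi : ∀ b : ℝ, 0 ≤ b → z ≤ b ^ 2 → τ ≤ b := fun b hb h => by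
    rw [← hτ2] at h
    exact le_of_pow_le_pow_left₀ two_ne_zero hb h
  rcases le_or_gt z 1 with h1 | h1
  · have hb := hhi 1 (by norm_num) (by linarith)
    obtain ⟨L, hL, hle⟩ := low_row (ω := 13 / 20) (z1 := 1) (S := (2647 / 1000))
      (PL := (2559 / 1000)) hm hε1 hε2 hc₀ hc₁ hT hh hσ hG hl (by norm_num) (by norm_num) h1
      (by norm_num) (hup (1) _ h1 (by norm_num [phiR])) (by norm_num) (by norm_num)
      τ hτ (by nlinarith) (row1_00 hτ0.le hb) (row1_01 hτ0.le hb) (row1_10 hτ0.le hb) (row1_11 hτ0.le hb)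
    exact ⟨L, hL, le_trans (neg_le_neg (hmono _ (by norm_num))) hle⟩
  rcases le_or_gt z (3 / 2) with h2 | h2
  · have ha := hlo 1 (by norm_num) (by linarith)
    have hb := hhi (49 / 40) (by norm_num) (by linarith)
    obtain ⟨L, hL, hle⟩ := low_row (ω := 13 / 20) (z1 := 3 / 2) (S := (2980 / 1000))
      (PL := (2362 / 1000)) hm hε1 hε2 hc₀ hc₁ hT hh hσ hG hl (by norm_num) (by norm_num) h2
      (by norm_num) (hup (3 / 2) _ h2 (by norm_num [phiR])) (by norm_num) (by norm_num)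
      τ hτ (by nlinarith) (row2_00 ha hb) (row2_01 ha hb) (row2_10 ha hb) (row2_11 ha hb)
    exact ⟨L, hL, le_trans (neg_le_neg (hmono _ (by norm_num))) hle⟩
  rcases le_or_gt z 2 with h3 | h3
  · have ha := hlo (122 / 100) (by norm_num) (by linarith)
    have hb := hhi (1415 / 1000) (by norm_num) (by linarith)
    obtain ⟨L, hL, hle⟩ := low_row (ω := 13 / 20) (z1 := 2) (S := (3340 / 1000))
      (PL := (2213 / 1000)) hm hε1 hε2 hc₀ hc₁ hT hh hσ hG hl (by norm_num) (by norm_num) h3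
      (by norm_num) (hup (2) _ h3 (by norm_num [phiR])) (by norm_num) (by norm_num)
      τ hτ (by nlinarith) (row3_00 ha hb) (row3_01 ha hb) (row3_10 ha hb) (row3_11 ha hb)
    exact ⟨L, hL, le_trans (neg_le_neg (hmono _ (by norm_num))) hle⟩
  · have ha := hlo (141 / 100) (by norm_num) (by linarith)
    have hb := hhi (1582 / 1000) (by norm_num) (by linarith)
    obtain ⟨L, hL, hle⟩ := low_row (ω := 1 / 2) (z1 := 5 / 2) (S := (3726 / 1000))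
      (PL := (2098 / 1000)) hm hε1 hε2 hc₀ hc₁ hT hh hσ hG hl (by norm_num) (by norm_num) hz
      (by norm_num) (hup (5 / 2) _ hz (by norm_num [phiR])) (by norm_num) (by norm_num)
      τ hτ (by nlinarith) (row4_00 ha hb) (row4_01 ha hb) (row4_10 ha hb) (row4_11 ha hb)
    exact ⟨L, hL, le_trans (neg_le_neg (hmono _ (by norm_num))) hle⟩

end Vale.Agent.P237.Cal
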