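import Vale.Agent.P237.Cal.TanRow
import Vale.Agent.P237.Cal.PosLow

/-!
# P237: zone II for `T ≥ 47/100`, `n ≥ 256`

The multiplier is `b = ε + 1/1000`. The weight pays for its price up to `T = 3`; beyond, the part
of the weight which the flattening makes negative costs `n kap² W` over the prefactor.
-/

open Real

namespace Vale.Agent.P237.Cal

variable {m : ℕ}

/-- The two coefficients behind the multiplier. -/
lemma tail_coeff {ε b η T σ D p G₂ : ℝ} (hT : 47 / 100 ≤ T) (he0 : 37 / 10 ≤ ε) (he1 : ε ≤ 403 / 100)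
    (hb : b = ε + 1 / 1000) (hη0 : 0 ≤ η) (hη : η ≤ 3 / 50) (hD0 : 0 ≤ D) (hD1 : D ≤ 13 / 20)
    (hp1 : -(34 / 100) ≤ p) (hG : -(127 / 2000 * (T + 1 / T)) ≤ G₂) :
    1 + b + σ ^ 2 / 1000 ≤ tanA ε b η σ ∧ 3 / 2 ≤ tanB ε b η T (2 * p * D + G₂) := by
  have hT0 : 0 < T := by linarith
  have hb0 : 0 ≤ b := by linarith
  have hb1 : b ≤ 4031 / 1000 := by linarith
  have e : ε - b = -(1 / 1000) := by linarith
  have hbη : 0 ≤ b * η := mul_nonneg hb0 hη0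
  refine ⟨by unfold tanA; rw [e]; linarith, ?_⟩
  have hpD : -(34 / 100) * (13 / 20) ≤ p * D := by
    nlinarith [mul_le_mul_of_nonneg_right hp1 hD0]
  have hi : 1 / T ^ 2 ≤ 453 / 100 := by
    rw [div_le_iff₀ (by positivity)]; nlinarith
  have hi' : 127 / 2000 / T ≤ 136 / 1000 := by
    rw [div_le_iff₀ hT0]; linarith
  have hbB : b * η * (1 + 1 / T ^ 2) ≤ 4031 / 1000 * (3 / 50) * (553 / 100) :=
    mul_le_mul (mul_le_mul hb1 hη hη0 (by norm_num)) (by linarith) (by positivity) (by norm_num)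
  have e2 : 127 / 2000 * (T + 1 / T) = 127 / 2000 * T + 127 / 2000 / T := by ring
  have := sq_nonneg (T - 127 / 4)
  unfold tanB
  rw [e]
  linarith

/-- The square after the split. -/
lemma tail_quot {G₂ D p σ T b η R N : ℝ} (hN : 31 / 5 ≤ N) (hN2 : σ ^ 2 / 1000 ≤ N)
    (hD0 : 0 ≤ D) (hD1 : D ≤ 13 / 20) (hp : p ^ 2 ≤ 1156 / 10000) (hb : 0 ≤ b)
    (hb1 : b ≤ 4031 / 1000) (hη0 : 0 ≤ η) (hη : η ≤ 3 / 50) (hT0 : 0 ≤ T) (hσ : T ≤ σ)
    (hR : 147 / 100 * (2 + 1 / T ^ 2) ^ 2 ≤ R * N) :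
    (G₂ + (2 * p - (σ + T) / 1000) * D - b * η * (2 + 1 / T ^ 2)) ^ 2 / N ≤
      G₂ ^ 2 + 62 / 100 * D + R * η := by
  have hN0 : 0 < N := by linarith
  set c := 2 * p - (σ + T) / 1000 with hc
  set d := 2 + 1 / T ^ 2 with hd
  rw [div_le_iff₀ hN0]
  have h6 : (G₂ + c * D - b * η * d) ^ 2 ≤
      6 * G₂ ^ 2 + 6 * (c * D) ^ 2 + 3 / 2 * (b * η * d) ^ 2 := by
    linarith [sq_nonneg (G₂ - c * D), sq_nonneg (4 * G₂ + b * η * d),
      sq_nonneg (4 * (c * D) + b * η * d)]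
  have hG6 : 6 * G₂ ^ 2 ≤ G₂ ^ 2 * N := by
    have := mul_le_mul_of_nonneg_left (by linarith : (6 : ℝ) ≤ N) (sq_nonneg G₂)
    linarith
  have hx : 6 * (c * D) ^ 2 ≤ 62 / 100 * D * N := by
    have hTσ : T ^ 2 ≤ σ ^ 2 := pow_le_pow_left₀ hT0 hσ 2
    have h1 : c ^ 2 ≤ 1572 / 10000 * N := by
      have : c ^ 2 ≤ 8 * p ^ 2 + 8 * (σ ^ 2 / 1000) / 1000 := by
        rw [hc]
        linarith [sq_nonneg (2 * p + (σ + T) / 1000), sq_nonneg (σ - T)]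
      linarith
    have h2 := mul_le_mul h1 hD1 hD0 (by linarith)
    have h3 := mul_le_mul_of_nonneg_left h2 hD0
    have h4 : 0 ≤ D * N := mul_nonneg hD0 hN0.le
    have e : (c * D) ^ 2 = D * (c ^ 2 * D) := by ring
    rw [e]
    linarith
  have hy : 3 / 2 * (b * η * d) ^ 2 ≤ R * η * N := by
    have h1 : b ^ 2 ≤ (4031 / 1000) ^ 2 := pow_le_pow_left₀ hb hb1 2
    have h2 : η * η ≤ 3 / 50 * η := mul_le_mul_of_nonneg_right hη hη0
    have h3 := mul_le_mul h1 h2 (mul_nonneg hη0 hη0) (by norm_num)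
    have h4 := mul_le_mul_of_nonneg_right h3 (sq_nonneg d)
    have h5 := mul_le_mul_of_nonneg_left hR hη0
    have h6 : 0 ≤ η * d ^ 2 := mul_nonneg hη0 (sq_nonneg _)
    have e : (b * η * d) ^ 2 = b ^ 2 * (η * η) * d ^ 2 := by ring
    rw [e]
    linarith
  rw [add_mul, add_mul]
  linarith

/-- The weight `K` pays for the multiplier. -/
theorem tail_core {π' l Cw Sl M Y T σ h ε p G₂ K R : ℝ} (hπ : 0 ≤ π') (hR : RegC Y T σ h)
    (hY : 1 ≤ Y) (hT : 47 / 100 ≤ T) (hσ : T ≤ σ) (he0 : 37 / 10 ≤ ε) (he1 : ε ≤ 403 / 100)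
    (hη : Y ^ 2 - 1 ≤ 3 / 50) (hp0 : p ≤ 0) (hp1 : -(34 / 100) ≤ p)
    (hG : -(127 / 2000 * (T + 1 / T)) ≤ G₂) (hCw : 0 ≤ Cw) (hl : π' * (2 * T * K) ≤ l + M)
    (hK1 : 4031 / 1000 / T ^ 2 + 31 / 100 / T ≤ K) (hK2 : 4031 / 1000 / T ^ 2 + R ≤ K)
    (hR2 : ∀ N : ℝ, 31 / 5 ≤ N → T ^ 2 / 1000 ≤ N → 147 / 100 * (2 + 1 / T ^ 2) ^ 2 ≤ R * N)
    (hSl : l * ((Y ^ 2 - 1) / (2 * T)) ≤ Sl) :
    ∃ L, L ≤ valQ ε T σ h + (2 * p * (σ - T) + G₂) * (h - 1) ∧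
      -(π' * G₂ ^ 2) - M * ((σ - T) + (Y ^ 2 - 1) / (2 * T)) ≤
        π' * L + (σ - T) * l + (σ - T) ^ 2 * Cw + Sl := by
  have hT0 : 0 < T := by linarith
  have hη0 : 0 ≤ Y ^ 2 - 1 := sub_nonneg.2 (one_le_pow₀ hY)
  have hD0 : 0 ≤ σ - T := by linarith
  have hD1 : σ - T ≤ 13 / 20 := by
    have h1 : √(1 + T ^ 2) ≤ T + 13 / 20 := by
      rw [sqrt_le_left (by linarith)]; linarith
    linarith [hR.σ_le]
  obtain ⟨hA, hB⟩ := tail_coeff (σ := σ) hT he0 he1 rfl hη0 hη hD0 hD1 hp1 hG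
  set η := Y ^ 2 - 1 with hηdef
  set D := σ - T with hDdef
  have hb : 0 ≤ ε + 1 / 1000 := by linarith
  have hb1 : ε + 1 / 1000 ≤ 4031 / 1000 := by linarith
  set N := tanA ε (ε + 1 / 1000) η σ + tanB ε (ε + 1 / 1000) η T (2 * p * D + G₂) with hNdef
  have hsq := sq_nonneg σ
  have hσ2 : T ^ 2 ≤ σ ^ 2 := pow_le_pow_left₀ hT0.le hσ 2
  have hN1 : 31 / 5 ≤ N := by linarith
  have hN2 : σ ^ 2 / 1000 ≤ N := by linarith
  have hp2 : p ^ 2 ≤ 1156 / 10000 := by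
    have := pow_le_pow_left₀ (neg_nonneg.2 hp0) (neg_le.1 hp1) 2
    linarith [neg_sq p]
  have hq := tail_quot (G₂ := G₂) hN1 hN2 hD0 hD1 hp2 hb hb1 hη0 hη hT0.le hσ
    (hR2 N hN1 (by linarith))
  refine ⟨_, valQ_ge_tan (b := ε + 1 / 1000) (G := 2 * p * D + G₂) hb hR (by linarith) (by linarith)
    (by linarith), ?_⟩
  rw [← hηdef, ← hDdef, ← hNdef]
  have e : tanB ε (ε + 1 / 1000) η T (2 * p * D + G₂) - tanA ε (ε + 1 / 1000) η σ =
      G₂ + (2 * p - (σ + T) / 1000) * D - (ε + 1 / 1000) * η * (2 + 1 / T ^ 2) := by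
    simp only [tanA, tanB, hDdef]; ring
  rw [e]
  clear_value η D N
  generalize (G₂ + (2 * p - (σ + T) / 1000) * D - (ε + 1 / 1000) * η * (2 + 1 / T ^ 2)) ^ 2 / N = q
    at hq ⊢
  generalize hbdef : ε + 1 / 1000 = b at hb hb1 ⊢
  have hD' : 2 * b / T + 62 / 100 ≤ 2 * T * K := by
    have h1 := mul_le_mul_of_nonneg_left hK1 (by linarith : (0 : ℝ) ≤ 2 * T)
    have e1 : 2 * T * (4031 / 1000 / T ^ 2 + 31 / 100 / T) = 4031 / 500 / T + 62 / 100 := by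
      field_simp; ring
    have h2 : 2 * b / T ≤ 4031 / 500 / T := div_le_div_of_nonneg_right (by linarith) hT0.le
    linarith
  have hη' : b / T ^ 2 + R ≤ K := by
    have : b / T ^ 2 ≤ 4031 / 1000 / T ^ 2 := div_le_div_of_nonneg_right hb1 (by positivity)
    linarith
  have k1 := mul_le_mul_of_nonneg_left hD' (mul_nonneg hπ hD0)
  have k2 := mul_le_mul_of_nonneg_left hη' (mul_nonneg hπ hη0)
  have k3 := mul_le_mul_of_nonneg_right hl (by positivity : 0 ≤ D + η / (2 * T))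
  have k4 := mul_le_mul_of_nonneg_left hq hπ
  have k5 : 0 ≤ π' * (-(ε - b) * D ^ 2) :=
    mul_nonneg hπ (mul_nonneg (by linarith) (sq_nonneg D))
  have k6 : 0 ≤ D ^ 2 * Cw := mul_nonneg (sq_nonneg D) hCw
  have e2 : π' * (2 * T * K) * (η / (2 * T)) = π' * η * K := by field_simp
  have e3 : 2 * b * D / T = D * (2 * b / T) := by ring
  have e4 : b * η / T ^ 2 = η * (b / T ^ 2) := by ring
  rw [e3, e4]
  generalize η / (2 * T) = u at *
  generalize 2 * b / T = c at *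
  generalize b / T ^ 2 = c' at *
  linarith

/-- The `G₂` line of the rows on the tail. -/
lemma tail_G {ε v T Y G₂ : ℝ} (hv : 16 ≤ v) (hY : 1 ≤ Y) (hη : Y ^ 2 - 1 ≤ 3 / 50) (hT : 0 < T)
    (he0 : 0 ≤ ε) (he1 : ε ≤ 403 / 100)
    (hG : -(21 / 5 * ε / v * (1 + T ^ 2) * min ((Y ^ 2 - 1) / T) (2 * T / 3)) ≤ G₂) :
    -(127 / 2000 * (T + 1 / T)) ≤ G₂ := by
  refine le_trans (neg_le_neg ?_) hG
  have h0 : 0 ≤ Y ^ 2 - 1 := by nlinarith
  have h1 : ε / v ≤ 403 / 1600 := by rw [div_le_iff₀ (by linarith)]; linarith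
  have h2 : min ((Y ^ 2 - 1) / T) (2 * T / 3) ≤ 3 / 50 / T :=
    (min_le_left _ _).trans (div_le_div_of_nonneg_right hη hT.le)
  calc 21 / 5 * ε / v * (1 + T ^ 2) * min ((Y ^ 2 - 1) / T) (2 * T / 3)
      ≤ 21 / 5 * (403 / 1600) * (1 + T ^ 2) * (3 / 50 / T) := by
        refine mul_le_mul ?_ h2 (le_min (div_nonneg h0 hT.le) (by positivity)) (by positivity)
        refine mul_le_mul_of_nonneg_right ?_ (by positivity)
        rw [mul_div_assoc]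
        exact mul_le_mul_of_nonneg_left h1 (by norm_num)
    _ ≤ 127 / 2000 * (T + 1 / T) := by
        have e : (21 : ℝ) / 5 * (403 / 1600) * (1 + T ^ 2) * (3 / 50 / T) =
            21 / 5 * (403 / 1600) * (3 / 50) * (T + 1 / T) := by field_simp; ring
        rw [e]
        exact mul_le_mul_of_nonneg_right (by norm_num) (by positivity)

/-- The weight on a piece `[T₀, T₁] ⊂ [47/100, 3]`. -/
lemma tail_weight {ε kap T T₀ T₁ w K : ℝ} (hm : 254 ≤ m) (he0 : 37 / 10 ≤ ε) (hk0 : 0 ≤ kap)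
    (hk : kap ≤ 1 / 2) (hT₀ : 47 / 100 ≤ T₀) (h0 : T₀ ≤ T) (h1 : T ≤ T₁)
    (hw : √(1 + T₁ ^ 2) ≤ w) (hc : 0 ≤ tanCL w)
    (hK : K ≤ 47 / 20 * tanCL w * ((256 * T₀ ^ 2 - 101 / 50) / (1 + T₀ ^ 2))) :
    pre m T * (2 * T * K) ≤ ellFlat m ε kap (rr (m + 1)) T := by
  have hT : 0 < T := by linarith
  have hm' : (254 : ℝ) ≤ (m : ℝ) := by exact_mod_cast hm
  set z := ((m : ℝ) + 2) * T ^ 2 with hz
  have hs : T₀ ^ 2 ≤ T ^ 2 := pow_le_pow_left₀ (by linarith) h0 2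
  have hz1 : 256 * T ^ 2 ≤ z := mul_le_mul_of_nonneg_right (by linarith) (sq_nonneg T)
  have hs0 : (22 / 100 : ℝ) ≤ T₀ ^ 2 := by nlinarith
  have hw' : √(1 + T ^ 2) ≤ w :=
    (sqrt_le_sqrt (by linarith [pow_le_pow_left₀ hT.le h1 2])).trans hw
  refine le_trans ?_ (ellFlat_tan hm (by linarith) hk0 hk hT (by rw [← hz]; linarith) hw')
  refine mul_le_mul_of_nonneg_left ?_ (by unfold pre; positivity)
  rw [← hz]
  have hq : (256 * T₀ ^ 2 - 101 / 50) / (1 + T₀ ^ 2) ≤ (256 * T ^ 2 - 101 / 50) / (1 + T ^ 2) := by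
    rw [div_le_div_iff₀ (by positivity) (by positivity)]; linarith
  have hq2 : (256 * T ^ 2 - 101 / 50) / (1 + T ^ 2) ≤ (z - 101 / 100) ^ 2 / (z * (1 + T ^ 2)) := by
    rw [← div_div]
    refine div_le_div_of_nonneg_right ?_ (by positivity)
    rw [le_div_iff₀ (by linarith)]
    have := mul_le_mul_of_nonneg_right hz1 (by linarith : (0 : ℝ) ≤ z)
    linarith
  have h2 := mul_le_mul_of_nonneg_left (hq.trans hq2) (mul_nonneg hc hT.le)
  have h3 : 0 ≤ tanCL w * T * ((z - 101 / 100) ^ 2 / (z * (1 + T ^ 2))) := by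
    have : 0 ≤ z := by linarith
    positivity
  have h4 := mul_le_mul_of_nonneg_right (by linarith : (47 : ℝ) / 10 ≤ 1 + ε) h3
  have h5 := mul_le_mul_of_nonneg_left hK (by linarith : (0 : ℝ) ≤ 2 * T)
  have e : (1 + ε) * tanCL w * T * (z - 101 / 100) ^ 2 / (z * (1 + T ^ 2)) =
      (1 + ε) * (tanCL w * T * ((z - 101 / 100) ^ 2 / (z * (1 + T ^ 2)))) := by ring
  rw [e]
  linarith

/-- The weight beyond `T = 3`: negative only by `n kap² W³/T`. -/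
lemma far_weight {ε kap T : ℝ} (hm : 254 ≤ m) (he0 : 37 / 10 ≤ ε) (he1 : ε ≤ 403 / 100)
    (hk0 : 0 ≤ kap) (hT : 3 ≤ T) :
    pre m T * (2 * T * (270 / T)) ≤ ellFlat m ε kap (rr (m + 1)) T +
      pre m T * (8 / 5 * ((m : ℝ) + 2) * kap ^ 2 * √(1 + T ^ 2) ^ 3 / T) := by
  have hm' : (254 : ℝ) ≤ (m : ℝ) := by exact_mod_cast hm
  have hT0 : 0 < T := by linarith
  have hW0 := w_pos T
  have hs := w_sq T
  have hr1 := (one_lt_rr (k := m + 1) (by omega)).le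
  have hr0 : 0 < rr (m + 1) := one_pos.trans_le hr1
  have hr2 := rr_le_tan hm
  set W := √(1 + T ^ 2) with hWdef
  set N := (m : ℝ) + 2 with hN
  set r := rr (m + 1) with hr
  have hWT : T ≤ W := le_sqrt_of_sq_le (by linarith)
  have hW : 316 / 100 ≤ W := le_sqrt_of_sq_le (by nlinarith)
  have hN0 : 256 ≤ N := by linarith
  -- the main part
  have h1 : 9 / 10 * W ^ 3 ≤ (W - r) ^ 2 * (2 * W + r) / r ^ 3 := by
    rw [le_div_iff₀ (by positivity)]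
    have a1 : (68 / 100 * W) ^ 2 ≤ (W - r) ^ 2 :=
      pow_le_pow_left₀ (by positivity) (by linarith) 2
    have a2 := mul_le_mul a1 (by linarith : 2 * W ≤ 2 * W + r) (by positivity) (sq_nonneg _)
    have a3 : r ^ 3 ≤ (1002 / 1000) ^ 3 := pow_le_pow_left₀ hr0.le hr2 3
    have a4 := mul_le_mul_of_nonneg_left a3 (by positivity : (0 : ℝ) ≤ 9 / 10 * W ^ 3)
    have : 0 ≤ W ^ 3 := by positivity
    linarith
  -- the flattening
  have h2 : -(N * (9 / 20 * W ^ 3 + 5 / 16 * kap ^ 2 * W ^ 5)) ≤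
      kap / N * (-(3 / 4) * (N * T ^ 2 - 1) ^ 2 + T ^ 2 * (3 / 2 * (N * T ^ 2) - 15 / 4)) := by
    have hz : 1 ≤ N * T ^ 2 := by nlinarith
    have hz' : 0 ≤ 3 / 2 * (N * T ^ 2) - 15 / 4 := by nlinarith
    have a1 : (N * T ^ 2 - 1) ^ 2 ≤ (N * W ^ 2) ^ 2 :=
      pow_le_pow_left₀ (by linarith) (by rw [hs]; linarith) 2
    have a2 := mul_le_mul_of_nonneg_left a1 (div_nonneg hk0 (by linarith : 0 ≤ N))
    have a3 : 0 ≤ kap / N * (T ^ 2 * (3 / 2 * (N * T ^ 2) - 15 / 4)) := by positivity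
    have a4 : 3 / 4 * kap * W ^ 4 ≤ 9 / 20 * W ^ 3 + 5 / 16 * kap ^ 2 * W ^ 5 := by
      have : 0 ≤ W ^ 3 * (6 * (1 / 1) - 5 * kap * W) ^ 2 := by positivity
      linarith
    have a5 := mul_le_mul_of_nonneg_left a4 (by linarith : 0 ≤ N)
    have e : kap / N * (N * W ^ 2) ^ 2 = N * kap * W ^ 4 := by field_simp
    linarith
  have hN2 : N + 2 = (m : ℝ) + 4 := by rw [hN]; ring
  have h3 : N * (9 / 20 * W ^ 3 - 5 / 16 * kap ^ 2 * W ^ 5) ≤ flatB m kap r T := by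
    have a1 := mul_le_mul_of_nonneg_left h1 (by linarith : (0 : ℝ) ≤ N)
    have a2 : 0 ≤ (W - r) ^ 2 * (2 * W + r) / r ^ 3 :=
      le_trans (by positivity) h1
    simp only [flatB, ← hWdef, ← hN, ← hN2]
    linarith
  have hpre : 0 ≤ pre m T := by unfold pre; positivity
  have e1 : ellFlat m ε kap r T = pre m T * ((1 + ε) * flatB m kap r T / (T * W ^ 2)) := by
    rw [ellFlat_eq hr0.ne' T, ← hWdef]
    simp only [pre, ← hWdef]
    rw [show W ^ (m + 6) = W ^ (m + 4) * W ^ 2 from pow_add _ _ 2]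
    field_simp
  rw [e1, ← mul_add]
  refine mul_le_mul_of_nonneg_left ?_ hpre
  have e2 : 2 * T * (270 / T) = 540 := by field_simp; ring
  have e3 : (1 + ε) * flatB m kap r T / (T * W ^ 2) + 8 / 5 * N * kap ^ 2 * W ^ 3 / T =
      ((1 + ε) * flatB m kap r T + 8 / 5 * N * kap ^ 2 * W ^ 5) / (T * W ^ 2) := by
    field_simp
  rw [e2, e3, le_div_iff₀ (by positivity)]
  have a1 := mul_le_mul_of_nonneg_left h3 (by linarith : (0 : ℝ) ≤ 1 + ε)
  have a2 : 540 * (T * W ^ 2) ≤ 47 / 10 * (N * (9 / 20 * W ^ 3)) := by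
    have b1 := mul_le_mul_of_nonneg_right hWT (sq_nonneg W)
    have b2 := mul_le_mul_of_nonneg_right hN0 (by positivity : (0 : ℝ) ≤ W ^ 3)
    have : 0 ≤ W ^ 3 := by positivity
    linarith
  have a3 := mul_le_mul_of_nonneg_right (by linarith : (47 : ℝ) / 10 ≤ 1 + ε)
    (by positivity : 0 ≤ N * (9 / 20 * W ^ 3))
  have a4 := mul_le_mul_of_nonneg_right (by linarith : (1 + ε) * (5 / 16) ≤ 8 / 5)
    (by positivity : 0 ≤ N * (kap ^ 2 * W ^ 5))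
  linarith

/-- The piece `T ≥ 3`. -/
lemma tail_far {Y T σ h ε kap G₂ Sl p Cw : ℝ} (hm : 254 ≤ m) (hR : RegC Y T σ h) (hY : 1 ≤ Y)
    (hη : Y ^ 2 - 1 ≤ 3 / 50) (hT : 3 ≤ T) (hσ : T ≤ σ) (he0 : 37 / 10 ≤ ε) (he1 : ε ≤ 403 / 100)
    (hk0 : 0 ≤ kap) (hp0 : p ≤ 0) (hp1 : -(34 / 100) ≤ p)
    (hG : -(127 / 2000 * (T + 1 / T)) ≤ G₂) (hCw : 0 ≤ Cw)
    (hSl : ellFlat m ε kap (rr (m + 1)) T * ((Y ^ 2 - 1) / (2 * T)) ≤ Sl) :
    ∃ L, L ≤ valQ ε T σ h + (2 * p * (σ - T) + G₂) * (h - 1) ∧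
      -(pre m T * (G₂ ^ 2 + ((m : ℝ) + 2) * kap ^ 2 * √(1 + T ^ 2))) ≤
        pre m T * L + (σ - T) * ellFlat m ε kap (rr (m + 1)) T + (σ - T) ^ 2 * Cw + Sl := by
  have hT0 : 0 < T := by linarith
  have hpre : 0 ≤ pre m T := by unfold pre; positivity
  have hl := far_weight (m := m) hm he0 he1 hk0 hT
  have hT9 : (9 : ℝ) ≤ T ^ 2 := by
    have := pow_le_pow_left₀ (by norm_num) hT 2
    linarith
  have i9 : 1 / T ^ 2 ≤ 1 / 9 := one_div_le_one_div_of_le (by norm_num) hT9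
  have hd : 4031 / 1000 / T ≤ 4031 / 1000 / 3 :=
    div_le_div_of_nonneg_left (by norm_num) (by norm_num) hT
  have c1 : 4031 / 1000 / T ^ 2 + 31 / 100 / T ≤ 270 / T := by
    have e : 4031 / 1000 / T ^ 2 + 31 / 100 / T = (4031 / 1000 / T + 31 / 100) / T := by
      field_simp
    rw [e]
    exact div_le_div_of_nonneg_right (by linarith) hT0.le
  have c2 : 4031 / 1000 / T ^ 2 + 268 / T ≤ 270 / T := by
    have e : 4031 / 1000 / T ^ 2 + 268 / T = (4031 / 1000 / T + 268) / T := by field_simp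
    rw [e]
    exact div_le_div_of_nonneg_right (by linarith) hT0.le
  have c3 : ∀ N : ℝ, 31 / 5 ≤ N → T ^ 2 / 1000 ≤ N →
      147 / 100 * (2 + 1 / T ^ 2) ^ 2 ≤ 268 / T * N := by
    intro N hN hN'
    rw [show 268 / T * N = 268 * N / T by ring, le_div_iff₀ hT0]
    have h4 : (2 + 1 / T ^ 2) ^ 2 ≤ (19 / 9) ^ 2 :=
      pow_le_pow_left₀ (by positivity) (by linarith) 2
    have h5 : 7 / 100 * T ≤ N := by
      have := sq_nonneg (T - 70)
      linarith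
    have h6 := mul_le_mul_of_nonneg_right h4 hT0.le
    linarith
  obtain ⟨L, hL, hle⟩ := tail_core hpre hR hY (by linarith) hσ he0 he1 hη hp0 hp1 hG hCw hl c1 c2
    c3 hSl
  refine ⟨L, hL, le_trans ?_ hle⟩
  have hD : σ - T + (Y ^ 2 - 1) / (2 * T) ≤ 53 / 100 / T := by
    have h4 : √(1 + T ^ 2) ≤ T + 1 / 2 / T := by
      rw [sqrt_le_left (by positivity)]
      have e : (T + 1 / 2 / T) ^ 2 = T ^ 2 + 1 + (1 / 2 / T) ^ 2 := by field_simp; ring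
      linarith [sq_nonneg (1 / 2 / T)]
    have h5 : (Y ^ 2 - 1) / (2 * T) ≤ 3 / 100 / T := by
      have e : 3 / 100 / T = 3 / 50 / (2 * T) := by field_simp; ring
      rw [e]
      exact div_le_div_of_nonneg_right hη (by linarith)
    have e : 53 / 100 / T = 1 / 2 / T + 3 / 100 / T := by ring
    linarith [hR.σ_le]
  have hW2 : √(1 + T ^ 2) ^ 2 / T ^ 2 ≤ 10 / 9 := by
    rw [w_sq, div_le_iff₀ (by positivity)]; linarith
  generalize hWdef : √(1 + T ^ 2) = W at hW2 ⊢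
  have hW0 : 0 ≤ W := hWdef ▸ sqrt_nonneg _
  have hS : 0 ≤ pre m T * (((m : ℝ) + 2) * kap ^ 2 * W) := by positivity
  have hM : 0 ≤ pre m T * (8 / 5 * ((m : ℝ) + 2) * kap ^ 2 * W ^ 3 / T) := by positivity
  have k1 := mul_le_mul_of_nonneg_left hD hM
  have e : pre m T * (8 / 5 * ((m : ℝ) + 2) * kap ^ 2 * W ^ 3 / T) * (53 / 100 / T) =
      pre m T * (((m : ℝ) + 2) * kap ^ 2 * W) * (106 / 125 * (W ^ 2 / T ^ 2)) := by
    field_simp; ring
  have k2 : pre m T * (((m : ℝ) + 2) * kap ^ 2 * W) * (106 / 125 * (W ^ 2 / T ^ 2)) ≤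
      pre m T * (((m : ℝ) + 2) * kap ^ 2 * W) := mul_le_of_le_one_right hS (by linarith)
  linarith

/-- **Zone II for `T ≥ 47/100`**: the hypotheses of a row, `p` between the shape and `0`. -/
theorem posX_tail {Y T σ h ε kap p G₂ Sl v : ℝ} (hm : 254 ≤ m) (hv : v = √((m : ℝ) + 2))
    (hR : RegC Y T σ h) (hY : 1 ≤ Y) (hη : Y ^ 2 - 1 ≤ 3 / 50) (hT : 47 / 100 ≤ T) (hσ : T ≤ σ)
    (he0 : 37 / 10 ≤ ε) (he1 : ε ≤ 403 / 100) (hk0 : 0 ≤ kap) (hk : kap ≤ 1 / 2)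
    (hPl : shP m (9 / 5 * ε / v) (6 / 5 * ε * v) T / pre m T ≤ p) (hPh : p ≤ -(4 / 5 * ε / v))
    (hG : -(21 / 5 * ε / v * (1 + T ^ 2) * min ((Y ^ 2 - 1) / T) (2 * T / 3)) ≤ G₂)
    (hSl : ellFlat m ε kap (rr (m + 1)) T * ((Y ^ 2 - 1) / (2 * T)) ≤ Sl) :
    ∃ L, L ≤ valQ ε T σ h + (2 * p * (σ - T) + G₂) * (h - 1) ∧
      -(pre m T * ((33 / 50 + 3 / 250 * (((m : ℝ) + 2) * T ^ 2) ^ 2) * G₂ ^ 2 +
          ((m : ℝ) + 2) * kap ^ 2 * √(1 + T ^ 2))) ≤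
        pre m T * L + (σ - T) * ellFlat m ε kap (rr (m + 1)) T +
        (σ - T) ^ 2 * (shP' m (9 / 5 * ε / v) (6 / 5 * ε * v) T +
          2 * muX m T * shS m (9 / 5 * ε / v) (6 / 5 * ε * v) T) + Sl := by
  have hm' : (254 : ℝ) ≤ (m : ℝ) := by exact_mod_cast hm
  have hv2 : v ^ 2 = (m : ℝ) + 2 := by rw [hv]; exact sq_sqrt (by linarith)
  have hv16 : 16 ≤ v := by
    rw [hv, le_sqrt (by norm_num) (by linarith)]; linarith
  have hv0 : 0 < v := by linarith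
  have hT0 : 0 < T := by linarith
  have hε : 0 ≤ ε := by linarith
  have hη0 : 0 ≤ Y ^ 2 - 1 := by nlinarith
  have hpre : 0 < pre m T := by unfold pre; positivity
  have hz : (56 : ℝ) ≤ v ^ 2 * T ^ 2 := by
    have := mul_le_mul (pow_le_pow_left₀ (by norm_num) hv16 2)
      (pow_le_pow_left₀ (by norm_num) hT 2) (by norm_num) (by positivity)
    linarith
  have hp0 : p ≤ 0 := hPh.trans (neg_nonpos.2 (by positivity))
  have hp1 : -(34 / 100) ≤ p := by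
    refine le_trans (le_trans (neg_le_neg ?_)
      (mid_P (m := m) hε (by linarith) hv2 rfl rfl hpre hT0 (by linarith) hz)) hPl
    rw [div_le_iff₀ hv0]
    linarith
  have hCw : 0 ≤ shP' m (9 / 5 * ε / v) (6 / 5 * ε * v) T +
      2 * muX m T * shS m (9 / 5 * ε / v) (6 / 5 * ε * v) T := by
    rw [shapes_A hv0 hT0 rfl rfl]; positivity
  have hG' := tail_G hv16 hY hη hT0 hε he1 hG
  have hloss : G₂ ^ 2 ≤ (33 / 50 + 3 / 250 * (((m : ℝ) + 2) * T ^ 2) ^ 2) * G₂ ^ 2 := by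
    refine le_mul_of_one_le_left (sq_nonneg _) ?_
    rw [← hv2]
    have := pow_le_pow_left₀ (by norm_num) hz 2
    linarith
  have hloss' := mul_le_mul_of_nonneg_left hloss hpre.le
  set S := ((m : ℝ) + 2) * kap ^ 2 * √(1 + T ^ 2) with hS
  have hS0 : 0 ≤ pre m T * S := by positivity
  rcases le_or_gt T 3 with h3 | h3
  · -- three pieces with constant `K`
    have fin : ∀ T₀ T₁ w K R : ℝ, 47 / 100 ≤ T₀ → T₀ ≤ T → T ≤ T₁ → √(1 + T₁ ^ 2) ≤ w →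
        0 ≤ tanCL w → K ≤ 47 / 20 * tanCL w * ((256 * T₀ ^ 2 - 101 / 50) / (1 + T₀ ^ 2)) →
        4031 / 1000 / T₀ ^ 2 + 31 / 100 / T₀ ≤ K → 4031 / 1000 / T₀ ^ 2 + R ≤ K →
        147 / 100 * (2 + 1 / T₀ ^ 2) ^ 2 ≤ R * (31 / 5) → 0 ≤ R →
        ∃ L, L ≤ valQ ε T σ h + (2 * p * (σ - T) + G₂) * (h - 1) ∧
          -(pre m T * ((33 / 50 + 3 / 250 * (((m : ℝ) + 2) * T ^ 2) ^ 2) * G₂ ^ 2 + S)) ≤ pre m T * L +
            (σ - T) * ellFlat m ε kap (rr (m + 1)) T + (σ - T) ^ 2 *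
              (shP' m (9 / 5 * ε / v) (6 / 5 * ε * v) T +
                2 * muX m T * shS m (9 / 5 * ε / v) (6 / 5 * ε * v) T) + Sl := by
      intro T₀ T₁ w K R a0 b0 b1 hw hc hK c1 c2 c3 hR0
      have ht0 : 0 < T₀ := by linarith
      have i2 : 1 / T ^ 2 ≤ 1 / T₀ ^ 2 :=
        one_div_le_one_div_of_le (by positivity) (pow_le_pow_left₀ ht0.le b0 2)
      have i1 : 31 / 100 / T ≤ 31 / 100 / T₀ := div_le_div_of_nonneg_left (by norm_num) ht0 b0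
      have j2 : 4031 / 1000 / T ^ 2 ≤ 4031 / 1000 / T₀ ^ 2 :=
        div_le_div_of_nonneg_left (by norm_num) (by positivity) (pow_le_pow_left₀ ht0.le b0 2)
      have hl := tail_weight hm he0 hk0 hk a0 b0 b1 hw hc hK
      have hR2 : ∀ N : ℝ, 31 / 5 ≤ N → T ^ 2 / 1000 ≤ N →
          147 / 100 * (2 + 1 / T ^ 2) ^ 2 ≤ R * N := fun N hN _ =>
        le_trans (mul_le_mul_of_nonneg_left
          (pow_le_pow_left₀ (by positivity) (by linarith) 2) (by norm_num))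
          (c3.trans (mul_le_mul_of_nonneg_left hN hR0))
      obtain ⟨L, hL, hle⟩ := tail_core (M := 0) (K := K) (R := R) hpre.le hR hY hT hσ he0 he1 hη
        hp0 hp1 hG' hCw (by rw [add_zero]; exact hl) (by linarith) (by linarith) hR2 hSl
      exact ⟨L, hL, by linarith⟩
    rcases le_or_gt T (7 / 10) with h1 | h1
    · exact fin (47 / 100) (7 / 10) (12207 / 10000) (32 : ℝ) (103 / 10) le_rfl hT h1
        (by rw [sqrt_le_left (by norm_num)]; norm_num) (by norm_num [tanCL]) (by norm_num [tanCL])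
        (by norm_num) (by norm_num) (by norm_num) (by norm_num)
    rcases le_or_gt T (3 / 2) with h2 | h2
    · exact fin (7 / 10) (3 / 2) (1803 / 1000) (38 : ℝ) 5 (by norm_num) h1.le h2
        (by rw [sqrt_le_left (by norm_num)]; norm_num) (by norm_num [tanCL]) (by norm_num [tanCL])
        (by norm_num) (by norm_num) (by norm_num) (by norm_num)
    · exact fin (3 / 2) 3 (3163 / 1000) (15 : ℝ) 2 (by norm_num) h2.le h3
        (by rw [sqrt_le_left (by norm_num)]; norm_num) (by norm_num [tanCL]) (by norm_num [tanCL])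
        (by norm_num) (by norm_num) (by norm_num) (by norm_num)
  · obtain ⟨L, hL, hle⟩ := tail_far hm hR hY hη h3.le hσ he0 he1 hk0 hp0 hp1 hG' hCw hSl
    exact ⟨L, hL, le_trans (by linarith) hle⟩

end Vale.Agent.P237.Cal
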