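import Vale.Agent.P237.Cal.Final
import Vale.Agent.P237.Cal.Mid.Full
import Vale.Agent.P237.Bridge

/-!
# P237: the shape of the final theorem with the range `n ≥ 128` inserted

`petty_body_upto` serves a prefix `3 ≤ n ≤ N`, `petty_body_of_small` every dimension; both carry the
fact that `projectionBody` is a convex body with support function `projFun`.
-/

open Set Metric

namespace Vale.Agent.P237.Cal

/-- `Π K` is the body of the definition, Petty's inequality and its equality case, in `ℝ^n`. -/
def PettyBody (n : ℕ) (K : Set (Statement.Space n)) : Prop :=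
  Statement.IsConvexBody (Statement.projectionBody K) ∧
    Statement.IsSupportFun (Statement.projectionBody K) (Statement.projFun K) ∧
    Statement.pettyConst n * Statement.vol K ^ (n - 1) ≤
      Statement.vol (Statement.projectionBody K) ∧
    (Statement.vol (Statement.projectionBody K) =
        Statement.pettyConst n * Statement.vol K ^ (n - 1) ↔
      ∃ (a : Statement.Space n) (T : Statement.Space n →ₗ[ℝ] Statement.Space n),
        Function.Injective T ∧ K = (fun x => a + T x) '' Metric.closedBall 0 1)

/-- The prefix `3 ≤ n ≤ N` from its calibrations. -/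
theorem petty_body_upto (N : ℕ) (h : ∀ m, 3 ≤ m → m + 2 ≤ N → ProfileCal m) {n : ℕ} (hn : 3 ≤ n)
    (hN : n ≤ N) (K : Set (Statement.Space n)) (hK : Statement.IsConvexBody K) :
    PettyBody n K := by
  obtain ⟨h1, h2, -⟩ := statement_bound (by omega : 1 ≤ n) hK
  exact ⟨h1, h2, petty_upto (fun m h3 hm => h m h3 (by omega)) hn K hK⟩

/-- Every dimension from the calibrations of `5 ≤ n ≤ 127`. -/
theorem petty_body_of_small (h : ∀ m, 3 ≤ m → m ≤ 125 → ProfileCal m) {n : ℕ} (hn : 3 ≤ n)
    (K : Set (Statement.Space n)) (hK : Statement.IsConvexBody K) : PettyBody n K :=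
  petty_body_upto n (fun m h3 _ =>
    (le_or_gt m 125).elim (h m h3) fun hm => MidN.profileCal_128 (by omega)) hn le_rfl K hK

end Vale.Agent.P237.Cal
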