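import Vale.Agent.P237.Cal.ScalarFlatHsc
import Vale.Agent.P237.Cal.EllFlatBound

/-!
# P237: the linear part of the lower bound, integrated

`LB = (ellFlat + ν) lo` with the slack `ν` of `ellFlat_ge`; the scalar keeps `log q/(3n)` and the
cost `22 (Q-1)²/n` of the constant field `U`.
-/

open MeasureTheory Set Real

namespace Vale.Agent.P237.Cal

variable {m : ℕ} {ε kap Y : ℝ}

/-- The slack of the flattened weight. -/
noncomputable def nuFlat (m : ℕ) (ε kap T : ℝ) : ℝ :=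
  kap * (1 + ε) * ((5 / 2 / ((m : ℝ) + 2) ^ 2) * muX m T +
    ((m : ℝ) + 2) / 10 * (((m : ℝ) + 1) * (T ^ 7 / √(1 + T ^ 2) ^ (m + 6))))

lemma nuFlat_nonneg (hε : 0 ≤ 1 + ε) (hk : 0 ≤ kap) {T : ℝ} (hT : 0 ≤ T) :
    0 ≤ nuFlat m ε kap T := by
  unfold nuFlat muX; positivity

/-- `-lo ≤ (Y² - 1)/T`. -/
lemma neg_loD_le {T : ℝ} (hT : 0 < T) (hY : 1 ≤ Y) : -loD Y T ≤ (Y ^ 2 - 1) / T := by
  rw [le_div_iff₀ hT, loD]
  rcases le_total (T ^ 2 + 1 - Y ^ 2) 0 with h | h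
  · rw [sqrt_eq_zero_of_nonpos h]; linarith
  · have h1 := sq_sqrt h
    have h2 : √(T ^ 2 + 1 - Y ^ 2) ≤ T := by rw [sqrt_le_left hT.le]; nlinarith
    nlinarith [mul_le_mul_of_nonneg_left h2 (sqrt_nonneg (T ^ 2 + 1 - Y ^ 2))]

/-- `15`-moment: `∫ T⁶ W^(-(m+6))`. -/
lemma mom_six (hm : 2 ≤ m) :
    ((m : ℝ) + 4) * (((m : ℝ) + 1) * ((m : ℝ) - 1)) * mom 6 (m + 6) = 15 * mom 0 (m + 4) := by
  have h := mom_even (N := m + 4) (i := 3) (by omega)
  have he := mom_exp (a := 0) (m := m + 4) (by omega)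
  simp only [Finset.prod_range_succ, Finset.prod_range_zero, show m + 4 + 2 = m + 6 from rfl,
    show 2 * 3 = 6 from rfl] at h he
  push_cast at h he
  have h3 : 0 < (m : ℝ) + 3 := by positivity
  refine mul_left_cancel₀ h3.ne' ?_
  linear_combination ((m : ℝ) + 4) * h + 15 * he

/-- The closed bound of the slack against the lower edge. -/
theorem integral_nuFlat_loD (hm : 98 ≤ m) (hY : 1 ≤ Y) (hYk : Y ^ (m + 1) ≤ 2 * ((m : ℝ) + 2))
    (hk : 0 ≤ kap) (hε : 0 ≤ 1 + ε) :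
    IntegrableOn (fun T => nuFlat m ε kap T * loD Y T) (Ioi 0) ∧
      -(kap * (1 + ε) * (5 / 2 * (1 - (Y ^ (m + 1))⁻¹) +
          33 / 10 * (((m : ℝ) + 1) * Real.log Y)) / ((m : ℝ) + 2) ^ 2) * semiMom m 1 ≤
        ∫ T in Ioi (0 : ℝ), nuFlat m ε kap T * loD Y T := by
  have hY0 : 0 < Y := one_pos.trans_le hY
  have hd0 : 0 ≤ Y ^ 2 - 1 := by nlinarith
  have hcl : Continuous fun T => loD Y T := by unfold loD; fun_prop
  have i6 := mom_integrable (a := 6) (m := m + 6) (by omega)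
  have h2i : IntegrableOn (fun T : ℝ => T ^ 7 / √(1 + T ^ 2) ^ (m + 6) * loD Y T) (Ioi 0) := by
    refine (i6.const_mul (Y ^ 2 - 1)).mono' ((mom_continuous 7 (m + 6)).mul hcl).aestronglyMeasurable.restrict ?_
    filter_upwards [ae_restrict_mem measurableSet_Ioi] with T hT
    have hT : (0 : ℝ) < T := hT
    rw [norm_mul, norm_of_nonneg (by positivity), norm_eq_abs, abs_of_nonpos (loD_nonpos hY hT.le)]
    refine (mul_le_mul_of_nonneg_left (neg_loD_le hT hY) (by positivity)).trans_eq ?_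
    field_simp
  have h2v : -((Y ^ 2 - 1) * mom 6 (m + 6)) ≤
      ∫ T in Ioi (0 : ℝ), T ^ 7 / √(1 + T ^ 2) ^ (m + 6) * loD Y T := by
    rw [mom, ← neg_mul, ← MeasureTheory.integral_const_mul]
    refine setIntegral_mono_on (i6.const_mul _) h2i measurableSet_Ioi fun T hT => ?_
    have hT : (0 : ℝ) < T := hT
    have := mul_le_mul_of_nonneg_left (neg_loD_le hT hY)
      (by positivity : 0 ≤ T ^ 7 / √(1 + T ^ 2) ^ (m + 6))
    have e : T ^ 7 / √(1 + T ^ 2) ^ (m + 6) * ((Y ^ 2 - 1) / T) =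
        (Y ^ 2 - 1) * (T ^ 6 / √(1 + T ^ 2) ^ (m + 6)) := by field_simp
    linarith
  have h1i := integrableOn_muX_loD (m := m) hY
  have e : (fun T => nuFlat m ε kap T * loD Y T) = fun T =>
      kap * (1 + ε) * (5 / 2 / ((m : ℝ) + 2) ^ 2) * (muX m T * loD Y T) +
      kap * (1 + ε) * (((m : ℝ) + 2) / 10 * ((m : ℝ) + 1)) *
        (T ^ 7 / √(1 + T ^ 2) ^ (m + 6) * loD Y T) := by
    funext T; simp only [nuFlat]; ring
  rw [e]
  refine ⟨(h1i.const_mul _).add (h2i.const_mul _), ?_⟩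
  rw [integral_add (h1i.const_mul _) (h2i.const_mul _), MeasureTheory.integral_const_mul,
    MeasureTheory.integral_const_mul, integral_muX_loD hY]
  have h6 := mom_six (m := m) (by omega)
  rw [← semiMom_one] at h6
  have hV : 0 ≤ semiMom m 1 := by rw [semiMom_one]; exact mom_nonneg ..
  set N := (m : ℝ) + 2 with hNd
  have hN : 100 ≤ N := by
    have : (98 : ℝ) ≤ (m : ℝ) := by exact_mod_cast hm
    linarith
  set L := Real.log Y
  have hL0 : 0 ≤ L := Real.log_nonneg hY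
  have hL : L ≤ 27 / 500 := by
    have hp : SF.Par N (N + 1 - 149 / 100 / N) ((N - 1) * L) := by
      refine ⟨hN, ?_, ?_, mul_nonneg (by linarith) hL0, ?_⟩
      · rw [show N * (N + 1 - 149 / 100 / N - (N + 1)) = -(149 / 100) by field_simp; ring]; norm_num
      · rw [show N * (N + 1 - 149 / 100 / N - (N + 1)) = -(149 / 100) by field_simp; ring]; norm_num
      · rw [show N - 1 = (((m + 1 : ℕ)) : ℝ) by rw [hNd]; push_cast; ring, Real.exp_nat_mul,
          Real.exp_log hY0]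
        exact hYk
    have := hp.w_le
    rwa [mul_div_cancel_left₀ _ (by linarith)] at this
  have hd : Y ^ 2 - 1 ≤ 53 / 25 * L := by
    obtain ⟨-, -, -, -, h5⟩ := SF.exp_two_bounds hL0 hL
    rw [two_mul, Real.exp_add, Real.exp_log hY0] at h5
    have := mul_le_mul_of_nonneg_left hL hL0
    linarith
  set V := semiMom m 1
  set W := (Y ^ (m + 1))⁻¹
  rw [show V / Y ^ (m + 1) = W * V by simp only [W]; ring]
  have hA : 0 ≤ kap * (1 + ε) := mul_nonneg hk hε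
  have hsec : -(33 / 10 * ((N - 1) * L) / N ^ 2) * V ≤
      N / 10 * (N - 1) * ∫ T in Ioi (0 : ℝ), T ^ 7 / √(1 + T ^ 2) ^ (m + 6) * loD Y T := by
    refine le_trans ?_ (mul_le_mul_of_nonneg_left h2v (by positivity [show (0:ℝ) ≤ N - 1 by linarith]))
    rw [show (m : ℝ) + 4 = N + 2 by rw [hNd]; ring, show (m : ℝ) + 1 = N - 1 by rw [hNd]; ring,
      show (m : ℝ) - 1 = N - 3 by rw [hNd]; ring] at h6
    have hc : mom 6 (m + 6) = 15 * V / ((N + 2) * ((N - 1) * (N - 3))) := by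
      rw [eq_div_iff (by
        have : 0 < N - 1 := by linarith
        have : 0 < N - 3 := by linarith
        positivity)]
      linarith
    rw [hc]
    have hNc : 318 / 100 * N ^ 3 ≤ 33 / 10 * (N - 1) * ((N + 2) * (N - 3)) := by
      nlinarith [mul_le_mul hN hN (by norm_num) (by linarith : (0 : ℝ) ≤ N)]
    have hpos : 0 < (N + 2) * ((N - 1) * (N - 3)) := mul_pos (by linarith) (mul_pos (by linarith) (by linarith))
    rw [show N / 10 * (N - 1) * -((Y ^ 2 - 1) * (15 * V / ((N + 2) * ((N - 1) * (N - 3))))) =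
      -((3 / 2 * N * (Y ^ 2 - 1) / ((N + 2) * (N - 3))) * V) by
        field_simp [show N - 1 ≠ 0 by linarith, show N - 3 ≠ 0 by linarith]; ring, neg_mul, neg_le_neg_iff]
    refine mul_le_mul_of_nonneg_right ?_ hV
    rw [div_le_div_iff₀ (mul_pos (by linarith) (by linarith)) (by positivity)]
    have h7 := mul_le_mul_of_nonneg_left hd (by positivity : 0 ≤ 3 / 2 * N * N ^ 2)
    have h8 := mul_le_mul_of_nonneg_right hNc hL0
    linarith
  have hfin := mul_le_mul_of_nonneg_left hsec hA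
  rw [show (m : ℝ) + 1 = N - 1 by rw [hNd]; ring]
  generalize (∫ T in Ioi (0 : ℝ), T ^ 7 / √(1 + T ^ 2) ^ (m + 6) * loD Y T) = J at hfin ⊢
  refine le_trans (le_of_eq ?_) (add_le_add_left hfin
    (kap * (1 + ε) * (5 / 2 / N ^ 2) * (W * V - V)) |>.trans_eq (by ring))
  ring

/-- **The scalar with the linear part of the lower bound.** -/
theorem scalar_LB_ge (hm : 98 ≤ m) {q Q : ℝ} (hY : 1 ≤ Y)
    (hYk : Y ^ (m + 1) ≤ 2 * ((m : ℝ) + 2)) (hq : 1 ≤ q) (hQ : Q = q / Y ^ (m + 1))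
    (hQr : Q ≤ rr (m + 1) ^ (m + 1)) (hε : ε = 4 * q ^ (2 / ((m : ℝ) + 2)) / Y ^ 2)
    (hkap : kap = (1 - (Y ^ (m + 1))⁻¹) / 2) :
    IntegrableOn (fun T => (ellFlat m ε kap (rr (m + 1)) T + nuFlat m ε kap T) * loD Y T) (Ioi 0) ∧
      Real.log q / (3 * ((m : ℝ) + 2)) + 22 / ((m : ℝ) + 2) * (Q - 1) ^ 2 +
          7 / 2 / ((m : ℝ) + 2) * (1 - (Y ^ (m + 1))⁻¹) ^ 2 ≤
        scalarLin m ε kap Q ((∫ T in Ioi (0 : ℝ),
          (ellFlat m ε kap (rr (m + 1)) T + nuFlat m ε kap T) * loD Y T) / semiMom m 1) ∧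
      (1 ≤ Q → Real.log q / (3 * ((m : ℝ) + 2)) +
          (3 / 4 + 137 / 10 / ((m : ℝ) + 2)) * (Q - 1) ^ 2 +
          7 / 2 / ((m : ℝ) + 2) * (1 - (Y ^ (m + 1))⁻¹) ^ 2 ≤
        scalarLin m ε kap Q ((∫ T in Ioi (0 : ℝ),
          (ellFlat m ε kap (rr (m + 1)) T + nuFlat m ε kap T) * loD Y T) / semiMom m 1)) := by
  obtain ⟨⟨hε0, hε1⟩, hsc, hsc2⟩ := scalar_flat_ge hm hY hYk hq hQ hQr hε hkap
  obtain ⟨p, rfl⟩ : ∃ p, m = p + 2 := ⟨m - 2, by omega⟩
  have hY0 : 0 < Y := one_pos.trans_le hY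
  set u := 1 - (Y ^ (p + 2 + 1))⁻¹ with hu
  have hu0 : 0 ≤ u := by
    rw [hu, sub_nonneg]; exact inv_le_one_of_one_le₀ (one_le_pow₀ hY)
  have hk : 0 ≤ kap := by rw [hkap]; linarith
  have hr : rr (p + 2 + 1) ≠ 0 := (one_pos.trans_le (one_lt_rr (k := p + 2 + 1) (by omega)).le).ne'
  obtain ⟨i1, -⟩ := integral_ellFlat_loD (p := p) (ε := ε) (kap := kap) hr hY
  obtain ⟨i2, v2⟩ := integral_nuFlat_loD hm hY hYk hk (ε := ε) (by linarith)
  have e : (fun T => (ellFlat (p + 2) ε kap (rr (p + 2 + 1)) T + nuFlat (p + 2) ε kap T) * loD Y T) =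
      fun T => ellFlat (p + 2) ε kap (rr (p + 2 + 1)) T * loD Y T +
        nuFlat (p + 2) ε kap T * loD Y T := funext fun T => add_mul _ _ _
  rw [e]
  refine ⟨i1.add i2, ?_⟩
  rw [integral_add i1 i2]
  clear e
  have hV : 0 < semiMom (p + 2) 1 := by rw [semiMom_one]; exact mom_zero_pos _
  have h3 := div_le_div_of_nonneg_right v2 hV.le
  rw [mul_div_cancel_right₀ _ hV.ne'] at h3
  set N := ((p + 2 : ℕ) : ℝ) + 2 with hNd
  have hN : 100 ≤ N := by
    have : ((98 : ℕ) : ℝ) ≤ ((p + 2 : ℕ) : ℝ) := by exact_mod_cast hm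
    push_cast at this
    rw [hNd]; push_cast; linarith
  set y := (((p + 2 : ℕ) : ℝ) + 1) * Real.log Y with hy
  have huy : u ≤ y := by
    have h := add_one_le_exp (-y)
    rw [exp_neg, hy, show ((p + 2 : ℕ) : ℝ) + 1 = ((p + 2 + 1 : ℕ) : ℝ) by push_cast; ring,
      Real.exp_nat_mul, Real.exp_log hY0] at h
    rw [hu, hy, show ((p + 2 : ℕ) : ℝ) + 1 = ((p + 2 + 1 : ℕ) : ℝ) by push_cast; ring]
    linarith
  have hy0 : 0 ≤ y := hu0.trans huy
  have h5 : kap * (1 + ε) * (5 / 2 * u + 33 / 10 * y) / N ^ 2 ≤ 3 / 20 / N * (u * y) := by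
    have a1 : kap * (1 + ε) * (5 / 2 * u + 33 / 10 * y) ≤ u / 2 * (253 / 50) * (29 / 5 * y) := by
      rw [hkap]
      gcongr
      · linarith
      · linarith
    rw [div_le_iff₀ (by positivity), show 3 / 20 / N * (u * y) * N ^ 2 = 3 / 20 * N * (u * y) by
      field_simp]
    have := mul_le_mul_of_nonneg_right hN (mul_nonneg hu0 hy0)
    linarith [mul_nonneg hu0 hy0]
  rw [← hu] at h3
  have key : ∀ a b : ℝ, scalarLin (p + 2) ε kap Q (a + b) = scalarLin (p + 2) ε kap Q a + b :=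
    fun a b => by simp only [scalarLin]; ring
  rw [add_div (∫ T in Ioi (0 : ℝ), ellFlat (p + 2) ε kap (rr (p + 2 + 1)) T * loD Y T), key]
  exact ⟨by linarith, fun h1 => by linarith [hsc2 h1]⟩

end Vale.Agent.P237.Cal
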