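import Mathlib

/-!
# P237: the budget of the large leaf

With `u = 1 - e^(-y)` and `q = 1 + x e^y` the bounds of the loss, times `n`, stay below
`log q/3 + (3/20) u y + (7/2) u² + (3n/4 - 83/10) max (x - u) 0²`.
-/

open Real Set

namespace Vale.Agent.P237.Cal.LossScalar

/-- `u + u²/2 ≤ y`. -/
lemma y_ge {y : ℝ} (hy : 0 ≤ y) :
    (1 - exp (-y)) + (1 - exp (-y)) ^ 2 / 2 ≤ y := by
  have hd : ∀ t : ℝ, HasDerivAt (fun t => t - ((1 - exp (-t)) + (1 - exp (-t)) ^ 2 / 2))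
      ((1 - exp (-t)) ^ 2) t := fun t => by
    have h1 : HasDerivAt (fun t => 1 - exp (-t)) (exp (-t)) t :=
      (((hasDerivAt_id t).neg.exp).const_sub 1).congr_deriv (by simp)
    exact ((hasDerivAt_id t).fun_sub (h1.fun_add ((h1.fun_pow 2).div_const 2))).congr_deriv
      (by push_cast; ring)
  have hmono : MonotoneOn (fun t => t - ((1 - exp (-t)) + (1 - exp (-t)) ^ 2 / 2)) (Ici 0) :=
    monotoneOn_of_hasDerivWithinAt_nonneg (convex_Ici 0)
      (fun t _ => (hd t).continuousAt.continuousWithinAt) (fun t _ => (hd t).hasDerivWithinAt)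
      fun t _ => sq_nonneg _
  have h := hmono self_mem_Ici hy hy
  simp only [neg_zero, exp_zero, sub_self, zero_add, zero_pow, ne_eq, OfNat.ofNat_ne_zero,
    not_false_eq_true, zero_div] at h
  linarith

/-- `1 - e^(-y)` from below by the series of degree three. -/
lemma u_ge {y : ℝ} (hy : 0 ≤ y) :
    (y + y ^ 2 / 2 + y ^ 3 / 6) / (1 + (y + y ^ 2 / 2 + y ^ 3 / 6)) ≤ 1 - exp (-y) := by
  have h : 1 + (y + y ^ 2 / 2 + y ^ 3 / 6) ≤ exp y := by
    have h4 := sum_le_exp_of_nonneg hy 4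
    simp only [Finset.sum_range_succ, Finset.sum_range_zero, Nat.factorial] at h4
    norm_num at h4
    linarith
  have hP : 0 ≤ y + y ^ 2 / 2 + y ^ 3 / 6 := by positivity
  have h2 := inv_anti₀ (by linarith : 0 < 1 + (y + y ^ 2 / 2 + y ^ 3 / 6)) h
  rw [← exp_neg] at h2
  have e : (y + y ^ 2 / 2 + y ^ 3 / 6) / (1 + (y + y ^ 2 / 2 + y ^ 3 / 6)) =
      1 - (1 + (y + y ^ 2 / 2 + y ^ 3 / 6))⁻¹ := by field_simp; ring
  linarith

/-- `y (1 - 9u/20)² ≤ (11/10) u` for `y ≤ 2`. -/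
lemma theta_key {y : ℝ} (hy : 0 ≤ y) (hy2 : y ≤ 2) :
    y * (1 - 9 / 20 * (1 - exp (-y))) ^ 2 ≤ 11 / 10 * (1 - exp (-y)) := by
  have hu := u_ge hy
  set u := 1 - exp (-y) with hud
  have hu1 : u ≤ 1 := by rw [hud]; linarith [exp_pos (-y)]
  set P := y + y ^ 2 / 2 + y ^ 3 / 6 with hP
  set L := P / (1 + P) with hL
  have hP0 : 0 ≤ P := by positivity
  have hL0 : 0 ≤ L := by positivity
  have h1 : (1 - 9 / 20 * u) ^ 2 ≤ (1 - 9 / 20 * L) ^ 2 :=
    pow_le_pow_left₀ (by linarith) (by linarith) 2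
  have h3 : y * (1 - 9 / 20 * L) ^ 2 ≤ 11 / 10 * L := by
    have e1 : y * (1 - 9 / 20 * L) ^ 2 = y * (1 + 11 / 20 * P) ^ 2 / (1 + P) ^ 2 := by
      rw [hL]; field_simp; ring
    have e2 : 11 / 10 * L = y * (11 / 10 * (1 + y / 2 + y ^ 2 / 6) * (1 + P)) / (1 + P) ^ 2 := by
      rw [hL, hP]; field_simp
    rw [e1, e2]
    refine div_le_div_of_nonneg_right (mul_le_mul_of_nonneg_left ?_ hy) (by positivity)
    rw [hP]
    nlinarith [mul_nonneg hy (sub_nonneg.2 hy2), pow_nonneg hy 3, pow_nonneg hy 4,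
      mul_nonneg (mul_nonneg hy (sub_nonneg.2 hy2)) hy,
      mul_nonneg (mul_nonneg hy (sub_nonneg.2 hy2)) (pow_nonneg hy 2)]
  calc y * (1 - 9 / 20 * u) ^ 2 ≤ y * (1 - 9 / 20 * L) ^ 2 := mul_le_mul_of_nonneg_left h1 hy
    _ ≤ 11 / 10 * L := h3
    _ ≤ 11 / 10 * u := by linarith

/-- What the budget leaves beside the state from above: at least `u²/5`, and more than `u` over
`1/8` at the level `Q = 1`. -/
lemma rest_ge {y u g : ℝ} (hy : 0 ≤ y) (hu : u = 1 - exp (-y))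
    (hg1 : y ≤ 2 → g ≤ 191 / 100 * u * y * (1 - 9 / 20 * u) ^ 2)
    (hg2 : 2 < y → g ≤ 285 / 100 * (1 - 9 / 20 * u) ^ 2) :
    u ^ 2 / 5 ≤ (7 / 2 - 1191 / 1000) * u ^ 2 + (3 / 20 - 49 / 1000) * u * y - g ∧
      u / 50 + u ^ 2 / 500 ≤ y / 3 +
        ((7 / 2 - 1191 / 1000) * u ^ 2 + (3 / 20 - 49 / 1000) * u * y - g) -
        21 / 100 * u - 57 / 100 * u ^ 2 := by
  have h := y_ge hy
  have hu0 : 0 ≤ u := by
    rw [hu, sub_nonneg]; exact exp_le_one_iff.2 (neg_nonpos.2 hy)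
  have hu1 : u ≤ 1 := by rw [hu]; linarith [exp_pos (-y)]
  rw [← hu] at h
  have hsq : u ^ 2 ≤ u := by nlinarith
  have hq : 0 ≤ u ^ 2 := sq_nonneg u
  have hyu : u * u ≤ u * y := mul_le_mul_of_nonneg_left (by linarith) hu0
  rcases le_or_gt y 2 with h2 | h2
  · have hk := mul_le_mul_of_nonneg_left (theta_key hy h2) (by positivity : 0 ≤ 191 / 100 * u)
    rw [← hu] at hk
    have := hg1 h2
    constructor <;> nlinarith
  · have hU : 864 / 1000 ≤ u := by
      have h3 : exp (-y) ≤ 136 / 1000 := by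
        have h4 : exp (-y) ≤ exp (-2) := exp_le_exp.2 (by linarith)
        have h5 := sum_le_exp_of_nonneg (by norm_num : (0 : ℝ) ≤ 2) 8
        simp only [Finset.sum_range_succ, Finset.sum_range_zero, Nat.factorial] at h5
        norm_num at h5
        have h6 := inv_anti₀ (by norm_num) h5
        rw [← exp_neg] at h6
        norm_num at h6
        linarith
      rw [hu]; linarith
    have hθ : (1 - 9 / 20 * u) ^ 2 ≤ (1 - 9 / 20 * (864 / 1000)) ^ 2 :=
      pow_le_pow_left₀ (by linarith) (by linarith) 2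
    have := hg2 h2
    have h7 := mul_le_mul hU h2.le (by norm_num) hu0
    have h8 := pow_le_pow_left₀ (by norm_num) hU 2
    constructor <;> linarith

/-- **The budget.** -/
theorem budget_lt {N y u x q g : ℝ} (hN : 384 ≤ N) (hy : 0 ≤ y) (hu : u = 1 - exp (-y))
    (hx : 0 ≤ x) (hq : q = 1 + x * exp y) (hq1 : 1 < q)
    (hg1 : y ≤ 2 → g ≤ 191 / 100 * u * y * (1 - 9 / 20 * u) ^ 2)
    (hg2 : 2 < y → g ≤ 285 / 100 * (1 - 9 / 20 * u) ^ 2) :
    1191 / 1000 * u ^ 2 + 49 / 1000 * (u * y) + g + (21 / 100 * x + 57 / 100 * x ^ 2) <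
      log q / 3 + 3 / 20 * (u * y) + 7 / 2 * u ^ 2 +
        (3 / 4 * N - 83 / 10) * max (x - u) 0 ^ 2 := by
  obtain ⟨hr1, hr2⟩ := rest_ge hy hu hg1 hg2
  have hu0 : 0 ≤ u := by
    rw [hu, sub_nonneg]; exact exp_le_one_iff.2 (neg_nonpos.2 hy)
  have hu1 : u ≤ 1 := by rw [hu]; linarith [exp_pos (-y)]
  have hey : exp y * (1 - u) = 1 := by rw [hu]; rw [sub_sub_cancel, ← exp_add]; simp
  rcases le_or_gt x u with hxu | hxu
  · -- the chord of the logarithm
    have hxpos : 0 < x := by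
      rcases hx.eq_or_lt with h | h
      · rw [← h, zero_mul, add_zero] at hq; linarith
      · exact h
    have hup : 0 < u := hxpos.trans_le hxu
    set θ := x / u with hθ
    have hθ0 : 0 ≤ θ := by positivity
    have hθ1 : θ ≤ 1 := (div_le_one hup).2 hxu
    have hxe : x = θ * u := by rw [hθ]; field_simp
    have hc : exp (θ * y) ≤ q := by
      have h := convexOn_exp.2 (mem_univ (0 : ℝ)) (mem_univ y) (sub_nonneg.2 hθ1) hθ0
        (sub_add_cancel 1 θ)
      simp only [smul_eq_mul, mul_zero, zero_add, exp_zero, mul_one] at h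
      refine h.trans (le_of_eq ?_)
      rw [hq, hxe]
      linear_combination θ * hey
    have hlog : θ * y ≤ log q := by
      rw [← exp_log (one_pos.trans hq1)] at hc
      exact exp_le_exp.1 hc
    have hsq : x ^ 2 ≤ θ * u ^ 2 := by
      rw [hxe, mul_pow]
      exact mul_le_mul_of_nonneg_right (by nlinarith) (sq_nonneg u)
    rw [max_eq_right (by linarith), zero_pow two_ne_zero, mul_zero, add_zero]
    have h1 := mul_le_mul_of_nonneg_left hr2 hθ0
    have h2 := mul_le_mul_of_nonneg_left hr1 (sub_nonneg.2 hθ1)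
    have h3 : 0 < θ * (u / 50) := by
      have : 0 < θ := by positivity
      positivity
    have h4 : 0 ≤ (1 - θ) * (u ^ 2 / 5) := mul_nonneg (sub_nonneg.2 hθ1) (by positivity)
    have h5 : 0 ≤ θ * (u ^ 2 / 500) := by positivity
    have h6 : x * (21 / 100) = θ * (21 / 100 * u) := by rw [hxe]; ring
    linarith
  · set s := x - u with hs
    have hs0 : 0 < s := sub_pos.2 hxu
    rw [max_eq_left hs0.le]
    have hqe : q = exp y * (1 + s) := by
      rw [hq, hs]; linear_combination -hey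
    have hlog : y + (s - s ^ 2 / 2) ≤ log q := by
      rw [hqe, log_mul (exp_pos y).ne' (by linarith), log_exp]
      have h1 := le_log_one_add_of_nonneg hs0.le
      have h2 : s - s ^ 2 / 2 ≤ 2 * s / (s + 2) := by
        rw [le_div_iff₀ (by linarith)]
        nlinarith [mul_nonneg (mul_nonneg hs0.le hs0.le) hs0.le]
      linarith
    have hNs := mul_le_mul_of_nonneg_right
      (by linarith : (2797 : ℝ) / 10 ≤ 3 / 4 * N - 83 / 10) (sq_nonneg s)
    have hx2 : x ^ 2 = u ^ 2 + 2 * (u * s) + s ^ 2 := by rw [hs]; ring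
    have hx1 : x = u + s := by rw [hs]; ring
    have hsq : 0 ≤ (57 / 100 * u - 278 * s) ^ 2 := sq_nonneg _
    have hs2 : 0 < s ^ 2 := by positivity
    linarith

end Vale.Agent.P237.Cal.LossScalar
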