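import Vale.Agent.P237.Cal.EllFlat
import Vale.Agent.P237.Cal.ScalarFlatBounds

/-!
# P237: moments of the envelope `muX |lo|` against powers of `z = n T²`

With `u = 1 - Y^(-k)`, `y = k log Y`: the moments of degree `0, 1, 2`, over `V₀`, are `u`, at most
`n/(n-3) (3u - 2 y (1-u))` and at most `n²/((n-3)(n-5)) (15 u - (12 y + 399/100 y²)(1-u))`. They
bound loss terms given as such envelopes.
-/

open MeasureTheory Set Real

namespace Vale.Agent.P237.Cal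

variable {p : ℕ} {Y : ℝ}

/-- The envelope of degree `j`. -/
noncomputable def envLo (m : ℕ) (Y : ℝ) (j : ℕ) (T : ℝ) : ℝ :=
  muX m T * (((m : ℝ) + 2) * T ^ 2) ^ j * -loD Y T

lemma envLo_nonneg {m : ℕ} (hY : 1 ≤ Y) (j : ℕ) {T : ℝ} (hT : 0 ≤ T) : 0 ≤ envLo m Y j T := by
  have := neg_nonneg.2 (loD_nonpos hY hT)
  unfold envLo muX
  positivity

/-- The integrals in closed form, `m = p + 4`. -/
theorem integral_envLo (hY : 1 ≤ Y) :
    (IntegrableOn (envLo (p + 4) Y 0) (Ioi 0) ∧ IntegrableOn (envLo (p + 4) Y 1) (Ioi 0) ∧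
      IntegrableOn (envLo (p + 4) Y 2) (Ioi 0)) ∧
    (∫ T in Ioi (0 : ℝ), envLo (p + 4) Y 0 T) = -(((p : ℝ) + 5) * loMom (p + 4) Y) ∧
    (∫ T in Ioi (0 : ℝ), envLo (p + 4) Y 1 T) =
      ((p : ℝ) + 6) * ((p : ℝ) + 5) * (loMom (p + 4) Y - loMom (p + 2) Y) ∧
    (∫ T in Ioi (0 : ℝ), envLo (p + 4) Y 2 T) =
      ((p : ℝ) + 6) ^ 2 * ((p : ℝ) + 5) *
        (2 * loMom (p + 2) Y - loMom p Y - loMom (p + 4) Y) := by
  obtain ⟨i4, v4⟩ := integral_loD (m := p + 4) hY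
  obtain ⟨i2, v2⟩ := integral_loD (m := p + 2) hY
  obtain ⟨i0, v0⟩ := integral_loD (m := p) hY
  set G : ℕ → ℝ → ℝ := fun j T => T / √(1 + T ^ 2) ^ (j + 4) * loD Y T with hG
  replace i4 : IntegrableOn (G (p + 4)) (Ioi 0) := i4
  replace i2 : IntegrableOn (G (p + 2)) (Ioi 0) := i2
  replace i0 : IntegrableOn (G p) (Ioi 0) := i0
  have i20 : IntegrableOn (fun T => 2 * G (p + 2) T) (Ioi 0) := i2.const_mul 2
  have i200 : IntegrableOn (fun T => 2 * G (p + 2) T - G p T) (Ioi 0) := i20.sub i0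
  replace v4 : ∫ T in Ioi (0 : ℝ), G (p + 4) T = _ := v4
  replace v2 : ∫ T in Ioi (0 : ℝ), G (p + 2) T = _ := v2
  replace v0 : ∫ T in Ioi (0 : ℝ), G p T = _ := v0
  have e2 : ∀ T : ℝ, G (p + 2) T = G (p + 4) T * (1 + T ^ 2) := fun T => by
    have := w_pos T
    simp only [hG]
    rw [show p + 4 + 4 = p + 2 + 4 + 2 by omega, pow_add _ (p + 2 + 4) 2, w_sq]
    field_simp
  have e0 : ∀ T : ℝ, G p T = G (p + 4) T * (1 + T ^ 2) ^ 2 := fun T => by
    have := w_pos T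
    have e : √(1 + T ^ 2) ^ 4 = (1 + T ^ 2) ^ 2 := by rw [show 4 = 2 * 2 from rfl, pow_mul, w_sq]
    simp only [hG]
    rw [show p + 4 + 4 = p + 4 + 4 from rfl, pow_add _ (p + 4) 4, e]
    field_simp
  have f0 : envLo (p + 4) Y 0 = fun T => -((p : ℝ) + 5) * G (p + 4) T := funext fun T => by
    simp only [envLo, muX, hG]; push_cast; ring
  have f1 : envLo (p + 4) Y 1 = fun T =>
      ((p : ℝ) + 6) * ((p : ℝ) + 5) * (G (p + 4) T - G (p + 2) T) := funext fun T => by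
    rw [e2]; simp only [envLo, muX, hG]; push_cast; ring
  have f2 : envLo (p + 4) Y 2 = fun T => ((p : ℝ) + 6) ^ 2 * ((p : ℝ) + 5) *
      (2 * G (p + 2) T - G p T - G (p + 4) T) := funext fun T => by
    rw [e2, e0]; simp only [envLo, muX, hG]; push_cast; ring
  rw [f0, f1, f2]
  have j1 := (i4.sub i2).const_mul (((p : ℝ) + 6) * ((p : ℝ) + 5))
  have j2 := (i200.sub i4).const_mul (((p : ℝ) + 6) ^ 2 * ((p : ℝ) + 5))
  refine ⟨⟨i4.const_mul _, j1, j2⟩, ?_, ?_, ?_⟩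
  · rw [MeasureTheory.integral_const_mul, v4, loMom]; ring
  · rw [MeasureTheory.integral_const_mul, integral_sub i4 i2, v4, v2, loMom, loMom]
  · rw [MeasureTheory.integral_const_mul, integral_sub i200 i4,
      integral_sub i20 i0, MeasureTheory.integral_const_mul, v4, v2, v0,
      loMom, loMom, loMom]

/-- The bounds, `n = p + 6 ≥ 100`. -/
theorem envLo_bounds (hp : 94 ≤ p) (hY : 1 ≤ Y) :
    (∫ T in Ioi (0 : ℝ), envLo (p + 4) Y 0 T) / semiMom (p + 4) 1 = 1 - (Y ^ (p + 5))⁻¹ ∧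
    (∫ T in Ioi (0 : ℝ), envLo (p + 4) Y 1 T) / semiMom (p + 4) 1 ≤
      ((p : ℝ) + 6) / ((p : ℝ) + 3) * (3 * (1 - (Y ^ (p + 5))⁻¹) -
        2 * ((((p : ℝ) + 5) * Real.log Y) * (Y ^ (p + 5))⁻¹)) ∧
    (∫ T in Ioi (0 : ℝ), envLo (p + 4) Y 2 T) / semiMom (p + 4) 1 ≤
      ((p : ℝ) + 6) ^ 2 / (((p : ℝ) + 3) * ((p : ℝ) + 1)) * (15 * (1 - (Y ^ (p + 5))⁻¹) -
        (12 * (((p : ℝ) + 5) * Real.log Y) + 399 / 100 * (((p : ℝ) + 5) * Real.log Y) ^ 2) *
          (Y ^ (p + 5))⁻¹) := by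
  obtain ⟨-, v0, v1, v2⟩ := integral_envLo (p := p) hY
  have hY0 : 0 < Y := one_pos.trans_le hY
  have hV : 0 < mom 0 (p + 8) := mom_zero_pos (p + 6)
  have hp' : (94 : ℝ) ≤ (p : ℝ) := by exact_mod_cast hp
  have e6 : mom 0 (p + 6) = ((p : ℝ) + 6) / ((p : ℝ) + 5) * mom 0 (p + 8) := by
    have := mom_exp (a := 0) (m := p + 6) (by omega)
    push_cast at this
    rw [div_mul_eq_mul_div, eq_div_iff (by positivity)]
    linarith
  have e4 : mom 0 (p + 4) = ((p : ℝ) + 4) / ((p : ℝ) + 3) * mom 0 (p + 6) := by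
    have := mom_exp (a := 0) (m := p + 4) (by omega)
    push_cast at this
    rw [div_mul_eq_mul_div, eq_div_iff (by positivity)]
    linarith
  set L := Real.log Y with hL
  have hL0 : 0 ≤ L := Real.log_nonneg hY
  set W := Y ^ (p + 5) with hW
  have hW0 : 0 < W := pow_pos hY0 _
  have hY3 : Y ^ (p + 3) = W / Y ^ 2 := by
    rw [hW, eq_div_iff (pow_ne_zero _ hY0.ne'), ← pow_add]
  have hY1 : Y ^ (p + 1) = W / Y ^ 4 := by
    rw [hW, eq_div_iff (pow_ne_zero _ hY0.ne'), ← pow_add]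
  have hq : 2 * L ≤ Y ^ 2 - 1 := by
    have h := add_one_le_exp (2 * L)
    rw [two_mul, Real.exp_add, hL, Real.exp_log hY0] at h
    linarith
  set k := (p : ℝ) + 5 with hk
  have hk0 : 0 < k := by rw [hk]; positivity
  rw [v0, v1, v2]
  simp only [loMom, semiMom_one, show p + 4 + 4 = p + 8 from rfl, show p + 2 + 4 = p + 6 from rfl,
    show p + 4 + 1 = p + 5 from rfl, show p + 2 + 1 = p + 3 from rfl, e4, e6, hY3, hY1, ← hW]
  push_cast
  generalize mom 0 (p + 8) = V at hV ⊢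
  refine ⟨?_, ?_, ?_⟩
  · rw [show (p : ℝ) + 4 + 1 = k by rw [hk]; ring]
    field_simp
  · have e : k * ((p : ℝ) + 6) *
        (-((1 - 1 / W) * V / ((p : ℝ) + 4 + 1)) -
          -((1 - 1 / (W / Y ^ 2)) * (((p : ℝ) + 6) / k * V) / ((p : ℝ) + 2 + 1))) / V =
        ((p : ℝ) + 6) / ((p : ℝ) + 3) * (3 * (1 - W⁻¹) - ((p : ℝ) + 6) * (Y ^ 2 - 1) * W⁻¹) := by
      rw [show (p : ℝ) + 4 + 1 = k by rw [hk]; ring, hk]
      field_simp
      ring
    rw [mul_comm (((p : ℝ) + 6)) k, e]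
    refine mul_le_mul_of_nonneg_left (sub_le_sub_left ?_ _) (by positivity)
    rw [← mul_assoc]
    refine mul_le_mul_of_nonneg_right ?_ (inv_nonneg.2 hW0.le)
    have h2 := mul_le_mul (show k ≤ (p : ℝ) + 6 by rw [hk]; linarith) hq (by positivity) (by positivity)
    linarith
  · have e : ((p : ℝ) + 6) ^ 2 * k *
        (2 * -((1 - 1 / (W / Y ^ 2)) * (((p : ℝ) + 6) / k * V) / ((p : ℝ) + 2 + 1)) -
          -((1 - 1 / (W / Y ^ 4)) * (((p : ℝ) + 4) / ((p : ℝ) + 3) * (((p : ℝ) + 6) / k * V)) /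
              ((p : ℝ) + 1)) -
          -((1 - 1 / W) * V / ((p : ℝ) + 4 + 1))) / V =
        ((p : ℝ) + 6) ^ 2 / (((p : ℝ) + 3) * ((p : ℝ) + 1)) * (15 * (1 - W⁻¹) -
          (6 * ((p : ℝ) + 6) * (Y ^ 2 - 1) +
            ((p : ℝ) + 6) * ((p : ℝ) + 4) * (Y ^ 2 - 1) ^ 2) * W⁻¹) := by
      rw [show (p : ℝ) + 4 + 1 = k by rw [hk]; ring, hk]
      field_simp
      ring
    rw [e]
    refine mul_le_mul_of_nonneg_left (sub_le_sub_left ?_ _) (by positivity)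
    refine mul_le_mul_of_nonneg_right (add_le_add ?_ ?_) (inv_nonneg.2 hW0.le)
    · have h2 := mul_le_mul (show k ≤ (p : ℝ) + 6 by rw [hk]; linarith) hq (by positivity) (by positivity)
      linarith
    · have h3 := pow_le_pow_left₀ (by positivity) hq 2
      have hc : 399 / 100 * k ^ 2 ≤ 4 * (((p : ℝ) + 6) * ((p : ℝ) + 4)) := by rw [hk]; nlinarith
      have h4 := mul_le_mul_of_nonneg_left h3 (show 0 ≤ ((p : ℝ) + 6) * ((p : ℝ) + 4) by positivity)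
      have h5 := mul_le_mul_of_nonneg_right hc (sq_nonneg L)
      linarith

end Vale.Agent.P237.Cal
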