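import Vale.Agent.P237.Cal.LossDef
import Vale.Agent.P237.Cal.LoEnv

/-!
# P237: the loss function of the leaf for `n ≥ 384`

Over the prefactor the squares are split as `(g + b)² ≤ 3 g² + (3/2) b²`; the negative part carries
`(1 - (9/20) u)²` and is bounded by envelopes against `muX (-lo)` while `Y^k ≤ e²` and by `z`
otherwise; two small terms pay for the linear weight near zero and for `T ≥ 47/100`.
-/

open Real

namespace Vale.Agent.P237.Cal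

/-- `u = 1 - Y^(-k)`. -/
noncomputable def uOf (m : ℕ) (Y : ℝ) : ℝ := 1 - (Y ^ (m + 1))⁻¹

/-- `y = k log Y`. -/
noncomputable def yOf (m : ℕ) (Y : ℝ) : ℝ := ((m : ℝ) + 1) * log Y

/-- The `gG` part. -/
noncomputable def gT (m : ℕ) (ε kap T : ℝ) : ℝ :=
  3 * (pre m T * cP (((m : ℝ) + 2) * T ^ 2) * gG m ε kap T ^ 2)

/-- The state part from above. -/
noncomputable def upT (m : ℕ) (V Y c₀ c₁ T : ℝ) : ℝ :=
  3 / 2 * (pre m T * cP (((m : ℝ) + 2) * T ^ 2) * stateUp m V Y c₀ c₁ T ^ 2)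

/-- The envelope of the negative part for `y ≤ 2`. -/
noncomputable def ngA (m : ℕ) (Y c₀ c₁ T : ℝ) : ℝ :=
  (1 - 9 / 20 * uOf m Y) ^ 2 * shUM m c₀ c₁ ^ 2 * (2 * (Y ^ 2 - 1)) *
    (7 / 10 * envLo m Y 0 T - 156 / 1000 * envLo m Y 1 T + 1 / 50 * envLo m Y 2 T)

/-- The envelope of the negative part for `y ≥ 2`. -/
noncomputable def ngB (m : ℕ) (Y c₀ c₁ T : ℝ) : ℝ :=
  (1 - 9 / 20 * uOf m Y) ^ 2 * shUM m c₀ c₁ ^ 2 *
    (53 / 50 * (pre m T * (cP (((m : ℝ) + 2) * T ^ 2) * ((1 + T ^ 2) ^ 2 * T ^ 2))))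

/-- The negative part. -/
noncomputable def ngT (m : ℕ) (Y c₀ c₁ T : ℝ) : ℝ :=
  if yOf m Y ≤ 2 then ngA m Y c₀ c₁ T else ngB m Y c₀ c₁ T

/-- The cost of a negative linear weight for `z ≤ 28/5`. -/
noncomputable def lowT (m : ℕ) (ε kap T : ℝ) : ℝ :=
  25 / (4 * ε) * (kap * (1 + ε)) ^ 2 * 404 * ((m : ℝ) + 1) / ((m : ℝ) + 2) ^ 4 *
    (1 / √(1 + T ^ 2) ^ (m + 4))

/-- The extra cost of `T ≥ 47/100`. -/
noncomputable def tailT (m : ℕ) (kap T : ℝ) : ℝ :=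
  ((m : ℝ) + 2) * kap ^ 2 * (pre m T * (1 + T ^ 2) * (T ^ 2 / (2209 / 10000)) ^ 6)

/-- The loss without the term of the tangent zone of `σ ≤ T`. -/
noncomputable def lossT (m : ℕ) (V Y ε kap c₀ c₁ T : ℝ) : ℝ :=
  gT m ε kap T + upT m V Y c₀ c₁ T + ngT m Y c₀ c₁ T + lowT m ε kap T + tailT m kap T

end Vale.Agent.P237.Cal
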