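import Vale.Agent.P237.Cal.LargeN
import Vale.Agent.P237.Cal.LBInt
import Vale.Agent.P237.Cal.LossTerms
import Vale.Agent.P237.Cal.LossScalar

/-!
# P237: the integral half of the leaf for `n ≥ 384`

The lower bound is `(ellFlat + nu) lo - loss - eta`; given the closed bounds of the integrals of
the loss terms, its integral stays within the budget of `LargeN.Leaf`.
-/

open MeasureTheory Set Real

namespace Vale.Agent.P237.Cal

variable {m : ℕ}

/-- `r^k ≤ √e`. -/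
lemma rr_pow_le_large (m : ℕ) : rr (m + 1) ^ (m + 1) ≤ 16488 / 10000 := by
  have h := rr_le (k := m + 1) (by omega)
  have h0 : 0 ≤ rr (m + 1) := div_nonneg (mom_nonneg ..) (mom_nonneg ..)
  refine (pow_le_pow_left₀ h0 (h.trans (le_trans (le_of_eq (add_comm _ _)) (add_one_le_exp _))) _).trans ?_
  rw [← exp_nat_mul]
  have h2 : exp (1 / 2 : ℝ) ≤ 16488 / 10000 := by
    have a : exp (1 / 2 : ℝ) ^ 2 = exp 1 := by rw [← exp_nat_mul]; norm_num
    refine le_of_pow_le_pow_left₀ two_ne_zero (by norm_num) (a.trans_le ?_)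
    exact exp_one_lt_d9.le.trans (by norm_num)
  refine (exp_le_exp.2 ?_).trans h2
  push_cast
  rw [mul_one_div, div_le_iff₀ (by positivity)]
  linarith

/-- The loss of the slack of the weight against the budget in `u y`. -/
lemma nu_budget {N u y kap ε : ℝ} (hN : 384 ≤ N) (hu : 0 ≤ u) (huy : u ≤ y) (hk : kap = u / 2)
    (he0 : 0 ≤ 1 + ε) (he : ε ≤ 203 / 50) :
    kap * (1 + ε) * (5 / 2 * u + 33 / 10 * y) / N ^ 2 ≤ 39 / 1000 * (u * y) / N := by
  have hy : 0 ≤ y := hu.trans huy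
  have a : kap * (1 + ε) * (5 / 2 * u + 33 / 10 * y) ≤ u / 2 * (253 / 50) * (29 / 5 * y) := by
    rw [hk]
    gcongr
    · linarith
    · linarith
  rw [div_le_div_iff₀ (by positivity) (by linarith)]
  have b := mul_le_mul_of_nonneg_right a (show 0 ≤ N by linarith)
  have c := mul_le_mul_of_nonneg_right hN (mul_nonneg (mul_nonneg hu hy) (show 0 ≤ N by linarith))
  linarith [mul_nonneg (mul_nonneg hu hy) (show 0 ≤ N by linarith)]

lemma continuous_ellFlat_large {ε kap : ℝ} (r : ℝ) : Continuous (ellFlat m ε kap r) := by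
  have h : ∀ j : ℕ, ∀ u : ℝ, √(1 + u ^ 2) ^ j ≠ 0 := fun j u => (pow_pos (w_pos u) _).ne'
  unfold ellFlat ell gFlat' dpre pre muX
  fun_prop (disch := intros; exact h _ _)

/-- **The budget**: closed bounds of the loss terms give the integral inequality of the leaf. -/
theorem leaf_budget {q Y Q ε kap : ℝ} {η : ℝ → ℝ} {c₀ c₁ g : ℝ} (hm : 382 ≤ m) (hq : 1 < q)
    (hY : 1 ≤ Y) (hYk : Y ^ (m + 1) ≤ 2 * ((m : ℝ) + 2)) (hQ : Q = q / Y ^ (m + 1))
    (he1 : 7 / 2 ≤ ε) (he2 : ε ≤ 203 / 50)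
    (hkap : kap = uOf m Y / 2)
    (hg1 : yOf m Y ≤ 2 → g ≤ 191 / 100 * uOf m Y * yOf m Y * (1 - 9 / 20 * uOf m Y) ^ 2)
    (hg2 : 2 < yOf m Y → g ≤ 285 / 100 * (1 - 9 / 20 * uOf m Y) ^ 2)
    (hgT : Continuous (gT m ε kap) ∧ IntegrableOn (gT m ε kap) (Ioi 0) ∧
      ((m : ℝ) + 2) * ((∫ T in Ioi (0 : ℝ), gT m ε kap T) / semiMom m 1) ≤
        1129 / 1000 * uOf m Y ^ 2)
    (hlow : Continuous (lowT m ε kap) ∧ IntegrableOn (lowT m ε kap) (Ioi 0) ∧
      ((m : ℝ) + 2) * ((∫ T in Ioi (0 : ℝ), lowT m ε kap T) / semiMom m 1) ≤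
        34 / 1000 * uOf m Y ^ 2)
    (htail : Continuous (tailT m kap) ∧ IntegrableOn (tailT m kap) (Ioi 0) ∧
      ((m : ℝ) + 2) * ((∫ T in Ioi (0 : ℝ), tailT m kap T) / semiMom m 1) ≤
        28 / 1000 * uOf m Y ^ 2)
    (hng : Continuous (ngT m Y c₀ c₁) ∧ IntegrableOn (ngT m Y c₀ c₁) (Ioi 0) ∧
      ((m : ℝ) + 2) * ((∫ T in Ioi (0 : ℝ), ngT m Y c₀ c₁ T) / semiMom m 1) ≤ g)
    (hup : Continuous (upT m (q * semiMom m 1) Y c₀ c₁) ∧
      IntegrableOn (upT m (q * semiMom m 1) Y c₀ c₁) (Ioi 0) ∧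
      ((m : ℝ) + 2) * ((∫ T in Ioi (0 : ℝ), upT m (q * semiMom m 1) Y c₀ c₁ T) / semiMom m 1) ≤
        21 / 100 * ((q - 1) / Y ^ (m + 1)) + 57 / 100 * ((q - 1) / Y ^ (m + 1)) ^ 2)
    (hη : Continuous η ∧ IntegrableOn η (Ioi 0) ∧ (∫ T in Ioi (0 : ℝ), η T) / semiMom m 1 ≤
      1 / 100 * uOf m Y * yOf m Y / ((m : ℝ) + 2)) :
    let LB := fun T => (ellFlat m ε kap (rr (m + 1)) T + nuFlat m ε kap T) * loD Y T -
      lossT m (q * semiMom m 1) Y ε kap c₀ c₁ T - η T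
    Continuous LB ∧ IntegrableOn LB (Ioi 0) ∧
      ((∫ T in Ioi (0 : ℝ), ellFlat m ε kap (rr (m + 1)) T * loD Y T) -
          ∫ T in Ioi (0 : ℝ), LB T) / semiMom m 1 <
        Real.log q / (3 * ((m : ℝ) + 2)) +
          3 / 20 / ((m : ℝ) + 2) * ((1 - (Y ^ (m + 1))⁻¹) * (((m : ℝ) + 1) * Real.log Y)) +
          7 / 2 / ((m : ℝ) + 2) * (1 - (Y ^ (m + 1))⁻¹) ^ 2 +
          (3 / 4 - 83 / 10 / ((m : ℝ) + 2)) * max (Q - 1) 0 ^ 2 := by
  obtain ⟨p, rfl⟩ : ∃ p, m = p + 2 := ⟨m - 2, by omega⟩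
  have hY0 : 0 < Y := one_pos.trans_le hY
  have hYp : (0 : ℝ) < Y ^ (p + 2 + 1) := pow_pos hY0 _
  set N := ((p + 2 : ℕ) : ℝ) + 2 with hNd
  have hN : 384 ≤ N := by
    have : ((382 : ℕ) : ℝ) ≤ ((p + 2 : ℕ) : ℝ) := by exact_mod_cast hm
    push_cast at this
    rw [hNd]; push_cast; linarith
  set u := uOf (p + 2) Y with hu
  set y := yOf (p + 2) Y with hy
  have hy0 : 0 ≤ y := mul_nonneg (by positivity) (log_nonneg hY)
  have hey : exp y = Y ^ (p + 2 + 1) := by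
    rw [hy, yOf, show ((p + 2 : ℕ) : ℝ) + 1 = ((p + 2 + 1 : ℕ) : ℝ) by push_cast; ring, exp_nat_mul,
      exp_log hY0]
  have hue : u = 1 - exp (-y) := by rw [exp_neg, hey]; rfl
  have hu0 : 0 ≤ u := by
    rw [hue, sub_nonneg]; exact exp_le_one_iff.2 (neg_nonpos.2 hy0)
  have huy : u ≤ y := by rw [hue]; linarith [add_one_le_exp (-y)]
  have hk0 : 0 ≤ kap := by rw [hkap]; linarith
  have hr : rr (p + 2 + 1) ≠ 0 := (one_pos.trans_le (one_lt_rr (k := p + 2 + 1) (by omega)).le).ne'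
  obtain ⟨i1, -⟩ := integral_ellFlat_loD (p := p) (ε := ε) (kap := kap) hr hY
  obtain ⟨i2, v2⟩ := integral_nuFlat_loD (m := p + 2) (by omega) hY hYk hk0 (ε := ε) (by linarith)
  obtain ⟨c1, j1, b1⟩ := hgT
  obtain ⟨c2, j2, b2⟩ := hup
  obtain ⟨c3, j3, b3⟩ := hng
  obtain ⟨c4, j4, b4⟩ := hlow
  obtain ⟨c5, j5, b5⟩ := htail
  obtain ⟨c6, j6, b6⟩ := hη
  have hcl : Continuous fun T => loD Y T := by unfold loD; fun_prop
  have hcell : Continuous fun T => ellFlat (p + 2) ε kap (rr (p + 2 + 1)) T * loD Y T :=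
    (continuous_ellFlat_large _).mul hcl
  have hcnu : Continuous fun T => nuFlat (p + 2) ε kap T * loD Y T := by
    refine Continuous.mul ?_ hcl
    have := mom_continuous 7 (p + 2 + 6)
    unfold nuFlat muX
    fun_prop (disch := intros; positivity)
  have hloss : ∀ T, lossT (p + 2) (q * semiMom (p + 2) 1) Y ε kap c₀ c₁ T =
      gT (p + 2) ε kap T + upT (p + 2) (q * semiMom (p + 2) 1) Y c₀ c₁ T +
        ngT (p + 2) Y c₀ c₁ T + lowT (p + 2) ε kap T + tailT (p + 2) kap T := fun T => rfl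
  intro LB
  have hLB : LB = fun T => ellFlat (p + 2) ε kap (rr (p + 2 + 1)) T * loD Y T +
      nuFlat (p + 2) ε kap T * loD Y T - (gT (p + 2) ε kap T +
        upT (p + 2) (q * semiMom (p + 2) 1) Y c₀ c₁ T +
        ngT (p + 2) Y c₀ c₁ T + lowT (p + 2) ε kap T + tailT (p + 2) kap T + η T) := by
    funext T; simp only [LB, hloss]; ring
  have k2 := j1.add j2
  have k3 := k2.add j3
  have k4 := k3.add j4
  have k5 := k4.add j5
  have k6 := k5.add j6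
  have hI : ∀ a b : ℝ → ℝ, IntegrableOn a (Ioi 0) → IntegrableOn b (Ioi 0) →
      IntegrableOn (fun T => a T + b T) (Ioi 0) ∧
        (∫ T in Ioi (0 : ℝ), (a T + b T)) = (∫ T in Ioi (0 : ℝ), a T) + ∫ T in Ioi (0 : ℝ), b T :=
    fun a b ha hb => ⟨ha.add hb, integral_add ha hb⟩
  obtain ⟨l2, w2⟩ := hI _ _ j1 j2
  obtain ⟨l3, w3⟩ := hI _ _ l2 j3
  obtain ⟨l4, w4⟩ := hI _ _ l3 j4
  obtain ⟨l5, w5⟩ := hI _ _ l4 j5
  obtain ⟨l6, w6⟩ := hI _ _ l5 j6
  obtain ⟨l0, w0⟩ := hI _ _ i1 i2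
  rw [hLB]
  refine ⟨(hcell.add hcnu).sub (((((c1.add c2).add c3).add c4).add c5).add c6), l0.sub l6, ?_⟩
  rw [integral_sub l0 l6, w0, w6, w5, w4, w3, w2]
  have hV : 0 < semiMom (p + 2) 1 := by rw [semiMom_one]; exact mom_zero_pos _
  have b7 : -(∫ T in Ioi (0 : ℝ), nuFlat (p + 2) ε kap T * loD Y T) / semiMom (p + 2) 1 ≤
      39 / 1000 * (u * y) / N := by
    refine le_trans ?_ (nu_budget hN hu0 huy hkap (by linarith) he2)
    rw [div_le_iff₀ hV]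
    rw [neg_mul] at v2
    exact neg_le.1 v2
  have hNpos : 0 < N := by linarith
  set x := (q - 1) / Y ^ (p + 2 + 1) with hx
  have hx0 : 0 ≤ x := div_nonneg (by linarith) hYp.le
  have hqx : q = 1 + x * exp y := by rw [hx, hey, div_mul_cancel₀ _ hYp.ne']; ring
  have hxu : x - u = Q - 1 := by
    rw [hx, hQ, hu, uOf]; field_simp; ring
  have key := LossScalar.budget_lt hN hy0 hue hx0 hqx hq hg1 hg2
  rw [hxu] at key
  have key' := div_lt_div_of_pos_right key hNpos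
  refine lt_of_le_of_lt ?_ (key'.trans_le (le_of_eq ?_))
  · rw [le_div_iff₀ hNpos]
    rw [le_div_iff₀ hNpos] at b6
    have b7' := (le_div_iff₀ hNpos).1 b7
    simp only [sub_div, add_div, neg_div] at b1 b2 b3 b4 b5 b6 b7' ⊢
    linarith
  · simp only [u, y, uOf, yOf]
    field_simp

end Vale.Agent.P237.Cal
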