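import Vale.Agent.P237.Cal.LossTerms
import Vale.Agent.P237.Cal.GBounds

/-!
# P237: the negative part under its envelope and the integrals of the loss terms

For `n ≥ 384` the terms `gT`, `ngT`, `lowT`, `tailT` integrate to at most `(1129/1000) u²`,
`(191/100) u y (1 - 9u/20)²` for `y ≤ 2` and `(285/100)(1 - 9u/20)²` for `y ≥ 2`,
`(34/1000) u²` and `(28/1000) u²`, times `semiMom m 1 / n`.
-/

open MeasureTheory Set Real

namespace Vale.Agent.P237.Cal

variable {m : ℕ} {Y T ε kap c₀ c₁ : ℝ}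

/-- The quadratic weight dominates the weight with the width. -/
lemma cP_width {z N : ℝ} (hz0 : 0 ≤ z) (hz : z ≤ 64) (hN : 384 ≤ N) :
    cP z * (1 + z / N) ^ 2 ≤ (1 + z / 3) * (7 / 10 - 156 / 1000 * z + 1 / 50 * z ^ 2) := by
  have h1 : z / N ≤ z / 384 := div_le_div_of_nonneg_left hz0 (by norm_num) hN
  have h2 : 0 ≤ z / N := div_nonneg hz0 (by linarith)
  refine (mul_le_mul_of_nonneg_left
    (pow_le_pow_left₀ (by linarith) (add_le_add le_rfl h1) 2) (cP_pos z).le).trans ?_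
  rw [cP]
  linarith [mul_nonneg hz0 (sq_nonneg (z - 3334 / 1000)), mul_nonneg hz0 (sub_nonneg.2 hz),
    mul_nonneg (mul_nonneg hz0 (sq_nonneg z)) (sub_nonneg.2 hz), pow_nonneg hz0 3]

lemma ngPoly_nonneg (z : ℝ) : 0 ≤ 7 / 10 - 156 / 1000 * z + 1 / 50 * z ^ 2 := by
  linarith [sq_nonneg (z - 39 / 10)]

lemma ngA_eq (hT : T ≠ 0) :
    ngA m Y c₀ c₁ T = (1 - 9 / 20 * uOf m Y) ^ 2 * shUM m c₀ c₁ ^ 2 * (2 * (Y ^ 2 - 1)) *
      (pre m T * (7 / 10 - 156 / 1000 * (((m : ℝ) + 2) * T ^ 2) +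
        1 / 50 * (((m : ℝ) + 2) * T ^ 2) ^ 2) * (-loD Y T / T)) := by
  simp only [ngA, envLo, muX, pre]
  field_simp
  ring

lemma ngT_nonneg (P : LargeP m ε Y c₀ c₁) (hT : 0 < T) : 0 ≤ ngT m Y c₀ c₁ T := by
  have hd := P.d_nonneg
  have hlo : 0 ≤ -loD Y T / T := div_nonneg (neg_nonneg.2 (loD_nonpos P.hY hT.le)) hT.le
  have := cP_pos (((m : ℝ) + 2) * T ^ 2)
  have := ngPoly_nonneg (((m : ℝ) + 2) * T ^ 2)
  have : 0 ≤ pre m T := by unfold pre; positivity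
  rw [ngT]
  split_ifs
  · rw [ngA_eq hT.ne']; positivity
  · unfold ngB; positivity

/-- **The negative part under its envelope.** -/
theorem ng_le (P : LargeP m ε Y c₀ c₁) (hkap : kap = (1 - (Y ^ (m + 1))⁻¹) / 2) (hT : 0 < T) :
    pre m T * cP (((m : ℝ) + 2) * T ^ 2) * max (negE m Y c₀ c₁ T - gG m ε kap T) 0 ^ 2 ≤
      ngT m Y c₀ c₁ T := by
  have hd := P.d_nonneg
  have hlo : 0 ≤ -loD Y T / T := div_nonneg (neg_nonneg.2 (loD_nonpos P.hY hT.le)) hT.le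
  have hpre : 0 ≤ pre m T := by unfold pre; positivity
  set z := ((m : ℝ) + 2) * T ^ 2 with hz
  have hz0 : 0 ≤ z := by positivity
  have hc := cP_pos z
  set mn := min ((Y ^ 2 - 1) / (T * √(1 + z / 3))) (2 * T / 3) with hmn
  have hmn0 : 0 ≤ mn := le_min (by positivity) (by positivity)
  have hsq : max (negE m Y c₀ c₁ T - gG m ε kap T) 0 ^ 2 ≤
      (1 - 9 / 20 * uOf m Y) ^ 2 * shUM m c₀ c₁ ^ 2 * ((1 + T ^ 2) ^ 2 * mn ^ 2) := by
    refine (pow_le_pow_left₀ (le_max_right _ _) (P.neg_part_le hkap hT) 2).trans (le_of_eq ?_)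
    rw [negE, ← hz, ← hmn, uOf]
    ring
  have hK : 0 ≤ (1 - 9 / 20 * uOf m Y) ^ 2 * shUM m c₀ c₁ ^ 2 := by positivity
  rw [ngT]
  split_ifs with hy
  · rcases le_or_gt z 64 with h64 | h64
    · have hd16 : ((m : ℝ) + 2) * (Y ^ 2 - 1) ≤ 16 := by
        have := P.d_le.2
        rw [yOf] at hy
        linarith
      have h1 := (stateLow_sq_le P.hY hT hd16).trans
        (mul_le_mul_of_nonneg_right (min_le_left _ _) hlo)
      rw [← hz, ← hmn] at h1
      have hs : T ^ 2 = z / ((m : ℝ) + 2) := by rw [hz]; field_simp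
      have h2 := cP_width hz0 h64 P.n_ge
      rw [← hs] at h2
      refine (mul_le_mul_of_nonneg_left (hsq.trans (mul_le_mul_of_nonneg_left
        (mul_le_mul_of_nonneg_left h1 (sq_nonneg _)) hK)) (by positivity)).trans ?_
      rw [ngA_eq hT.ne', ← hz]
      have h3 : cP z * (1 + T ^ 2) ^ 2 / (1 + z / 3) ≤
          7 / 10 - 156 / 1000 * z + 1 / 50 * z ^ 2 := by
        rw [div_le_iff₀ (by positivity)]; linarith
      have h4 := mul_le_mul_of_nonneg_left h3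
        (show 0 ≤ (1 - 9 / 20 * uOf m Y) ^ 2 * shUM m c₀ c₁ ^ 2 * (2 * (Y ^ 2 - 1)) *
          (pre m T * (-loD Y T / T)) by positivity)
      refine le_trans (le_trans (le_of_eq ?_) h4) (le_of_eq ?_) <;> ring
    · rw [max_eq_right (sub_nonpos.2 (P.negE_le_gG hkap hT h64.le))]
      rw [ngA_eq hT.ne', ← hz, zero_pow two_ne_zero, mul_zero]
      have := ngPoly_nonneg z
      positivity
  · have h1 : mn ^ 2 ≤ 53 / 50 * T ^ 2 := by
      refine (pow_le_pow_left₀ hmn0 (min_le_min ?_ le_rfl) 2).trans ((low_env_cube P.hY hT).trans ?_)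
      · refine div_le_div_of_nonneg_left hd hT (le_mul_of_one_le_right hT.le (one_le_sqrt.2 ?_))
        linarith
      · refine mul_le_of_le_one_right (by positivity) ?_
        rw [div_le_one hT, loD]
        linarith [sqrt_nonneg (T ^ 2 + 1 - Y ^ 2)]
    refine (mul_le_mul_of_nonneg_left (hsq.trans (mul_le_mul_of_nonneg_left
      (mul_le_mul_of_nonneg_left h1 (sq_nonneg _)) hK)) (by positivity)).trans (le_of_eq ?_)
    rw [ngB, ← hz]
    ring

/-- The even moment against the prefactor. -/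
noncomputable def preMom (m j : ℕ) : ℝ :=
  ∫ T in Ioi (0 : ℝ), pre m T * (((m : ℝ) + 2) * T ^ 2) ^ j

lemma integrable_preMom {j : ℕ} (hj : 2 * j + 2 ≤ m) :
    IntegrableOn (fun T => pre m T * (((m : ℝ) + 2) * T ^ 2) ^ j) (Ioi 0) := by
  have e : (fun T : ℝ => pre m T * (((m : ℝ) + 2) * T ^ 2) ^ j) = fun T =>
      ((m : ℝ) + 1) * ((m : ℝ) + 2) ^ j * (T ^ (2 * (j + 1)) / √(1 + T ^ 2) ^ (m + 4)) := by
    funext T
    rw [pre, mul_pow, ← pow_mul, mul_add 2 j 1, pow_add]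
    ring
  rw [e]
  exact (mom_integrable (by omega)).const_mul _

/-- The even moment in closed form. -/
lemma preMom_mul {j : ℕ} (hj : 2 * j + 2 ≤ m) :
    (∏ i ∈ Finset.range (j + 1), ((m : ℝ) + 1 - 2 * i)) * preMom m j =
      (∏ i ∈ Finset.range (j + 1), (2 * (i : ℝ) + 1)) * (((m : ℝ) + 1) * ((m : ℝ) + 2) ^ j) *
        semiMom m 1 := by
  have h := mom_even (N := m + 2) (i := j + 1) (by omega)
  push_cast at h
  simp only [show m + 2 + 2 = m + 4 from rfl, ← semiMom_one] at h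
  have e : preMom m j = ((m : ℝ) + 1) * ((m : ℝ) + 2) ^ j * mom (2 * (j + 1)) (m + 4) := by
    rw [preMom, mom, ← MeasureTheory.integral_const_mul]
    congr 1
    funext T
    rw [pre, mul_pow, ← pow_mul, mul_add 2 j 1, pow_add]
    ring
  have e2 : (∏ i ∈ Finset.range (j + 1), ((m : ℝ) + 1 - 2 * i)) =
      ∏ i ∈ Finset.range (j + 1), ((m : ℝ) + 2 - 1 - 2 * (i : ℝ)) :=
    Finset.prod_congr rfl fun i _ => by ring
  rw [e, e2]
  linear_combination (((m : ℝ) + 1) * ((m : ℝ) + 2) ^ j) * h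

lemma preMom_nonneg {j : ℕ} : 0 ≤ preMom m j :=
  setIntegral_nonneg measurableSet_Ioi fun T _ => by unfold pre; positivity

/-- One step: `M (j+1) ≤ (2j+3) r · M j` once `n ≤ r (m - 1 - 2j)`. -/
lemma preMom_succ {j : ℕ} (hm : 382 ≤ m) (hj : j ≤ 7) {r : ℝ}
    (hr : (m : ℝ) + 2 ≤ r * ((m : ℝ) - 1 - 2 * j)) :
    preMom m (j + 1) ≤ (2 * (j : ℝ) + 3) * r * preMom m j := by
  have hm' : (382 : ℝ) ≤ (m : ℝ) := by exact_mod_cast hm
  have hj' : (j : ℝ) ≤ 7 := by exact_mod_cast hj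
  have h0 := preMom_mul (m := m) (j := j) (by omega)
  have h1 := preMom_mul (m := m) (j := j + 1) (by omega)
  rw [Finset.prod_range_succ, Finset.prod_range_succ (fun i : ℕ => 2 * (i : ℝ) + 1)] at h1
  push_cast at h1
  have hD : 0 < ∏ i ∈ Finset.range (j + 1), ((m : ℝ) + 1 - 2 * i) :=
    Finset.prod_pos fun i hi => by
      have : (i : ℝ) ≤ 7 := by exact_mod_cast (Nat.lt_succ_iff.1 (Finset.mem_range.1 hi)).trans hj
      linarith
  have hk : 0 < (m : ℝ) - 1 - 2 * j := by linarith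
  have key : ((m : ℝ) - 1 - 2 * j) * preMom m (j + 1) =
      (2 * (j : ℝ) + 3) * ((m : ℝ) + 2) * preMom m j := by
    refine mul_left_cancel₀ hD.ne' ?_
    linear_combination h1 - (2 * (j : ℝ) + 3) * ((m : ℝ) + 2) * h0
  refine le_of_mul_le_mul_left ?_ hk
  rw [key]
  have := mul_le_mul_of_nonneg_left hr
    (mul_nonneg (show (0 : ℝ) ≤ 2 * (j : ℝ) + 3 by positivity) (preMom_nonneg (m := m) (j := j)))
  linarith

/-- The first seven moments. -/
lemma preMom_le (hm : 382 ≤ m) :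
    preMom m 0 = semiMom m 1 ∧ preMom m 1 ≤ 30237 / 10000 * semiMom m 1 ∧
      preMom m 2 ≤ 1532 / 100 * semiMom m 1 ∧ preMom m 3 ≤ 1093 / 10 * semiMom m 1 ∧
      preMom m 4 ≤ 1008 * semiMom m 1 ∧ preMom m 5 ≤ 11420 * semiMom m 1 ∧
      preMom m 6 ≤ 153700 * semiMom m 1 ∧ preMom m 7 ≤ 2400000 * semiMom m 1 := by
  have hm' : (382 : ℝ) ≤ (m : ℝ) := by exact_mod_cast hm
  have hV : 0 ≤ semiMom m 1 := by rw [semiMom_one]; exact mom_nonneg ..
  have h0 : preMom m 0 = semiMom m 1 := by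
    have h := preMom_mul (m := m) (j := 0) (by omega)
    simp at h
    exact h.resolve_right (by positivity : (0 : ℝ) < (m : ℝ) + 1).ne'
  have s1 := preMom_succ (j := 0) hm (by norm_num) (r := 100788 / 100000) (by push_cast; linarith)
  have s2 := preMom_succ (j := 1) hm (by norm_num) (r := 10132 / 10000) (by push_cast; linarith)
  have s3 := preMom_succ (j := 2) hm (by norm_num) (r := 10186 / 10000) (by push_cast; linarith)
  have s4 := preMom_succ (j := 3) hm (by norm_num) (r := 10240 / 10000) (by push_cast; linarith)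
  have s5 := preMom_succ (j := 4) hm (by norm_num) (r := 10300 / 10000) (by push_cast; linarith)
  have s6 := preMom_succ (j := 5) hm (by norm_num) (r := 10352 / 10000) (by push_cast; linarith)
  have s7 := preMom_succ (j := 6) hm (by norm_num) (r := 10407 / 10000) (by push_cast; linarith)
  simp only [show 0 + 1 = 1 from rfl, show 1 + 1 = 2 from rfl, show 2 + 1 = 3 from rfl,
    show 3 + 1 = 4 from rfl, show 4 + 1 = 5 from rfl, show 5 + 1 = 6 from rfl,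
    show 6 + 1 = 7 from rfl] at s1 s2 s3 s4 s5 s6 s7
  push_cast at s1 s2 s3 s4 s5 s6 s7
  refine ⟨h0, ?_, ?_, ?_, ?_, ?_, ?_, ?_⟩ <;> linarith

/-- Integral of `pre` times a polynomial in `z` with seven coefficients. -/
lemma integral_prePoly (hm : 382 ≤ m) (a : Fin 8 → ℝ) :
    IntegrableOn (fun T => ∑ j : Fin 8, a j * (pre m T * (((m : ℝ) + 2) * T ^ 2) ^ (j : ℕ)))
        (Ioi 0) ∧
      (∫ T in Ioi (0 : ℝ), ∑ j : Fin 8, a j * (pre m T * (((m : ℝ) + 2) * T ^ 2) ^ (j : ℕ))) =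
        ∑ j : Fin 8, a j * preMom m j := by
  have hi : ∀ j : Fin 8, IntegrableOn
      (fun T => a j * (pre m T * (((m : ℝ) + 2) * T ^ 2) ^ (j : ℕ))) (Ioi 0) := fun j =>
    (integrable_preMom (by omega)).const_mul _
  refine ⟨integrable_finsetSum _ fun j _ => hi j, ?_⟩
  rw [integral_finsetSum _ fun j _ => hi j]
  simp only [MeasureTheory.integral_const_mul, preMom]

lemma semiMom_pos' (m : ℕ) : 0 < semiMom m 1 := by rw [semiMom_one]; exact mom_zero_pos _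

/-- **The `gG` term.** -/
theorem integral_gT (P : LargeP m ε Y c₀ c₁) (hkap : kap = uOf m Y / 2) :
    Continuous (gT m ε kap) ∧ IntegrableOn (gT m ε kap) (Ioi 0) ∧
      ((m : ℝ) + 2) * ((∫ T in Ioi (0 : ℝ), gT m ε kap T) / semiMom m 1) ≤
        1129 / 1000 * uOf m Y ^ 2 := by
  have h : ∀ T : ℝ, √(1 + T ^ 2) ^ (m + 4) ≠ 0 := fun T => (pow_pos (w_pos T) _).ne'
  refine ⟨by unfold gT pre cP gG; fun_prop (disch := exact h), ?_⟩
  have hn := P.n_ge
  set C := 3 * (kap * (1 + ε) / ((m : ℝ) + 2)) ^ 2 with hC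
  have ef : gT m ε kap = fun T => ∑ j : Fin 8,
      (C * (![63 / 40, 63 / 40, 1683 / 4000, 27 / 1000, 27 / 4000, 0, 0, 0] : Fin 8 → ℝ) j) *
        (pre m T * (((m : ℝ) + 2) * T ^ 2) ^ (j : ℕ)) := funext fun T => by
    simp [Fin.sum_univ_eight, gT, cP, gG, hC]
    ring
  obtain ⟨hi, hv⟩ := integral_prePoly P.hm (m := m)
    (fun j => C * (![63 / 40, 63 / 40, 1683 / 4000, 27 / 1000, 27 / 4000, 0, 0, 0] : Fin 8 → ℝ) j)
  rw [ef]
  refine ⟨hi, ?_⟩
  rw [hv]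
  simp [Fin.sum_univ_eight]
  obtain ⟨h0, h1, h2, h3, h4, -⟩ := preMom_le P.hm
  have hV := semiMom_pos' m
  rw [mul_div_assoc', div_le_iff₀ hV]
  set V := semiMom m 1
  have hu0 : 0 ≤ uOf m Y := P.u_bounds.1
  have hC' : C * ((m : ℝ) + 2) ≤ 192027 / 10000 * uOf m Y ^ 2 / 384 := by
    have a : 0 ≤ kap * (1 + ε) ∧ kap * (1 + ε) ≤ 253 / 100 * uOf m Y := by
      rw [hkap]
      have := mul_le_mul_of_nonneg_left P.e2 hu0
      exact ⟨mul_nonneg (by linarith) (by linarith [P.e1]), by linarith⟩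
    rw [hC, show 3 * (kap * (1 + ε) / ((m : ℝ) + 2)) ^ 2 * ((m : ℝ) + 2) =
      3 * (kap * (1 + ε)) ^ 2 / ((m : ℝ) + 2) by field_simp]
    refine div_le_div₀ (by positivity) ?_ (by norm_num) hn
    linarith [pow_le_pow_left₀ a.1 a.2 2, sq_nonneg (uOf m Y)]
  have hsum : 63 / 40 * preMom m 0 + 63 / 40 * preMom m 1 + 1683 / 4000 * preMom m 2 +
      27 / 1000 * preMom m 3 + 27 / 4000 * preMom m 4 ≤ 22546 / 1000 * V := by linarith
  have hs0 : 0 ≤ 63 / 40 * preMom m 0 + 63 / 40 * preMom m 1 + 1683 / 4000 * preMom m 2 +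
      27 / 1000 * preMom m 3 + 27 / 4000 * preMom m 4 := by
    linarith [preMom_nonneg (m := m) (j := 0), preMom_nonneg (m := m) (j := 1),
      preMom_nonneg (m := m) (j := 2), preMom_nonneg (m := m) (j := 3),
      preMom_nonneg (m := m) (j := 4)]
  have := mul_le_mul hC' hsum hs0 (by positivity)
  linarith [mul_nonneg (sq_nonneg (uOf m Y)) hV.le]

/-- **The envelope `ngB`.** -/
theorem integral_ngB (P : LargeP m ε Y c₀ c₁) :
    Continuous (ngB m Y c₀ c₁) ∧ IntegrableOn (ngB m Y c₀ c₁) (Ioi 0) ∧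
      ((m : ℝ) + 2) * ((∫ T in Ioi (0 : ℝ), ngB m Y c₀ c₁ T) / semiMom m 1) ≤
        285 / 100 * (1 - 9 / 20 * uOf m Y) ^ 2 := by
  have h : ∀ T : ℝ, √(1 + T ^ 2) ^ (m + 4) ≠ 0 := fun T => (pow_pos (w_pos T) _).ne'
  refine ⟨by unfold ngB pre cP; fun_prop (disch := exact h), ?_⟩
  have hn := P.n_ge
  set N := (m : ℝ) + 2 with hN
  set C := (1 - 9 / 20 * uOf m Y) ^ 2 * shUM m c₀ c₁ ^ 2 * (53 / 50) / N with hC
  set b : Fin 8 → ℝ :=
    ![0, 7 / 10, 14 / 10 / N, 7 / 10 / N ^ 2 + 3 / 250, 6 / 250 / N, 3 / 250 / N ^ 2, 0, 0] with hb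
  have hN0 : N ≠ 0 := by linarith
  have ef : ngB m Y c₀ c₁ = fun T => ∑ j : Fin 8,
      (C * b j) * (pre m T * (N * T ^ 2) ^ (j : ℕ)) := funext fun T => by
    simp [Fin.sum_univ_eight, ngB, cP, hC, hb, ← hN]
    field_simp
    ring
  obtain ⟨hi, hv⟩ := integral_prePoly P.hm (m := m) (fun j => C * b j)
  rw [ef]
  refine ⟨hi, ?_⟩
  rw [hv]
  simp [Fin.sum_univ_eight, hb]
  obtain ⟨h0, h1, h2, h3, h4, h5, -⟩ := preMom_le P.hm
  have hV := semiMom_pos' m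
  rw [mul_div_assoc', div_le_iff₀ hV]
  set V := semiMom m 1
  have hC' : C * N ≤ 3083 / 10 / 384 * (1 - 9 / 20 * uOf m Y) ^ 2 := by
    have a : shUM m c₀ c₁ ^ 2 * N ≤ (17052 / 1000) ^ 2 := by
      have a := P.UM_le
      rw [← hN, le_div_iff₀ (sqrt_pos.2 (by linarith))] at a
      have := pow_le_pow_left₀ (mul_nonneg P.UM_nonneg (sqrt_nonneg _))
        (a.trans (show 21 / 5 * ε ≤ 17052 / 1000 by linarith [P.e2])) 2
      rwa [mul_pow, sq_sqrt (by linarith)] at this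
    have hb2 : shUM m c₀ c₁ ^ 2 * (53 / 50) ≤ 3083 / 10 / 384 := by
      rw [le_div_iff₀ (by norm_num)]
      linarith [mul_le_mul_of_nonneg_left hn (sq_nonneg (shUM m c₀ c₁))]
    rw [hC, div_mul_cancel₀ _ hN0, mul_assoc]
    linarith [mul_le_mul_of_nonneg_left hb2 (sq_nonneg (1 - 9 / 20 * uOf m Y))]
  have i1 : 1 / N ≤ 1 / 384 := div_le_div_of_nonneg_left zero_le_one (by norm_num) hn
  have i0 : 0 ≤ 1 / N := by positivity
  have i2 := pow_le_pow_left₀ i0 i1 2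
  rw [show (7 : ℝ) / 10 / N ^ 2 = 7 / 10 * (1 / N) ^ 2 by ring,
    show (3 : ℝ) / 250 / N ^ 2 = 3 / 250 * (1 / N) ^ 2 by ring,
    show (14 : ℝ) / 10 / N = 14 / 10 * (1 / N) by ring,
    show (6 : ℝ) / 250 / N = 6 / 250 * (1 / N) by ring]
  have p : ∀ j, 0 ≤ preMom m j := fun j => preMom_nonneg
  have hsum : 7 / 10 * preMom m 1 + 14 / 10 * (1 / N) * preMom m 2 +
      (7 / 10 * (1 / N) ^ 2 + 3 / 250) * preMom m 3 + 6 / 250 * (1 / N) * preMom m 4 +
      3 / 250 * (1 / N) ^ 2 * preMom m 5 ≤ 3549 / 1000 * V := by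
    linarith [mul_le_mul i1 h2 (p 2) (by norm_num), mul_le_mul i2 h3 (p 3) (by norm_num),
      mul_le_mul i1 h4 (p 4) (by norm_num), mul_le_mul i2 h5 (p 5) (by norm_num)]
  have := mul_le_mul hC' hsum (by have := p 1; have := p 2; have := p 3; have := p 4; have := p 5; positivity)
    (by positivity)
  linarith [mul_nonneg (sq_nonneg (1 - 9 / 20 * uOf m Y)) hV.le]

/-- The first moment of the envelope. -/
lemma envLo_one {p : ℕ} (hY : 1 ≤ Y) :
    (∫ T in Ioi (0 : ℝ), envLo (p + 4) Y 1 T) / semiMom (p + 4) 1 =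
      ((p : ℝ) + 6) / ((p : ℝ) + 3) *
        (3 * (1 - (Y ^ (p + 5))⁻¹) - ((p : ℝ) + 6) * (Y ^ 2 - 1) * (Y ^ (p + 5))⁻¹) := by
  obtain ⟨-, -, v1, -⟩ := integral_envLo (p := p) hY
  have hY0 : 0 < Y := one_pos.trans_le hY
  have hV : 0 < mom 0 (p + 8) := mom_zero_pos (p + 6)
  have e6 : mom 0 (p + 6) = ((p : ℝ) + 6) / ((p : ℝ) + 5) * mom 0 (p + 8) := by
    have := mom_exp (a := 0) (m := p + 6) (by omega)
    push_cast at this
    rw [div_mul_eq_mul_div, eq_div_iff (by positivity)]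
    linarith
  rw [v1]
  simp only [loMom, semiMom_one, show p + 4 + 4 = p + 8 from rfl, show p + 2 + 4 = p + 6 from rfl,
    show p + 4 + 1 = p + 5 from rfl, show p + 2 + 1 = p + 3 from rfl, e6]
  push_cast
  rw [show Y ^ (p + 5) = Y ^ (p + 3) * Y ^ 2 by rw [← pow_add]]
  have : 0 < Y ^ (p + 3) := pow_pos hY0 _
  field_simp
  ring

/-- **The envelope `ngA`.** -/
theorem integral_ngA (P : LargeP m ε Y c₀ c₁) :
    Continuous (ngA m Y c₀ c₁) ∧ IntegrableOn (ngA m Y c₀ c₁) (Ioi 0) ∧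
      ((m : ℝ) + 2) * ((∫ T in Ioi (0 : ℝ), ngA m Y c₀ c₁ T) / semiMom m 1) ≤
        191 / 100 * uOf m Y * yOf m Y * (1 - 9 / 20 * uOf m Y) ^ 2 := by
  obtain ⟨p, rfl⟩ : ∃ p, m = p + 4 := ⟨m - 4, by have := P.hm; omega⟩
  have h : ∀ T : ℝ, √(1 + T ^ 2) ^ (p + 4 + 4) ≠ 0 := fun T => (pow_pos (w_pos T) _).ne'
  refine ⟨by unfold ngA envLo muX loD; fun_prop (disch := exact h), ?_⟩
  have hn := P.n_ge
  push_cast at hn
  obtain ⟨⟨j0, j1, j2⟩, -⟩ := integral_envLo (p := p) (Y := Y) P.hY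
  obtain ⟨b0, -, b2⟩ := envLo_bounds (p := p) (by have := P.hm; omega) P.hY
  have b1 := envLo_one (p := p) P.hY
  have a0 := j0.const_mul (7 / 10)
  have a1 := j1.const_mul (156 / 1000)
  have a2 := j2.const_mul (1 / 50)
  have a01 : IntegrableOn (fun T => 7 / 10 * envLo (p + 4) Y 0 T - 156 / 1000 * envLo (p + 4) Y 1 T)
      (Ioi 0) := a0.sub a1
  have a012 : IntegrableOn (fun T => 7 / 10 * envLo (p + 4) Y 0 T -
      156 / 1000 * envLo (p + 4) Y 1 T + 1 / 50 * envLo (p + 4) Y 2 T) (Ioi 0) := a01.add a2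
  refine ⟨a012.const_mul _, ?_⟩
  have hd := P.d_le.2
  have hd0 := P.d_nonneg
  obtain ⟨hu0, -⟩ := P.u_bounds
  have hy0 := P.y_nonneg
  push_cast at hd hy0
  unfold ngA
  rw [MeasureTheory.integral_const_mul, integral_add a01 a2, integral_sub a0 a1,
    MeasureTheory.integral_const_mul, MeasureTheory.integral_const_mul,
    MeasureTheory.integral_const_mul, mul_div_assoc, add_div, sub_div, mul_div_assoc,
    mul_div_assoc, mul_div_assoc, b0, b1]
  generalize (∫ T in Ioi (0 : ℝ), envLo (p + 4) Y 2 T) / semiMom (p + 4) 1 = E2 at b2 ⊢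
  have hw := P.exp_y
  simp only [uOf, yOf, show p + 4 + 1 = p + 5 from rfl] at hu0 ⊢
  push_cast at hw ⊢
  have hy4 : ((p : ℝ) + 4 + 1) * log Y = ((p : ℝ) + 5) * log Y := by ring
  rw [hy4] at hd hy0 hw ⊢
  rw [show (p : ℝ) + 4 + 2 = (p : ℝ) + 6 by ring] at hd hn ⊢
  set N := (p : ℝ) + 6 with hN
  set d := Y ^ 2 - 1
  set y := ((p : ℝ) + 5) * log Y
  set w := (Y ^ (p + 5))⁻¹ with hwdef
  have hw' : w = (exp y)⁻¹ := by rw [hwdef, hw]
  have hw0 : 0 < w := by rw [hw']; positivity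
  have hyw : y * w ≤ 1 - w := by
    have a := mul_le_mul_of_nonneg_left (add_one_le_exp y) hw0.le
    rw [hw', inv_mul_cancel₀ (exp_pos y).ne', ← hw'] at a
    linarith
  have hB1 : 0 ≤ 3 * (1 - w) - N * d * w := by
    linarith [mul_le_mul_of_nonneg_right hd hw0.le]
  have hf1 : 3 * (1 - w) - N * d * w ≤ N / ((p : ℝ) + 3) * (3 * (1 - w) - N * d * w) :=
    le_mul_of_one_le_left hB1 (by rw [one_le_div (by positivity)]; linarith)
  have hp3 : 0 < ((p : ℝ) + 3) * ((p : ℝ) + 1) := by positivity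
  have hyy : 0 ≤ y ^ 2 * w := by positivity
  have hr : N / ((p : ℝ) + 1) ≤ 10132 / 10000 := by
    rw [div_le_iff₀ (by positivity)]; linarith
  have hr1 : 1 ≤ N / ((p : ℝ) + 3) := by rw [one_le_div (by positivity)]; linarith
  have hE2 : E2 ≤ N / ((p : ℝ) + 3) * (10132 / 10000 * (15 * (1 - w))) -
      (12 * y + 399 / 100 * y ^ 2) * w := by
    have hc : 1 ≤ N ^ 2 / (((p : ℝ) + 3) * ((p : ℝ) + 1)) := by
      rw [one_le_div hp3, hN]; nlinarith
    have k1 := mul_le_mul_of_nonneg_left (mul_le_mul_of_nonneg_right hr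
      (show 0 ≤ 15 * (1 - w) by linarith)) (zero_le_one.trans hr1)
    have k2 := le_mul_of_one_le_left (show 0 ≤ (12 * y + 399 / 100 * y ^ 2) * w by positivity) hc
    have e : N ^ 2 / (((p : ℝ) + 3) * ((p : ℝ) + 1)) * (15 * (1 - w)) =
        N / ((p : ℝ) + 3) * (N / ((p : ℝ) + 1) * (15 * (1 - w))) := by field_simp
    linarith
  have hbr : 7 / 10 * (1 - w) - 156 / 1000 * (N / ((p : ℝ) + 3) * (3 * (1 - w) - N * d * w)) +
      1 / 50 * E2 ≤ 617 / 1000 * (1 - w) := by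
    have hK : -(468 / 1000 - 30396 / 100000) * (1 - w) + 156 / 1000 * (N * d * w) ≤
        155 / 1000 * (1 - w) := by
      linarith [mul_le_mul_of_nonneg_right hd hw0.le]
    have hf : (N / ((p : ℝ) + 3) - 1) *
        (-(468 / 1000 - 30396 / 100000) * (1 - w) + 156 / 1000 * (N * d * w)) ≤
        788 / 100000 * (155 / 1000 * (1 - w)) := by
      refine (mul_le_mul_of_nonneg_left hK (sub_nonneg.2 hr1)).trans
        (mul_le_mul_of_nonneg_right ?_ (by linarith))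
      rw [sub_le_iff_le_add, div_le_iff₀ (by positivity)]; linarith
    linarith [mul_le_mul_of_nonneg_right hd hw0.le]
  have hUN : shUM (p + 4) c₀ c₁ ^ 2 * N ≤ (17052 / 1000) ^ 2 := by
    have a := P.UM_le
    push_cast at a
    rw [show (p : ℝ) + 4 + 2 = N by rw [hN]; ring, le_div_iff₀ (sqrt_pos.2 (by linarith))] at a
    have := pow_le_pow_left₀ (mul_nonneg P.UM_nonneg (sqrt_nonneg _))
      (a.trans (show 21 / 5 * ε ≤ 17052 / 1000 by linarith [P.e2])) 2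
    rwa [mul_pow, sq_sqrt (by linarith)] at this
  have hUd : shUM (p + 4) c₀ c₁ ^ 2 * (2 * d) * N ≤ 11887 / 10 / 384 * y := by
    have a := mul_le_mul hUN hd (by positivity) (by norm_num)
    have hN1 : 384 ≤ N := hn
    have b : shUM (p + 4) c₀ c₁ ^ 2 * (2 * d) * N * 384 ≤
        shUM (p + 4) c₀ c₁ ^ 2 * (2 * d) * N * N := mul_le_mul_of_nonneg_left hN1 (by positivity)
    linarith
  have hk : 0 ≤ (1 - 9 / 20 * (1 - w)) ^ 2 := sq_nonneg _
  have k1 := mul_le_mul_of_nonneg_left hbr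
    (show 0 ≤ (1 - 9 / 20 * (1 - w)) ^ 2 * (shUM (p + 4) c₀ c₁ ^ 2 * (2 * d) * N) by positivity)
  have k2 := mul_le_mul_of_nonneg_left hUd (mul_nonneg hk (show 0 ≤ 617 / 1000 * (1 - w) by linarith))
  linarith [mul_nonneg (mul_nonneg hk hy0) hu0]

/-- **`ngT`.** -/
theorem integral_ngT (P : LargeP m ε Y c₀ c₁) :
    Continuous (ngT m Y c₀ c₁) ∧ IntegrableOn (ngT m Y c₀ c₁) (Ioi 0) ∧
      (yOf m Y ≤ 2 → ((m : ℝ) + 2) * ((∫ T in Ioi (0 : ℝ), ngT m Y c₀ c₁ T) / semiMom m 1) ≤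
        191 / 100 * uOf m Y * yOf m Y * (1 - 9 / 20 * uOf m Y) ^ 2) ∧
      (2 < yOf m Y → ((m : ℝ) + 2) * ((∫ T in Ioi (0 : ℝ), ngT m Y c₀ c₁ T) / semiMom m 1) ≤
        285 / 100 * (1 - 9 / 20 * uOf m Y) ^ 2) := by
  obtain ⟨a1, a2, a3⟩ := integral_ngA P
  obtain ⟨b1, b2, b3⟩ := integral_ngB P
  by_cases hy : yOf m Y ≤ 2
  · have e : ngT m Y c₀ c₁ = ngA m Y c₀ c₁ := funext fun T => if_pos hy
    rw [e]; exact ⟨a1, a2, fun _ => a3, fun h => absurd hy (not_le.2 h)⟩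
  · have e : ngT m Y c₀ c₁ = ngB m Y c₀ c₁ := funext fun T => if_neg hy
    rw [e]; exact ⟨b1, b2, fun h => absurd h hy, fun _ => b3⟩

/-- **`lowT`.** -/
theorem integral_lowT (P : LargeP m ε Y c₀ c₁) (hkap : kap = uOf m Y / 2) :
    Continuous (lowT m ε kap) ∧ IntegrableOn (lowT m ε kap) (Ioi 0) ∧
      ((m : ℝ) + 2) * ((∫ T in Ioi (0 : ℝ), lowT m ε kap T) / semiMom m 1) ≤
        34 / 1000 * uOf m Y ^ 2 := by
  have h : ∀ T : ℝ, √(1 + T ^ 2) ^ (m + 4) ≠ 0 := fun T => (pow_pos (w_pos T) _).ne'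
  refine ⟨by unfold lowT; fun_prop (disch := exact h), ?_⟩
  have hn := P.n_ge
  have hi : IntegrableOn (fun T : ℝ => 1 / √(1 + T ^ 2) ^ (m + 4)) (Ioi 0) := by
    simpa using mom_integrable (a := 0) (m := m + 4) (by omega)
  refine ⟨hi.const_mul _, ?_⟩
  unfold lowT
  rw [MeasureTheory.integral_const_mul, show (∫ T in Ioi (0 : ℝ), 1 / √(1 + T ^ 2) ^ (m + 4)) =
    semiMom m 1 by simp [semiMom_one, mom], mul_div_cancel_right₀ _ (semiMom_pos' m).ne']
  have he : 0 < ε := by linarith [P.e1]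
  set N := (m : ℝ) + 2 with hN
  have hA : 25 / (4 * ε) * (kap * (1 + ε)) ^ 2 ≤ 9859 / 1000 * uOf m Y ^ 2 := by
    have a : (1 + ε) ^ 2 / ε ≤ 6307 / 1000 := by
      rw [div_le_iff₀ he]
      linarith [mul_nonneg (sub_nonneg.2 P.e1) (sub_nonneg.2 P.e2), P.e2]
    rw [hkap, show 25 / (4 * ε) * (uOf m Y / 2 * (1 + ε)) ^ 2 =
      25 / 16 * uOf m Y ^ 2 * ((1 + ε) ^ 2 / ε) by field_simp; ring]
    refine (mul_le_mul_of_nonneg_left a (show 0 ≤ 25 / 16 * uOf m Y ^ 2 by positivity)).trans ?_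
    linarith [sq_nonneg (uOf m Y)]
  have hB : N * (404 * ((m : ℝ) + 1) / N ^ 4) ≤ 404 / 384 ^ 2 := by
    rw [mul_div_assoc', div_le_div_iff₀ (by positivity) (by norm_num)]
    have h1 := mul_le_mul hn hn (by norm_num) (by linarith)
    have h2 := mul_le_mul_of_nonneg_left h1 (show 0 ≤ 404 * N * N by positivity)
    have h3 : 0 ≤ 404 * N * (384 : ℝ) ^ 2 := by positivity
    linarith
  refine le_trans (le_of_eq (by ring)) ((mul_le_mul hA hB (by positivity) (by positivity)).trans ?_)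
  norm_num
  linarith [sq_nonneg (uOf m Y)]

/-- **`tailT`.** -/
theorem integral_tailT (P : LargeP m ε Y c₀ c₁) (hkap : kap = uOf m Y / 2) :
    Continuous (tailT m kap) ∧ IntegrableOn (tailT m kap) (Ioi 0) ∧
      ((m : ℝ) + 2) * ((∫ T in Ioi (0 : ℝ), tailT m kap T) / semiMom m 1) ≤
        28 / 1000 * uOf m Y ^ 2 := by
  have h : ∀ T : ℝ, √(1 + T ^ 2) ^ (m + 4) ≠ 0 := fun T => (pow_pos (w_pos T) _).ne'
  refine ⟨by unfold tailT pre; fun_prop (disch := exact h), ?_⟩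
  have hn := P.n_ge
  set N := (m : ℝ) + 2 with hN
  set b : Fin 8 → ℝ := ![0, 0, 0, 0, 0, 0,
    N * kap ^ 2 / (N * (2209 / 10000)) ^ 6, kap ^ 2 / (N * (2209 / 10000)) ^ 6] with hb
  have hN0 : N ≠ 0 := by linarith
  have ef : tailT m kap = fun T => ∑ j : Fin 8, b j * (pre m T * (N * T ^ 2) ^ (j : ℕ)) :=
    funext fun T => by
      simp [Fin.sum_univ_eight, tailT, hb, ← hN]
      field_simp
  obtain ⟨hi, hv⟩ := integral_prePoly P.hm (m := m) b
  rw [ef]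
  refine ⟨hi, ?_⟩
  rw [hv]
  simp [Fin.sum_univ_eight, hb]
  obtain ⟨-, -, -, -, -, -, h6, h7⟩ := preMom_le P.hm
  have hV := semiMom_pos' m
  rw [mul_div_assoc', div_le_iff₀ hV, hkap]
  set V := semiMom m 1
  set u := uOf m Y
  have a6 : N * (N * (u / 2) ^ 2 / (N * (2209 / 10000)) ^ 6 * preMom m 6) =
      u ^ 2 / 4 / (2209 / 10000) ^ 6 * ((1 / N) ^ 4 * preMom m 6) := by field_simp; ring
  have a7 : N * ((u / 2) ^ 2 / (N * (2209 / 10000)) ^ 6 * preMom m 7) =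
      u ^ 2 / 4 / (2209 / 10000) ^ 6 * ((1 / N) ^ 5 * preMom m 7) := by field_simp; ring
  rw [mul_add, a6, a7]
  have i1 : 1 / N ≤ 1 / 384 := div_le_div_of_nonneg_left zero_le_one (by norm_num) hn
  have i0 : 0 ≤ 1 / N := by positivity
  have k6 := mul_le_mul (pow_le_pow_left₀ i0 i1 4) h6 preMom_nonneg (by positivity)
  have k7 := mul_le_mul (pow_le_pow_left₀ i0 i1 5) h7 preMom_nonneg (by positivity)
  rw [← mul_add]
  refine (mul_le_mul_of_nonneg_left (add_le_add k6 k7)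
    (show 0 ≤ u ^ 2 / 4 / (2209 / 10000) ^ 6 by positivity)).trans ?_
  norm_num
  nlinarith [mul_nonneg (sq_nonneg u) hV.le]

end Vale.Agent.P237.Cal
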