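import Vale.Agent.P237.Cal.NegMain
import Vale.Agent.P237.Cal.EllTan

/-!
# P237: the side `σ ≤ T` for `z = n T² ≥ 16`, `n ≥ 256`

For `εT² ≤ 1/2` the loss is at most `(28/9) G₂²` over the prefactor; for `εT² ≥ 1/2` the tangent
multiplier is used, the loss is `(14/3) (G₂ - η)²` and the weight of `D²` may lack `pre T²`.
-/

open Real

namespace Vale.Agent.P237.Cal

variable {m : ℕ}

/-- The coefficient inequality below `εT² = 1/2`. -/
lemma negTail_poly {τ x : ℝ} (h0 : 4 ≤ τ) (hx0 : 0 ≤ x) (hx : x ≤ 1 / 2)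
    (hxτ : x ≤ 203 / 12800 * τ ^ 2) :
    1 + 7 * x / (7 / 4 - 2 * x) ≤ 9 / (5 * τ) + 21 / 20 * τ := by
  have hN : 0 < 7 / 4 - 2 * x := by linarith
  have ht : 0 ≤ 9 / (5 * τ) := by positivity
  have hl : ∀ a : ℝ, 0 ≤ a → a ≤ 1 / 2 → x ≤ a → 1 + 7 * x / (7 / 4 - 2 * x) ≤ 1 + 7 * a / (7 / 4 - 2 * a) := by
    intro a ha0 ha hxa
    have : 7 * x / (7 / 4 - 2 * x) ≤ 7 * a / (7 / 4 - 2 * a) :=
      div_le_div₀ (by linarith) (by linarith) (by linarith) (by linarith)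
    linarith
  have hτ : ∀ a : ℝ, 0 ≤ a → 203 / 12800 * a ^ 2 ≤ x → a ≤ τ := fun a ha h =>
    le_of_pow_le_pow_left₀ two_ne_zero (by linarith) (by linarith)
  rcases le_or_gt x (3 / 10) with h1 | h1
  · have := hl _ (by norm_num) (by norm_num) h1
    norm_num at this
    linarith
  rcases le_or_gt x (2 / 5) with h2 | h2
  · have := hl _ (by norm_num) (by norm_num) h2
    have := hτ (43 / 10) (by norm_num) (by linarith)
    norm_num at *
    linarith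
  rcases le_or_gt x (46 / 100) with h3 | h3
  · have := hl _ (by norm_num) (by norm_num) h3
    have := hτ 5 (by norm_num) (by linarith)
    norm_num at *
    linarith
  rcases le_or_gt x (48 / 100) with h4 | h4
  · have := hl _ (by norm_num) (by norm_num) h4
    have := hτ (538 / 100) (by norm_num) (by norm_num; linarith)
    norm_num at *
    linarith
  · have := hl _ (by norm_num) le_rfl hx
    have := hτ (550 / 100) (by norm_num) (by norm_num; linarith)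
    norm_num at *
    linarith

/-- **The side `σ ≤ T` for `z ≥ 16`, `εT² ≤ 1/2`.** -/
theorem negX_mid {ε T σ h l ν G₂ lo c₀ c₁ : ℝ} (hm : 254 ≤ m) (hε1 : 7 / 2 ≤ ε)
    (hε2 : ε ≤ 203 / 50) (hc₀ : c₀ = 9 / 5 * ε / √((m : ℝ) + 2))
    (hc₁ : c₁ = 6 / 5 * ε * √((m : ℝ) + 2)) (hT : 0 < T) (hh : 0 < h) (hσ0 : 0 ≤ σ) (hσ : σ ≤ T)
    (hlo : lo ≤ σ - T) (hz : 16 ≤ ((m : ℝ) + 2) * T ^ 2) (hθ : ε * T ^ 2 ≤ 1 / 2)
    (hG : -(1 / 4) ≤ G₂) (hν : 0 ≤ ν) (hl : 0 ≤ l + ν) :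
    ∃ L, L ≤ valQ ε T σ h + (2 * (shP m c₀ c₁ T / pre m T) * (σ - T) + G₂) * (h - 1) ∧
      -(pre m T * (28 / 9 * G₂ ^ 2)) + lo * (l + ν) ≤
        pre m T * L + (σ - T) * l +
          (σ - T) ^ 2 * (shP' m c₀ c₁ T + 2 * muX m T * shS m c₀ c₁ T) := by
  have hm' : (254 : ℝ) ≤ (m : ℝ) := by exact_mod_cast hm
  set v := √((m : ℝ) + 2) with hvdef
  have hv16 : 16 ≤ v := by
    rw [hvdef, le_sqrt (by norm_num) (by linarith)]; norm_num; linarith
  have hv2 : v ^ 2 = (m : ℝ) + 2 := sq_sqrt (by linarith)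
  have hε : 0 < ε := by linarith
  have hv0 : 0 < v := by linarith
  have hpre : 0 < pre m T := by unfold pre; positivity
  set τ := v * T with hτ
  have hτ2 : τ ^ 2 = ((m : ℝ) + 2) * T ^ 2 := by rw [hτ, mul_pow, hv2]
  have hτ4 : 4 ≤ τ := le_of_pow_le_pow_left₀ two_ne_zero (mul_pos hv0 hT).le (by rw [hτ2]; linarith)
  have hs : T ^ 2 ≤ 1 / 7 := by
    have := mul_le_mul_of_nonneg_right hε1 (sq_nonneg T)
    linarith
  have hx0 : 0 ≤ ε * T ^ 2 := by positivity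
  have hxτ : ε * T ^ 2 ≤ 203 / 12800 * τ ^ 2 := by
    have h1 := mul_le_mul_of_nonneg_right hε2 (sq_nonneg T)
    have h2 := mul_le_mul_of_nonneg_right (show (256 : ℝ) ≤ (m : ℝ) + 2 by linarith) (sq_nonneg T)
    rw [hτ2]
    linarith
  have hN0 : 0 < 7 / 4 - 2 * (ε * T ^ 2) := by linarith
  have hp2 := zone0_P (m := m) (T := T) hε.le (by linarith) hv2 hc₀ hc₁ hpre
  have hp1 : shP m c₀ c₁ T / pre m T ≤ -0 := by
    rw [neg_zero]
    refine div_nonpos_of_nonpos_of_nonneg (shP_nonpos (by rw [hc₀]; positivity) (by rw [hc₁]; positivity) T) hpre.le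
  have hM2 : 2 * (33 / 10 * ε / v) - ε * T ≤ 2 * ε * T := by
    rw [show 2 * (33 / 10 * ε / v) - ε * T = ε / v * (66 / 10 - τ) by rw [hτ]; field_simp; ring,
      show 2 * ε * T = ε / v * (2 * τ) by rw [hτ]; field_simp]
    exact mul_le_mul_of_nonneg_left (by linarith) (by positivity)
  have hcoef : ε + 7 / 4 * (2 * ε * T) ^ 2 / (7 / 4 - 2 * (ε * T ^ 2)) ≤
      ε * (9 / (5 * τ) + 21 / 20 * τ) := by
    rw [show 7 / 4 * (2 * ε * T) ^ 2 / (7 / 4 - 2 * (ε * T ^ 2)) =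
      ε * (7 * (ε * T ^ 2) / (7 / 4 - 2 * (ε * T ^ 2))) by ring]
    have := mul_le_mul_of_nonneg_left (negTail_poly hτ4 hx0 hθ hxτ) hε.le
    linarith
  have hK : pre m T * (ε + 7 / 4 * (2 * ε * T) ^ 2 / (7 / 4 - 2 * (ε * T ^ 2))) ≤
      shP' m c₀ c₁ T + 2 * muX m T * shS m c₀ c₁ T + 0 := by
    rw [add_zero, shP'_add]
    have hmu : muX m T * (c₀ + c₁ * (T ^ 2 / √(1 + T ^ 2) ^ 2)) =
        pre m T * ((c₀ + c₁ * (T ^ 2 / √(1 + T ^ 2) ^ 2)) / T) := by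
      simp only [muX, pre]; field_simp
    rw [hmu]
    refine mul_le_mul_of_nonneg_left (hcoef.trans ?_) hpre.le
    rw [w_sq, hc₀, hc₁]
    have e : (9 / 5 * ε / v + 6 / 5 * ε * v * (T ^ 2 / (1 + T ^ 2))) / T =
        ε * (9 / (5 * τ) + 6 / 5 / (1 + T ^ 2) * τ) := by rw [hτ]; field_simp
    rw [e]
    have h3 : (21 : ℝ) / 20 ≤ 6 / 5 / (1 + T ^ 2) := by
      rw [le_div_iff₀ (by positivity)]; linarith
    have h4 := mul_le_mul_of_nonneg_right h3 (show 0 ≤ τ by linarith)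
    exact mul_le_mul_of_nonneg_left (by linarith) hε.le
  obtain ⟨L, hL, hle⟩ := negX_zone' (κ := 7 / 4) (Pl := 0) (Ph := 33 / 10 * ε / v) (gl := 1 / 4)
    (M := 2 * ε * T) (N := 7 / 4 - 2 * (ε * T ^ 2)) (R := 0) hpre.le hh hε.le (by norm_num)
    hσ0 hσ hlo (by linarith) hp1 le_rfl hp2 hG (by linarith) hM2
    hN0 (by linarith) (by linarith) hν hl le_rfl hK
  refine ⟨L, hL, le_trans ?_ hle⟩
  rw [show (7 : ℝ) / 4 / (7 / 4 - 1) = 7 / 3 by norm_num]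
  have h5 : 7 / 3 * G₂ ^ 2 / (7 / 4 - 2 * (ε * T ^ 2)) ≤ 28 / 9 * G₂ ^ 2 := by
    rw [div_le_iff₀ hN0]
    linarith [mul_le_mul_of_nonneg_left (show 3 / 4 ≤ 7 / 4 - 2 * (ε * T ^ 2) by linarith)
      (show 0 ≤ 28 / 9 * G₂ ^ 2 by positivity)]
  linarith [mul_le_mul_of_nonneg_left h5 hpre.le]

/-- The weight of `D²` on `[7/20, 22/25]`. -/
lemma negTan_C1 {T : ℝ} (h0 : 7 / 20 ≤ T) (h1 : T ≤ 22 / 25) :
    20 ≤ 672 / 10 * T / (1 + T ^ 2) := by
  rw [le_div_iff₀ (by positivity)]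
  nlinarith [mul_nonneg (sub_nonneg.2 h0) (sub_nonneg.2 h1)]

/-- The weight of `D²` with the remainder for `T ≥ 22/25`. -/
lemma negTan_C2 {T : ℝ} (h0 : 22 / 25 ≤ T) : 147 / 10 ≤ 672 / 10 * T / (1 + T ^ 2) + T ^ 2 := by
  have hT : 0 ≤ T := by linarith
  rcases le_or_gt T 4 with h | h
  · have : 147 / 10 ≤ 672 / 10 * T / (1 + T ^ 2) := by
      rw [le_div_iff₀ (by positivity)]
      nlinarith [mul_nonneg (sub_nonneg.2 h0) (sub_nonneg.2 h)]
    linarith [sq_nonneg T]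
  · have h1 : 0 ≤ 672 / 10 * T / (1 + T ^ 2) := by positivity
    linarith [mul_le_mul h.le h.le (by norm_num : (0 : ℝ) ≤ 4) hT]

/-- **The tangent zone `εT² ≥ 1/2`.** -/
theorem negX_tan {ε kap Y T σ h G₂ b lo c₀ c₁ : ℝ} (hm : 254 ≤ m) (hε1 : 7 / 2 ≤ ε)
    (hε2 : ε ≤ 203 / 50) (hc₀ : c₀ = 9 / 5 * ε / √((m : ℝ) + 2))
    (hc₁ : c₁ = 6 / 5 * ε * √((m : ℝ) + 2)) (hk0 : 0 ≤ kap) (hk : kap ≤ 1 / 2) (hY : 1 ≤ Y)
    (hd : Y ^ 2 - 1 ≤ 13 / 250) (hR : RegC Y T σ h) (hσ : σ ≤ T)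
    (hlo : lo = √(max (T ^ 2 - (Y ^ 2 - 1)) 0) - T) (hz : 1 / 2 ≤ ε * T ^ 2)
    (hb : b = (ε * T ^ 2 - 1 / 2) / (T ^ 2 + 1 / 2)) (hG : -(3 / 40) ≤ G₂) :
    ∃ L, L ≤ valQ ε T σ h + (2 * (shP m c₀ c₁ T / pre m T) * (σ - T) + G₂) * (h - 1) ∧
      -(pre m T * (14 / 3 * (G₂ - b * (Y ^ 2 - 1) * (2 + 1 / T ^ 2)) ^ 2)) -
          pre m T * T ^ 2 * lo ^ 2 +
          lo * (ellFlat m ε kap (rr (m + 1)) T + nuFlat m ε kap T) ≤
        pre m T * L + (σ - T) * ellFlat m ε kap (rr (m + 1)) T +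
          (σ - T) ^ 2 * (shP' m c₀ c₁ T + 2 * muX m T * shS m c₀ c₁ T) := by
  have hm' : (254 : ℝ) ≤ (m : ℝ) := by exact_mod_cast hm
  have hT : 0 < T := hR.T_pos
  set v := √((m : ℝ) + 2) with hvdef
  have hv16 : 16 ≤ v := by
    rw [hvdef, le_sqrt (by norm_num) (by linarith)]; norm_num; linarith
  have hv2 : v ^ 2 = (m : ℝ) + 2 := sq_sqrt (by linarith)
  have hε : 0 < ε := by linarith
  have hv0 : 0 < v := by linarith
  have hpre : 0 < pre m T := by unfold pre; positivity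
  have hs : 25 / 203 ≤ T ^ 2 := by
    have := mul_le_mul_of_nonneg_right hε2 (sq_nonneg T)
    linarith
  have hd0 : 0 ≤ Y ^ 2 - 1 := by linarith [one_le_pow₀ (n := 2) hY]
  have hb0 : 0 ≤ b := by rw [hb]; exact div_nonneg (by linarith) (by positivity)
  have hb1 : 0 < 1 + b := by linarith
  have hbe : 1 + b = (1 + ε) * T ^ 2 / (T ^ 2 + 1 / 2) := by
    rw [hb, eq_div_iff (by positivity), add_mul, div_mul_cancel₀ _ (by positivity)]
    ring
  -- the lower bound on `G₂ - η`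
  have hg : -(1 / 4 * (1 + b)) ≤ G₂ - b * (Y ^ 2 - 1) * (2 + 1 / T ^ 2) := by
    have h1 : b * (2 + 1 / T ^ 2) ≤ (1 + b) * (33 / 10) := by
      rw [hbe, hb, div_mul_eq_mul_div, div_mul_eq_mul_div, div_le_div_iff_of_pos_right (by positivity),
        show (ε * T ^ 2 - 1 / 2) * (2 + 1 / T ^ 2) =
          (2 * ε * T ^ 2 * T ^ 2 + (ε - 1) * T ^ 2 - 1 / 2) / T ^ 2 by field_simp; ring,
        div_le_iff₀ (by positivity)]
      nlinarith [sq_nonneg (T ^ 2 - 1 / 4), mul_le_mul_of_nonneg_right hε2 (sq_nonneg T),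
        mul_le_mul_of_nonneg_right hε1 (mul_nonneg (sq_nonneg T) (sq_nonneg T))]
    have h2 := mul_le_mul_of_nonneg_left h1 hd0
    have h3 := mul_le_mul_of_nonneg_left hd (by positivity : 0 ≤ (1 + b) * (33 / 10))
    linarith
  set Ph := 33 / 10 * ε / v / (1 + b) with hPh
  have hPh0 : 0 ≤ Ph := by positivity
  have hp2 : -(Ph * (1 + b)) ≤ shP m c₀ c₁ T / pre m T := by
    rw [hPh, div_mul_cancel₀ _ hb1.ne']
    exact zone0_P (m := m) (T := T) hε.le (by linarith) hv2 hc₀ hc₁ hpre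
  have hp1 : shP m c₀ c₁ T / pre m T ≤ -(0 * (1 + b)) := by
    rw [zero_mul, neg_zero]
    exact div_nonpos_of_nonpos_of_nonneg (shP_nonpos (by rw [hc₀]; positivity) (by rw [hc₁]; positivity) T) hpre.le
  set M := max (1 / T) (2 * Ph - 1 / 2 / T) with hM
  have hP17 : 2 * (33 / 10 * ε / v) ≤ 1675 / 1000 := by
    rw [← mul_div_assoc, div_le_iff₀ hv0]; linarith
  have hcoef : (1 + b) * (1 / 2 / T ^ 2 + 7 / 5 * M ^ 2 / (3 / 4)) ≤
      ε * (6 / 5) * v * T / (1 + T ^ 2) + T ^ 2 := by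
    have hC : 672 / 10 * T / (1 + T ^ 2) ≤ ε * (6 / 5) * v * T / (1 + T ^ 2) := by
      refine div_le_div_of_nonneg_right (mul_le_mul_of_nonneg_right ?_ hT.le) (by positivity)
      have := mul_le_mul hε1 hv16 (by norm_num) hε.le
      linarith
    have hA : (1 + b) * ((1 / 2 + 28 / 15) / T ^ 2) = 71 / 30 * ((1 + ε) / (T ^ 2 + 1 / 2)) := by
      rw [hbe]; field_simp; ring
    rcases le_or_gt T (22 / 25) with h | h
    · have hM1 : M = 1 / T := by
        refine max_eq_left ?_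
        have h1 : 2 * Ph ≤ 1675 / 1000 := by
          refine le_trans ?_ hP17
          rw [hPh]
          exact mul_le_mul_of_nonneg_left (div_le_self (by positivity) (by linarith)) (by norm_num)
        have h2 : 1675 / 1000 ≤ 3 / 2 / T := by rw [le_div_iff₀ hT]; linarith
        have e : 1 / T + 1 / 2 / T = 3 / 2 / T := by field_simp; ring
        linarith
      rw [hM1, show 1 / 2 / T ^ 2 + 7 / 5 * (1 / T) ^ 2 / (3 / 4) = (1 / 2 + 28 / 15) / T ^ 2 by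
        field_simp; ring, hA]
      have h3 : 7 / 20 ≤ T := le_of_pow_le_pow_left₀ two_ne_zero hT.le (by norm_num; linarith)
      have h4 := negTan_C1 h3 h
      have h5 : (1 + ε) / (T ^ 2 + 1 / 2) ≤ 814 / 100 := by
        rw [div_le_iff₀ (by positivity)]; linarith
      linarith [sq_nonneg T]
    · have h4 := negTan_C2 h.le
      have hM2 : M ^ 2 ≤ (1 / T) ^ 2 + (2 * Ph) ^ 2 := by
        rcases max_choice (1 / T) (2 * Ph - 1 / 2 / T) with hc | hc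
        · rw [hM, hc]; linarith [sq_nonneg (2 * Ph)]
        · have h0 : 0 ≤ M := le_max_of_le_left (by positivity)
          rw [hM, hc]
          rw [hM, hc] at h0
          have : 0 ≤ 1 / 2 / T := by positivity
          linarith [pow_le_pow_left₀ h0 (show 2 * Ph - 1 / 2 / T ≤ 2 * Ph by linarith) 2,
            sq_nonneg (1 / T)]
      have h6 : (1 + b) * (2 * Ph) ^ 2 ≤ 281 / 100 := by
        rw [hPh, show (1 + b) * (2 * (33 / 10 * ε / v / (1 + b))) ^ 2 =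
          (2 * (33 / 10 * ε / v)) ^ 2 / (1 + b) by field_simp]
        refine (div_le_self (sq_nonneg _) (by linarith)).trans ?_
        exact (pow_le_pow_left₀ (by positivity) hP17 2).trans (by norm_num)
      have h5 : (1 + ε) / (T ^ 2 + 1 / 2) ≤ 398 / 100 := by
        rw [div_le_iff₀ (by positivity)]
        have := mul_le_mul h.le h.le (by norm_num) hT.le
        linarith
      have h7 := mul_le_mul_of_nonneg_left hM2 hb1.le
      have e : (1 + b) * (1 / 2 / T ^ 2 + 7 / 5 * M ^ 2 / (3 / 4)) =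
          (1 + b) * ((1 / 2) / T ^ 2) + 28 / 15 * ((1 + b) * M ^ 2) := by ring
      have e2 : (1 + b) * ((1 / 2 + 28 / 15) / T ^ 2) =
          (1 + b) * ((1 / 2) / T ^ 2) + 28 / 15 * ((1 + b) * (1 / T) ^ 2) := by ring
      linarith
  have hK : pre m T * ((1 + b) * (1 / 2 / T ^ 2 + 7 / 5 * M ^ 2 / (3 / 4))) ≤
      shP' m c₀ c₁ T + 2 * muX m T * shS m c₀ c₁ T + pre m T * T ^ 2 := by
    rw [shP'_add]
    have hmu : muX m T * (c₀ + c₁ * (T ^ 2 / √(1 + T ^ 2) ^ 2)) =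
        pre m T * ((c₀ + c₁ * (T ^ 2 / √(1 + T ^ 2) ^ 2)) / T) := by
      simp only [muX, pre]; field_simp
    rw [hmu, ← mul_add]
    refine mul_le_mul_of_nonneg_left (hcoef.trans (add_le_add_left ?_ _ |>.trans_eq rfl)) hpre.le
    rw [w_sq, hc₀, hc₁, add_div]
    have e : 6 / 5 * ε * v * (T ^ 2 / (1 + T ^ 2)) / T = ε * (6 / 5) * v * T / (1 + T ^ 2) := by
      field_simp
    have : 0 ≤ 9 / 5 * ε / v / T := by positivity
    linarith
  obtain ⟨L, hL, hle⟩ := negX_tangent' (κ := 7 / 5) (Pl := 0) (Ph := Ph) (gl := 1 / 4) (M := M)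
    (N := 3 / 4) (θ := 1 / 2) (R := pre m T * T ^ 2)
    (l := ellFlat m ε kap (rr (m + 1)) T) (ν := nuFlat m ε kap T) hpre.le (by norm_num) (by norm_num)
    hY (by linarith) hR hσ hlo hb hb0 hp1 le_rfl hp2 hg
    (by rw [hM]; refine le_trans (le_of_eq ?_) (le_max_left _ _); ring)
    (le_max_right _ _) (by norm_num) (by norm_num) (by norm_num) (by norm_num)
    (nuFlat_nonneg (by linarith) hk0 hT.le)
    (ellFlat_tangent hm hε1 hε2 hk0 hk hT hz hb) (by positivity) hK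
  refine ⟨L, hL, le_trans (le_of_eq ?_) hle⟩
  ring

end Vale.Agent.P237.Cal
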