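import Vale.Agent.P237.Cal.GBounds
import Vale.Agent.P237.Cal.NegTail

/-!
# P237: the whole side `σ ≤ T` for `n ≥ 384`

The loss is `cP z` times the square of the coefficient against the prefactor, plus `etaE`, whose
integral is at most `(1/100) u y/n` times `semiMom m 1`.
-/

open MeasureTheory Set Real

namespace Vale.Agent.P237.Cal

variable {m : ℕ} {Y T σ h ε kap c₀ c₁ : ℝ}

/-- The extra loss of the tangent zone. -/
noncomputable def etaE (m : ℕ) (ε Y T : ℝ) : ℝ :=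
  pre m T * (397 * (Y ^ 2 - 1) ^ 2) * (2 * ε * T ^ 2) ^ 4

lemma etaE_nonneg : 0 ≤ etaE m ε Y T := by
  unfold etaE pre; positivity

lemma continuous_etaE : Continuous (etaE m ε Y) := by
  have h : ∀ T : ℝ, √(1 + T ^ 2) ^ (m + 4) ≠ 0 := fun T => (pow_pos (w_pos T) _).ne'
  unfold etaE pre
  fun_prop (disch := exact h)

/-- The weight of `z ≤ 16`. -/
lemma negMain_cP {x z : ℝ} (hz0 : 0 ≤ z) (hz : z ≤ 16) (hx : x ≤ 203 / 19200 * z) :
    0 < 7 / 4 - 2 * x ∧ 6 / 5 / (7 / 4 - 2 * x) ≤ cP z := by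
  have h0 : 0 < 7 / 4 - 2 * x := by linarith
  refine ⟨h0, ?_⟩
  have h1 : 0 < 7 / 4 - 203 / 9600 * z := by linarith
  refine le_trans (div_le_div_of_nonneg_left (by norm_num) h1 (by linarith)) ?_
  rw [div_le_iff₀ h1, cP]
  linarith [sq_nonneg (z - 43 / 100), mul_nonneg (sq_nonneg z) (sub_nonneg.2 hz)]

/-- **The side `σ ≤ T`.** -/
theorem negX_all {G₂ : ℝ} (P : LargeP m ε Y c₀ c₁) (hk0 : 0 ≤ kap) (hk : kap ≤ 1 / 2)
    (hR : RegC Y T σ h) (hσ : σ ≤ T) (hG : -negE m Y c₀ c₁ T ≤ G₂) :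
    ∃ L, L ≤ valQ ε T σ h + (2 * (shP m c₀ c₁ T / pre m T) * (σ - T) + G₂) * (h - 1) ∧
      -(pre m T * (cP (((m : ℝ) + 2) * T ^ 2) * G₂ ^ 2)) - etaE m ε Y T +
          loD Y T * (ellFlat m ε kap (rr (m + 1)) T + nuFlat m ε kap T) ≤
        pre m T * L + (σ - T) * ellFlat m ε kap (rr (m + 1)) T +
          (σ - T) ^ 2 * (shP' m c₀ c₁ T + 2 * muX m T * shS m c₀ c₁ T) := by
  have hT : 0 < T := hR.T_pos
  have hn := P.n_ge
  have he : 0 ≤ ε := by linarith [P.e1]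
  have hm : 254 ≤ m := le_trans (by norm_num) P.hm
  have hpre : 0 < pre m T := by unfold pre; positivity
  have hE := etaE_nonneg (m := m) (ε := ε) (Y := Y) (T := T)
  have hlo : loD Y T ≤ σ - T := by
    have h := (sqrt_le_left hR.σ_pos.le).2 hR.σ_low
    rw [loD, show T ^ 2 + 1 - Y ^ 2 = 1 + T ^ 2 - Y ^ 2 by ring]
    linarith
  have hν := nuFlat_nonneg (m := m) (ε := ε) (kap := kap) (by linarith) hk0 hT.le
  have hl : 0 ≤ ellFlat m ε kap (rr (m + 1)) T + nuFlat m ε kap T := by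
    have h := ellFlat_ge (m := m) (ε := ε) (le_trans (by norm_num) hm) (by linarith) hk0 hk hT.le
    rw [nuFlat]
    linarith
  set z := ((m : ℝ) + 2) * T ^ 2 with hz
  have hz0 : 0 ≤ z := by positivity
  have hx : ε * T ^ 2 ≤ 203 / 19200 * z := by
    have a := mul_le_mul_of_nonneg_right P.e2 (sq_nonneg T)
    have b := mul_le_mul_of_nonneg_right hn (sq_nonneg T)
    rw [hz]
    linarith
  rcases le_or_gt z 16 with h16 | h16
  · have hG' : -(1 / 4) ≤ G₂ := by linarith [P.negE_le hT]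
    obtain ⟨L, hL, hle⟩ := negX_main hm P.e1 P.e2 P.h₀ P.h₁ hT hR.h_pos hR.σ_pos.le hσ hlo h16 hG'
      hν hl
    refine ⟨L, hL, le_trans ?_ hle⟩
    obtain ⟨hN, hc⟩ := negMain_cP hz0 h16 hx
    have h1 : pre m T * (6 / 5 * G₂ ^ 2 / (7 / 4 - 2 * (ε * T ^ 2))) ≤
        pre m T * (cP z * G₂ ^ 2) := by
      refine mul_le_mul_of_nonneg_left ?_ hpre.le
      rw [mul_div_right_comm]
      exact mul_le_mul_of_nonneg_right hc (sq_nonneg _)
    linarith
  have hG' : -(1 / 4) ≤ G₂ := by linarith [P.negE_le hT]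
  rcases le_or_gt (ε * T ^ 2) (1 / 2) with hθ | hθ
  · obtain ⟨L, hL, hle⟩ := negX_mid hm P.e1 P.e2 P.h₀ P.h₁ hT hR.h_pos hR.σ_pos.le hσ hlo h16.le
      hθ hG' hν hl
    refine ⟨L, hL, le_trans ?_ hle⟩
    have hc : 28 / 9 ≤ cP z := by
      rw [cP]
      linarith [mul_le_mul h16.le h16.le (by norm_num) hz0]
    linarith [mul_le_mul_of_nonneg_left (mul_le_mul_of_nonneg_right hc (sq_nonneg G₂)) hpre.le]
  have hz47 : 47 ≤ z := by linarith
  have hG'' : -(3 / 40) ≤ G₂ := by linarith [P.negE_le_seventeen hT (by rw [← hz]; linarith)]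
  have hd0 := P.d_nonneg
  obtain ⟨b, hb⟩ : ∃ b, b = (ε * T ^ 2 - 1 / 2) / (T ^ 2 + 1 / 2) := ⟨_, rfl⟩
  have elo : loD Y T = √(max (T ^ 2 - (Y ^ 2 - 1)) 0) - T := by
    rw [loD, show T ^ 2 + 1 - Y ^ 2 = T ^ 2 - (Y ^ 2 - 1) by ring]
    rcases le_total 0 (T ^ 2 - (Y ^ 2 - 1)) with h | h
    · rw [max_eq_left h]
    · rw [max_eq_right h, sqrt_zero, sqrt_eq_zero'.2 h]
  obtain ⟨L, hL, hle⟩ := negX_tan (kap := kap) hm P.e1 P.e2 P.h₀ P.h₁ hk0 hk P.hY
    (by linarith [P.d_le.1]) hR hσ elo hθ.le hb hG''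
  refine ⟨L, hL, le_trans ?_ hle⟩
  set d := Y ^ 2 - 1 with hd
  set η := b * d * (2 + 1 / T ^ 2) with hη
  have hη0 : 0 ≤ η := by
    rw [hη, hb]
    have : 0 ≤ ε * T ^ 2 - 1 / 2 := by linarith
    positivity
  have hηle : η ≤ 2 * ε * d := by
    have e : η = 2 * ε * d - d / T ^ 2 := by
      rw [hη, hb]
      field_simp
    have : 0 ≤ d / T ^ 2 := by positivity
    linarith
  have h1 : T ^ 2 * loD Y T ^ 2 ≤ d ^ 2 := by
    have a : 0 ≤ -loD Y T := neg_nonneg.2 (loD_nonpos P.hY hT.le)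
    have c := mul_le_mul_of_nonneg_left (neg_loD_le hT P.hY) hT.le
    rw [mul_div_cancel₀ _ hT.ne'] at c
    have := pow_le_pow_left₀ (mul_nonneg hT.le a) c 2
    rw [mul_pow, neg_sq] at this
    exact this
  have h2 : 14 / 3 * (G₂ - η) ^ 2 ≤ cP z * G₂ ^ 2 + 6 * η ^ 2 := by
    have hc : 70 / 3 ≤ cP z := by
      rw [cP]
      linarith [mul_le_mul hz47 hz47 (by norm_num) hz0]
    linarith [mul_le_mul_of_nonneg_right hc (sq_nonneg G₂), sq_nonneg (4 * G₂ + η), sq_nonneg η]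
  have h3 : η ^ 2 ≤ (2 * (203 / 50) * d) ^ 2 := pow_le_pow_left₀ hη0
    (hηle.trans (mul_le_mul_of_nonneg_right (by linarith [P.e2]) hd0)) 2
  have h4 : (1 : ℝ) ≤ (2 * ε * T ^ 2) ^ 4 := one_le_pow₀ (by linarith)
  have h5 : 6 * η ^ 2 + T ^ 2 * loD Y T ^ 2 ≤ 397 * d ^ 2 * (2 * ε * T ^ 2) ^ 4 := by
    have := mul_le_mul_of_nonneg_left h4 (show 0 ≤ 397 * d ^ 2 by positivity)
    linarith [sq_nonneg d]
  have h6 := mul_le_mul_of_nonneg_left (add_le_add h2 h5) hpre.le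
  rw [etaE, ← hd]
  linarith

/-- The integral of the extra loss. -/
theorem integral_etaE (P : LargeP m ε Y c₀ c₁) :
    IntegrableOn (etaE m ε Y) (Ioi 0) ∧
      (∫ T in Ioi (0 : ℝ), etaE m ε Y T) / semiMom m 1 ≤
        1 / 100 * (1 - (Y ^ (m + 1))⁻¹) * (((m : ℝ) + 1) * log Y) / ((m : ℝ) + 2) := by
  have hn := P.n_ge
  have hv := P.v_ge
  have he : 0 ≤ ε := by linarith [P.e1]
  have hy0 := P.y_nonneg
  have hys := P.y_le_sqrt
  have hnd := P.d_le.2
  have hd0 := P.d_nonneg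
  obtain ⟨hu0, -⟩ := P.u_bounds
  set c := 397 * (Y ^ 2 - 1) ^ 2 * (16 * ε ^ 4) * ((m : ℝ) + 1) with hc
  have ef : etaE m ε Y = fun T => c * (T ^ 10 / √(1 + T ^ 2) ^ (m + 4)) := funext fun T => by
    rw [etaE, pre, hc]; ring
  have hi := mom_integrable (a := 10) (m := m + 4) (by linarith [P.hm])
  rw [ef]
  refine ⟨hi.const_mul c, ?_⟩
  rw [MeasureTheory.integral_const_mul]
  have hev := mom_even (N := m + 2) (i := 5) (by linarith [P.hm])
  simp only [Finset.prod_range_succ, Finset.prod_range_zero, show m + 2 + 2 = m + 4 from rfl,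
    show 2 * 5 = 10 from rfl] at hev
  push_cast at hev
  rw [← semiMom_one] at hev
  have hV : 0 < semiMom m 1 := by rw [semiMom_one]; exact mom_zero_pos _
  rw [show (∫ T in Ioi (0 : ℝ), T ^ 10 / √(1 + T ^ 2) ^ (m + 4)) = mom 10 (m + 4) from rfl,
    div_le_iff₀ hV]
  set N := (m : ℝ) + 2 with hN
  set u := 1 - (Y ^ (m + 1))⁻¹ with hu
  set y := ((m : ℝ) + 1) * log Y with hy
  set v := √N with hvdef
  have hv2 : v ^ 2 = N := sq_sqrt (by linarith)
  have huy : y ≤ u * (1 + y) := by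
    rw [hu, ← P.exp_y, ← hy]
    have a := mul_le_mul_of_nonneg_left (add_one_le_exp y) (inv_pos.2 (exp_pos y)).le
    rw [inv_mul_cancel₀ (exp_pos y).ne'] at a
    linarith
  have hy2 : y ^ 2 ≤ u * y * (2 / 5 * v) := by
    have a := mul_le_mul_of_nonneg_left huy hy0
    have b := mul_le_mul_of_nonneg_left (show 1 + y ≤ 2 / 5 * v by linarith) (mul_nonneg hu0 hy0)
    linarith
  have hd2 : (Y ^ 2 - 1) ^ 2 * N ^ 2 ≤ (2044 / 1000) ^ 2 * (u * y * (2 / 5 * v)) := by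
    have a := pow_le_pow_left₀ (mul_nonneg (by linarith) hd0) hnd 2
    have b := mul_le_mul_of_nonneg_left hy2 (sq_nonneg (2044 / 1000 : ℝ))
    linarith
  have he4 := pow_le_pow_left₀ he P.e2 4
  have hP : 93 / 100 * N ^ 4 ≤ (N - 3) * (N - 5) * (N - 7) * (N - 9) := by
    calc 93 / 100 * N ^ 4 ≤ (381 / 384 * N) * ((379 / 384) * N) * ((377 / 384) * N) *
          ((375 / 384) * N) := by
          have : 0 ≤ N ^ 4 := by positivity
          linarith
      _ ≤ _ := by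
          have h3 : 0 ≤ N - 3 := by linarith
          have h5 : 0 ≤ N - 5 := by linarith
          have h7 : 0 ≤ N - 7 := by linarith
          gcongr <;> linarith
  have hP0 : 0 < (N - 3) * (N - 5) * (N - 7) * (N - 9) := by
    have : (0 : ℝ) < N ^ 4 := by positivity
    linarith
  have hcmom : c * mom 10 (m + 4) * ((N - 3) * (N - 5) * (N - 7) * (N - 9)) =
      397 * (Y ^ 2 - 1) ^ 2 * (16 * ε ^ 4) * 945 * semiMom m 1 := by
    rw [hc, hN]
    linear_combination (397 * (Y ^ 2 - 1) ^ 2 * (16 * ε ^ 4)) * hev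
  rw [← mul_le_mul_iff_left₀ hP0, hcmom]
  have hkey : 397 * (Y ^ 2 - 1) ^ 2 * (16 * ε ^ 4) * 945 * N ^ 2 ≤
      1 / 100 * u * y * N * (93 / 100 * N ^ 4) := by
    have a := mul_le_mul hd2 he4 (by positivity) (by positivity)
    have h9 : (1959 / 100 : ℝ) ^ 9 ≤ v ^ 9 := pow_le_pow_left₀ (by norm_num) hv 9
    have b := mul_le_mul_of_nonneg_left h9 (show 0 ≤ 93 / 10000 * (u * y) * v by positivity)
    have e : 1 / 100 * u * y * N * (93 / 100 * N ^ 4) = 93 / 10000 * (u * y) * v * v ^ 9 := by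
      rw [← hv2]; ring
    rw [e]
    refine le_trans ?_ b
    have : 0 ≤ u * y * v := by positivity
    linarith
  have h1 : 397 * (Y ^ 2 - 1) ^ 2 * (16 * ε ^ 4) * 945 ≤
      1 / 100 * u * y / N * ((N - 3) * (N - 5) * (N - 7) * (N - 9)) := by
    refine le_trans ?_ (mul_le_mul_of_nonneg_left hP (by positivity))
    rw [div_mul_eq_mul_div, le_div_iff₀ (by linarith)]
    refine le_of_mul_le_mul_right ?_ (show (0 : ℝ) < N by linarith)
    linarith
  have := mul_le_mul_of_nonneg_right h1 hV.le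
  linarith

/-- The integral of the extra loss against `u²`. -/
theorem integral_etaE_sq (P : LargeP m ε Y c₀ c₁) :
    IntegrableOn (etaE m ε Y) (Ioi 0) ∧
      (∫ T in Ioi (0 : ℝ), etaE m ε Y T) / semiMom m 1 ≤
        1 / 10 * (1 - (Y ^ (m + 1))⁻¹) ^ 2 / ((m : ℝ) + 2) := by
  have hn := P.n_ge
  have hv := P.v_ge
  have he : 0 ≤ ε := by linarith [P.e1]
  have hy0 := P.y_nonneg
  have hys := P.y_le_sqrt
  have hnd := P.d_le.2
  have hd0 := P.d_nonneg
  obtain ⟨hu0, -⟩ := P.u_bounds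
  set c := 397 * (Y ^ 2 - 1) ^ 2 * (16 * ε ^ 4) * ((m : ℝ) + 1) with hc
  have ef : etaE m ε Y = fun T => c * (T ^ 10 / √(1 + T ^ 2) ^ (m + 4)) := funext fun T => by
    rw [etaE, pre, hc]; ring
  have hi := mom_integrable (a := 10) (m := m + 4) (by linarith [P.hm])
  rw [ef]
  refine ⟨hi.const_mul c, ?_⟩
  rw [MeasureTheory.integral_const_mul]
  have hev := mom_even (N := m + 2) (i := 5) (by linarith [P.hm])
  simp only [Finset.prod_range_succ, Finset.prod_range_zero, show m + 2 + 2 = m + 4 from rfl,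
    show 2 * 5 = 10 from rfl] at hev
  push_cast at hev
  rw [← semiMom_one] at hev
  have hV : 0 < semiMom m 1 := by rw [semiMom_one]; exact mom_zero_pos _
  rw [show (∫ T in Ioi (0 : ℝ), T ^ 10 / √(1 + T ^ 2) ^ (m + 4)) = mom 10 (m + 4) from rfl,
    div_le_iff₀ hV]
  set N := (m : ℝ) + 2 with hN
  set u := 1 - (Y ^ (m + 1))⁻¹ with hu
  set y := ((m : ℝ) + 1) * log Y with hy
  set v := √N with hvdef
  have hv2 : v ^ 2 = N := sq_sqrt (by linarith)
  have huy : y ≤ u * (1 + y) := by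
    rw [hu, ← P.exp_y, ← hy]
    have a := mul_le_mul_of_nonneg_left (add_one_le_exp y) (inv_pos.2 (exp_pos y)).le
    rw [inv_mul_cancel₀ (exp_pos y).ne'] at a
    linarith
  have hy2 : y ^ 2 ≤ u ^ 2 * (4 / 25 * N) := by
    have a := mul_le_mul_of_nonneg_left (show 1 + y ≤ 2 / 5 * v by linarith) hu0
    have b := pow_le_pow_left₀ hy0 (huy.trans a) 2
    rw [mul_pow u, mul_pow (2 / 5 : ℝ), hv2] at b
    linarith
  have hd2 : (Y ^ 2 - 1) ^ 2 * N ^ 2 ≤ (2044 / 1000) ^ 2 * (u ^ 2 * (4 / 25 * N)) := by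
    have a := pow_le_pow_left₀ (mul_nonneg (by linarith) hd0) hnd 2
    have b := mul_le_mul_of_nonneg_left hy2 (sq_nonneg (2044 / 1000 : ℝ))
    linarith
  have he4 := pow_le_pow_left₀ he P.e2 4
  have hP : 93 / 100 * N ^ 4 ≤ (N - 3) * (N - 5) * (N - 7) * (N - 9) := by
    calc 93 / 100 * N ^ 4 ≤ (381 / 384 * N) * ((379 / 384) * N) * ((377 / 384) * N) *
          ((375 / 384) * N) := by
          have : 0 ≤ N ^ 4 := by positivity
          linarith
      _ ≤ _ := by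
          have h3 : 0 ≤ N - 3 := by linarith
          have h5 : 0 ≤ N - 5 := by linarith
          have h7 : 0 ≤ N - 7 := by linarith
          gcongr <;> linarith
  have hP0 : 0 < (N - 3) * (N - 5) * (N - 7) * (N - 9) := by
    have : (0 : ℝ) < N ^ 4 := by positivity
    linarith
  have hcmom : c * mom 10 (m + 4) * ((N - 3) * (N - 5) * (N - 7) * (N - 9)) =
      397 * (Y ^ 2 - 1) ^ 2 * (16 * ε ^ 4) * 945 * semiMom m 1 := by
    rw [hc, hN]
    linear_combination (397 * (Y ^ 2 - 1) ^ 2 * (16 * ε ^ 4)) * hev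
  rw [← mul_le_mul_iff_left₀ hP0, hcmom]
  have hkey : 397 * (Y ^ 2 - 1) ^ 2 * (16 * ε ^ 4) * 945 * N ^ 2 ≤
      1 / 10 * u ^ 2 * N * (93 / 100 * N ^ 4) := by
    have a := mul_le_mul hd2 he4 (by positivity) (by positivity)
    have h4 : (384 : ℝ) ^ 4 ≤ N ^ 4 := pow_le_pow_left₀ (by norm_num) hn 4
    have b := mul_le_mul_of_nonneg_left h4 (show 0 ≤ 93 / 1000 * (u ^ 2 * N) by positivity)
    have : 0 ≤ u ^ 2 * N := by positivity
    linarith
  have h1 : 397 * (Y ^ 2 - 1) ^ 2 * (16 * ε ^ 4) * 945 ≤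
      1 / 10 * u ^ 2 / N * ((N - 3) * (N - 5) * (N - 7) * (N - 9)) := by
    refine le_trans ?_ (mul_le_mul_of_nonneg_left hP (by positivity))
    rw [div_mul_eq_mul_div, le_div_iff₀ (by linarith)]
    refine le_of_mul_le_mul_right ?_ (show (0 : ℝ) < N by linarith)
    linarith
  have := mul_le_mul_of_nonneg_right h1 hV.le
  linarith

end Vale.Agent.P237.Cal
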