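import Vale.Agent.P237.Cal.PosMain

/-!
# P237: the side `σ ≥ T` for `z ≥ 28/5`, `ε σ² ≤ 19/20`, `T ≤ 47/100`, `n ≥ 384`

Where `√ε σ > 13/20` and `z ≤ 17` half of the linear weight pays for the excess of `1/ω` over `cP z`.
-/

open Real

namespace Vale.Agent.P237.Cal

variable {m : ℕ}

/-- The linear weight in the variables `τ`, `v`. -/
lemma pay_eq {P c X ε N v T z τ : ℝ} (hε : 0 < ε) (hv : 0 < v) (hv2 : v ^ 2 = N) (hT : 0 < T)
    (hz : z = N * T ^ 2) (hτ : τ = v * T) :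
    P * (1 / 2) * (c / √ε) * ε / (N * T) * (3 / 10 * X * z) =
      P * (3 / 20 * c * X) * (√ε * τ) / v := by
  obtain ⟨q, hq, rfl⟩ : ∃ q, 0 < q ∧ ε = q ^ 2 := ⟨√ε, sqrt_pos.2 hε, (sq_sqrt hε.le).symm⟩
  subst hz hτ hv2
  rw [sqrt_sq hq.le]
  field_simp
  ring

/-- The four inequalities of a capped row. -/
def CapOK (a b C0 K ω gl kl kh : ℝ) : Prop :=
  ∀ x k, (x = b ∨ x = a) → (k = kl ∨ k = kh) →
    (a - b) * (x + b - k * b) ^ 2 ≤
      (C0 * (a - b) + K * b) * (2 - gl - ω - x ^ 2 - b ^ 2 - k * b * (x - b))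

/-- **A capped row.** -/
theorem posN_cap {ε T σ h l p G c₀ c₁ a z0 kl kh C0 K ω gl : ℝ} (hm : 382 ≤ m) (hε1 : 7 / 2 ≤ ε)
    (hc₀ : c₀ = 9 / 5 * ε / √((m : ℝ) + 2))
    (hc₁ : c₁ = 6 / 5 * ε * √((m : ℝ) + 2)) (hT : 0 < T) (hh : 0 < h) (hσ : T ≤ σ)
    (hp0 : shP m c₀ c₁ T / pre m T ≤ p) (hp1 : p ≤ -(4 / 5 * ε / √((m : ℝ) + 2)))
    (hG : -gl ≤ G) (ha : √ε * σ ≤ a) (ha1 : a ≤ 1) (hb : √ε * T < a) (hω : 0 < ω)
    (hz0 : 0 < z0) (hz : z0 ≤ ((m : ℝ) + 2) * T ^ 2)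
    (hl : pre m T * (ε * (K * T)) ≤ l) (hK0 : 0 ≤ K) (hC00 : 0 < C0)
    (hkl : kl * (√((m : ℝ) + 2) * T) / 2 ≤ 4 / 5)
    (hkh : 6 / 5 + 21 / 5 * (1 / z0 + 1 / 100) ≤ kh * (√((m : ℝ) + 2) * T) / 2)
    (hC : C0 + 1 ≤ 9 / (5 * (√((m : ℝ) + 2) * T)) +
      6 / 5 / (1 + T ^ 2) * (√((m : ℝ) + 2) * T))
    (hB0 : (√ε * T) ^ 2 + gl ≤ 1)
    (hB : (√ε * T) ^ 2 + kh * (√ε * T) * (a - √ε * T) + gl ≤ 1)
    (hv : CapOK a (√ε * T) C0 K ω gl kl kh) :
    ∃ L, L ≤ valQ ε T σ h + (2 * p * (σ - T) + G) * (h - 1) ∧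
      -(pre m T * (G ^ 2 / ω)) ≤ pre m T * L + (σ - T) * l +
        (σ - T) ^ 2 * (shP' m c₀ c₁ T + 2 * muX m T * shS m c₀ c₁ T) := by
  have hm' : (382 : ℝ) ≤ (m : ℝ) := by exact_mod_cast hm
  set v := √((m : ℝ) + 2) with hvdef
  have hv10 : 10 ≤ v := by
    rw [hvdef, le_sqrt (by norm_num) (by linarith)]; linarith
  have hv2 : v ^ 2 = (m : ℝ) + 2 := sq_sqrt (by linarith)
  have hε : 0 < ε := by linarith
  have hv0 : 0 < v := by linarith
  have hpre : 0 < pre m T := by unfold pre; positivity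
  have hq : 0 < √ε := sqrt_pos.2 hε
  have hb2 : (√ε * T) ^ 2 = ε * T ^ 2 := by rw [mul_pow, sq_sqrt hε.le]
  set b := √ε * T with hbdef
  set C := C0 + K * b / (a - b) with hCdef
  have hd : 0 < a - b := sub_pos.2 hb
  have hb0 : 0 ≤ b := by positivity
  have hC0' : 0 < C := by rw [hCdef]; positivity
  set W := muX m T * (c₀ + c₁ * (T ^ 2 / √(1 + T ^ 2) ^ 2)) with hW
  have hWge : pre m T * (ε + ε * C0) ≤ W := by
    have hmu : W = pre m T * ((c₀ + c₁ * (T ^ 2 / √(1 + T ^ 2) ^ 2)) / T) := by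
      simp only [hW, muX, pre]; field_simp
    rw [hmu, w_sq, hc₀, hc₁]
    refine mul_le_mul_of_nonneg_left ?_ hpre.le
    have e : (9 / 5 * ε / v + 6 / 5 * ε * v * (T ^ 2 / (1 + T ^ 2))) / T =
        ε * (9 / (5 * (v * T)) + 6 / 5 / (1 + T ^ 2) * (v * T)) := by field_simp
    rw [e]
    have := mul_le_mul_of_nonneg_left hC hε.le
    linarith
  have hl0 : 0 ≤ l := le_trans (by positivity) hl
  have hend : 0 ≤ l + (a / √ε - T) * (W - pre m T * (ε + ε * C)) := by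
    have e1 : a / √ε - T = (a - b) / √ε := by rw [hbdef]; field_simp
    have e : (a / √ε - T) * (K * b / (a - b)) = K * T := by
      rw [e1, div_mul_div_comm, div_eq_iff (mul_pos hq hd).ne', hbdef]; ring
    have h1 : 0 ≤ a / √ε - T := by rw [e1]; positivity
    have h2 := mul_le_mul_of_nonneg_left hWge h1
    have h3 : (a / √ε - T) * (W - pre m T * (ε + ε * C)) =
        (a / √ε - T) * W - (a / √ε - T) * (pre m T * (ε + ε * C0)) -
          pre m T * ε * ((a / √ε - T) * (K * b / (a - b))) := by rw [hCdef]; ring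
    rw [h3, e]
    linarith
  have hp2 := mid_P (T := T) hε.le hv10 hv2 hc₀ hc₁ hpre hT hz0 (by rw [hv2]; exact hz)
  rw [show 4 / 5 * ε / v = ε * (4 / 5) / v by ring] at hp1
  have hvb : ∀ x k, (x = b ∨ x = a) → (k = kl ∨ k = kh) → 0 ≤ vtxB x b k C ω gl := by
    intro x k hx hk
    refine nonneg_of_mul_nonneg_right ?_ hd
    have eC : (a - b) * C = C0 * (a - b) + K * b := by
      rw [hCdef, mul_add, mul_div_cancel₀ _ hd.ne']; ring
    have e : (a - b) * vtxB x b k C ω gl =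
        (C0 * (a - b) + K * b) * (2 - gl - ω - x ^ 2 - b ^ 2 - k * b * (x - b)) -
          (a - b) * (x + b - k * b) ^ 2 := by
      rw [← eC]; simp only [vtxB]; ring
    rw [e]; linarith [hv x k hx hk]
  obtain ⟨L, hL, hle⟩ := posX_cap (π' := pre m T) (Cw := W) (C := C) (ω := ω) (gl := gl) (a := a)
    (kl := kl) (kh := kh) hl0 hend hh hε hC0' hω hT.le hσ ha ha1
    (hp1.trans (neg_le_neg (capV hv0 kl _ hkl hε.le)))
    (((neg_le_neg (capV' hv0 kh _ hkh hε.le)).trans hp2).trans hp0) hG (by rw [← hb2]; linarith)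
    hB (hvb b kl (.inl rfl) (.inl rfl)) (hvb b kh (.inl rfl) (.inr rfl))
    (hvb a kl (.inr rfl) (.inl rfl)) (hvb a kh (.inr rfl) (.inr rfl))
  refine ⟨L, hL, ?_⟩
  rw [shP'_add, ← hW]
  exact hle

lemma capA {b : ℝ} (h0 : 0 ≤ b) (h1 : b ≤ 425 / 1000) :
    CapOK (13 / 20) b (215 / 100) (56 / 100) (93 / 100) (1 / 10) (38 / 100) (169 / 100) := by
  intro x k hx hk
  rcases hx with hx | hx <;> rcases hk with hk | hk <;> rw [hx, hk] <;>
    nlinarith [mul_nonneg h0 (sub_nonneg.2 h1), sq_nonneg b,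
      mul_nonneg (mul_nonneg h0 (sub_nonneg.2 h1)) h0]

lemma capB1 {b : ℝ} (h0 : 0 ≤ b) (h1 : b ≤ 326 / 1000) :
    CapOK (39 / 40) b (233 / 100) (56 / 100) (23 / 100) (1 / 10) (50 / 100) (169 / 100) := by
  intro x k hx hk
  rcases hx with hx | hx <;> rcases hk with hk | hk <;> rw [hx, hk] <;>
    nlinarith [mul_nonneg h0 (sub_nonneg.2 h1), sq_nonneg b,
      mul_nonneg (mul_nonneg h0 (sub_nonneg.2 h1)) h0]

lemma capB2 {b : ℝ} (h0 : 0 ≤ b) (h1 : b ≤ 425 / 1000) :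
    CapOK (39 / 40) b (306 / 100) (121 / 100) (29 / 100) (1 / 10) (38 / 100) (106 / 100) := by
  intro x k hx hk
  rcases hx with hx | hx <;> rcases hk with hk | hk <;> rw [hx, hk] <;>
    nlinarith [mul_nonneg h0 (sub_nonneg.2 h1), sq_nonneg b,
      mul_nonneg (mul_nonneg h0 (sub_nonneg.2 h1)) h0]

lemma capC1 {b : ℝ} (h0 : 0 ≤ b) (h1 : b ≤ 691 / 1000) :
    CapOK (39 / 40) b (369 / 100) (451 / 100) (24 / 100) (7 / 100) (23 / 100) (73 / 100) := by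
  intro x k hx hk
  rcases hx with hx | hx <;> rcases hk with hk | hk <;> rw [hx, hk] <;>
    nlinarith [mul_nonneg h0 (sub_nonneg.2 h1), sq_nonneg b,
      mul_nonneg (mul_nonneg h0 (sub_nonneg.2 h1)) h0]

lemma capC2 {b : ℝ} (h0 : 0 ≤ b) (h1 : b ≤ 948 / 1000) :
    CapOK (39 / 40) b (559 / 100) (129 / 10) (4 / 100) (7 / 100) 0 (40 / 100) := by
  intro x k hx hk
  rcases hx with hx | hx <;> rcases hk with hk | hk <;> rw [hx, hk] <;>
    nlinarith [mul_nonneg h0 (sub_nonneg.2 h1), sq_nonneg b,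
      mul_nonneg (mul_nonneg h0 (sub_nonneg.2 h1)) h0]

/-- A share of the linear weight in the form of a capped row. -/
lemma lin_share {ε T l θ K z0 : ℝ} (hε : 0 < ε) (hT : 0 < T) (hθ0 : 0 < θ) (h1 : 101 / 100 ≤ z0)
    (h2 : z0 ≤ ((m : ℝ) + 2) * T ^ 2) (hK : K / θ * z0 ≤ 3 / 10 * (z0 - 101 / 100) ^ 2)
    (hl : pre m T * ε * (3 / 10) * (((m : ℝ) + 2) * T ^ 2 - 101 / 100) ^ 2 /
      (((m : ℝ) + 2) * T) ≤ l) :
    pre m T * (ε * (K * T)) ≤ θ * l := by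
  have h3 := linK h1 h2 hK
  have hpre : 0 < pre m T := by unfold pre; positivity
  refine le_trans ?_ (mul_le_mul_of_nonneg_left hl hθ0.le)
  rw [← mul_div_assoc, le_div_iff₀ (by positivity)]
  have h4 := mul_le_mul_of_nonneg_left h3 (by positivity : 0 ≤ θ * (pre m T * ε))
  have e : θ * (pre m T * ε) * (K / θ * (((m : ℝ) + 2) * T ^ 2)) =
      pre m T * (ε * (K * T)) * (((m : ℝ) + 2) * T) := by field_simp
  linarith

/-- `1/ω` is below the weight. -/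
lemma cP_pay {z z0 ω G : ℝ} (h1 : 0 ≤ z0) (h2 : z0 ≤ z) (hω : 0 < ω) (h3 : 1 ≤ ω * cP z0) :
    G ^ 2 / ω ≤ cP z * G ^ 2 := by
  rw [div_le_iff₀ hω]
  have hc : cP z0 ≤ cP z := by unfold cP; linarith [pow_le_pow_left₀ h1 h2 2]
  have := mul_le_mul_of_nonneg_right (h3.trans (mul_le_mul_of_nonneg_left hc hω.le)) (sq_nonneg G)
  linarith

/-- **The excess of `1/ω` paid by half of the linear weight where `√ε σ > 13/20`.** -/
theorem pay_share {ε T σ l G ω z0 bm : ℝ} (hm : 382 ≤ m) (hε1 : 7 / 2 ≤ ε) (hT : 0 < T)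
    (ha : 13 / 20 < √ε * σ) (hσ : T ≤ σ)
    (hG : G ^ 2 ≤ 23 / 100 / √((m : ℝ) + 2)) (hz : 28 / 5 ≤ ((m : ℝ) + 2) * T ^ 2)
    (hl : pre m T * ε * (3 / 10) * (((m : ℝ) + 2) * T ^ 2 - 101 / 100) ^ 2 /
      (((m : ℝ) + 2) * T) ≤ l)
    (h1 : 28 / 5 ≤ z0) (h2 : z0 ≤ ((m : ℝ) + 2) * T ^ 2) (h3 : √ε * T ≤ bm) (h4 : bm ≤ 13 / 20)
    (h5 : (1 / ω - cP z0) * (23 / 100) ≤
      3 / 20 * (187 / 100) * (13 / 20 - bm) * ((z0 - 101 / 100) ^ 2 / z0) * (2366 / 1000)) :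
    pre m T * (G ^ 2 / ω) ≤
      pre m T * (cP (((m : ℝ) + 2) * T ^ 2) * G ^ 2) + (σ - T) * (1 / 2 * l) := by
  have hm' : (382 : ℝ) ≤ (m : ℝ) := by exact_mod_cast hm
  have hε : 0 < ε := by linarith
  have hpre : 0 < pre m T := by unfold pre; positivity
  have hv0 : 0 < √((m : ℝ) + 2) := by positivity
  have hv2 : √((m : ℝ) + 2) ^ 2 = (m : ℝ) + 2 := sq_sqrt (by linarith)
  have hq : 0 < √ε := sqrt_pos.2 hε
  have hc : cP z0 ≤ cP (((m : ℝ) + 2) * T ^ 2) := by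
    unfold cP; linarith [pow_le_pow_left₀ (by linarith : (0 : ℝ) ≤ z0) h2 2]
  have hbm : 0 ≤ 13 / 20 - bm := by linarith
  set R := 3 / 20 * (187 / 100) * (13 / 20 - bm) * ((z0 - 101 / 100) ^ 2 / z0) * (2366 / 1000)
    with hR
  have hE : (1 / ω - cP z0) * G ^ 2 ≤ R / √((m : ℝ) + 2) := by
    rcases le_total (1 / ω - cP z0) 0 with h0 | h0
    · refine le_trans (mul_nonpos_of_nonpos_of_nonneg h0 (sq_nonneg G)) ?_
      rw [hR]; positivity
    · refine (mul_le_mul_of_nonneg_left hG h0).trans ?_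
      rw [← mul_div_assoc]
      exact div_le_div_of_nonneg_right h5 hv0.le
  have hK := linK (z0 := z0) (z := ((m : ℝ) + 2) * T ^ 2)
    (K := 3 / 10 * ((z0 - 101 / 100) ^ 2 / z0)) (by linarith) h2 (by field_simp; exact le_rfl)
  have hs1 : (187 : ℝ) / 100 ≤ √ε := by
    rw [le_sqrt (by norm_num) hε.le]; linarith
  have hτ1 : (2366 : ℝ) / 1000 ≤ √((m : ℝ) + 2) * T := by
    refine le_of_pow_le_pow_left₀ two_ne_zero (by positivity) ?_
    rw [mul_pow, hv2]; linarith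
  have hD : (13 / 20 - bm) / √ε ≤ σ - T := by
    rw [div_le_iff₀ hq]; linarith
  have hDl : pre m T * (R / √((m : ℝ) + 2)) ≤ (σ - T) * (1 / 2 * l) := by
    refine le_trans ?_ (mul_le_mul hD
      (mul_le_mul_of_nonneg_left hl (by norm_num)) (by positivity) (sub_nonneg.2 hσ))
    have h6 := mul_le_mul_of_nonneg_left hK (by positivity :
      0 ≤ pre m T * (1 / 2) * ((13 / 20 - bm) / √ε) * ε / (((m : ℝ) + 2) * T))
    refine le_trans ?_ (h6.trans (le_of_eq (by ring)))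
    rw [pay_eq hε hv0 hv2 hT rfl rfl, ← mul_div_assoc]
    refine div_le_div_of_nonneg_right ?_ hv0.le
    have h8 := mul_le_mul_of_nonneg_left (mul_le_mul hs1 hτ1 (by norm_num) hq.le) (by positivity :
      0 ≤ pre m T * (3 / 20 * (13 / 20 - bm) * ((z0 - 101 / 100) ^ 2 / z0)))
    rw [hR]
    linarith
  have h9 := mul_le_mul_of_nonneg_left hE hpre.le
  have h10 := mul_le_mul_of_nonneg_left (mul_le_mul_of_nonneg_right hc (sq_nonneg G)) hpre.le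
  have e2 : pre m T * ((1 / ω - cP z0) * G ^ 2) =
      pre m T * (G ^ 2 / ω) - pre m T * (cP z0 * G ^ 2) := by ring
  linarith

/-- The part `z ≤ 17`, `√ε σ ≤ 13/20`. -/
theorem posN_capA {ε T σ h l p G c₀ c₁ : ℝ} (hm : 382 ≤ m) (hε1 : 7 / 2 ≤ ε)
    (hε2 : ε ≤ 203 / 50) (hc₀ : c₀ = 9 / 5 * ε / √((m : ℝ) + 2))
    (hc₁ : c₁ = 6 / 5 * ε * √((m : ℝ) + 2)) (hT : 0 < T) (hT2 : T ≤ 47 / 100) (hh : 0 < h)
    (hσ : T ≤ σ) (hθ : ε * σ ^ 2 ≤ 19 / 20)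
    (hp0 : shP m c₀ c₁ T / pre m T ≤ p) (hp1 : p ≤ -(4 / 5 * ε / √((m : ℝ) + 2)))
    (hG : -(1 / 10) ≤ G) (hz17 : ((m : ℝ) + 2) * T ^ 2 ≤ 17) (ha : √ε * σ ≤ 13 / 20)
    (hz : 28 / 5 ≤ ((m : ℝ) + 2) * T ^ 2)
    (hl : pre m T * ε * (3 / 10) * (((m : ℝ) + 2) * T ^ 2 - 101 / 100) ^ 2 /
      (((m : ℝ) + 2) * T) ≤ l) :
    ∃ L, L ≤ valQ ε T σ h + (2 * p * (σ - T) + G) * (h - 1) ∧
      -(pre m T * (cP (((m : ℝ) + 2) * T ^ 2) * G ^ 2)) ≤ pre m T * L + (σ - T) * l +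
        (σ - T) ^ 2 * (shP' m c₀ c₁ T + 2 * muX m T * shS m c₀ c₁ T) := by
  have hm' : (382 : ℝ) ≤ (m : ℝ) := by exact_mod_cast hm
  have hε : 0 < ε := by linarith
  have hpre : 0 < pre m T := by unfold pre; positivity
  set v := √((m : ℝ) + 2) with hvdef
  have hv0 : 0 < v := by rw [hvdef]; positivity
  have hv2 : v ^ 2 = (m : ℝ) + 2 := sq_sqrt (by linarith)
  set z := ((m : ℝ) + 2) * T ^ 2 with hzdef
  set τ := v * T with hτdef
  have hτ0 : 0 < τ := by positivity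
  have hτ2 : τ ^ 2 = z := by rw [hτdef, mul_pow, hv2]
  have hlo : ∀ a : ℝ, a ^ 2 ≤ z → a ≤ τ := fun a h => by
    rw [← hτ2] at h
    exact (abs_le_of_sq_le_sq' h hτ0.le).2
  have hhi : ∀ b : ℝ, 0 ≤ b → z ≤ b ^ 2 → τ ≤ b := fun b hb h => by
    rw [← hτ2] at h
    exact le_of_pow_le_pow_left₀ two_ne_zero hb h
  have hq : 0 < √ε := sqrt_pos.2 hε
  set b := √ε * T with hbdef
  have hb0 : 0 ≤ b := by positivity
  have hb2 : b ^ 2 = ε * T ^ 2 := by rw [hbdef, mul_pow, sq_sqrt hε.le]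
  have hbz : 5000 * b ^ 2 ≤ 53 * z := by
    rw [hb2, hzdef]
    have h2 := mul_le_mul_of_nonneg_right
      (show 5000 * ε ≤ 53 * ((m : ℝ) + 2) by linarith) (sq_nonneg T)
    linarith
  have hbhi : ∀ B : ℝ, 0 ≤ B → 53 * z ≤ 5000 * B ^ 2 → b ≤ B := fun B hB h =>
    le_of_pow_le_pow_left₀ two_ne_zero hB (by linarith)
  have hσa : √ε * σ ≤ 39 / 40 := by
    refine abs_le_of_sq_le_sq' ?_ (by norm_num) |>.2
    rw [mul_pow, sq_sqrt hε.le]; linarith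
  have hsz : 384 * T ^ 2 ≤ z := by
    rw [hzdef]
    exact mul_le_mul_of_nonneg_right (by linarith) (sq_nonneg T)
  have hT22 : T ^ 2 ≤ 2209 / 10000 := by
    have := pow_le_pow_left₀ hT.le hT2 2
    linarith
  have hbT : b ≤ 948 / 1000 := by
    refine le_of_pow_le_pow_left₀ two_ne_zero (by norm_num) ?_
    rw [hb2]
    have := mul_le_mul hε2 hT22 (sq_nonneg T) (by norm_num)
    linarith
  have hlin : ∀ θ K z0 : ℝ, 0 < θ → 101 / 100 ≤ z0 → z0 ≤ z →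
      K / θ * z0 ≤ 3 / 10 * (z0 - 101 / 100) ^ 2 → pre m T * (ε * (K * T)) ≤ θ * l :=
    fun θ K z0 h0 h1 h2 h3 => lin_share hε hT h0 h1 h2 h3 hl
  have hb425 : b ≤ 425 / 1000 := hbhi _ (by norm_num) (by linarith)
  have ta := hlo (2366 / 1000) (by linarith)
  have tb := hhi (4124 / 1000) (by norm_num) (by linarith)
  obtain ⟨L, hL, hle⟩ := posN_cap (z0 := 28 / 5) (a := 13 / 20) (kl := 38 / 100)
    (kh := 169 / 100) (C0 := 215 / 100) (K := 56 / 100) (ω := 93 / 100) (gl := 1 / 10)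
    (l := 1 / 2 * l) hm hε1 hc₀ hc₁ hT hh hσ hp0 hp1 hG ha (by norm_num) (by linarith)
    (by norm_num) (by norm_num) hz (hlin _ _ (28 / 5) (by norm_num) (by norm_num) hz (by norm_num))
    (by norm_num) (by norm_num) (by rw [← hτdef]; linarith) (by rw [← hτdef]; linarith)
    (mid_C (t0 := 2366 / 1000) (t1 := 4124 / 1000) (w1 := 1045 / 1000) (by norm_num) ta tb
      (by linarith) (by norm_num))
    (by linarith [pow_le_pow_left₀ hb0 hb425 2])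
    (by linarith [pow_le_pow_left₀ hb0 hb425 2, sq_nonneg b])
    (capA hb0 hb425)
  refine ⟨L, hL, ?_⟩
  have h5 := mul_le_mul_of_nonneg_left
    (cP_pay (G := G) (z0 := 28 / 5) (by norm_num) hz (by norm_num : (0 : ℝ) < 93 / 100) (by norm_num [cP]))
    hpre.le
  have hl0 : 0 ≤ l := le_trans (by positivity) hl
  have := mul_nonneg (sub_nonneg.2 hσ) hl0
  linarith

/-- The part `z ≤ 17`, `√ε σ > 13/20`: half of the linear weight pays. -/
theorem posN_capB {ε T σ h l p G c₀ c₁ : ℝ} (hm : 382 ≤ m) (hε1 : 7 / 2 ≤ ε)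
    (hε2 : ε ≤ 203 / 50) (hc₀ : c₀ = 9 / 5 * ε / √((m : ℝ) + 2))
    (hc₁ : c₁ = 6 / 5 * ε * √((m : ℝ) + 2)) (hT : 0 < T) (hT2 : T ≤ 47 / 100) (hh : 0 < h)
    (hσ : T ≤ σ) (hθ : ε * σ ^ 2 ≤ 19 / 20)
    (hp0 : shP m c₀ c₁ T / pre m T ≤ p) (hp1 : p ≤ -(4 / 5 * ε / √((m : ℝ) + 2)))
    (hG : -(1 / 10) ≤ G) (hz17 : ((m : ℝ) + 2) * T ^ 2 ≤ 17) (ha : 13 / 20 < √ε * σ)
    (hG2' : G ^ 2 ≤ 23 / 100 / √((m : ℝ) + 2))
    (hz : 28 / 5 ≤ ((m : ℝ) + 2) * T ^ 2)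
    (hl : pre m T * ε * (3 / 10) * (((m : ℝ) + 2) * T ^ 2 - 101 / 100) ^ 2 /
      (((m : ℝ) + 2) * T) ≤ l) :
    ∃ L, L ≤ valQ ε T σ h + (2 * p * (σ - T) + G) * (h - 1) ∧
      -(pre m T * (cP (((m : ℝ) + 2) * T ^ 2) * G ^ 2)) ≤ pre m T * L + (σ - T) * l +
        (σ - T) ^ 2 * (shP' m c₀ c₁ T + 2 * muX m T * shS m c₀ c₁ T) := by
  have hm' : (382 : ℝ) ≤ (m : ℝ) := by exact_mod_cast hm
  have hε : 0 < ε := by linarith
  have hpre : 0 < pre m T := by unfold pre; positivity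
  set v := √((m : ℝ) + 2) with hvdef
  have hv0 : 0 < v := by rw [hvdef]; positivity
  have hv2 : v ^ 2 = (m : ℝ) + 2 := sq_sqrt (by linarith)
  set z := ((m : ℝ) + 2) * T ^ 2 with hzdef
  set τ := v * T with hτdef
  have hτ0 : 0 < τ := by positivity
  have hτ2 : τ ^ 2 = z := by rw [hτdef, mul_pow, hv2]
  have hlo : ∀ a : ℝ, a ^ 2 ≤ z → a ≤ τ := fun a h => by
    rw [← hτ2] at h
    exact (abs_le_of_sq_le_sq' h hτ0.le).2
  have hhi : ∀ b : ℝ, 0 ≤ b → z ≤ b ^ 2 → τ ≤ b := fun b hb h => by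
    rw [← hτ2] at h
    exact le_of_pow_le_pow_left₀ two_ne_zero hb h
  have hq : 0 < √ε := sqrt_pos.2 hε
  set b := √ε * T with hbdef
  have hb0 : 0 ≤ b := by positivity
  have hb2 : b ^ 2 = ε * T ^ 2 := by rw [hbdef, mul_pow, sq_sqrt hε.le]
  have hbz : 5000 * b ^ 2 ≤ 53 * z := by
    rw [hb2, hzdef]
    have h2 := mul_le_mul_of_nonneg_right
      (show 5000 * ε ≤ 53 * ((m : ℝ) + 2) by linarith) (sq_nonneg T)
    linarith
  have hbhi : ∀ B : ℝ, 0 ≤ B → 53 * z ≤ 5000 * B ^ 2 → b ≤ B := fun B hB h =>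
    le_of_pow_le_pow_left₀ two_ne_zero hB (by linarith)
  have hσa : √ε * σ ≤ 39 / 40 := by
    refine abs_le_of_sq_le_sq' ?_ (by norm_num) |>.2
    rw [mul_pow, sq_sqrt hε.le]; linarith
  have hsz : 384 * T ^ 2 ≤ z := by
    rw [hzdef]
    exact mul_le_mul_of_nonneg_right (by linarith) (sq_nonneg T)
  have hT22 : T ^ 2 ≤ 2209 / 10000 := by
    have := pow_le_pow_left₀ hT.le hT2 2
    linarith
  have hbT : b ≤ 948 / 1000 := by
    refine le_of_pow_le_pow_left₀ two_ne_zero (by norm_num) ?_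
    rw [hb2]
    have := mul_le_mul hε2 hT22 (sq_nonneg T) (by norm_num)
    linarith
  have hlin : ∀ θ K z0 : ℝ, 0 < θ → 101 / 100 ≤ z0 → z0 ≤ z →
      K / θ * z0 ≤ 3 / 10 * (z0 - 101 / 100) ^ 2 → pre m T * (ε * (K * T)) ≤ θ * l :=
    fun θ K z0 h0 h1 h2 h3 => lin_share hε hT h0 h1 h2 h3 hl
  have hb425 : b ≤ 425 / 1000 := hbhi _ (by norm_num) (by linarith)
  have hpay := fun ω z0 bm => pay_share (ω := ω) (z0 := z0) (bm := bm) hm hε1 hT ha hσ hG2'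
    hz hl
  rcases le_or_gt z 10 with h10 | h10
  · have hb326 : b ≤ 326 / 1000 := hbhi _ (by norm_num) (by linarith)
    have ta := hlo (2366 / 1000) (by linarith)
    have tb := hhi (3163 / 1000) (by norm_num) (by linarith)
    obtain ⟨L, hL, hle⟩ := posN_cap (z0 := 28 / 5) (a := 39 / 40) (kl := 50 / 100)
      (kh := 169 / 100) (C0 := 233 / 100) (K := 56 / 100) (ω := 23 / 100) (gl := 1 / 10)
      (l := 1 / 2 * l) hm hε1 hc₀ hc₁ hT hh hσ hp0 hp1 hG hσa (by norm_num) (by linarith)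
      (by norm_num) (by norm_num) hz
      (hlin _ _ (28 / 5) (by norm_num) (by norm_num) hz (by norm_num))
      (by norm_num) (by norm_num) (by rw [← hτdef]; linarith) (by rw [← hτdef]; linarith)
      (mid_C (t0 := 2366 / 1000) (t1 := 3163 / 1000) (w1 := 10261 / 10000) (by norm_num) ta tb
        (by linarith) (by norm_num))
      (by linarith [pow_le_pow_left₀ hb0 hb326 2])
      (by linarith [pow_le_pow_left₀ hb0 hb326 2, sq_nonneg b])
      (capB1 hb0 hb326)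
    refine ⟨L, hL, ?_⟩
    have := hpay (23 / 100) (28 / 5) (326 / 1000) le_rfl hz hb326 (by norm_num)
      (by norm_num [cP])
    linarith
  · have ta := hlo (3162 / 1000) (by linarith)
    have tb := hhi (4124 / 1000) (by norm_num) (by linarith)
    obtain ⟨L, hL, hle⟩ := posN_cap (z0 := 10) (a := 39 / 40) (kl := 38 / 100)
      (kh := 106 / 100) (C0 := 306 / 100) (K := 121 / 100) (ω := 29 / 100) (gl := 1 / 10)
      (l := 1 / 2 * l) hm hε1 hc₀ hc₁ hT hh hσ hp0 hp1 hG hσa (by norm_num) (by linarith)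
      (by norm_num) (by norm_num) h10.le
      (hlin _ _ 10 (by norm_num) (by norm_num) h10.le (by norm_num))
      (by norm_num) (by norm_num) (by rw [← hτdef]; linarith) (by rw [← hτdef]; linarith)
      (mid_C (t0 := 3162 / 1000) (t1 := 4124 / 1000) (w1 := 1045 / 1000) (by norm_num) ta tb
        (by linarith) (by norm_num))
      (by linarith [pow_le_pow_left₀ hb0 hb425 2])
      (by linarith [pow_le_pow_left₀ hb0 hb425 2, sq_nonneg b])
      (capB2 hb0 hb425)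
    refine ⟨L, hL, ?_⟩
    have := hpay (29 / 100) 10 (425 / 1000) (by norm_num) h10.le hb425
      (by norm_num) (by norm_num [cP])
    linarith

/-- The part `z ≥ 17`. -/
theorem posN_capC {ε T σ h l p G c₀ c₁ : ℝ} (hm : 382 ≤ m) (hε1 : 7 / 2 ≤ ε)
    (hε2 : ε ≤ 203 / 50) (hc₀ : c₀ = 9 / 5 * ε / √((m : ℝ) + 2))
    (hc₁ : c₁ = 6 / 5 * ε * √((m : ℝ) + 2)) (hT : 0 < T) (hT2 : T ≤ 47 / 100) (hh : 0 < h)
    (hσ : T ≤ σ) (hθ : ε * σ ^ 2 ≤ 19 / 20)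
    (hp0 : shP m c₀ c₁ T / pre m T ≤ p) (hp1 : p ≤ -(4 / 5 * ε / √((m : ℝ) + 2)))
    (hG' : -(7 / 100) ≤ G) (hz17 : 17 < ((m : ℝ) + 2) * T ^ 2)
    (hl : pre m T * ε * (3 / 10) * (((m : ℝ) + 2) * T ^ 2 - 101 / 100) ^ 2 /
      (((m : ℝ) + 2) * T) ≤ l) :
    ∃ L, L ≤ valQ ε T σ h + (2 * p * (σ - T) + G) * (h - 1) ∧
      -(pre m T * (cP (((m : ℝ) + 2) * T ^ 2) * G ^ 2)) ≤ pre m T * L + (σ - T) * l +
        (σ - T) ^ 2 * (shP' m c₀ c₁ T + 2 * muX m T * shS m c₀ c₁ T) := by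
  have hm' : (382 : ℝ) ≤ (m : ℝ) := by exact_mod_cast hm
  have hε : 0 < ε := by linarith
  have hpre : 0 < pre m T := by unfold pre; positivity
  set v := √((m : ℝ) + 2) with hvdef
  have hv0 : 0 < v := by rw [hvdef]; positivity
  have hv2 : v ^ 2 = (m : ℝ) + 2 := sq_sqrt (by linarith)
  set z := ((m : ℝ) + 2) * T ^ 2 with hzdef
  set τ := v * T with hτdef
  have hτ0 : 0 < τ := by positivity
  have hτ2 : τ ^ 2 = z := by rw [hτdef, mul_pow, hv2]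
  have hlo : ∀ a : ℝ, a ^ 2 ≤ z → a ≤ τ := fun a h => by
    rw [← hτ2] at h
    exact (abs_le_of_sq_le_sq' h hτ0.le).2
  have hhi : ∀ b : ℝ, 0 ≤ b → z ≤ b ^ 2 → τ ≤ b := fun b hb h => by
    rw [← hτ2] at h
    exact le_of_pow_le_pow_left₀ two_ne_zero hb h
  have hq : 0 < √ε := sqrt_pos.2 hε
  set b := √ε * T with hbdef
  have hb0 : 0 ≤ b := by positivity
  have hb2 : b ^ 2 = ε * T ^ 2 := by rw [hbdef, mul_pow, sq_sqrt hε.le]
  have hbz : 5000 * b ^ 2 ≤ 53 * z := by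
    rw [hb2, hzdef]
    have h2 := mul_le_mul_of_nonneg_right
      (show 5000 * ε ≤ 53 * ((m : ℝ) + 2) by linarith) (sq_nonneg T)
    linarith
  have hbhi : ∀ B : ℝ, 0 ≤ B → 53 * z ≤ 5000 * B ^ 2 → b ≤ B := fun B hB h =>
    le_of_pow_le_pow_left₀ two_ne_zero hB (by linarith)
  have hσa : √ε * σ ≤ 39 / 40 := by
    refine abs_le_of_sq_le_sq' ?_ (by norm_num) |>.2
    rw [mul_pow, sq_sqrt hε.le]; linarith
  have hsz : 384 * T ^ 2 ≤ z := by
    rw [hzdef]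
    exact mul_le_mul_of_nonneg_right (by linarith) (sq_nonneg T)
  have hT22 : T ^ 2 ≤ 2209 / 10000 := by
    have := pow_le_pow_left₀ hT.le hT2 2
    linarith
  have hbT : b ≤ 948 / 1000 := by
    refine le_of_pow_le_pow_left₀ two_ne_zero (by norm_num) ?_
    rw [hb2]
    have := mul_le_mul hε2 hT22 (sq_nonneg T) (by norm_num)
    linarith
  have hlin : ∀ θ K z0 : ℝ, 0 < θ → 101 / 100 ≤ z0 → z0 ≤ z →
      K / θ * z0 ≤ 3 / 10 * (z0 - 101 / 100) ^ 2 → pre m T * (ε * (K * T)) ≤ θ * l :=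
    fun θ K z0 h0 h1 h2 h3 => lin_share hε hT h0 h1 h2 h3 hl
  rcases le_or_gt z 45 with h45 | h45
  · have hb691 : b ≤ 691 / 1000 := hbhi _ (by norm_num) (by linarith)
    have ta := hlo (4123 / 1000) (by linarith)
    have tb := hhi (6709 / 1000) (by norm_num) (by linarith)
    obtain ⟨L, hL, hle⟩ := posN_cap (z0 := 17) (a := 39 / 40) (kl := 23 / 100)
      (kh := 73 / 100) (C0 := 369 / 100) (K := 451 / 100) (ω := 24 / 100) (gl := 7 / 100)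
      (l := 1 * l) hm hε1 hc₀ hc₁ hT hh hσ hp0 hp1 hG' hσa (by norm_num) (by linarith)
      (by norm_num) (by norm_num) hz17.le
      (hlin _ _ 17 (by norm_num) (by norm_num) hz17.le (by norm_num))
      (by norm_num) (by norm_num) (by rw [← hτdef]; linarith) (by rw [← hτdef]; linarith)
      (mid_C (t0 := 4123 / 1000) (t1 := 6709 / 1000) (w1 := 11172 / 10000) (by norm_num) ta tb
        (by linarith) (by norm_num))
      (by linarith [pow_le_pow_left₀ hb0 hb691 2])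
      (by linarith [pow_le_pow_left₀ hb0 hb691 2, sq_nonneg b])
      (capC1 hb0 hb691)
    refine ⟨L, hL, ?_⟩
    have h5 := mul_le_mul_of_nonneg_left
      (cP_pay (G := G) (z0 := 17) (by norm_num) hz17.le (by norm_num : (0 : ℝ) < 24 / 100) (by norm_num [cP]))
      hpre.le
    linarith
  · have ta := hlo (6708 / 1000) (by linarith)
    obtain ⟨L, hL, hle⟩ := posN_cap (z0 := 45) (a := 39 / 40) (kl := 0)
      (kh := 40 / 100) (C0 := 559 / 100) (K := 129 / 10) (ω := 4 / 100) (gl := 7 / 100)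
      (l := 1 * l) hm hε1 hc₀ hc₁ hT hh hσ hp0 hp1 hG' hσa (by norm_num) (by linarith)
      (by norm_num) (by norm_num) h45.le
      (hlin _ _ 45 (by norm_num) (by norm_num) h45.le (by norm_num))
      (by norm_num) (by norm_num) (by rw [← hτdef]; norm_num) (by rw [← hτdef]; linarith)
      (by
        rw [← hτdef]
        refine le_trans (le_trans (by norm_num) (mul_le_mul (div_le_div_of_nonneg_left
          (by norm_num) (by positivity) (by linarith : 1 + T ^ 2 ≤ 12209 / 10000)) ta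
          (by norm_num) (by positivity))) (le_add_of_nonneg_left (by positivity)))
      (by linarith [pow_le_pow_left₀ hb0 hbT 2])
      (by linarith [pow_le_pow_left₀ hb0 hbT 2, sq_nonneg b])
      (capC2 hb0 hbT)
    refine ⟨L, hL, ?_⟩
    have h5 := mul_le_mul_of_nonneg_left
      (cP_pay (G := G) (z0 := 45) (by norm_num) h45.le (by norm_num : (0 : ℝ) < 4 / 100) (by norm_num [cP]))
      hpre.le
    linarith


/-- **The part `z ≥ 28/5`.** -/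
theorem posN_high {ε T σ h l p G c₀ c₁ : ℝ} (hm : 382 ≤ m) (hε1 : 7 / 2 ≤ ε)
    (hε2 : ε ≤ 203 / 50) (hc₀ : c₀ = 9 / 5 * ε / √((m : ℝ) + 2))
    (hc₁ : c₁ = 6 / 5 * ε * √((m : ℝ) + 2)) (hT : 0 < T) (hT2 : T ≤ 47 / 100) (hh : 0 < h)
    (hσ : T ≤ σ) (hθ : ε * σ ^ 2 ≤ 19 / 20)
    (hp0 : shP m c₀ c₁ T / pre m T ≤ p) (hp1 : p ≤ -(4 / 5 * ε / √((m : ℝ) + 2)))
    (hG : -(1 / 10) ≤ G) (hG17 : 17 ≤ ((m : ℝ) + 2) * T ^ 2 → -(7 / 100) ≤ G)
    (hG2 : ((m : ℝ) + 2) * T ^ 2 ≤ 17 → G ^ 2 ≤ 23 / 100 / √((m : ℝ) + 2))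
    (hz : 28 / 5 ≤ ((m : ℝ) + 2) * T ^ 2)
    (hl : pre m T * ε * (3 / 10) * (((m : ℝ) + 2) * T ^ 2 - 101 / 100) ^ 2 /
      (((m : ℝ) + 2) * T) ≤ l) :
    ∃ L, L ≤ valQ ε T σ h + (2 * p * (σ - T) + G) * (h - 1) ∧
      -(pre m T * (cP (((m : ℝ) + 2) * T ^ 2) * G ^ 2)) ≤ pre m T * L + (σ - T) * l +
        (σ - T) ^ 2 * (shP' m c₀ c₁ T + 2 * muX m T * shS m c₀ c₁ T) := by
  rcases le_or_gt (((m : ℝ) + 2) * T ^ 2) 17 with hz17 | hz17
  · rcases le_or_gt (√ε * σ) (13 / 20) with ha | ha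
    · exact posN_capA hm hε1 hε2 hc₀ hc₁ hT hT2 hh hσ hθ hp0 hp1 hG hz17 ha hz hl
    · exact posN_capB hm hε1 hε2 hc₀ hc₁ hT hT2 hh hσ hθ hp0 hp1 hG hz17 ha (hG2 hz17) hz hl
  · exact posN_capC hm hε1 hε2 hc₀ hc₁ hT hT2 hh hσ hθ hp0 hp1 (hG17 hz17.le) hz17 hl

end Vale.Agent.P237.Cal
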