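import Vale.Agent.P237.Cal.TanRow
import Vale.Agent.P237.Cal.PosLow
import Vale.Agent.P237.Cal.ChordTight

/-!
# P237: zone II (`ε σ² > 19/20`) for `T ≤ 1/50`

The chord bound forces `n T² ≥ (24/25) √n σ`, so `√n T` is large and the weight of the square
alone pays for the multiplier `b = (ε σ² - 19/20)/(σ² + 19/20)`.
-/

open Real

namespace Vale.Agent.P237.Cal

variable {m : ℕ}

/-- The chord bound at small `T`: `z = n T²` and `v = √n` are large. -/
lemma low_size {v T z σ : ℝ} (hv : 19 ≤ v) (hz : z = v ^ 2 * T ^ 2) (hT : 0 < T) (hT1 : T ≤ 1 / 50)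
    (hσ : 97 / 200 ≤ σ) (h : v * σ ≤ 20667 / 10000 * (z / 2 + 10002 / 10000)) :
    24 / 25 * (v * σ) ≤ z ∧ 1000 ≤ v ∧ 24 / 25 * σ / T ≤ v * T := by
  have hv0 : 0 < v := by linarith
  have hvσ : 97 / 200 * v ≤ v * σ := by
    have := mul_le_mul_of_nonneg_left hσ hv0.le
    linarith
  have h7 : 27 / 4 ≤ z := by linarith
  have h8 : 36 / 100 * v ≤ z := by linarith
  have hT2 : T ^ 2 ≤ 1 / 2500 := by
    have := pow_le_pow_left₀ hT.le hT1 2
    linarith
  have hv900 : 900 ≤ v := by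
    have h9 : 36 / 100 * v ≤ v * (v * (1 / 2500)) := by
      have := mul_le_mul_of_nonneg_left hT2 (sq_nonneg v)
      linarith
    have := le_of_mul_le_mul_left (h9.trans_eq' (mul_comm _ _)) hv0
    linarith
  have h300 : 300 ≤ z := by linarith
  have h10 : 24 / 25 * (v * σ) ≤ z := by linarith
  have hzv : 24 / 25 * σ ≤ v * T ^ 2 := by
    refine le_of_mul_le_mul_left ?_ hv0
    rw [hz] at h10
    linarith
  refine ⟨h10, ?_, ?_⟩
  · have h11 := mul_le_mul_of_nonneg_left hT2 hv0.le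
    linarith
  · rw [div_le_iff₀ hT]
    linarith

/-- `Y² - 1 ≤ T²/10` in this range. -/
lemma low_eta {v T σ Y : ℝ} (hv : v ^ 2 = (m : ℝ) + 2) (hv1 : 1000 ≤ v) (hσ : 97 / 200 ≤ σ)
    (hzv : 24 / 25 * (v * σ) ≤ v ^ 2 * T ^ 2) (hY : 1 ≤ Y)
    (hlog : ((m : ℝ) + 1) * log Y ≤ log ((m : ℝ) + 2) + 7 / 10) :
    Y ^ 2 - 1 ≤ T ^ 2 / 10 := by
  have hv0 : 0 < v := by linarith
  have hY0 : 0 < Y := by linarith
  have hlv : log v ≤ 6932 / 1000 + v / 1024 - 1 := by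
    have h2 := log_le_sub_one_of_pos (div_pos hv0 (by norm_num : (0 : ℝ) < 1024))
    rw [log_div hv0.ne' (by norm_num), show (1024 : ℝ) = 2 ^ 10 by norm_num, log_pow] at h2
    have := log_two_lt_d9
    push_cast at h2
    linarith
  rw [← hv, log_pow] at hlog
  push_cast at hlog
  have hk : (0 : ℝ) < v ^ 2 - 1 := by
    have := pow_le_pow_left₀ (by norm_num) hv1 2
    linarith
  set r := 2 * log Y with hr
  have hlY : 0 ≤ r := by have := log_nonneg hY; positivity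
  have h3 : (v ^ 2 - 1) * r ≤ 4 * (v / 1024) + 2513 / 100 := by
    have e : (m : ℝ) + 1 = v ^ 2 - 1 := by linarith
    rw [e] at hlog
    linarith
  have h4 : r * v ≤ 46 / 1000 := by
    have h5 := mul_le_mul_of_nonneg_right h3 hv0.le
    refine le_of_mul_le_mul_left ?_ hk
    have h6 := mul_le_mul_of_nonneg_right hv1 hv0.le
    linarith
  have hr1 : r ≤ 46 / 1000000 := by
    have := mul_le_mul_of_nonneg_left hv1 hlY
    linarith
  have hY2 : Y ^ 2 = exp r := by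
    rw [hr, show (2 : ℝ) * log Y = log Y + log Y by ring, exp_add, exp_log hY0, sq]
  have h8 : exp r * (1 - r) ≤ 1 := by
    calc exp r * (1 - r) ≤ exp r * exp (-r) :=
          mul_le_mul_of_nonneg_left (by linarith [add_one_le_exp (-r)]) (exp_pos r).le
      _ = 1 := by rw [← exp_add, add_neg_cancel, exp_zero]
  have h9 : (exp r - 1) * v ≤ 465 / 10000 := by
    have he : exp r ≤ 10001 / 10000 := by
      have := mul_le_mul_of_nonneg_left hr1 (exp_pos r).le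
      linarith
    have h10 := mul_le_mul_of_nonneg_right he (mul_nonneg hlY hv0.le)
    have h11 := mul_le_mul_of_nonneg_right h8 hv0.le
    linarith
  have hvT : 24 / 25 * σ ≤ v * T ^ 2 := by
    refine le_of_mul_le_mul_left ?_ hv0
    linarith
  rw [hY2]
  refine le_of_mul_le_mul_left ?_ hv0
  linarith

/-- The multiplier: nonnegative and at most `(41/100) ε σ²`. -/
lemma low_b {ε u : ℝ} (hu : 19 / 20 ≤ ε * u) (hu0 : 0 < u) (he0 : 0 ≤ ε) (he1 : ε ≤ 403 / 100) :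
    0 ≤ (ε * u - 19 / 20) / (u + 19 / 20) ∧
      (ε * u - 19 / 20) / (u + 19 / 20) ≤ 41 / 100 * (ε * u) := by
  refine ⟨div_nonneg (by linarith) (by linarith), ?_⟩
  rw [div_le_iff₀ (by linarith)]
  have h1 : 0 ≤ ε * (u - 6105 / 8200) ^ 2 := mul_nonneg he0 (sq_nonneg _)
  linarith

/-- The two coefficients and the square. -/
lemma low_quot {ε b T σ D p G₂ η : ℝ} (hb : b = (ε * σ ^ 2 - 19 / 20) / (σ ^ 2 + 19 / 20))
    (hb0 : 0 ≤ b) (hb2 : b ≤ 5 / 3) (he0 : 37 / 10 ≤ ε) (he1 : ε ≤ 403 / 100) (hT : 0 < T)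
    (hT1 : T ≤ 1 / 50) (hσ : 97 / 200 ≤ σ) (hD : D = σ - T) (hp0 : p ≤ 0)
    (hp1 : -(6 / 1000) ≤ p) (hG : -(1 / 1000) ≤ G₂) (hη0 : 0 ≤ η) (hη : η ≤ T ^ 2 / 10) :
    0 ≤ tanA ε b η σ ∧ 0 ≤ tanB ε b η T (2 * p * D + G₂) ∧
    0 < tanA ε b η σ + tanB ε b η T (2 * p * D + G₂) ∧
    (tanB ε b η T (2 * p * D + G₂) - tanA ε b η σ) ^ 2 /
        (tanA ε b η σ + tanB ε b η T (2 * p * D + G₂)) ≤
      3 / 2 * ε * D ^ 2 + 12 * G₂ ^ 2 + 1 / 5 * b := by
  have hu : 0 < σ ^ 2 + 19 / 20 := by positivity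
  have hε : 0 < ε := by linarith
  set E := ε - b with hE
  have eE : E * σ ^ 2 = 19 / 20 * (1 + b) := by
    have : b * (σ ^ 2 + 19 / 20) = ε * σ ^ 2 - 19 / 20 := by rw [hb, div_mul_cancel₀ _ hu.ne']
    rw [hE]; linarith
  have hE0 : 0 ≤ E := by rw [hE]; linarith
  have hE1 : E ≤ ε := by rw [hE]; linarith
  have hT2 : T ^ 2 ≤ 1 / 2500 := by
    have := pow_le_pow_left₀ hT.le hT1 2
    linarith
  have hD0 : 0 ≤ D := by linarith
  have hσT : σ + T ≤ 1042 / 1000 * σ := by linarith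
  have hηs : η / T ^ 2 ≤ 1 / 10 := by rw [div_le_iff₀ (by positivity)]; linarith
  have hy : b * η * (1 + 1 / T ^ 2) ≤ 1001 / 10000 * b := by
    have e : b * η * (1 + 1 / T ^ 2) = b * (η / T ^ 2 * (T ^ 2 + 1)) := by field_simp
    rw [e, mul_comm (1001 / 10000 : ℝ)]
    refine mul_le_mul_of_nonneg_left ?_ hb0
    exact (mul_le_mul hηs (by linarith : T ^ 2 + 1 ≤ 1001 / 1000) (by positivity) (by norm_num)).trans
      (by norm_num)
  have hy2 : 0 ≤ b * η * (2 + 1 / T ^ 2) ∧ b * η * (2 + 1 / T ^ 2) ≤ 101 / 1000 * b := by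
    refine ⟨by positivity, ?_⟩
    have : b * η ≤ b * (1 / 25000) := mul_le_mul_of_nonneg_left (by linarith) hb0
    linarith
  have hσ1 : D ≤ σ := by linarith
  have hpD : -(6 / 1000) * σ ≤ p * D := by
    nlinarith [mul_le_mul_of_nonneg_right hp1 hD0, mul_le_mul_of_nonneg_left hσ1
      (by norm_num : (0 : ℝ) ≤ 6 / 1000)]
  have hA : 1 / 20 * (1 + b) ≤ tanA ε b η σ := by
    have : 0 ≤ b * η := mul_nonneg hb0 hη0
    unfold tanA; rw [← hE]; linarith
  have hEs : E * T ^ 2 ≤ 2 / 1000 := by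
    have := mul_le_mul (hE1.trans he1) hT2 (sq_nonneg T) (by norm_num)
    linarith
  have hσ3 : σ ≤ 2 := by
    by_contra h
    push Not at h
    have h1 : 4 ≤ σ ^ 2 := by nlinarith
    have h2 := mul_le_mul_of_nonneg_left h1 hε.le
    have h3 : b * (σ ^ 2 + 19 / 20) = ε * σ ^ 2 - 19 / 20 := by rw [hb, div_mul_cancel₀ _ hu.ne']
    have h4 := mul_le_mul_of_nonneg_right hb2 hu.le
    nlinarith
  have hB : 85 / 100 * (1 + b) ≤ tanB ε b η T (2 * p * D + G₂) := by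
    unfold tanB; rw [← hE]; linarith
  have hN : 9 / 10 * (1 + b) ≤ tanA ε b η σ + tanB ε b η T (2 * p * D + G₂) := by linarith
  refine ⟨by linarith, by linarith, by linarith, ?_⟩
  set N := tanA ε b η σ + tanB ε b η T (2 * p * D + G₂)
  rw [div_le_iff₀ (by linarith)]
  set y := b * η * (2 + 1 / T ^ 2) with hyd
  set a := E * (σ + T) + 2 * p with had
  have e : tanB ε b η T (2 * p * D + G₂) - tanA ε b η σ = a * D + G₂ - y := by
    simp only [tanA, tanB, hyd, had, hE, hD]; ring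
  rw [e]
  have h6 : (a * D + G₂ - y) ^ 2 ≤ 5 / 4 * (a * D) ^ 2 + 10 * G₂ ^ 2 + 10 * y ^ 2 := by
    linarith [sq_nonneg (a * D - 8 * G₂), sq_nonneg (a * D + 8 * y), sq_nonneg (G₂ + y)]
  have hEσ : 19 / 20 ≤ E * σ ^ 2 := by linarith
  have ha : a ^ 2 ≤ 104 / 100 * ε * (1 + b) := by
    have h1 : -(E * (σ + T)) ≤ a := by
      have h2 : 19 / 40 ≤ E * σ := by
        have := mul_le_mul_of_nonneg_left hσ3 (mul_nonneg hE0 (by linarith : 0 ≤ σ))
        linarith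
      have : 0 ≤ E * T := mul_nonneg hE0 hT.le
      rw [had]; linarith
    have h2 : a ^ 2 ≤ (E * (σ + T)) ^ 2 := sq_le_sq' h1 (by rw [had]; linarith)
    have h3 : (E * (σ + T)) ^ 2 ≤ (E * (1042 / 1000 * σ)) ^ 2 :=
      pow_le_pow_left₀ (mul_nonneg hE0 (by linarith)) (mul_le_mul_of_nonneg_left hσT hE0) 2
    have h4 : E * (E * σ ^ 2) ≤ ε * (19 / 20 * (1 + b)) := by
      rw [eE]; exact mul_le_mul_of_nonneg_right hE1 (by linarith)
    have : 0 ≤ ε * (1 + b) := by positivity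
    linarith
  have hx : 5 / 4 * (a * D) ^ 2 ≤ 3 / 2 * ε * D ^ 2 * N := by
    have h1 := mul_le_mul_of_nonneg_left hN (mul_nonneg hε.le (sq_nonneg D))
    have h2 := mul_le_mul_of_nonneg_right ha (sq_nonneg D)
    have : 0 ≤ ε * (1 + b) * D ^ 2 := by positivity
    linarith
  have hGN : 10 * G₂ ^ 2 ≤ 12 * G₂ ^ 2 * N := by
    have := mul_le_mul_of_nonneg_left (by linarith : 9 / 10 ≤ N) (sq_nonneg G₂)
    linarith [sq_nonneg G₂]
  have hyN : 10 * y ^ 2 ≤ 1 / 5 * b * N := by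
    have h1 := pow_le_pow_left₀ hy2.1 hy2.2 2
    have h2 := mul_le_mul_of_nonneg_left hN hb0
    have h3 := mul_le_mul_of_nonneg_left hb2 hb0
    have h4 := sq_nonneg b
    linarith
  rw [add_mul, add_mul]
  linarith

/-- The budget: the weight of the square pays. -/
lemma low_pay {ε b T σ D η Cw q G₂ : ℝ} (he : 0 ≤ ε) (hT : 0 < T) (hT1 : T ≤ 1 / 50)
    (hσ : 97 / 200 ≤ σ) (hD : D = σ - T) (hb0 : 0 ≤ b) (hb : b ≤ 41 / 100 * (ε * σ ^ 2))
    (hη : η ≤ T ^ 2 / 10) (hC : 115 / 100 * (ε * σ / T) ≤ Cw)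
    (hq : q ≤ 3 / 2 * ε * D ^ 2 + 12 * G₂ ^ 2 + 1 / 5 * b) :
    (ε - b) * D ^ 2 + 2 * b * D / T + b * η / T ^ 2 + q ≤ D ^ 2 * Cw + 12 * G₂ ^ 2 := by
  have hD0 : 0 ≤ D := by linarith
  set K := ε * σ / T with hK
  have hσ0 : 0 ≤ σ := by linarith
  have hK0 : 0 ≤ K := by positivity
  have hTσ : T ≤ 42 / 1000 * σ := by linarith
  have hσD : σ ≤ 105 / 100 * D := by linarith
  have h1 : ε ≤ 42 / 1000 * K := by
    rw [hK, ← mul_div_assoc, le_div_iff₀ hT]
    have := mul_le_mul_of_nonneg_left hTσ he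
    linarith
  have h2 : 2 * b * D / T ≤ 87 / 100 * K * D ^ 2 := by
    have e : 2 * b * D / T = 2 * D * (b / T) := by ring
    have h3 : b / T ≤ 41 / 100 * K * σ := by
      rw [hK, div_le_iff₀ hT]
      refine hb.trans (le_of_eq ?_)
      field_simp
    have h4 := mul_le_mul_of_nonneg_left h3 (by linarith : (0 : ℝ) ≤ 2 * D)
    have h5 := mul_le_mul_of_nonneg_left hσD (mul_nonneg hK0 hD0)
    have : 0 ≤ K * D ^ 2 := mul_nonneg hK0 (sq_nonneg D)
    rw [e]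
    linarith
  have h6 : b * η / T ^ 2 ≤ 1 / 10 * b := by
    rw [div_le_iff₀ (by positivity)]
    have := mul_le_mul_of_nonneg_left hη hb0
    linarith
  have h7 : 3 / 10 * b ≤ 2 / 100 * K * D ^ 2 := by
    have h8 := mul_le_mul_of_nonneg_right h1 (sq_nonneg σ)
    have h9 := mul_le_mul_of_nonneg_left (pow_le_pow_left₀ hσ0 hσD 2) hK0
    have : 0 ≤ K * D ^ 2 := mul_nonneg hK0 (sq_nonneg D)
    linarith
  have h10 := mul_le_mul_of_nonneg_right h1 (sq_nonneg D)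
  have h11 := mul_le_mul_of_nonneg_right hC (sq_nonneg D)
  have : 0 ≤ b * D ^ 2 := mul_nonneg hb0 (sq_nonneg D)
  have : 0 ≤ K * D ^ 2 := mul_nonneg hK0 (sq_nonneg D)
  linarith

/-- `σ` and the chord bound in the form used here. -/
lemma low_chord {V Y Q T σ h : ℝ} (hY : 1 ≤ Y) (hR : RegC Y T σ h) (hE : Exc m V Y T σ)
    (hQ : V / Y ^ (m + 1) = Q * semiMom m 1) (hQ0 : 0 ≤ Q) (hQ1 : Q ≤ 16488 / 10000)
    (hT1 : T ≤ 1 / 50) :
    √((m : ℝ) + 2) * σ ≤
      20667 / 10000 * (((m : ℝ) + 2) * T ^ 2 / 2 + 10002 / 10000) := by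
  set z := ((m : ℝ) + 2) * T ^ 2 with hz
  have hT : 0 < T := hR.T_pos
  have hz0 : 0 < z := by positivity
  set x := z / 2 / (1 + T ^ 2 / 2) with hx
  have hx0 : 0 < x := by positivity
  have hM : x ≤ expM5 x := by
    rw [expM5]; refine le_mul_of_one_le_right hx0.le (le_add_of_nonneg_right (by positivity))
  have h1 : 1 / expM5 x ≤ 1 / x := one_div_le_one_div_of_le hx0 hM
  have h2 : 1 / x = (2 + T ^ 2) / z := by rw [hx]; field_simp
  have hW := one_le_w T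
  have h3 : z / (√(1 + T ^ 2) + 1) ≤ z / 2 :=
    div_le_div_of_nonneg_left hz0.le (by norm_num) (by linarith)
  have h4 : z / (√(1 + T ^ 2) + 1) * (1 + 1 / expM5 x) ≤ z / 2 + 10002 / 10000 := by
    refine (mul_le_mul h3 (add_le_add_right (h1.trans h2.le) 1) ?_ (by positivity)).trans ?_
    · have := expM5_pos hx0
      positivity
    · have e : z / 2 * (1 + (2 + T ^ 2) / z) = z / 2 + (1 + T ^ 2 / 2) := by field_simp
      rw [e]
      have := pow_le_pow_left₀ hT.le hT1 2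
      linarith
  have h5 : 0 ≤ z / (√(1 + T ^ 2) + 1) * (1 + 1 / expM5 x) := by
    have := expM5_pos hx0
    positivity
  exact (sigma_le_rat hY hR hE hQ hQ0).trans (mul_le_mul (by linarith) h4 h5 (by norm_num))

/-- **Zone II for `T ≤ 1/50`**: the hypotheses and the conclusion of a row. -/
theorem posX_tanLow {V Y Q T σ h ε kap p G₂ Sl v : ℝ} (hm : 382 ≤ m) (hv : v = √((m : ℝ) + 2))
    (hR : RegC Y T σ h) (hY : 1 ≤ Y) (hE : Exc m V Y T σ)
    (hQ : V / Y ^ (m + 1) = Q * semiMom m 1) (hQ0 : 0 ≤ Q) (hQ1 : Q ≤ 16488 / 10000)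
    (hT1 : T ≤ 1 / 50) (hz : 19 / 20 < ε * σ ^ 2)
    (he0 : 37 / 10 ≤ ε) (he1 : ε ≤ 403 / 100) (hk0 : 0 ≤ kap) (hk : kap ≤ 1 / 2)
    (hlog : ((m : ℝ) + 1) * log Y ≤ log ((m : ℝ) + 2) + 7 / 10)
    (hPl : shP m (9 / 5 * ε / v) (6 / 5 * ε * v) T / pre m T ≤ p) (hPh : p ≤ -(4 / 5 * ε / v))
    (hG : -(21 / 5 * ε / v * (1 + T ^ 2) * min ((Y ^ 2 - 1) / T) (2 * T / 3)) ≤ G₂)
    (hSl : ellFlat m ε kap (rr (m + 1)) T * ((Y ^ 2 - 1) / (2 * T)) ≤ Sl) :
    ∃ L, L ≤ valQ ε T σ h + (2 * p * (σ - T) + G₂) * (h - 1) ∧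
      -(pre m T * ((33 / 50 + 3 / 250 * (((m : ℝ) + 2) * T ^ 2) ^ 2) * G₂ ^ 2)) ≤
        pre m T * L + (σ - T) * ellFlat m ε kap (rr (m + 1)) T +
        (σ - T) ^ 2 * (shP' m (9 / 5 * ε / v) (6 / 5 * ε * v) T +
          2 * muX m T * shS m (9 / 5 * ε / v) (6 / 5 * ε * v) T) + Sl := by
  have hm' : (382 : ℝ) ≤ (m : ℝ) := by exact_mod_cast hm
  have hT : 0 < T := hR.T_pos
  have hε : 0 ≤ ε := by linarith
  have hv2 : v ^ 2 = (m : ℝ) + 2 := by rw [hv]; exact sq_sqrt (by linarith)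
  have hv19 : 19 ≤ v := by
    rw [hv, le_sqrt (by norm_num) (by linarith)]; linarith
  have hσ0 : 97 / 200 ≤ σ := by
    by_contra hc
    push Not at hc
    have h1 : σ ^ 2 ≤ (97 / 200) ^ 2 := pow_le_pow_left₀ hR.σ_pos.le hc.le 2
    have h2 := mul_le_mul he1 h1 (sq_nonneg σ) (by norm_num)
    linarith
  have hch := low_chord hY hR hE hQ hQ0 hQ1 hT1
  rw [← hv, ← hv2] at hch
  obtain ⟨hzv, hv1, hτ⟩ := low_size hv19 rfl hT hT1 hσ0 hch
  have hη := low_eta hv2 hv1 hσ0 hzv hY hlog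
  have hη0 : 0 ≤ Y ^ 2 - 1 := sub_nonneg.2 (one_le_pow₀ hY)
  have hz250 : 250 ≤ v ^ 2 * T ^ 2 := by
    have := mul_le_mul hv1 hσ0 (by norm_num) (by linarith)
    linarith
  have hpre : 0 < pre m T := by unfold pre; positivity
  have hp0 : p ≤ 0 := hPh.trans (neg_nonpos.2 (by positivity))
  have hp1 : -(6 / 1000) ≤ p := by
    refine le_trans (le_trans (neg_le_neg ?_)
      (mid_P (m := m) hε (by linarith) hv2 rfl rfl hpre hT (by linarith) hz250)) hPl
    rw [div_le_iff₀ (by linarith)]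
    linarith
  have hT2 : T ^ 2 ≤ 1 / 2500 := by
    have := pow_le_pow_left₀ hT.le hT1 2
    linarith
  have hG' : -(1 / 1000) ≤ G₂ := by
    refine le_trans (neg_le_neg ?_) hG
    have h1 : ε / v ≤ 403 / 100000 := by rw [div_le_iff₀ (by linarith)]; linarith
    have h2 : min ((Y ^ 2 - 1) / T) (2 * T / 3) ≤ 2 / 150 := (min_le_right _ _).trans (by linarith)
    have h3 := mul_le_mul (mul_le_mul h1 (by linarith : 1 + T ^ 2 ≤ 2) (by positivity) (by norm_num))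
      h2 (le_min (div_nonneg hη0 hT.le) (by positivity)) (by norm_num)
    have e : 21 / 5 * ε / v * (1 + T ^ 2) * min ((Y ^ 2 - 1) / T) (2 * T / 3) =
        21 / 5 * (ε / v * (1 + T ^ 2) * min ((Y ^ 2 - 1) / T) (2 * T / 3)) := by ring
    rw [e]
    linarith
  obtain ⟨hb0, hb⟩ := low_b hz.le (by positivity) hε he1
  set b := (ε * σ ^ 2 - 19 / 20) / (σ ^ 2 + 19 / 20) with hbdef
  have hb2 : b ≤ 5 / 3 := by
    have h4 : σ ^ 2 ≤ 10004 / 10000 := by
      have := pow_le_pow_left₀ hR.σ_pos.le hR.σ_le 2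
      rw [w_sq] at this
      linarith
    rw [hbdef, div_le_iff₀ (by positivity)]
    have := mul_le_mul_of_nonneg_right he1 (sq_nonneg σ)
    linarith
  obtain ⟨qA, qB, qN, hq⟩ := low_quot (D := σ - T) hbdef hb0 hb2 he0 he1 hT hT1 hσ0 rfl hp0 hp1
    hG' hη0 hη
  refine ⟨_, valQ_ge_tan hb0 hR qA qB qN, ?_⟩
  have hC : 115 / 100 * (ε * σ / T) ≤
      ε * (9 / 5 / (v * T) + 6 / 5 * v * T / (1 + T ^ 2)) := by
    have h1 : (0 : ℝ) ≤ 9 / 5 / (v * T) := by positivity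
    have h2 : 115 / 100 * σ / T ≤ 6 / 5 * v * T / (1 + T ^ 2) := by
      rw [le_div_iff₀ (by positivity)]
      have h3 := mul_le_mul_of_nonneg_left (by linarith : 1 + T ^ 2 ≤ 10004 / 10000)
        (by positivity : 0 ≤ 115 / 100 * σ / T)
      have h4 : 0 ≤ v * T := by positivity
      have e : 24 / 25 * σ / T = 24 / 25 * (σ / T) := by ring
      have e' : 115 / 100 * σ / T = 115 / 100 * (σ / T) := by ring
      rw [e] at hτ
      rw [e'] at h3 ⊢
      linarith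
    calc 115 / 100 * (ε * σ / T) = ε * (115 / 100 * σ / T) := by ring
      _ ≤ _ := mul_le_mul_of_nonneg_left (le_add_of_nonneg_of_le h1 h2) hε
  have hl : 0 ≤ ellFlat m ε kap (rr (m + 1)) T := by
    refine le_trans ?_ (ellFlat_tan (m := m) (w := 1001 / 1000) (by omega) hε hk0 hk hT
      (by rw [← hv2]; linarith) (by rw [sqrt_le_left (by norm_num)]; linarith))
    have : (0 : ℝ) ≤ tanCL (1001 / 1000 : ℝ) := by norm_num [tanCL]
    positivity
  have hpay := low_pay hε hT hT1 hσ0 rfl hb0 hb hη hC hq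
  rw [shapes_A (by linarith) hT rfl rfl]
  have h12 : 12 * G₂ ^ 2 ≤ (33 / 50 + 3 / 250 * (((m : ℝ) + 2) * T ^ 2) ^ 2) * G₂ ^ 2 := by
    refine mul_le_mul_of_nonneg_right ?_ (sq_nonneg _)
    rw [← hv2]
    have := pow_le_pow_left₀ (by norm_num) hz250 2
    linarith
  have k1 := mul_le_mul_of_nonneg_left hpay hpre.le
  have k2 := mul_le_mul_of_nonneg_left h12 hpre.le
  have k3 : 0 ≤ (σ - T) * ellFlat m ε kap (rr (m + 1)) T :=
    mul_nonneg (by linarith) hl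
  have k4 : 0 ≤ Sl := le_trans (mul_nonneg hl (div_nonneg hη0 (by linarith))) hSl
  linarith

end Vale.Agent.P237.Cal
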