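import Vale.Agent.P237.Cal.TanState
import Vale.Agent.P237.Cal.TanEps
import Vale.Agent.P237.Cal.TanLow
import Vale.Agent.P237.Cal.TanTail

/-!
# P237: zone II for every `T > 0`, from the data of the leaf

`q = V/V₀`, `Q = q/Y^k`, `ε = 4 q^(2/n)/Y²`, `n ≥ 384`.
-/

open Real

namespace Vale.Agent.P237.Cal

variable {m : ℕ}

/-- The extra loss of the tail. -/
noncomputable def tanExtra (m : ℕ) (kap T : ℝ) : ℝ :=
  if 47 / 100 ≤ T then ((m : ℝ) + 2) * kap ^ 2 * √(1 + T ^ 2) else 0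

lemma eta_small (hm : 382 ≤ m) {Y : ℝ} (hY : 1 ≤ Y)
    (hlog : ((m : ℝ) + 1) * log Y ≤ log ((m : ℝ) + 2) + 6932 / 10000) : Y ^ 2 - 1 ≤ 3 / 50 := by
  have hm' : (382 : ℝ) ≤ (m : ℝ) := by exact_mod_cast hm
  have hY0 : 0 < Y := lt_of_lt_of_le one_pos hY
  have hlY : 0 ≤ log Y := log_nonneg hY
  have hlY1 : log Y ≤ 2 / 100 := by
    have h1 := log_n_le m
    refine le_of_mul_le_mul_left (a := (m : ℝ) + 1) ?_ (by linarith)
    linarith
  have h1 : Y ^ 2 * exp (-(4 / 100)) ≤ 1 := by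
    rw [← exp_log (pow_pos hY0 2), ← exp_add, exp_le_one_iff, log_pow]
    push_cast
    linarith
  have h2 := mul_le_mul_of_nonneg_left (add_one_le_exp (-(4 / 100 : ℝ))) (sq_nonneg Y)
  linarith

/-- **Zone II at every `T`**: one value `G'` of the split carries the loss. -/
theorem posX_zoneII {V q Y Q T σ h X ε kap g Sl : ℝ} (hm : 382 ≤ m) (hR : RegC Y T σ h)
    (hY : 1 ≤ Y) (hq : 1 ≤ q) (hV : V = q * semiMom m 1) (hQ : Q = q / Y ^ (m + 1))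
    (hQ1 : Q ≤ 16488 / 10000) (hcap : q * semiMom m 1 ≤ capB m)
    (hYk : Y ^ (m + 1) ≤ 2 * ((m : ℝ) + 2)) (hε : ε = 4 * q ^ (2 / ((m : ℝ) + 2)) / Y ^ 2)
    (hk0 : 0 ≤ kap) (hk : kap ≤ 1 / 2) (hE : Exc m V Y T σ) (hB : XBox m V Y T σ X)
    (hσ : T ≤ σ) (hz : 19 / 20 < ε * σ ^ 2) (hg : 0 ≤ g)
    (hSl : ellFlat m ε kap (rr (m + 1)) T * ((Y ^ 2 - 1) / (2 * T)) ≤ Sl) :
    ∃ G', G' ≤ g + stateUp m V Y (9 / 5 * ε / √((m : ℝ) + 2)) (6 / 5 * ε * √((m : ℝ) + 2)) T ∧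
      tanG Y T ε (√((m : ℝ) + 2)) G' ∧
      ∃ L, L ≤ valQ ε T σ h +
          (2 * (shP m (9 / 5 * ε / √((m : ℝ) + 2)) (6 / 5 * ε * √((m : ℝ) + 2)) T / pre m T) *
            (σ - T) + (g + tanState m ε T X)) * (h - 1) ∧
        -(pre m T * (tanLoss m T * G' ^ 2 + tanExtra m kap T)) ≤ pre m T * L +
          (σ - T) * ellFlat m ε kap (rr (m + 1)) T +
          (σ - T) ^ 2 * (shP' m (9 / 5 * ε / √((m : ℝ) + 2)) (6 / 5 * ε * √((m : ℝ) + 2)) T +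
            2 * muX m T * shS m (9 / 5 * ε / √((m : ℝ) + 2)) (6 / 5 * ε * √((m : ℝ) + 2)) T) +
          Sl := by
  have hY0 : 0 < Y := lt_of_lt_of_le one_pos hY
  have hYp : 0 < Y ^ (m + 1) := pow_pos hY0 _
  have hQ' : q = Q * Y ^ (m + 1) := by rw [hQ]; field_simp
  have hQ0 : 0 ≤ Q := by rw [hQ]; exact div_nonneg (by linarith) hYp.le
  have hV0 : 0 ≤ semiMom m 1 :=
    intervalIntegral.integral_nonneg zero_le_one fun x _ => by positivity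
  have hVQ : V / Y ^ (m + 1) = Q * semiMom m 1 := by rw [hV, hQ]; ring
  have hVge : semiMom m 1 ≤ V := by rw [hV]; exact le_mul_of_one_le_left hV0 hq
  have hlogB := logY_le_B hY hYk
  have hη := eta_small hm hY hlogB
  have hT := hR.T_pos
  have hpre : 0 ≤ pre m T := pre_nonneg m T
  -- the range of `ε` and the bound of `log Y` by cases on `Q`
  have hcase : (1 ≤ Q ∧ 3988 / 1000 ≤ ε ∧ ε ≤ 4011 / 1000 ∧
      ((m : ℝ) + 1) * log Y ≤ 3 / 4 * log ((m : ℝ) + 2) - 6 / 10) ∨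
      (Q ≤ 1 ∧ 3799 / 1000 ≤ ε ∧ ε ≤ 4) := by
    rcases le_total 1 Q with h1 | h1
    · have hYq : Y ^ (m + 1) ≤ q := by rw [hQ']; exact le_mul_of_one_le_left hYp.le h1
      have hlA := logY_le_A hm hY hYq hcap
      exact Or.inl ⟨h1, (eps_range_A hm hY hQ' h1 hQ1 hlA hε).1,
        (eps_range_A hm hY hQ' h1 hQ1 hlA hε).2, hlA⟩
    · exact Or.inr ⟨h1, (eps_range_B hm hY hq hQ' h1 hlogB hε).1,
        (eps_range_B hm hY hq hQ' h1 hlogB hε).2⟩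
  have he : 3799 / 1000 ≤ ε ∧ ε ≤ 4011 / 1000 := by
    rcases hcase with ⟨-, a, b, -⟩ | ⟨-, a, b⟩ <;> exact ⟨by linarith, by linarith⟩
  obtain ⟨hU0, -⟩ := shUM_tan (m := m) (show 0 ≤ ε by linarith [he.1])
  obtain ⟨δ, G', hδ0, hδ, hsplit, hup, hor⟩ :=
    state_shift (g := g) (by omega) hY hT hσ hU0 hB
  have hGt := tanG_of_shift hY hT (by linarith [he.1]) hg hB hVge hor
  have hp : tanP m ε T
      (shP m (9 / 5 * ε / √((m : ℝ) + 2)) (6 / 5 * ε * √((m : ℝ) + 2)) T / pre m T + δ) :=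
    ⟨le_add_of_nonneg_right hδ0,
      shifted_field_le (by omega) (by linarith [he.1]) rfl rfl hT hδ⟩
  suffices h : ∃ L, L ≤ valQ ε T σ h + (2 *
      (shP m (9 / 5 * ε / √((m : ℝ) + 2)) (6 / 5 * ε * √((m : ℝ) + 2)) T / pre m T + δ) *
        (σ - T) + G') * (h - 1) ∧
      -(pre m T * (tanLoss m T * G' ^ 2 + tanExtra m kap T)) ≤ pre m T * L +
        (σ - T) * ellFlat m ε kap (rr (m + 1)) T +
        (σ - T) ^ 2 * (shP' m (9 / 5 * ε / √((m : ℝ) + 2)) (6 / 5 * ε * √((m : ℝ) + 2)) T +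
          2 * muX m T * shS m (9 / 5 * ε / √((m : ℝ) + 2)) (6 / 5 * ε * √((m : ℝ) + 2)) T) + Sl by
    obtain ⟨L, hL, hle⟩ := h
    refine ⟨G', hup, hGt, L, hL.trans (le_of_eq ?_), hle⟩
    rw [tanState, hsplit]
    ring
  rcases le_or_gt (47 / 100) T with hT1 | hT1
  · simp only [tanExtra, if_pos hT1, tanLoss]
    exact posX_tail (by omega) rfl hR hY hη hT1 hσ (by linarith [he.1]) (by linarith [he.2]) hk0 hk
      hp.1 hp.2 hGt hSl
  simp only [tanExtra, if_neg (not_le.2 hT1), add_zero]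
  rcases le_total T (1 / 50) with hT0 | hT0
  · exact posX_tanLow hm rfl hR hY hE hVQ hQ0 hQ1 hT0 hz (by linarith [he.1]) (by linarith [he.2])
      hk0 hk (by linarith) hp.1 hp.2 hGt hSl
  rcases hcase with ⟨-, a, b, hlA⟩ | ⟨h1, a, b⟩
  · exact posX_zoneII_A hm hR hY hE hVQ hQ0 hQ1 hT0 hT1.le hz a b hk0 hk hlA hp hGt hSl
  · exact posX_zoneII_B hm hR hY hE hVQ hQ0 h1 hT0 hT1.le hz a b hk0 hk hlogB hp hGt hSl

end Vale.Agent.P237.Cal
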