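import Vale.Agent.P237.Cal.LargeN
import Vale.Agent.P237.Cal.LossInt
import Vale.Agent.P237.Cal.LossTerms
import Vale.Agent.P237.Cal.NegAll
import Vale.Agent.P237.Cal.PosMainCap
import Vale.Agent.P237.Cal.TanZone

/-!
# P237: the pointwise half of the leaf for `n ≥ 384`

Below `σ = T` the whole side is one lemma; above, `ε σ² ≤ 19/20` is covered by the rows and the
rest (and every `T ≥ 47/100`) by zone II with the slack `(ellFlat + nuFlat)(-loD)`.
-/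

open Real

namespace Vale.Agent.P237.Cal

variable {m : ℕ} {V Y T σ h X ε kap c₀ c₁ G L : ℝ}

/-- `rr^k ≤ 1.6488`. -/
lemma rr_pow_le_sharp (m : ℕ) : rr (m + 1) ^ (m + 1) ≤ 16488 / 10000 := by
  have h := rr_le (k := m + 1) (by omega)
  have h0 : 0 ≤ rr (m + 1) := div_nonneg (mom_nonneg ..) (mom_nonneg ..)
  refine (pow_le_pow_left₀ h0 (h.trans ((le_of_eq (add_comm _ _)).trans (add_one_le_exp _))) _).trans ?_
  rw [← exp_nat_mul]
  refine le_trans (exp_le_exp.2 (?_ : _ ≤ (1 : ℝ) / 2)) ?_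
  · push_cast
    rw [mul_one_div, div_le_div_iff₀ (by positivity) (by norm_num)]
    linarith
  · rw [exp_half, sqrt_le_left (by norm_num)]
    exact exp_one_lt_d9.le.trans (by norm_num)

/-- The ranges of `ε` and the two cases of `log Y`. -/
lemma eps_case {q Q : ℝ} (hm : 382 ≤ m) (hq : 1 < q) (hY : 1 ≤ Y)
    (hYk : Y ^ (m + 1) ≤ 2 * ((m : ℝ) + 2)) (hQ : Q = q / Y ^ (m + 1))
    (hQ1 : Q ≤ 16488 / 10000) (hcap : q * semiMom m 1 ≤ capB m)
    (hε : ε = 4 * q ^ (2 / ((m : ℝ) + 2)) / Y ^ 2) :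
    3799 / 1000 ≤ ε ∧ ε ≤ 4011 / 1000 ∧
      ((((m : ℝ) + 1) * log Y ≤ 3 / 4 * log ((m : ℝ) + 2) - 6 / 10 ∧ 3988 / 1000 ≤ ε) ∨
        (Q ≤ 1 ∧ ε ≤ 4)) := by
  have hY0 : 0 < Y := lt_of_lt_of_le one_pos hY
  have hYp : 0 < Y ^ (m + 1) := pow_pos hY0 _
  have hQ' : q = Q * Y ^ (m + 1) := by rw [hQ]; field_simp
  rcases le_total 1 Q with h1 | h1
  · have hlA := logY_le_A hm hY (by rw [hQ']; exact le_mul_of_one_le_left hYp.le h1) hcap
    obtain ⟨a, b⟩ := eps_range_A hm hY hQ' h1 hQ1 hlA hε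
    exact ⟨by linarith, b, .inl ⟨hlA, a⟩⟩
  · obtain ⟨a, b⟩ := eps_range_B hm hY hq.le hQ' h1 (logY_le_B hY hYk) hε
    exact ⟨a, by linarith, .inr ⟨h1, b⟩⟩

/-- The cost of a negative weight over the prefactor. -/
noncomputable def lowE (m : ℕ) (ε kap T : ℝ) : ℝ :=
  kap * (1 + ε) * (5 / 2 / (((m : ℝ) + 2) ^ 2 * T) + ((m : ℝ) + 2) / 10 * T ^ 5)

lemma neg_lowE_le (hm : 98 ≤ m) (hε : 0 ≤ ε) (hk0 : 0 ≤ kap) (hk : kap ≤ 1 / 2) (hT : 0 < T) :
    -(pre m T * lowE m ε kap T) ≤ ellFlat m ε kap (rr (m + 1)) T := by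
  refine le_trans ?_ (ellFlat_ge hm (by linarith) hk0 hk hT.le)
  rw [neg_le_neg_iff]
  have hp : √(1 + T ^ 2) ^ (m + 4) ≤ √(1 + T ^ 2) ^ (m + 6) :=
    pow_le_pow_right₀ (one_le_w T) (by omega)
  have h1 : ((m : ℝ) + 1) * (T ^ 7 / √(1 + T ^ 2) ^ (m + 6)) ≤
      ((m : ℝ) + 1) * (T ^ 7 / √(1 + T ^ 2) ^ (m + 4)) :=
    mul_le_mul_of_nonneg_left (div_le_div_of_nonneg_left (by positivity)
      (pow_pos (w_pos T) _) hp) (by positivity)
  have h2 := mul_le_mul_of_nonneg_left h1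
    (by positivity : 0 ≤ kap * (1 + ε) * (((m : ℝ) + 2) / 10))
  have e : pre m T * lowE m ε kap T = kap * (1 + ε) * ((5 / 2 / ((m : ℝ) + 2) ^ 2) * muX m T) +
      kap * (1 + ε) * (((m : ℝ) + 2) / 10) *
        (((m : ℝ) + 1) * (T ^ 7 / √(1 + T ^ 2) ^ (m + 4))) := by
    simp only [pre, muX, lowE]
    field_simp
  rw [e]
  linarith

lemma lowE_sq_le (hε : 0 < ε) (hT : 0 < T) (hz : ((m : ℝ) + 2) * T ^ 2 ≤ 28 / 5) :
    pre m T * (25 * lowE m ε kap T ^ 2 / (4 * ε)) ≤ lowT m ε kap T := by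
  set N := (m : ℝ) + 2 with hN
  have hN0 : 0 < N := by positivity
  have h1 : (5 / 2 + (N * T ^ 2) ^ 3 / 10) ^ 2 ≤ 404 := by
    have := pow_le_pow_left₀ (by positivity) hz 3
    refine (pow_le_pow_left₀ (by positivity)
      (show 5 / 2 + (N * T ^ 2) ^ 3 / 10 ≤ 5 / 2 + (28 / 5) ^ 3 / 10 by linarith) 2).trans ?_
    norm_num
  have h2 := mul_le_mul_of_nonneg_left h1 (show 0 ≤ 25 / (4 * ε) * (kap * (1 + ε)) ^ 2 *
    (((m : ℝ) + 1) / N ^ 4 * (1 / √(1 + T ^ 2) ^ (m + 4))) by positivity)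
  refine le_trans (le_of_eq ?_) (h2.trans (le_of_eq ?_))
  · simp only [pre, lowE, ← hN]
    field_simp
  · simp only [lowT, ← hN]
    ring

/-- The slack of zone II pays `l η/(2T)`. -/
lemma slack_ge (hY : 1 ≤ Y) (hT : 0 < T) {l ν : ℝ} (hν : 0 ≤ ν) (hlν : 0 ≤ l + ν)
    (hη : Y ^ 2 - 1 ≤ 2 * T ^ 2) : l * ((Y ^ 2 - 1) / (2 * T)) ≤ (l + ν) * (-loD Y T) := by
  have hη0 : 0 ≤ Y ^ 2 - 1 := by nlinarith
  refine (mul_le_mul_of_nonneg_right (le_add_of_nonneg_right hν : l ≤ l + ν)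
    (by positivity)).trans (mul_le_mul_of_nonneg_left ?_ hlν)
  rw [loD, le_neg, sub_le_iff_le_add]
  rcases le_total (T ^ 2 + 1 - Y ^ 2) 0 with h | h
  · rw [sqrt_eq_zero'.2 h]
    have : (Y ^ 2 - 1) / (2 * T) ≤ T := by
      rw [div_le_iff₀ (by positivity)]; linarith
    linarith
  · rw [sqrt_le_left]
    · have e : (-((Y ^ 2 - 1) / (2 * T)) + T) ^ 2 =
          T ^ 2 + 1 - Y ^ 2 + ((Y ^ 2 - 1) / (2 * T)) ^ 2 := by field_simp; ring
      rw [e]
      linarith [sq_nonneg ((Y ^ 2 - 1) / (2 * T))]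
    · have : (Y ^ 2 - 1) / (2 * T) ≤ T := by
        rw [div_le_iff₀ (by positivity)]; linarith
      linarith

/-- In zone II with `z ≤ nη/2` the mass bound fails. -/
lemma eta_le_two_sq (P : LargeP m ε Y c₀ c₁) (hT : 0 < T) (hz : 19 / 20 < ε * σ ^ 2)
    (hσ0 : 0 < σ) (hS : √((m : ℝ) + 2) * σ ≤
      20667 / 10000 * ((1 + T ^ 2 / 2) * phiR (((m : ℝ) + 2) * T ^ 2))) :
    Y ^ 2 - 1 ≤ 2 * T ^ 2 := by
  by_contra hc
  push Not at hc
  have hn := P.n_ge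
  have hv := P.v_ge
  have hlog := logY_le_B P.hY P.hYk
  have hd := P.d_le.2
  set v := √((m : ℝ) + 2) with hvdef
  have hv2 : v ^ 2 = (m : ℝ) + 2 := sq_sqrt (by linarith)
  set y := ((m : ℝ) + 1) * log Y with hy
  have hlv : log ((m : ℝ) + 2) ≤ 596 / 100 + 103 / 1000 * (v - 1959 / 100) := by
    rw [← hv2, log_pow]
    push_cast
    have h0 : 0 < v := by linarith
    have h1 := log_le_sub_one_of_pos (div_pos h0 (by norm_num : (0 : ℝ) < 1959 / 100))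
    rw [log_div h0.ne' (by norm_num)] at h1
    have h2 : log (1959 / 100 : ℝ) ≤ 2979 / 1000 := by
      rw [log_le_iff_le_exp (by norm_num)]
      have h3 := sum_le_exp_of_nonneg (x := (2979 : ℝ) / 1000) (by norm_num) 12
      simp only [Finset.sum_range_succ, Finset.sum_range_zero, Nat.factorial,
        Nat.succ_eq_add_one] at h3
      norm_num at h3
      linarith
    have h4 : v / (1959 / 100) ≤ 1 + 515 / 10000 * (v - 1959 / 100) := by
      rw [div_le_iff₀ (by norm_num)]; linarith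
    linarith
  have hzy : ((m : ℝ) + 2) * T ^ 2 ≤ 1022 / 1000 * y := by
    have := mul_le_mul_of_nonneg_left hc.le (show (0 : ℝ) ≤ (m : ℝ) + 2 by linarith)
    linarith
  have hσ : 48 / 100 ≤ σ := sig_ge_low hσ0 hz P.e2 (by norm_num)
  have hphi : phiR (((m : ℝ) + 2) * T ^ 2) ≤ ((m : ℝ) + 2) * T ^ 2 / 2 + 1 := by
    rw [phiR]
    have : 1 / (1 + ((m : ℝ) + 2) * T ^ 2 / 4 + (((m : ℝ) + 2) * T ^ 2) ^ 2 / 24) ≤ 1 :=
      (div_le_one (by positivity)).2 (by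
        have : 0 ≤ ((m : ℝ) + 2) * T ^ 2 := by positivity
        have : 0 ≤ (((m : ℝ) + 2) * T ^ 2) ^ 2 := sq_nonneg _
        linarith)
    linarith
  have hp0 : 0 ≤ phiR (((m : ℝ) + 2) * T ^ 2) := by unfold phiR; positivity
  have hT2 : 1 + T ^ 2 / 2 ≤ 1015 / 1000 := by linarith [P.d_le.1, eta_small P.hm P.hY hlog]
  have h1 := hS.trans (mul_le_mul_of_nonneg_left (mul_le_mul hT2 hphi hp0 (by norm_num))
    (by norm_num))
  have h2 := mul_le_mul_of_nonneg_left hσ (show 0 ≤ v by linarith)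
  linarith

/-- `G²` against the envelope of the loss. -/
lemma sq_pay (hpre : 0 ≤ pre m T) (h1 : gG m ε kap T - negE m Y c₀ c₁ T ≤ G)
    (h2 : G ≤ gG m ε kap T + stateUp m V Y c₀ c₁ T)
    (hng : pre m T * cP (((m : ℝ) + 2) * T ^ 2) * max (negE m Y c₀ c₁ T - gG m ε kap T) 0 ^ 2 ≤
      ngT m Y c₀ c₁ T) :
    pre m T * (cP (((m : ℝ) + 2) * T ^ 2) * G ^ 2) ≤
      gT m ε kap T + upT m V Y c₀ c₁ T + ngT m Y c₀ c₁ T := by
  have hc := (cP_pos (((m : ℝ) + 2) * T ^ 2)).le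
  set c := cP (((m : ℝ) + 2) * T ^ 2)
  set g := gG m ε kap T
  set b := stateUp m V Y c₀ c₁ T
  have h3 := sq_le_envelope h1 h2
  have h5 : (g + b) ^ 2 ≤ 3 * g ^ 2 + 3 / 2 * b ^ 2 := by linarith [sq_nonneg (2 * g - b)]
  have h6 := mul_le_mul_of_nonneg_left (mul_le_mul_of_nonneg_left
    (h3.trans (add_le_add h5 le_rfl)) hc) hpre
  simp only [gT, upT]
  linarith

/-- The squares of the ends bound the square. -/
lemma sq_le_ends {G g a b c : ℝ} (hg : 0 ≤ g) (h1 : g - a ≤ G) (h2 : G ≤ g + b)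
    (ha : a ^ 2 ≤ c) (hb : (g + b) ^ 2 ≤ c) : G ^ 2 ≤ c := by
  rcases le_total 0 G with h | h
  · exact (pow_le_pow_left₀ h h2 2).trans hb
  · have := pow_le_pow_left₀ (neg_nonneg.2 h) (show -G ≤ a by linarith) 2
    rw [neg_sq] at this
    linarith

lemma lowT_nonneg (hε : 0 ≤ ε) : 0 ≤ lowT m ε kap T := by unfold lowT; positivity

lemma tailT_nonneg : 0 ≤ tailT m kap T := by unfold tailT pre; positivity

lemma tailT_ge (hT : 47 / 100 ≤ T) :
    pre m T * (((m : ℝ) + 2) * kap ^ 2 * √(1 + T ^ 2)) ≤ tailT m kap T := by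
  have hW := one_le_w T
  have h1 : √(1 + T ^ 2) ≤ (1 + T ^ 2) * (T ^ 2 / (2209 / 10000)) ^ 6 := by
    have h2 : 1 ≤ T ^ 2 / (2209 / 10000) := by
      rw [le_div_iff₀ (by norm_num)]
      linarith [pow_le_pow_left₀ (by norm_num) hT 2]
    refine le_trans ?_ (le_mul_of_one_le_right (by positivity) (one_le_pow₀ h2))
    calc √(1 + T ^ 2) ≤ √(1 + T ^ 2) * √(1 + T ^ 2) := le_mul_of_one_le_left (by positivity) hW
      _ = 1 + T ^ 2 := mul_self_sqrt (by positivity)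
  have := mul_le_mul_of_nonneg_left h1
    (show 0 ≤ ((m : ℝ) + 2) * kap ^ 2 * pre m T by unfold pre; positivity)
  unfold tailT
  linarith

/-- **The pointwise inequality of the leaf.** -/
theorem pw_all {q Q : ℝ} (hm : 382 ≤ m) (hq : 1 < q) (hY : 1 ≤ Y)
    (hYk : Y ^ (m + 1) ≤ 2 * ((m : ℝ) + 2)) (hQ : Q = q / Y ^ (m + 1))
    (hQr : Q ≤ rr (m + 1) ^ (m + 1)) (hcap : q * semiMom m 1 ≤ capB m)
    (hε : ε = 4 * q ^ (2 / ((m : ℝ) + 2)) / Y ^ 2) (he1 : 7 / 2 ≤ ε) (he2 : ε ≤ 203 / 50)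
    (hkap : kap = (1 - (Y ^ (m + 1))⁻¹) / 2)
    (hR : RegC Y T σ h) (hB : XBox m (q * semiMom m 1) Y T σ X)
    (hE : Exc m (q * semiMom m 1) Y T σ) :
    LargeN.Pw m ε kap (fun T => (ellFlat m ε kap (rr (m + 1)) T + nuFlat m ε kap T) * loD Y T -
      lossT m (q * semiMom m 1) Y ε kap (LargeN.c0 m ε) (LargeN.c1 m ε) T - etaE m ε Y T)
      T σ h X := by
  set c₀ := LargeN.c0 m ε with hc₀
  set c₁ := LargeN.c1 m ε with hc₁
  have P : LargeP m ε Y c₀ c₁ := ⟨hm, he1, he2, hY, hYk, rfl, rfl⟩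
  set V := q * semiMom m 1 with hVdef
  have hT := hR.T_pos
  have hpre : 0 < pre m T := by unfold pre; positivity
  have hε0 : 0 ≤ ε := by linarith
  obtain ⟨hu0, hu1⟩ := P.u_bounds
  have hk0 : 0 ≤ kap := by rw [hkap]; linarith
  have hk : kap ≤ 1 / 2 := by rw [hkap]; linarith
  have hV0 : 0 ≤ semiMom m 1 := by rw [semiMom_one]; exact mom_nonneg ..
  have hVge : semiMom m 1 ≤ V := le_mul_of_one_le_left hV0 hq.le
  have hg := P.gG_nonneg' (T := T) hkap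
  have hng := ng_le P hkap hT
  have hν := nuFlat_nonneg (m := m) (ε := ε) (kap := kap) (by linarith) hk0 hT.le
  have hlν : 0 ≤ ellFlat m ε kap (rr (m + 1)) T + nuFlat m ε kap T := by
    have h := ellFlat_ge (m := m) (ε := ε) (by omega) (by linarith) hk0 hk hT.le
    rw [nuFlat]; linarith
  have hSl0 : 0 ≤ (ellFlat m ε kap (rr (m + 1)) T + nuFlat m ε kap T) * -loD Y T :=
    mul_nonneg hlν (neg_nonneg.2 (loD_nonpos hY hT.le))
  have hlow := lowT_nonneg (m := m) (kap := kap) (T := T) hε0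
  have htail := tailT_nonneg (m := m) (kap := kap) (T := T)
  have hetaE := etaE_nonneg (m := m) (ε := ε) (Y := Y) (T := T)
  suffices hmain : ∃ L, L ≤ valQ ε T σ h + (2 * (shP m c₀ c₁ T / pre m T) * (σ - T) +
      (gG m ε kap T + 2 * shS m c₀ c₁ T * (X - X0 m T) / pre m T)) * (h - 1) ∧
      (ellFlat m ε kap (rr (m + 1)) T + nuFlat m ε kap T) * loD Y T -
          lossT m V Y ε kap c₀ c₁ T - etaE m ε Y T ≤
        pre m T * L + (σ - T) * ellFlat m ε kap (rr (m + 1)) T +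
          (σ - T) ^ 2 * (shP' m c₀ c₁ T + 2 * muX m T * shS m c₀ c₁ T) by
    obtain ⟨L, hL, hle⟩ := hmain
    have h1 := mul_le_mul_of_nonneg_left hL hpre.le
    rw [← gFlat_div_pre hT.ne'] at h1
    have e : pre m T * (valQ ε T σ h + (2 * (shP m c₀ c₁ T / pre m T) * (σ - T) +
        (gFlat m ε kap T / pre m T + 2 * shS m c₀ c₁ T * (X - X0 m T) / pre m T)) * (h - 1)) =
        pre m T * valQ ε T σ h + (gFlat m ε kap T + 2 * shP m c₀ c₁ T * (σ - T) +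
          2 * shS m c₀ c₁ T * (X - X0 m T)) * (h - 1) := by
      field_simp
      ring
    rw [e] at h1
    have hS := shS'_add (m := m) (c₀ := c₀) (c₁ := c₁) T
    simp only [LargeN.Pw, Pw3, ← hc₀, ← hc₁, mul_zero, zero_mul, add_zero, hS,
      show ((m : ℝ) + 1) * T ^ 2 / √(1 + T ^ 2) ^ (m + 4) = pre m T from rfl]
    simp only [ellFlat] at hle ⊢
    linarith
  rcases le_total σ T with hσ | hσ
  · obtain ⟨hG1, hG2⟩ := P.G2_range (gG m ε kap T) hT hσ hB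
    obtain ⟨L, hL, hle⟩ := negX_all P hk0 hk hR hσ (le_trans (by linarith) hG1)
    refine ⟨L, hL, ?_⟩
    have := sq_pay hpre.le hG1 hG2 hng
    simp only [lossT]
    linarith
  obtain ⟨δ, G', hδ0, hδ, hsplit, hG1, hG2⟩ := P.Gp_range (gG m ε kap T) hT hσ hVge hB
  have hpay := sq_pay hpre.le hG1 hG2 hng
  set p := shP m c₀ c₁ T / pre m T + δ with hpdef
  have hp0 : shP m c₀ c₁ T / pre m T ≤ p := le_add_of_nonneg_right hδ0
  have hp1 : p ≤ -(4 / 5 * ε / √((m : ℝ) + 2)) :=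
    shifted_field_le (by omega) hε0 P.h₀ P.h₁ hT hδ
  suffices hpos : ∃ L, L ≤ valQ ε T σ h + (2 * p * (σ - T) + G') * (h - 1) ∧
      (ellFlat m ε kap (rr (m + 1)) T + nuFlat m ε kap T) * loD Y T -
          lossT m V Y ε kap c₀ c₁ T - etaE m ε Y T ≤
        pre m T * L + (σ - T) * ellFlat m ε kap (rr (m + 1)) T +
          (σ - T) ^ 2 * (shP' m c₀ c₁ T + 2 * muX m T * shS m c₀ c₁ T) by
    obtain ⟨L, hL, hle⟩ := hpos
    refine ⟨L, hL.trans (le_of_eq ?_), hle⟩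
    rw [hsplit, hpdef]; ring
  have hGlow : ∀ c, negE m Y c₀ c₁ T ≤ c → -c ≤ G' := fun c hc => by linarith
  have hη6 := eta_small hm hY (logY_le_B hY hYk)
  have hVQ : V / Y ^ (m + 1) = Q * semiMom m 1 := by rw [hVdef, hQ]; ring
  have hQ0 : 0 ≤ Q := by rw [hQ]; positivity
  have hQ1 : Q ≤ 16488 / 10000 := hQr.trans (rr_pow_le_sharp m)
  have hS := sig_le_phiR hY hR hE hVQ hQ0 hQ1
  have hGt : tanG Y T ε (√((m : ℝ) + 2)) G' := by
    unfold tanG
    refine le_trans (neg_le_neg ?_) (hGlow _ le_rfl)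
    rw [negE]
    have hη0 : 0 ≤ Y ^ 2 - 1 := P.d_nonneg
    refine mul_le_mul (mul_le_mul_of_nonneg_right P.UM_le (by positivity))
      (min_le_min (div_le_div_of_nonneg_left hη0 hT ?_) le_rfl)
      (le_min (by positivity) (by positivity)) (by positivity)
    refine le_mul_of_one_le_right hT.le (one_le_sqrt.2 ?_)
    have : 0 ≤ ((m : ℝ) + 2) * T ^ 2 / 3 := by positivity
    linarith
  have hcz : tanLoss m T * G' ^ 2 ≤ cP (((m : ℝ) + 2) * T ^ 2) * G' ^ 2 :=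
    mul_le_mul_of_nonneg_right (by unfold tanLoss cP; linarith) (sq_nonneg _)
  have hczp := mul_le_mul_of_nonneg_left hcz hpre.le
  rcases le_or_gt (47 / 100) T with hT47 | hT47
  · have hη2 : Y ^ 2 - 1 ≤ 2 * T ^ 2 := by
      linarith [pow_le_pow_left₀ (by norm_num) hT47 2]
    obtain ⟨L, hL, hle⟩ := posX_tail (ε := ε) (kap := kap) (p := p) (G₂ := G') (by omega) rfl hR hY
      hη6 hT47 hσ (by linarith [(eps_case hm hq hY hYk hQ hQ1 hcap hε).1])
      (by linarith [(eps_case hm hq hY hYk hQ hQ1 hcap hε).2.1]) hk0 hk hp0 hp1 hGt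
      (slack_ge hY hT hν hlν hη2)
    refine ⟨L, hL, ?_⟩
    have h3 := tailT_ge (m := m) (kap := kap) hT47
    simp only [tanLoss] at hcz hczp
    rw [P.h₀, P.h₁] at hpay ⊢
    simp only [lossT]
    linarith
  rcases le_or_gt (ε * σ ^ 2) (19 / 20) with hθ | hθ
  · rcases le_or_gt (((m : ℝ) + 2) * T ^ 2) (28 / 5) with hz | hz
    · obtain ⟨L, hL, hle⟩ := posN_low (p := p) (G := G') hm he1 he2 P.h₀ P.h₁ hT hR.h_pos hσ hp0
        hp1 (hGlow _ (P.negE_le_six hT (by linarith)))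
        (neg_lowE_le (by omega) hε0 hk0 hk hT) hz hS
      refine ⟨L, hL, ?_⟩
      have h3 := lowE_sq_le (kap := kap) (show 0 < ε by linarith) hT hz
      simp only [lossT]
      linarith
    · have hl := ellFlat_quad (m := m) (ε := ε) (kap := kap) (T := T) (by omega) (by linarith)
        (by linarith) hk0 hk hT (by linarith)
        (by linarith [pow_le_pow_left₀ hT.le hT47.le 2])
      obtain ⟨L, hL, hle⟩ := posN_high (p := p) (G := G') hm he1 he2 P.h₀ P.h₁ hT hT47.le hR.h_pos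
        hσ hθ hp0 hp1 (hGlow _ (P.negE_le hT))
        (fun h17 => hGlow _ (P.negE_le_seventeen hT h17))
        (fun h17 => sq_le_ends hg hG1 hG2 (P.negE_sq_le hT h17)
          (P.up_sq_le hkap hq.le hQ hQr hT hz.le h17)) hz.le hl
      refine ⟨L, hL, ?_⟩
      simp only [lossT]
      linarith
  have hη2 : Y ^ 2 - 1 ≤ 2 * T ^ 2 := eta_le_two_sq P hT hθ hR.σ_pos hS
  have hSl := slack_ge hY hT hν hlν hη2
  suffices hz2 : tanGoal m ε kap T σ h p G'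
      ((ellFlat m ε kap (rr (m + 1)) T + nuFlat m ε kap T) * -loD Y T) by
    obtain ⟨L, hL, hle⟩ := hz2
    refine ⟨L, hL, ?_⟩
    rw [P.h₀, P.h₁]
    simp only [lossT]
    rw [P.h₀, P.h₁] at hpay
    linarith
  obtain ⟨a, b, hcase⟩ := eps_case hm hq hY hYk hQ hQ1 hcap hε
  have hP : tanP m ε T p := ⟨hp0, hp1⟩
  rcases le_total T (1 / 50) with hT0 | hT0
  · exact posX_tanLow hm rfl hR hY hE hVQ hQ0 hQ1 hT0 hθ (by linarith) (by linarith) hk0 hk
      (by linarith [logY_le_B hY hYk]) hp0 hp1 hGt hSl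
  rcases hcase with ⟨hlA, ea⟩ | ⟨h1, eb⟩
  · exact posX_zoneII_A hm hR hY hE hVQ hQ0 hQ1 hT0 hT47.le hθ ea b hk0 hk hlA hP hGt hSl
  · exact posX_zoneII_B hm hR hY hE hVQ hQ0 h1 hT0 hT47.le hθ a eb hk0 hk (logY_le_B hY hYk) hP
      hGt hSl

end Vale.Agent.P237.Cal
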