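import Vale.Agent.P237.Cal.LargeLeaf
import Vale.Agent.P237.Cal.PwAll

/-!
# P237: the calibration for every `n ≥ 384`
-/

namespace Vale.Agent.P237.Cal

/-- The pointwise half of the leaf holds. -/
theorem largePw {m : ℕ} (hm : 382 ≤ m) : LargePw m :=
  fun _ _ _ _ _ hq hY hYk hQ hQr _ hcap he he1 he2 hkap _ _ _ _ hR hB hE =>
    pw_all hm hq hY hYk hQ hQr hcap he he1 he2 hkap hR hB hE

/-- **`ProfileCal` for `n ≥ 384`.** -/
theorem profileCal_large {m : ℕ} (hm : 382 ≤ m) : ProfileCal m :=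
  profileCal_of_pw hm (largePw hm)

end Vale.Agent.P237.Cal
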