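import Vale.Agent.P237.Cal.Fields

/-!
# P237: the integral of the square of the upper state bound

`∫ pre W⁴ min(aT, A/T²)² ≤ k a² T₀⁵/5 + k A² W₀^(-m)/T₀` for every `T₀ > 0`.
-/

open MeasureTheory Set Filter Topology Real

namespace Vale.Agent.P237.Cal

variable {m : ℕ} {a A T₀ : ℝ}

lemma pre_mul_w4 (m : ℕ) (T : ℝ) :
    pre m T * (1 + T ^ 2) ^ 2 = ((m : ℝ) + 1) * T ^ 2 / √(1 + T ^ 2) ^ m := by
  have := w_pos T
  have e : (1 + T ^ 2) ^ 2 = √(1 + T ^ 2) ^ 4 := by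
    rw [show (4 : ℕ) = 2 * 2 from rfl, pow_mul, w_sq]
  rw [e, pre, pow_add]
  field_simp

lemma continuousOn_minSq (m : ℕ) (a A : ℝ) :
    ContinuousOn (fun T : ℝ => pre m T * (1 + T ^ 2) ^ 2 * min (a * T) (A / T ^ 2) ^ 2) (Ioi 0) := by
  have h : ∀ T : ℝ, √(1 + T ^ 2) ^ (m + 4) ≠ 0 := fun T => (pow_pos (w_pos T) _).ne'
  unfold pre
  refine ContinuousOn.mul (Continuous.continuousOn (by fun_prop (disch := exact h))) ?_
  refine (ContinuousOn.inf (by fun_prop) ?_).pow 2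
  exact continuousOn_const.div (by fun_prop) fun T hT => pow_ne_zero _ (ne_of_gt hT)

/-- **The integral of the square of the minimum.** -/
theorem integral_minSq_le (hm : 3 ≤ m) (ha : 0 ≤ a) (hA : 0 ≤ A) (hT₀ : 0 < T₀) :
    IntegrableOn (fun T => pre m T * (1 + T ^ 2) ^ 2 * min (a * T) (A / T ^ 2) ^ 2) (Ioi 0) ∧
      ∫ T in Ioi (0 : ℝ), pre m T * (1 + T ^ 2) ^ 2 * min (a * T) (A / T ^ 2) ^ 2 ≤
        ((m : ℝ) + 1) * a ^ 2 * T₀ ^ 5 / 5 +
          ((m : ℝ) + 1) * A ^ 2 / (T₀ * √(1 + T₀ ^ 2) ^ m) := by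
  set f := fun T : ℝ => pre m T * (1 + T ^ 2) ^ 2 * min (a * T) (A / T ^ 2) ^ 2 with hf
  set k := (m : ℝ) + 1 with hk
  have hk0 : 0 < k := by positivity
  set W₀ := √(1 + T₀ ^ 2) with hW₀
  have hW₀0 : 0 < W₀ := w_pos T₀
  have hf0 : ∀ T, 0 ≤ f T := fun T => by
    simp only [hf]; rw [pre_mul_w4]; positivity
  -- inner part
  have b1 : ∀ T ∈ Ioc (0 : ℝ) T₀, f T ≤ k * a ^ 2 * T ^ 4 := fun T hT => by
    have hT0 : 0 < T := hT.1
    simp only [hf]
    rw [pre_mul_w4]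
    calc k * T ^ 2 / √(1 + T ^ 2) ^ m * min (a * T) (A / T ^ 2) ^ 2
        ≤ k * T ^ 2 * (a * T) ^ 2 := by
          refine mul_le_mul (div_le_self (by positivity) (one_le_pow₀ (one_le_w T)))
            (pow_le_pow_left₀ (le_min (by positivity) (by positivity)) (min_le_left _ _) 2)
            (by positivity) (by positivity)
      _ = _ := by ring
  -- outer part
  have b2 : ∀ T ∈ Ioi T₀, f T ≤ k * A ^ 2 / W₀ ^ m * (1 / T ^ 2) := fun T hT => by
    have hT0 : 0 < T := hT₀.trans hT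
    simp only [hf]
    rw [pre_mul_w4]
    have hW : W₀ ≤ √(1 + T ^ 2) := by
      refine sqrt_le_sqrt ?_
      have := pow_le_pow_left₀ hT₀.le (le_of_lt hT) 2
      linarith
    calc k * T ^ 2 / √(1 + T ^ 2) ^ m * min (a * T) (A / T ^ 2) ^ 2
        ≤ k * T ^ 2 / W₀ ^ m * (A / T ^ 2) ^ 2 := by
          refine mul_le_mul (div_le_div_of_nonneg_left (by positivity) (pow_pos hW₀0 m)
              (pow_le_pow_left₀ hW₀0.le hW m))
            (pow_le_pow_left₀ (le_min (by positivity) (by positivity)) (min_le_right _ _) 2)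
            (by positivity) (by positivity)
      _ = _ := by field_simp
  have hc := continuousOn_minSq m a A
  have g1 : IntegrableOn (fun T : ℝ => k * a ^ 2 * T ^ 4) (Ioc 0 T₀) :=
    (Continuous.integrableOn_Ioc (by fun_prop))
  have r2 : IntegrableOn (fun T : ℝ => 1 / T ^ 2) (Ioi T₀) ∧
      ∫ T in Ioi T₀, 1 / T ^ 2 = 1 / T₀ := by
    have hd : ∀ T ∈ Ioi T₀, HasDerivAt (fun x : ℝ => -x⁻¹) (1 / T ^ 2) T := fun T hT =>
      ((hasDerivAt_inv (ne_of_gt (hT₀.trans hT))).neg).congr_deriv (by rw [neg_neg, one_div])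
    have hcw : ContinuousWithinAt (fun x : ℝ => -x⁻¹) (Ici T₀) T₀ :=
      ((continuousAt_inv₀ hT₀.ne').neg).continuousWithinAt
    have hlim : Tendsto (fun x : ℝ => -x⁻¹) atTop (𝓝 0) := by
      simpa using (tendsto_inv_atTop_zero (𝕜 := ℝ)).neg
    refine ⟨integrableOn_Ioi_deriv_of_nonneg hcw hd (fun T _ => by positivity) hlim, ?_⟩
    rw [integral_Ioi_of_hasDerivAt_of_nonneg hcw hd (fun T _ => by positivity) hlim]
    simp
  have i1 : IntegrableOn f (Ioc 0 T₀) := by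
    refine g1.mono' ((hc.mono Ioc_subset_Ioi_self).aestronglyMeasurable measurableSet_Ioc) ?_
    filter_upwards [ae_restrict_mem measurableSet_Ioc] with T hT
    rw [norm_of_nonneg (hf0 T)]
    exact b1 T hT
  have i2 : IntegrableOn f (Ioi T₀) := by
    refine (r2.1.const_mul (k * A ^ 2 / W₀ ^ m)).mono'
      ((hc.mono (Ioi_subset_Ioi hT₀.le)).aestronglyMeasurable measurableSet_Ioi) ?_
    filter_upwards [ae_restrict_mem measurableSet_Ioi] with T hT
    rw [norm_of_nonneg (hf0 T)]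
    exact b2 T hT
  have hsplit : Ioc (0 : ℝ) T₀ ∪ Ioi T₀ = Ioi 0 := Ioc_union_Ioi_eq_Ioi hT₀.le
  refine ⟨hsplit ▸ i1.union i2, ?_⟩
  rw [← hsplit, setIntegral_union Ioc_disjoint_Ioi_same measurableSet_Ioi i1 i2]
  refine add_le_add ((setIntegral_mono_on i1 g1 measurableSet_Ioc b1).trans (le_of_eq ?_))
    ((setIntegral_mono_on i2 (r2.1.const_mul _) measurableSet_Ioi b2).trans (le_of_eq ?_))
  · rw [← intervalIntegral.integral_of_le hT₀.le, intervalIntegral.integral_const_mul, integral_pow]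
    norm_num
    ring
  · rw [MeasureTheory.integral_const_mul, r2.2]
    field_simp

end Vale.Agent.P237.Cal
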