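import Vale.Agent.P237.Cal.LossTerms
import Vale.Agent.P237.Cal.MinInt
import Vale.Agent.P237.Cal.ChordTight

/-!
# P237: the integral of the upper state loss, `n ≥ 384`

`min(T/3, A/T²)` is split at `T₀³ = 3A`. The tail of `W^(-m)/T²` is at most
`(1 + s)/(T W^m (1 + (m+1) s))`, and `W^m ≥ 1 + m s/2 + m (m-2) s²/8`, so what is left is a
polynomial inequality in `u = √n T₀`.
-/

open MeasureTheory Set Filter Topology Real

namespace Vale.Agent.P237.Cal

variable {m : ℕ}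

/-- `W^j ≥ 1 + j s/2 + j (j-2) s²/8` for `j ≥ 4`. -/
lemma w_pow_quad (T : ℝ) : ∀ j : ℕ, 4 ≤ j →
    1 + (j : ℝ) * T ^ 2 / 2 + (j : ℝ) * ((j : ℝ) - 2) * T ^ 4 / 8 ≤ √(1 + T ^ 2) ^ j := by
  intro j hj
  induction j using Nat.strong_induction_on with
  | _ j ih =>
    have hs : 0 ≤ T ^ 2 := sq_nonneg T
    have hW := w_sq T
    rcases (show j = 4 ∨ j = 5 ∨ 6 ≤ j by omega) with rfl | rfl | h6
    · rw [show √(1 + T ^ 2) ^ 4 = (√(1 + T ^ 2) ^ 2) ^ 2 by ring, hW]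
      push_cast
      exact le_of_eq (by ring)
    · have h0 : 0 ≤ √(1 + T ^ 2) ^ 5 := pow_nonneg (sqrt_nonneg _) _
      refine (abs_le_of_sq_le_sq' ?_ h0).2
      rw [← pow_mul, show (5 * 2 : ℕ) = 2 * 5 from rfl, pow_mul, hW]
      push_cast
      nlinarith [pow_nonneg hs 3, pow_nonneg hs 4, pow_nonneg hs 5]
    · obtain ⟨i, rfl⟩ : ∃ i, j = i + 2 := ⟨j - 2, by omega⟩
      have h := mul_le_mul_of_nonneg_right (ih i (by omega) (by omega))
        (by linarith : 0 ≤ 1 + T ^ 2)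
      rw [pow_add, hW]
      push_cast
      have hi : (4 : ℝ) ≤ (i : ℝ) := by exact_mod_cast (by omega : 4 ≤ i)
      have : 0 ≤ (i : ℝ) * ((i : ℝ) - 2) * T ^ 6 :=
        mul_nonneg (mul_nonneg (by linarith) (by linarith)) (by positivity)
      linarith

/-- The primitive of the tail. -/
noncomputable def tailG (m : ℕ) (T : ℝ) : ℝ :=
  (1 + T ^ 2) / (T * √(1 + T ^ 2) ^ m * (1 + ((m : ℝ) + 1) * T ^ 2))

/-- Its derivative is at most `-W^(-m)/T²`. -/
lemma tailG_deriv (hm : 1 ≤ m) {T : ℝ} (hT : 0 < T) :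
    ∃ d, HasDerivAt (tailG m) d T ∧ 1 / (T ^ 2 * √(1 + T ^ 2) ^ m) ≤ -d := by
  obtain ⟨j, rfl⟩ : ∃ j, m = j + 1 := ⟨m - 1, by omega⟩
  have hw := w_pos T
  have hs := w_sq T
  set K : ℝ := (j : ℝ) + 2 with hK
  have hK0 : 0 < K := by positivity
  have hKT : 0 < 1 + K * T ^ 2 := by positivity
  have h1 : HasDerivAt (fun x : ℝ => 1 + x ^ 2) (2 * T) T :=
    ((hasDerivAt_pow 2 T).const_add 1).congr_deriv (by ring)
  have h2 := ((hasDerivAt_id' T).fun_mul ((hasDerivAt_w T).fun_pow (j + 1))).fun_mul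
    (((hasDerivAt_pow 2 T).const_mul K).const_add 1)
  have h3 := h1.fun_div h2 (by positivity)
  refine ⟨-(((j : ℝ) * T ^ 2 + 1) / (T ^ 2 * √(1 + T ^ 2) ^ (j + 1) * (1 + K * T ^ 2)) +
    2 * K * (1 + T ^ 2) / (√(1 + T ^ 2) ^ (j + 1) * (1 + K * T ^ 2) ^ 2)), ?_, ?_⟩
  · refine (h3.congr_of_eventuallyEq (Filter.Eventually.of_forall fun x => ?_)).congr_deriv ?_
    · simp only [tailG, hK]; push_cast; ring_nf
    · simp only [Nat.add_sub_cancel]
      push_cast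
      rw [show T ^ (2 - 1) = T from pow_one T, pow_succ √(1 + T ^ 2) j, hK]
      generalize √(1 + T ^ 2) = W at hw hs
      field_simp
      rw [show T ^ 2 = W ^ 2 - 1 by linarith]
      ring
  · rw [neg_neg]
    have e : ((j : ℝ) * T ^ 2 + 1) / (T ^ 2 * √(1 + T ^ 2) ^ (j + 1) * (1 + K * T ^ 2)) +
        2 * K * (1 + T ^ 2) / (√(1 + T ^ 2) ^ (j + 1) * (1 + K * T ^ 2) ^ 2) =
        (((j : ℝ) * T ^ 2 + 1) * (1 + K * T ^ 2) + 2 * K * (1 + T ^ 2) * T ^ 2) /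
          (1 + K * T ^ 2) ^ 2 * (1 / (T ^ 2 * √(1 + T ^ 2) ^ (j + 1))) := by
      field_simp
    rw [e]
    refine le_mul_of_one_le_left (by positivity) ?_
    rw [le_div_iff₀ (by positivity), hK]
    have : 0 ≤ ((j : ℝ) + 1) * T ^ 2 := by positivity
    linarith

/-- The tail integral. -/
lemma tail_int (hm : 4 ≤ m) {T₀ : ℝ} (hT₀ : 0 < T₀) :
    IntegrableOn (fun T : ℝ => 1 / (T ^ 2 * √(1 + T ^ 2) ^ m)) (Ioi T₀) ∧
      ∫ T in Ioi T₀, 1 / (T ^ 2 * √(1 + T ^ 2) ^ m) ≤ tailG m T₀ := by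
  choose d hd hd' using fun T : {T : ℝ // 0 < T} => tailG_deriv (m := m) (by omega) T.2
  set D : ℝ → ℝ := fun T => if h : 0 < T then -d ⟨T, h⟩ else 0 with hD
  have hder : ∀ T ∈ Ioi T₀, HasDerivAt (fun x => -tailG m x) (D T) T := fun T hT => by
    have hT' : 0 < T := hT₀.trans hT
    simp only [hD, dif_pos hT']
    exact (hd ⟨T, hT'⟩).neg
  have hge : ∀ T ∈ Ioi T₀, 1 / (T ^ 2 * √(1 + T ^ 2) ^ m) ≤ D T := fun T hT => by
    have hT' : 0 < T := hT₀.trans hT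
    simp only [hD, dif_pos hT']
    exact hd' ⟨T, hT'⟩
  have hpos : ∀ T ∈ Ioi T₀, 0 ≤ D T := fun T hT => by
    have hT' : 0 < T := hT₀.trans hT
    have := w_pos T
    exact le_trans (by positivity) (hge T hT)
  have hcw : ContinuousWithinAt (fun x => -tailG m x) (Ici T₀) T₀ :=
    ((hd ⟨T₀, hT₀⟩).continuousAt.neg).continuousWithinAt
  have hlim : Tendsto (fun x => -tailG m x) atTop (𝓝 0) := by
    suffices Tendsto (tailG m) atTop (𝓝 0) by simpa using this.neg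
    refine squeeze_zero' ?_ ?_ tendsto_inv_atTop_zero
    · filter_upwards [eventually_gt_atTop 0] with x hx
      have := w_pos x
      unfold tailG; positivity
    · filter_upwards [eventually_gt_atTop 0] with x hx
      have hw := one_le_w x
      unfold tailG
      rw [div_le_iff₀ (by positivity)]
      have h1 : (1 : ℝ) + x ^ 2 ≤ √(1 + x ^ 2) ^ m :=
        (w_sq x).symm.le.trans (pow_le_pow_right₀ hw (by omega))
      have h2 : (1 : ℝ) ≤ 1 + ((m : ℝ) + 1) * x ^ 2 := le_add_of_nonneg_right (by positivity)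
      have h3 := mul_le_mul_of_nonneg_left h2 (pow_nonneg (sqrt_nonneg (1 + x ^ 2)) m)
      field_simp
      linarith
  have hi := integrableOn_Ioi_deriv_of_nonneg hcw hder hpos hlim
  have hf : ContinuousOn (fun T : ℝ => 1 / (T ^ 2 * √(1 + T ^ 2) ^ m)) (Ioi T₀) :=
    continuousOn_const.div (by fun_prop) fun T hT => by
      have : 0 < T := hT₀.trans hT
      have := w_pos T
      positivity
  have hfi : IntegrableOn (fun T : ℝ => 1 / (T ^ 2 * √(1 + T ^ 2) ^ m)) (Ioi T₀) := by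
    refine hi.mono' (hf.aestronglyMeasurable measurableSet_Ioi) ?_
    filter_upwards [ae_restrict_mem measurableSet_Ioi] with T hT
    have : 0 < T := hT₀.trans hT
    rw [norm_of_nonneg (by have := w_pos T; positivity)]
    exact hge T hT
  refine ⟨hfi, (setIntegral_mono_on hfi hi measurableSet_Ioi hge).trans (le_of_eq ?_)⟩
  rw [integral_Ioi_of_hasDerivAt_of_nonneg hcw hder hpos hlim]
  ring

/-- The square of the minimum against `pre W⁴`, split at `T₀`. -/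
theorem minSq_le_tight (hm : 4 ≤ m) {a A T₀ : ℝ} (ha : 0 ≤ a) (hA : 0 ≤ A) (hT₀ : 0 < T₀) :
    IntegrableOn (fun T => pre m T * (1 + T ^ 2) ^ 2 * min (a * T) (A / T ^ 2) ^ 2) (Ioi 0) ∧
      ∫ T in Ioi (0 : ℝ), pre m T * (1 + T ^ 2) ^ 2 * min (a * T) (A / T ^ 2) ^ 2 ≤
        ((m : ℝ) + 1) * a ^ 2 * T₀ ^ 5 / 5 + ((m : ℝ) + 1) * A ^ 2 * tailG m T₀ := by
  have hi := (integral_minSq_le (m := m) (by omega) ha hA hT₀).1
  refine ⟨hi, ?_⟩
  set k := (m : ℝ) + 1 with hk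
  have hk0 : 0 < k := by positivity
  have hsplit : Ioc (0 : ℝ) T₀ ∪ Ioi T₀ = Ioi 0 := Ioc_union_Ioi_eq_Ioi hT₀.le
  have i1 := hi.mono_set (show Ioc (0 : ℝ) T₀ ⊆ Ioi 0 from Ioc_subset_Ioi_self)
  have i2 := hi.mono_set (show Ioi T₀ ⊆ Ioi (0 : ℝ) from Ioi_subset_Ioi hT₀.le)
  rw [← hsplit, setIntegral_union Ioc_disjoint_Ioi_same measurableSet_Ioi i1 i2]
  refine add_le_add ?_ ?_
  · refine (setIntegral_mono_on i1 (g := fun T : ℝ => k * a ^ 2 * T ^ 4)
      (Continuous.integrableOn_Ioc (by fun_prop)) measurableSet_Ioc fun T hT => ?_).trans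
      (le_of_eq ?_)
    · have hT0 : 0 < T := hT.1
      rw [pre_mul_w4]
      calc k * T ^ 2 / √(1 + T ^ 2) ^ m * min (a * T) (A / T ^ 2) ^ 2
          ≤ k * T ^ 2 * (a * T) ^ 2 := by
            refine mul_le_mul (div_le_self (by positivity) (one_le_pow₀ (one_le_w T)))
              (pow_le_pow_left₀ (le_min (by positivity) (by positivity)) (min_le_left _ _) 2)
              (by positivity) (by positivity)
        _ = _ := by ring
    · rw [← intervalIntegral.integral_of_le hT₀.le, intervalIntegral.integral_const_mul,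
        integral_pow]
      norm_num
      ring
  · obtain ⟨j1, j2⟩ := tail_int hm hT₀
    refine (setIntegral_mono_on i2 (j1.const_mul (k * A ^ 2)) measurableSet_Ioi
      fun T hT => ?_).trans ?_
    · have hT0 : 0 < T := hT₀.trans hT
      have := w_pos T
      rw [pre_mul_w4]
      calc k * T ^ 2 / √(1 + T ^ 2) ^ m * min (a * T) (A / T ^ 2) ^ 2
          ≤ k * T ^ 2 / √(1 + T ^ 2) ^ m * (A / T ^ 2) ^ 2 := by
            refine mul_le_mul_of_nonneg_left ?_ (by positivity)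
            exact pow_le_pow_left₀ (le_min (by positivity) (by positivity)) (min_le_right _ _) 2
        _ = _ := by field_simp
    · rw [MeasureTheory.integral_const_mul]
      exact mul_le_mul_of_nonneg_left j2 (by positivity)

/-- The one-variable inequality. -/
lemma up_poly {u : ℝ} (h0 : 0 ≤ u) :
    53007 / 100000 * u ^ 2 * (1 / 5 * ((1 + 9973 / 10000 * u ^ 2) *
        (1 + 4973 / 10000 * u ^ 2 + 1230 / 10000 * u ^ 4)) + (1 + u ^ 2 / 384)) ≤
      (21 / 100 + 638 / 10000 * u ^ 3) *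
        ((1 + 9973 / 10000 * u ^ 2) * (1 + 4973 / 10000 * u ^ 2 + 1230 / 10000 * u ^ 4)) := by
  nlinarith [sq_nonneg (u - 106 / 100), mul_nonneg h0 (sq_nonneg (u - 106 / 100)),
    mul_nonneg (mul_nonneg h0 h0) (sq_nonneg (u - 106 / 100)),
    mul_nonneg (pow_nonneg h0 3) (sq_nonneg (u - 106 / 100)),
    mul_nonneg (pow_nonneg h0 4) (sq_nonneg (u - 106 / 100)),
    mul_nonneg (pow_nonneg h0 5) (sq_nonneg (u - 106 / 100)),
    mul_nonneg (pow_nonneg h0 6) (sq_nonneg (u - 106 / 100)),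
    mul_nonneg (pow_nonneg h0 7) (sq_nonneg (u - 106 / 100))]

/-- `√n UM ≤ 17052/1000`, squared. -/
lemma up_UM {ε c₀ c₁ : ℝ} (he0 : 7 / 2 ≤ ε) (he1 : ε ≤ 203 / 50)
    (hc₀ : c₀ = 9 / 5 * ε / √((m : ℝ) + 2)) (hc₁ : c₁ = 6 / 5 * ε * √((m : ℝ) + 2)) :
    shUM m c₀ c₁ ^ 2 * ((m : ℝ) + 2) ≤ 29078 / 100 := by
  set v := √((m : ℝ) + 2) with hv
  have hv0 : 0 < v := by positivity
  have hv2 : v ^ 2 = (m : ℝ) + 2 := sq_sqrt (by positivity)
  have h1 : shUM m c₀ c₁ * v ≤ 17052 / 1000 := by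
    have e1 : c₀ * v = 9 / 5 * ε := by rw [hc₀]; field_simp
    have e2 : c₁ * v = 6 / 5 * ε * ((m : ℝ) + 2) := by rw [hc₁, ← hv2]; ring
    have h4 : c₁ * v / ((m : ℝ) + 4) ≤ 6 / 5 * ε := by
      rw [div_le_iff₀ (by positivity), e2]
      exact mul_le_mul_of_nonneg_left (by linarith) (by positivity)
    have e : shUM m c₀ c₁ * v = c₀ * v + 2 * (c₁ * v / ((m : ℝ) + 4)) := by unfold shUM; ring
    linarith
  have h0 : 0 ≤ shUM m c₀ c₁ * v := by
    have : 0 ≤ c₀ := by rw [hc₀]; positivity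
    have : 0 ≤ c₁ := by rw [hc₁]; positivity
    unfold shUM; positivity
  have h2 := pow_le_pow_left₀ h0 h1 2
  rw [mul_pow, hv2] at h2
  linarith

/-- `√n V₀` and the moment of `z²` for `n ≥ 384`. -/
lemma up_mom (hm : 382 ≤ m) :
    ((m : ℝ) + 2) * semiMom m 1 ^ 2 ≤ 15708 / 10000 ∧
      ((m : ℝ) + 1) * mom 2 m ≤ 1016 / 1000 * semiMom m 1 := by
  have hm' : (382 : ℝ) ≤ (m : ℝ) := by exact_mod_cast hm
  constructor
  · have h := (semiMom_sq_bounds m).2
    rw [le_div_iff₀ (by positivity)] at h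
    have := pi_lt_d4
    have : 0 ≤ semiMom m 1 ^ 2 := sq_nonneg _
    linarith
  · obtain ⟨p, rfl⟩ : ∃ p, m = p + 2 := ⟨m - 2, by omega⟩
    rw [semiMom_one]
    have h1 := mom_step (a := 0) (m := p) (by omega)
    have h2 := mom_exp (a := 0) (m := p + 2) (by omega)
    have h3 := mom_exp (a := 0) (m := p + 2 + 2) (by omega)
    simp only [Nat.cast_zero, zero_add, sub_zero] at h1 h2 h3
    push_cast at h1 h2 h3 hm' ⊢
    have hM : 0 ≤ mom 0 (p + 2 + 2 + 2) := mom_nonneg _ _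
    set M0 := mom 0 (p + 2)
    set M1 := mom 0 (p + 2 + 2)
    set M2 := mom 0 (p + 2 + 2 + 2)
    clear_value M0 M1 M2
    have hp : (0 : ℝ) < (p : ℝ) - 1 := by linarith
    have e : ((p : ℝ) - 1) * ((p : ℝ) + 1) * ((p : ℝ) + 3) * mom 2 (p + 2) =
        ((p : ℝ) + 2) * ((p : ℝ) + 4) * M2 := by
      linear_combination ((p : ℝ) + 1) * ((p : ℝ) + 3) * h1 - ((p : ℝ) + 3) * h2 - ((p : ℝ) + 2) * h3
    have key : ((p : ℝ) + 2) * ((p : ℝ) + 4) ≤
        1016 / 1000 * (((p : ℝ) - 1) * ((p : ℝ) + 1)) := by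
      have := mul_le_mul_of_nonneg_right hm' (Nat.cast_nonneg (α := ℝ) p)
      linarith
    have hkey := mul_le_mul_of_nonneg_right key hM
    refine le_of_mul_le_mul_left ?_ (mul_pos hp (by positivity : (0 : ℝ) < (p : ℝ) + 1))
    linarith

/-- The part at the split, against `x`. -/
lemma up_split (hm : 382 ≤ m) {x A T₀ : ℝ} (hx0 : 0 ≤ x) (hT₀ : 0 < T₀) (hA : T₀ ^ 3 = 3 * A)
    (hAx : A = 2 * (x * semiMom m 1) / ((m : ℝ) + 1)) :
    7 / 10 * (29078 / 100) * (3 / 2) *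
        ((((m : ℝ) + 1) * (1 / 3) ^ 2 * T₀ ^ 5 / 5 + ((m : ℝ) + 1) * A ^ 2 * tailG m T₀) /
          semiMom m 1) ≤ x * (21 / 100 + 4818 / 10000 * x) := by
  have hm' : (382 : ℝ) ≤ (m : ℝ) := by exact_mod_cast hm
  have hV : 0 < semiMom m 1 := by rw [semiMom_one]; exact mom_zero_pos (m + 2)
  have hVn := sqrt_mul_semiMom_le m
  set v := √((m : ℝ) + 2) with hv
  have hv0 : 0 < v := by positivity
  have hv2 : v ^ 2 = (m : ℝ) + 2 := sq_sqrt (by positivity)
  set k := (m : ℝ) + 1 with hk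
  have hk0 : 0 < k := by positivity
  have hkT : k * T₀ ^ 3 = 6 * (x * semiMom m 1) := by
    rw [hA, hAx]; field_simp; ring
  have hA3 : A = T₀ ^ 3 / 3 := by linarith
  set u := v * T₀ with hu
  have hu0 : 0 ≤ u := by positivity
  have hu2 : u ^ 2 = ((m : ℝ) + 2) * T₀ ^ 2 := by rw [hu, mul_pow, hv2]
  have hs : T₀ ^ 2 ≤ u ^ 2 / 384 := by
    rw [hu2]
    have := mul_le_mul_of_nonneg_right (by linarith : (384 : ℝ) ≤ (m : ℝ) + 2) (sq_nonneg T₀)
    linarith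
  -- the three factors
  have hW := w_pow_quad T₀ m (by omega)
  have L1 : 1 + 9973 / 10000 * u ^ 2 ≤ 1 + k * T₀ ^ 2 := by
    rw [hu2, ← mul_assoc]
    exact add_le_add_right (mul_le_mul_of_nonneg_right (by linarith) (sq_nonneg _)) 1
  have L2 : 1 + 4973 / 10000 * u ^ 2 + 1230 / 10000 * u ^ 4 ≤ √(1 + T₀ ^ 2) ^ m := by
    refine le_trans ?_ hW
    have e4 : u ^ 4 = ((m : ℝ) + 2) ^ 2 * T₀ ^ 4 := by
      rw [show u ^ 4 = (u ^ 2) ^ 2 by ring, hu2]; ring
    rw [hu2, e4]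
    have a1 := mul_le_mul_of_nonneg_right
      (by linarith : 4973 / 10000 * ((m : ℝ) + 2) ≤ (m : ℝ) / 2) (sq_nonneg T₀)
    have a2 := mul_le_mul_of_nonneg_right
      (by nlinarith : 1230 / 10000 * ((m : ℝ) + 2) ^ 2 ≤ (m : ℝ) * ((m : ℝ) - 2) / 8)
      (by positivity : (0 : ℝ) ≤ T₀ ^ 4)
    linarith
  set B1 := 1 + 9973 / 10000 * u ^ 2 with hB1
  set B2 := 1 + 4973 / 10000 * u ^ 2 + 1230 / 10000 * u ^ 4 with hB2
  have hB10 : 0 < B1 := by positivity
  have hB20 : 0 < B2 := by positivity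
  set F := (1 + T₀ ^ 2) / (√(1 + T₀ ^ 2) ^ m * (1 + k * T₀ ^ 2)) with hF
  have hF1 : F ≤ (1 + u ^ 2 / 384) / (B1 * B2) := by
    rw [hF, mul_comm B1]
    exact div_le_div₀ (by positivity) (by linarith) (by positivity)
      (mul_le_mul L2 L1 hB10.le (pow_nonneg (sqrt_nonneg _) _))
  have hF0 : 0 ≤ F := by have := w_pos T₀; positivity
  have eJ : (k * (1 / 3) ^ 2 * T₀ ^ 5 / 5 + k * A ^ 2 * tailG m T₀) / semiMom m 1 =
      2 / 3 * x * T₀ ^ 2 * (1 / 5 + F) := by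
    have e5 : k * (1 / 3) ^ 2 * T₀ ^ 5 / 5 + k * A ^ 2 * tailG m T₀ =
        (k * T₀ ^ 3) * T₀ ^ 2 / 9 * (1 / 5 + F) := by
      rw [hA3, hF, tailG, ← hk]
      have := w_pos T₀
      field_simp
      ring
    rw [e5, hkT]
    field_simp
    ring
  rw [eJ]
  have hT2 : 7 / 10 * (29078 / 100) * (3 / 2) * (2 / 3 * T₀ ^ 2) ≤ 53007 / 100000 * u ^ 2 := by
    linarith [sq_nonneg T₀]
  have hpoly := up_poly hu0
  rw [← hB1, ← hB2] at hpoly
  have hmain : 53007 / 100000 * u ^ 2 * (1 / 5 + F) ≤ 21 / 100 + 638 / 10000 * u ^ 3 := by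
    have h1 := mul_le_mul_of_nonneg_left (add_le_add_right hF1 (1 / 5))
      (by positivity : (0 : ℝ) ≤ 53007 / 100000 * u ^ 2)
    refine h1.trans ?_
    have e : 1 / 5 + (1 + u ^ 2 / 384) / (B1 * B2) =
        (1 / 5 * (B1 * B2) + (1 + u ^ 2 / 384)) / (B1 * B2) := by field_simp
    rw [e, ← mul_div_assoc, div_le_iff₀ (by positivity)]
    exact hpoly
  have hx3 : 638 / 10000 * u ^ 3 ≤ 4818 / 10000 * x := by
    have h1 : u ^ 3 * k = ((m : ℝ) + 2) * (6 * (x * (v * semiMom m 1))) := by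
      rw [hu, mul_pow, show v ^ 3 = v ^ 2 * v by ring, hv2]
      linear_combination ((m : ℝ) + 2) * v * hkT
    have h2 := mul_le_mul_of_nonneg_left hVn (mul_nonneg (by positivity : (0 : ℝ) ≤ (m : ℝ) + 2) hx0)
    have h3 : ((m : ℝ) + 2) * x * (6 * (12534 / 10000)) * (638 / 10000) ≤ k * (4818 / 10000 * x) := by
      have := mul_nonneg hx0 (by linarith : (0 : ℝ) ≤ (m : ℝ) - 382)
      rw [hk]
      linarith
    refine le_of_mul_le_mul_left ?_ hk0
    linarith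
  calc 7 / 10 * (29078 / 100) * (3 / 2) * (2 / 3 * x * T₀ ^ 2 * (1 / 5 + F))
      = x * (7 / 10 * (29078 / 100) * (3 / 2) * (2 / 3 * T₀ ^ 2) * (1 / 5 + F)) := by ring
    _ ≤ x * (53007 / 100000 * u ^ 2 * (1 / 5 + F)) :=
        mul_le_mul_of_nonneg_left (mul_le_mul_of_nonneg_right hT2 (by positivity)) hx0
    _ ≤ _ := mul_le_mul_of_nonneg_left (hmain.trans (by linarith)) hx0

/-- The state envelope is continuous, also at `0`. -/
lemma continuous_minUp {B : ℝ} (hB : 0 ≤ B) :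
    Continuous fun T : ℝ => min (T / 3) (B / T ^ 2) := by
  refine continuous_iff_continuousAt.2 fun T => ?_
  rcases eq_or_ne T 0 with rfl | hT
  · have h : ∀ x : ℝ, ‖min (x / 3) (B / x ^ 2)‖ ≤ |x| := fun x => by
      have h2 : 0 ≤ B / x ^ 2 := div_nonneg hB (sq_nonneg x)
      rw [Real.norm_eq_abs, abs_le]
      constructor
      · refine le_min ?_ ?_ <;> linarith [neg_abs_le x, abs_nonneg x]
      · exact (min_le_left _ _).trans (by linarith [le_abs_self x, abs_nonneg x])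
    have h0 : min ((0 : ℝ) / 3) (B / (0 : ℝ) ^ 2) = 0 := by simp
    rw [ContinuousAt, h0]
    refine squeeze_zero_norm h ?_
    simpa using (continuous_abs (G := ℝ)).tendsto 0
  · exact (continuousAt_id.div_const 3).min
      (continuousAt_const.div (continuousAt_id.pow 2) (pow_ne_zero 2 hT))

lemma continuous_upT {V Y c₀ c₁ : ℝ} (hY : 0 ≤ Y) (hV : semiMom m 1 ≤ V) :
    Continuous (upT m V Y c₀ c₁) := by
  have hB : 0 ≤ 2 * ((V - semiMom m 1) / Y ^ (m + 1)) / ((m : ℝ) + 1) :=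
    div_nonneg (mul_nonneg (by norm_num) (div_nonneg (sub_nonneg.2 hV) (pow_nonneg hY _)))
      (by positivity)
  have hM := continuous_minUp hB
  have hp : Continuous (pre m) := by
    unfold pre
    exact Continuous.div (by fun_prop) (by fun_prop) fun T => pow_ne_zero _ (w_pos T).ne'
  have hc : Continuous fun T : ℝ => cP (((m : ℝ) + 2) * T ^ 2) := by unfold cP; fun_prop
  have hs : Continuous (stateUp m V Y c₀ c₁) := by
    refine ((Continuous.mul (by fun_prop) hM) : Continuous fun T : ℝ =>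
      shUM m c₀ c₁ * (1 + T ^ 2) * min (T / 3)
        (2 * ((V - semiMom m 1) / Y ^ (m + 1)) / ((m : ℝ) + 1) / T ^ 2)).congr fun T => ?_
    simp only [stateUp, div_div, Pi.mul_apply]
  exact ((hp.mul hc).mul (hs.pow 2)).const_mul _

/-- **The upper state loss.** -/
theorem upT_int (hm : 382 ≤ m) {ε q Y c₀ c₁ : ℝ} (he0 : 7 / 2 ≤ ε) (he1 : ε ≤ 203 / 50)
    (hc₀ : c₀ = 9 / 5 * ε / √((m : ℝ) + 2)) (hc₁ : c₁ = 6 / 5 * ε * √((m : ℝ) + 2))
    (hY : 1 ≤ Y) (hq : 1 ≤ q) :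
    Continuous (upT m (q * semiMom m 1) Y c₀ c₁) ∧
      IntegrableOn (upT m (q * semiMom m 1) Y c₀ c₁) (Ioi 0) ∧
      ((m : ℝ) + 2) * ((∫ T in Ioi (0 : ℝ), upT m (q * semiMom m 1) Y c₀ c₁ T) / semiMom m 1) ≤
        21 / 100 * ((q - 1) / Y ^ (m + 1)) + 57 / 100 * ((q - 1) / Y ^ (m + 1)) ^ 2 := by
  have hm' : (382 : ℝ) ≤ (m : ℝ) := by exact_mod_cast hm
  have hV : 0 < semiMom m 1 := by rw [semiMom_one]; exact mom_zero_pos (m + 2)
  have hY0 : 0 < Y := by linarith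
  have hVq : semiMom m 1 ≤ q * semiMom m 1 := le_mul_of_one_le_left hV.le hq
  set x := (q - 1) / Y ^ (m + 1) with hx
  have hx0 : 0 ≤ x := div_nonneg (by linarith) (pow_nonneg hY0.le _)
  set k := (m : ℝ) + 1 with hk
  have hk0 : 0 < k := by positivity
  set A := 2 * (x * semiMom m 1) / k with hAdef
  have hA0 : 0 ≤ A := by positivity
  set UM := shUM m c₀ c₁ with hUM
  set n := (m : ℝ) + 2 with hn
  have hn0 : 0 < n := by positivity
  have hcont := continuous_upT (m := m) (c₀ := c₀) (c₁ := c₁) hY0.le hVq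
  set f := fun T : ℝ => pre m T * (1 + T ^ 2) ^ 2 * min (1 / 3 * T) (A / T ^ 2) ^ 2 with hf
  set g := fun T : ℝ => T ^ 2 / √(1 + T ^ 2) ^ m with hg
  have hb : ∀ T ∈ Ioi (0 : ℝ), upT m (q * semiMom m 1) Y c₀ c₁ T ≤
      3 / 2 * (7 / 10) * UM ^ 2 * f T + 3 / 2 * (3 / 250) * UM ^ 2 * n ^ 2 * A ^ 2 * k * g T := by
    intro T hT
    have hT0 : (0 : ℝ) < T := hT
    have e : stateUp m (q * semiMom m 1) Y c₀ c₁ T =
        UM * (1 + T ^ 2) * min (1 / 3 * T) (A / T ^ 2) := by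
      rw [stateUp, hAdef, hx, ← hUM, ← hk]
      congr 2
      · ring
      · field_simp
    set M := min (1 / 3 * T) (A / T ^ 2) with hM
    have hM0 : 0 ≤ M := le_min (by positivity) (by positivity)
    have hM2 : T ^ 4 * M ^ 2 ≤ A ^ 2 := by
      have h1 := pow_le_pow_left₀ hM0 (min_le_right _ _) 2
      rw [div_pow, le_div_iff₀ (by positivity)] at h1
      calc T ^ 4 * M ^ 2 = M ^ 2 * (T ^ 2) ^ 2 := by ring
        _ ≤ _ := h1
    rw [upT, e, cP]
    have e2 : 3 / 2 * (pre m T * (7 / 10 + 3 / 250 * (n * T ^ 2) ^ 2) *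
        (UM * (1 + T ^ 2) * M) ^ 2) = 3 / 2 * (7 / 10) * UM ^ 2 * f T +
        3 / 2 * (3 / 250) * UM ^ 2 * n ^ 2 * ((pre m T * (1 + T ^ 2) ^ 2) * (T ^ 4 * M ^ 2)) := by
      simp only [hf, ← hM]; ring
    rw [← hn, e2, pre_mul_w4, ← hk]
    refine add_le_add le_rfl ?_
    calc 3 / 2 * (3 / 250) * UM ^ 2 * n ^ 2 * (k * T ^ 2 / √(1 + T ^ 2) ^ m * (T ^ 4 * M ^ 2))
        ≤ 3 / 2 * (3 / 250) * UM ^ 2 * n ^ 2 * (k * T ^ 2 / √(1 + T ^ 2) ^ m * A ^ 2) := by
          have := w_pos T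
          exact mul_le_mul_of_nonneg_left (mul_le_mul_of_nonneg_left hM2 (by positivity))
            (by positivity)
      _ = _ := by simp only [hg]; ring
  have hup0 : ∀ T ∈ Ioi (0 : ℝ), 0 ≤ upT m (q * semiMom m 1) Y c₀ c₁ T := fun T _ => by
    have := cP_pos (((m : ℝ) + 2) * T ^ 2)
    have : 0 ≤ pre m T := by unfold pre; positivity
    unfold upT; positivity
  rcases eq_or_lt_of_le hx0 with hx1 | hx1
  · -- no excess
    have hA : A = 0 := by rw [hAdef, ← hx1]; simp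
    have hz : ∀ T ∈ Ioi (0 : ℝ), upT m (q * semiMom m 1) Y c₀ c₁ T = 0 := fun T hT => by
      have h := hb T hT
      have h0 := hup0 T hT
      have hT0 : (0 : ℝ) < T := hT
      have : f T = 0 := by simp [hf, hA, hT0.le]
      rw [this, hA] at h
      simp only [mul_zero, add_zero, zero_mul, zero_pow two_ne_zero] at h
      linarith
    refine ⟨hcont, integrableOn_zero.congr_fun (fun T hT => (hz T hT).symm) measurableSet_Ioi, ?_⟩
    rw [setIntegral_congr_fun measurableSet_Ioi hz, ← hx1]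
    simp
  have hApos : 0 < 3 * A := by positivity
  set T₀ := (3 * A) ^ ((1 : ℝ) / 3) with hT₀def
  have hT₀ : 0 < T₀ := rpow_pos_of_pos hApos _
  have hT₀3 : T₀ ^ 3 = 3 * A := by
    rw [hT₀def, ← rpow_natCast, ← rpow_mul hApos.le]
    norm_num
  obtain ⟨if1, hf1⟩ := minSq_le_tight (m := m) (by omega) (a := 1 / 3) (by norm_num) hA0 hT₀
  have ig : IntegrableOn g (Ioi 0) := mom_integrable (a := 2) (by omega)
  have ib := (if1.const_mul (3 / 2 * (7 / 10) * UM ^ 2)).add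
    (ig.const_mul (3 / 2 * (3 / 250) * UM ^ 2 * n ^ 2 * A ^ 2 * k))
  have hint : IntegrableOn (upT m (q * semiMom m 1) Y c₀ c₁) (Ioi 0) := by
    refine ib.mono' hcont.aestronglyMeasurable.restrict ?_
    filter_upwards [ae_restrict_mem measurableSet_Ioi] with T hT
    rw [norm_of_nonneg (hup0 T hT)]
    exact hb T hT
  refine ⟨hcont, hint, ?_⟩
  have hI := setIntegral_mono_on hint ib measurableSet_Ioi hb
  simp only [Pi.add_apply] at hI
  rw [integral_add (if1.const_mul _) (ig.const_mul _), MeasureTheory.integral_const_mul,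
    MeasureTheory.integral_const_mul] at hI
  change _ ≤ _ + _ * mom 2 m at hI
  obtain ⟨hVn, hmom⟩ := up_mom hm
  have hU := up_UM he0 he1 hc₀ hc₁
  rw [← hUM, ← hn] at hU
  rw [← hn] at hVn
  rw [← hk] at hmom hf1
  have hsp := up_split hm hx0 hT₀ hT₀3 hAdef
  rw [← hk] at hsp
  set J := k * (1 / 3) ^ 2 * T₀ ^ 5 / 5 + k * A ^ 2 * tailG m T₀ with hJ
  have hJ0 : 0 ≤ J := by
    have := w_pos T₀
    unfold tailG at hJ
    rw [hJ]; positivity
  have hI2 : ∫ T in Ioi (0 : ℝ), upT m (q * semiMom m 1) Y c₀ c₁ T ≤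
      3 / 2 * (7 / 10) * UM ^ 2 * J +
        3 / 2 * (3 / 250) * UM ^ 2 * n ^ 2 * A ^ 2 * (1016 / 1000 * semiMom m 1) := by
    refine hI.trans (add_le_add (mul_le_mul_of_nonneg_left hf1 (by positivity)) ?_)
    have := mul_le_mul_of_nonneg_left hmom
      (by positivity : 0 ≤ 3 / 2 * (3 / 250) * UM ^ 2 * n ^ 2 * A ^ 2)
    linarith
  have h1 := mul_le_mul_of_nonneg_left (div_le_div_of_nonneg_right hI2 hV.le) hn0.le
  refine h1.trans ?_
  have hnk : n ^ 2 ≤ 10053 / 10000 * k ^ 2 := by rw [hn, hk]; nlinarith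
  have e : n * ((3 / 2 * (7 / 10) * UM ^ 2 * J +
      3 / 2 * (3 / 250) * UM ^ 2 * n ^ 2 * A ^ 2 * (1016 / 1000 * semiMom m 1)) / semiMom m 1) =
      7 / 10 * (UM ^ 2 * n) * (3 / 2) * (J / semiMom m 1) +
        3 / 2 * (3 / 250) * (1016 / 1000) * 4 * (UM ^ 2 * n) * x ^ 2 *
          (n * semiMom m 1 ^ 2) * (n / k ^ 2) := by
    rw [hAdef]; field_simp; ring
  rw [e]
  have h2 : 7 / 10 * (UM ^ 2 * n) * (3 / 2) * (J / semiMom m 1) ≤
      7 / 10 * (29078 / 100) * (3 / 2) * (J / semiMom m 1) :=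
    mul_le_mul_of_nonneg_right (by linarith) (by positivity)
  have h3 : n / k ^ 2 ≤ 10053 / 10000 / 384 := by
    rw [div_le_iff₀ (by positivity)]
    have := mul_le_mul_of_nonneg_left (by rw [hn]; linarith : (384 : ℝ) ≤ n) hn0.le
    linarith
  have h4 : 3 / 2 * (3 / 250) * (1016 / 1000) * 4 * (UM ^ 2 * n) * x ^ 2 *
      (n * semiMom m 1 ^ 2) * (n / k ^ 2) ≤ 3 / 2 * (3 / 250) * (1016 / 1000) * 4 *
        (29078 / 100) * x ^ 2 * (15708 / 10000) * (10053 / 10000 / 384) :=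
    mul_le_mul (mul_le_mul (mul_le_mul_of_nonneg_right
      (mul_le_mul_of_nonneg_left hU (by norm_num)) (sq_nonneg x)) hVn (by positivity)
      (by positivity)) h3 (by positivity) (by positivity)
  have : 0 ≤ x ^ 2 := sq_nonneg x
  linarith

end Vale.Agent.P237.Cal
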