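import Vale.Agent.P237.Cal.LargeBudget
import Vale.Agent.P237.Cal.LossInt
import Vale.Agent.P237.Cal.UpInt
import Vale.Agent.P237.Cal.NegAll

/-!
# P237: the leaf for `n ≥ 384` from its pointwise half
-/

open MeasureTheory Set Real

namespace Vale.Agent.P237.Cal

/-- The lower bound of the pointwise form. -/
noncomputable def largeLB (m : ℕ) (q Y ε kap T : ℝ) : ℝ :=
  (ellFlat m ε kap (rr (m + 1)) T + nuFlat m ε kap T) * loD Y T -
    lossT m (q * semiMom m 1) Y ε kap (LargeN.c0 m ε) (LargeN.c1 m ε) T - etaE m ε Y T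

/-- The pointwise half of `LargeN.Leaf`. -/
def LargePw (m : ℕ) : Prop :=
  ∀ q Y Q ε kap : ℝ, 1 < q → 1 ≤ Y → Y ^ (m + 1) ≤ 2 * ((m : ℝ) + 2) → Q = q / Y ^ (m + 1) →
    Q ≤ rr (m + 1) ^ (m + 1) → hullTan m Y ≤ q * semiMom m 1 → q * semiMom m 1 ≤ capB m →
    ε = 4 * q ^ (2 / ((m : ℝ) + 2)) / Y ^ 2 → 7 / 2 ≤ ε → ε ≤ 203 / 50 →
    kap = (1 - (Y ^ (m + 1))⁻¹) / 2 →
    ∀ T σ h X, RegC Y T σ h → XBox m (q * semiMom m 1) Y T σ X →
      Exc m (q * semiMom m 1) Y T σ → LargeN.Pw m ε kap (largeLB m q Y ε kap) T σ h X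

/-- **The leaf**: only the pointwise half is left. -/
theorem leaf_of_pw {m : ℕ} (hm : 382 ≤ m) (hpw : LargePw m) : LargeN.Leaf m := by
  intro q Y Q ε kap hq hY hYk hQ hQr hH hcap hε he1 he2 hkap
  have P : LargeP m ε Y (LargeN.c0 m ε) (LargeN.c1 m ε) :=
    ⟨hm, he1, he2, hY, hYk, rfl, rfl⟩
  have hk : kap = uOf m Y / 2 := hkap
  obtain ⟨a, b, c, d⟩ := integral_ngT P
  obtain ⟨hc, hi, hl⟩ := leaf_budget (η := etaE m ε Y) hm hq hY hYk hQ he1 he2 hk c d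
    (integral_gT P hk) (integral_lowT P hk) (integral_tailT P hk) ⟨a, b, le_rfl⟩
    (upT_int hm he1 he2 rfl rfl hY hq.le)
    ⟨continuous_etaE, (integral_etaE P).1, (integral_etaE P).2⟩
  exact ⟨largeLB m q Y ε kap, hc, hi,
    hpw q Y Q ε kap hq hY hYk hQ hQr hH hcap hε he1 he2 hkap, hl⟩

/-- **`ProfileCal` for `n ≥ 384` from the pointwise half.** -/
theorem profileCal_of_pw {m : ℕ} (hm : 382 ≤ m) (hpw : LargePw m) : ProfileCal m :=
  LargeN.profileCal_of_leaf (by omega) (leaf_of_pw hm hpw)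

end Vale.Agent.P237.Cal
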