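import Vale.Agent.P237.Cal.BoxFrame
import Vale.Agent.P237.Cal.Coords
import Vale.Agent.P237.Cal.CapRange
import Vale.Agent.P237.Cal.ScalarFlatHsc

/-!
# P237: the calibration for `n ≥ 100` from one pointwise leaf

The fields are `gFlat` with `kap = (1 - Y^(-k))/2`, the linear coefficient `kFlat`, the shapes
`shP, shS, shU` with `c₀ = 9ε/(5√n)`, `c₁ = 6ε√n/5`, and no cubic part. `Leaf m` asks for a lower
bound `LB` of the pointwise form whose integral loses less than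
`log q/(3n) + 3 (1 - Y^(-k)) log(Y^k)/(20 n) + 7 (1 - Y^(-k))²/(2n)`, plus `(3/4 - 83/(10 n)) (Q-1)²` where `Q ≥ 1`, against
that of `ellFlat · lo`.
-/

open MeasureTheory Set Real

namespace Vale.Agent.P237.Cal

namespace LargeN

variable {m : ℕ}

/-- `c₀`. -/
noncomputable def c0 (m : ℕ) (ε : ℝ) : ℝ := 9 / 5 * ε / √((m : ℝ) + 2)

/-- `c₁`. -/
noncomputable def c1 (m : ℕ) (ε : ℝ) : ℝ := 6 / 5 * ε * √((m : ℝ) + 2)

/-- The slope-explicit inequality of the rule for `n ≥ 100`. -/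
def Pw (m : ℕ) (ε kap : ℝ) (LB : ℝ → ℝ) (T σ h X : ℝ) : Prop :=
  Pw3 m ε (muT m ε (rr (m + 1))) (aT m ε (rr (m + 1)) 0) (kFlat m ε kap)
    (gFlat m ε kap) (gFlat' m ε kap) (shP m (c0 m ε) (c1 m ε)) (shP' m (c0 m ε) (c1 m ε))
    (fun _ => 0) (fun _ => 0) (shS m (c0 m ε) (c1 m ε)) (shS' m (c0 m ε) (c1 m ε))
    (shU m (c0 m ε) (c1 m ε)) (fun _ => 0) LB T σ h X

/-- The pointwise leaf. -/
def Leaf (m : ℕ) : Prop :=
  ∀ q Y Q ε kap : ℝ, 1 < q → 1 ≤ Y → Y ^ (m + 1) ≤ 2 * ((m : ℝ) + 2) → Q = q / Y ^ (m + 1) →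
    Q ≤ rr (m + 1) ^ (m + 1) → hullTan m Y ≤ q * semiMom m 1 → q * semiMom m 1 ≤ capB m →
    ε = 4 * q ^ (2 / ((m : ℝ) + 2)) / Y ^ 2 → 7 / 2 ≤ ε → ε ≤ 203 / 50 →
    kap = (1 - (Y ^ (m + 1))⁻¹) / 2 →
    ∃ LB : ℝ → ℝ, Continuous LB ∧ IntegrableOn LB (Ioi 0) ∧
      (∀ T σ h X, RegC Y T σ h → XBox m (q * semiMom m 1) Y T σ X →
        Exc m (q * semiMom m 1) Y T σ → Pw m ε kap LB T σ h X) ∧
      ((∫ T in Ioi (0 : ℝ), ellFlat m ε kap (rr (m + 1)) T * loD Y T) -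
          ∫ T in Ioi (0 : ℝ), LB T) / semiMom m 1 <
        Real.log q / (3 * ((m : ℝ) + 2)) +
          3 / 20 / ((m : ℝ) + 2) * ((1 - (Y ^ (m + 1))⁻¹) * (((m : ℝ) + 1) * Real.log Y)) +
          7 / 2 / ((m : ℝ) + 2) * (1 - (Y ^ (m + 1))⁻¹) ^ 2 +
          (3 / 4 - 83 / 10 / ((m : ℝ) + 2)) * max (Q - 1) 0 ^ 2

/-- **`ProfileCal` for `n ≥ 100` from the leaf.** -/
theorem profileCal_of_leaf (hm : 98 ≤ m) (h : Leaf m) : ProfileCal m := by
  refine profileCal_of_coords (fun _ => 4) (fun _ _ => by norm_num)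
    fun q Y ρ Q ε hq hcap hY _ hH2 hQ hQr hε hρ hwρ => ?_
  have hV : 0 < semiMom m 1 := by rw [semiMom_one]; exact mom_zero_pos (m + 2)
  have hYk := Y_pow_le (by omega : 6 ≤ m) hY (by linarith) hcap hH2
  obtain ⟨⟨he1, he2⟩, hs, hs2⟩ := scalar_flat_ge (kap := (1 - (Y ^ (m + 1))⁻¹) / 2) hm hY hYk hq.le
    hQ hQr hε rfl
  obtain ⟨LB, hLBc, hLBi, hpw, hloss⟩ := h q Y Q ε ((1 - (Y ^ (m + 1))⁻¹) / 2) hq hY hYk hQ hQr
    hH2 (qV_le_capB hcap) hε he1 he2 rfl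
  obtain ⟨tP, tS⟩ := shX_tendsto (c₀ := c0 m ε) (c₁ := c1 m ε) (by omega : 1 ≤ m)
  have hr : 0 < rr (m + 1) := div_pos (mom_zero_pos _) (mom_zero_pos _)
  refine isCalY_of_field (Q := Q) (uinf := shU m (c0 m ε) (c1 m ε) 0) (by omega) hY (by positivity)
    hwρ ?_ hLBc hLBi continuous_gFlat continuous_shP continuous_const continuous_shS
    (continuous_const : Continuous (shU m (c0 m ε) (c1 m ε))) (fun T _ => hasDerivAt_gFlat T)
    (fun T _ => hasDerivAt_shP T) (fun T _ => hasDerivAt_const T 0)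
    (fun T _ => hasDerivAt_shS T) (fun T _ => hasDerivAt_const T _)
    (tendsto_gFlat (by omega)) tP (by simp [tendsto_const_nhds]) tS tendsto_const_nhds
    gFlat_zero.ge shP_zero.ge le_rfl hpw (by rw [hQ]; field_simp) ?_
  · unfold muT
    exact div_nonneg (mul_nonneg (by positivity) (by linarith)) (by positivity)
  · have hU := mul_le_mul_of_nonneg_right
      (shU_le hm (by linarith : (0 : ℝ) ≤ ε) he2 (c₀ := c0 m ε) (c₁ := c1 m ε) rfl rfl 0)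
      (sq_nonneg (Q - 1))
    rw [sub_div] at hloss
    rcases le_or_gt 1 Q with h1 | h1
    · have hs2 := hs2 h1
      rw [max_eq_left (by linarith : 0 ≤ Q - 1)] at hloss
      have e : (3 / 4 + 137 / 10 / ((m : ℝ) + 2)) * (Q - 1) ^ 2 = 22 / ((m : ℝ) + 2) * (Q - 1) ^ 2 +
          (3 / 4 - 83 / 10 / ((m : ℝ) + 2)) * (Q - 1) ^ 2 := by ring
      simp only [scalarLin] at hs2
      rw [e] at hs2
      generalize (Q - 1) ^ 2 = x2 at hs2 hloss hU ⊢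
      linarith only [hs2, hloss, hU]
    · rw [max_eq_right (by linarith : Q - 1 ≤ 0), zero_pow two_ne_zero, mul_zero, add_zero] at hloss
      simp only [scalarLin] at hs
      linarith

end LargeN

end Vale.Agent.P237.Cal
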