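import Vale.Agent.P237.Cal.Final
import Vale.Agent.P237.Cal.LargeCal
import Vale.Agent.P237.Uniform.Main
import Vale.Agent.P237.ProdStatement

/-!
# P237: the sharp step in dimensions `n ≥ 383`

The step from dimension `n` to `n + 1` keeps every factor `a ≤ 1`, so the best constant never
decreases from `n = 383` on.
-/

open MeasureTheory Set Metric Real
open scoped RealInnerProductSpace Pointwise

namespace Vale.Agent.P237.Cal.LargeStep

open Exact Full Uniform

/-- A minimiser under a scaled bound one dimension below. -/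
lemma symm_min_scaled {j : ℕ} {a : ℝ} (ha0 : 0 < a) (ha1 : a ≤ 1) (hlow : PettyWith a j)
    (hP : StepProp (j + 1)) {Z : Set (E (j + 3))} (hZ : Cen Z) (hs : ∀ x ∈ Z, -x ∈ Z)
    (hmin : Full.IsMin Z) : a * petty (j + 1) ≤ ratio Z := by
  obtain ⟨T, P, hPL⟩ := exists_position (m := j + 1) hZ hs
  have hratio : ratio P.L = ratio Z := by rw [hPL]; exact ratio_image T hZ.toBody
  have hLmin : Full.IsMin P.L := fun K h1 h2 => hratio ▸ hmin K h1 h2
  have hκ : 0 < Statement.ballVol (j + 1 + 1) := ballVol_pos (j + 1)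
  have hpj : 0 < petty j := by
    rw [petty]; exact div_pos (pow_pos (ballVol_pos j) _) (pow_pos (ballVol_pos (j + 1)) _)
  have hc : 0 < a * petty j := mul_pos ha0 hpj
  have key : ∀ k, a * petty j * P.mom k (j + 1) ^ (j + 1 + 1) ≤
      ratio P.L * P.mom k (j + 1 + 1) ^ (j + 1) := fun k => by
    have hcl := ratio_mul_eq P.cen (symm_min_structure P.cen P.symm hLmin) (P.u k)
    have hsh := shadow_int (m := j + 1) (by omega) hc.le hlow P.cen.toBody ⟨0, P.cen.int⟩ (P.F k)
    rw [← hcl, P.supp_eq k, mul_one, P.slice_integral (Nat.succ_ne_zero j), P.volume_eq k,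
      mul_pow] at hsh
    refine le_of_mul_le_mul_left ?_ (pow_pos hκ (j + 1))
    linarith
  by_contra hlt
  have hlt' := not_le.1 hlt
  rw [← hratio] at hlt'
  obtain ⟨k, hk⟩ := hP P fun k => by
    refine le_of_mul_le_mul_left ((key k).trans ?_) hc
    refine le_trans (mul_le_mul_of_nonneg_right hlt'.le (pow_nonneg (P.mom_nonneg k _) _))
      (le_of_eq ?_)
    rw [petty_succ_eq]
    ring
  rw [P.eq_ball hk, ratio_unit_ball] at hlt'
  have := mul_le_of_le_one_left (Uniform.petty_nonneg (j + 1)) ha1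
  linarith

/-- **The step keeps the factor.** -/
theorem pettyWith_step {j : ℕ} {a : ℝ} (ha0 : 0 < a) (ha1 : a ≤ 1) (hlow : PettyWith a j)
    (hP : StepProp (j + 1)) : PettyWith a (j + 1) := by
  intro K hK hi
  obtain ⟨Z, hZ, hs, hmin, -⟩ := exists_symm_minimiser (j + 1)
  have h := (symm_min_scaled ha0 ha1 hlow hP hZ hs hmin).trans (hmin K hK hi)
  have hV : 0 < (volume K).toReal := ENNReal.toReal_pos
    ((isOpen_interior.measure_pos volume hi).trans_le (measure_mono interior_subset)).ne'
    hK.cpt.measure_lt_top.ne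
  rwa [ratio, show j + 1 + 2 - 1 = j + 1 + 1 by omega, le_div_iff₀ (pow_pos hV _)] at h

/-- The step for `n ≥ 383`. -/
theorem stepProp_large {j : ℕ} (hj : 381 ≤ j) : StepProp (j + 1) :=
  stepProp_of_profileCal (by omega) (profileCal_large (by omega))

/-- A factor valid in dimension `j + 2 ≥ 383` is valid above. -/
theorem pettyWith_mono {j : ℕ} {a : ℝ} (hj : 381 ≤ j) (ha0 : 0 < a) (ha1 : a ≤ 1)
    (h : PettyWith a j) : ∀ i, PettyWith a (j + i)
  | 0 => h
  | i + 1 => pettyWith_step ha0 ha1 (pettyWith_mono hj ha0 ha1 h i)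
      (stepProp_large (le_trans hj (Nat.le_add_right j i)))

/-- The factor from dimension four. -/
noncomputable def facFour (j : ℕ) : ℝ := exp (-(5 / 8) * (1 / 3 - 1 / ((j : ℝ) + 3)))

/-- From dimension four the losses start at the fifth. -/
theorem pettyWith_four : ∀ j, PettyWith (facFour j) (j + 2)
  | 0 => fun K hK hi => by
    have h := pettyBound_two K hK hi
    have e : facFour 0 = 1 := by norm_num [facFour]
    rwa [e, one_mul]
  | j + 1 => by
    have h := pettyWith_succ (Real.exp_pos _).le (pettyWith_four j)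
      (profile_lemma (m := j + 2 + 1) (by omega))
    have e : exp (-(5 / 8) * (1 / 3 - 1 / ((j : ℝ) + 3))) * rate (j + 2 + 1) = facFour (j + 1) := by
      rw [facFour, rate, ← exp_add]
      congr 1
      push_cast
      field_simp
      ring
    rwa [e] at h

/-- The constant of every dimension. -/
noncomputable def cAll : ℝ := exp (-(5 / 8) * (1 / 3 - 1 / 382))

lemma cAll_bounds : 81 / 100 ≤ cAll ∧ cAll ≤ 1 := by
  refine ⟨?_, exp_le_one_iff.2 (by norm_num)⟩
  have h : cAll = (exp ((5 / 8) * (1 / 3 - 1 / 382)))⁻¹ := by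
    rw [cAll, ← exp_neg]; congr 1; ring
  rw [h, le_inv_comm₀ (by norm_num) (exp_pos _)]
  refine (exp_bound' (by norm_num) (by norm_num) (n := 6) (by norm_num)).trans ?_
  norm_num [Finset.sum_range_succ, Nat.factorial]

lemma pettyWith_weaken {j : ℕ} {a b : ℝ} (hba : b ≤ a) (h : PettyWith a j) : PettyWith b j :=
  fun K hK hi => le_trans (mul_le_mul_of_nonneg_right
    (mul_le_mul_of_nonneg_right hba (Uniform.petty_nonneg j)) (pow_nonneg ENNReal.toReal_nonneg _))
    (h K hK hi)

/-- One factor for every dimension `≥ 4`. -/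
theorem pettyWith_all (j : ℕ) : PettyWith cAll (j + 2) := by
  rcases le_or_gt j 379 with hj | hj
  · refine pettyWith_weaken (exp_le_exp.2 ?_) (pettyWith_four j)
    have h1 : (1 : ℝ) / 382 ≤ 1 / ((j : ℝ) + 3) := by
      refine one_div_le_one_div_of_le (by positivity) ?_
      have : (j : ℝ) ≤ 379 := by exact_mod_cast hj
      linarith
    linarith
  · obtain ⟨i, rfl⟩ : ∃ i, j = 379 + i := ⟨j - 379, by omega⟩
    have h0 : PettyWith cAll 381 := by
      have h := pettyWith_four 379
      have e : facFour 379 = cAll := by rw [facFour, cAll]; norm_num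
      rw [e] at h
      exact h
    rw [show 379 + i + 2 = 381 + i by omega]
    exact pettyWith_mono le_rfl (exp_pos _) cAll_bounds.2 h0 i

open Statement

/-- The inequality with factor `a` in dimension `n`. -/
def Ineq (a : ℝ) (n : ℕ) : Prop :=
  ∀ K : Set (Space n), IsConvexBody K →
    a * pettyConst n * vol K ^ (n - 1) ≤ vol (projectionBody K)

lemma ineq_iff (a : ℝ) (j : ℕ) : Ineq a (j + 2) ↔ PettyWith a j := by
  refine ⟨fun h K hK hi => ?_, fun h K hK => ?_⟩
  · have := h K ⟨hK.conv, hK.cpt, hi⟩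
    rw [projectionBody_eq, vol, vol] at this
    exact this
  · obtain ⟨hc, hk, hi⟩ := hK
    rw [projectionBody_eq, vol, vol]
    exact h K ⟨hc, hk⟩ hi

/-- A factor in one dimension `≥ 383` holds in every higher one. -/
theorem ineq_mono {n N : ℕ} {a : ℝ} (hn : 383 ≤ n) (hN : n ≤ N) (ha0 : 0 < a) (ha1 : a ≤ 1)
    (h : Ineq a n) : Ineq a N := by
  obtain ⟨j, rfl⟩ : ∃ j, n = j + 2 := ⟨n - 2, by omega⟩
  obtain ⟨i, rfl⟩ : ∃ i, N = j + i + 2 := ⟨N - j - 2, by omega⟩
  rw [ineq_iff] at h ⊢
  exact pettyWith_mono (by omega) ha0 ha1 h i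

/-- The inequality with the equality case, one dimension above. -/
theorem equality_step {n : ℕ} (hn : 383 ≤ n) (h : Ineq 1 n) (K : Set (Space (n + 1)))
    (hK : IsConvexBody K) :
    pettyConst (n + 1) * vol K ^ n ≤ vol (projectionBody K) ∧
      (vol (projectionBody K) = pettyConst (n + 1) * vol K ^ n ↔
        ∃ (a : Space (n + 1)) (T : Space (n + 1) →ₗ[ℝ] Space (n + 1)),
          Function.Injective T ∧ K = (fun x => a + T x) '' closedBall 0 1) := by
  obtain ⟨j, rfl⟩ : ∃ j, n = j + 2 := ⟨n - 2, by omega⟩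
  rw [ineq_iff] at h
  have hlow : PettyBound j := fun L hL hLi => by simpa using h L hL hLi
  obtain ⟨hc, hk, hi⟩ := hK
  obtain ⟨h1, heq⟩ := Exact.petty_step hlow (stepProp_large (by omega)) ⟨hc, hk⟩ hi
  have hV : 0 < (volume K).toReal := ENNReal.toReal_pos
    ((isOpen_interior.measure_pos volume hi).trans_le (measure_mono interior_subset)).ne'
    hk.measure_lt_top.ne
  have hp : petty (j + 1) = pettyConst (j + 2 + 1) := rfl
  rw [projectionBody_eq, vol, vol]
  rw [ratio, show j + 3 - 1 = j + 2 from rfl, hp] at h1 heq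
  rw [le_div_iff₀ (pow_pos hV _)] at h1
  rw [div_eq_iff (pow_pos hV _).ne'] at heq
  refine ⟨h1, heq.trans (exists_congr fun a => exists_congr fun T => and_congr_right fun _ => ?_)⟩
  rw [← image_vadd, image_image]
  rfl

/-- One factor in every dimension. -/
theorem ineq_all {n : ℕ} (hn : 3 ≤ n) : Ineq cAll n := by
  obtain ⟨j, rfl⟩ : ∃ j, n = j + 2 := ⟨n - 2, by omega⟩
  rw [ineq_iff]
  rcases j with - | - | j
  · omega
  · exact pettyWith_weaken cAll_bounds.2 Uniform.pettyWith_three
  · exact pettyWith_all j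

end Vale.Agent.P237.Cal.LargeStep
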