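import Vale.Agent.P237.Cal.XRange
import Vale.Agent.P237.Cal.ShapeX
import Vale.Agent.P237.Cal.Fields

/-!
# P237: closed bounds on the centred state

With `d = Y² - 1`, `k = m + 1`: `X₀ - XL ≤ k d T/2` and `≤ k T³/3`; the state at most `Q V₀ - V₀/Y^k`
above `X₀`, and at most `k T³/6` above it where `σ ≤ T`. Also the quotient `S/pre`.
-/

open MeasureTheory Set Real intervalIntegral

namespace Vale.Agent.P237.Cal

variable {m : ℕ} {V Y T σ X : ℝ}

lemma muX_nonneg {u : ℝ} (hu : 0 ≤ u) : 0 ≤ muX m u := by unfold muX; positivity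

lemma muX_le {u : ℝ} (hu : 0 ≤ u) : muX m u ≤ ((m : ℝ) + 1) * u := by
  unfold muX
  exact div_le_self (by positivity) (one_le_pow₀ (one_le_w u))

lemma sqrt_low_le (hY : 1 ≤ Y) {u : ℝ} (hu : 0 ≤ u) : √(1 + u ^ 2 - Y ^ 2) ≤ u := by
  rw [sqrt_le_left hu]
  linarith [one_le_pow₀ (n := 2) hY]

/-- The least state is nonnegative. -/
lemma XL_nonneg (hT : 0 ≤ T) : 0 ≤ XL m Y T :=
  integral_nonneg hT fun u hu => mul_nonneg (muX_nonneg hu.1) (sqrt_nonneg _)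

/-- The least state is below the state of the ball. -/
lemma XL_le_X0 (hY : 1 ≤ Y) (hT : 0 ≤ T) : XL m Y T ≤ X0 m T := by
  rw [← sub_nonpos, XL_sub_X0]
  rw [← neg_nonneg, ← intervalIntegral.integral_neg]
  refine integral_nonneg hT fun u hu => neg_nonneg.2 ?_
  exact mul_nonpos_of_nonneg_of_nonpos (muX_nonneg hu.1) (sub_nonpos.2 (sqrt_low_le hY hu.1))

/-- The state of the ball is at most `k T³/3`. -/
lemma X0_le_cube (hT : 0 ≤ T) : X0 m T ≤ ((m : ℝ) + 1) * T ^ 3 / 3 := by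
  calc X0 m T ≤ ∫ u in (0 : ℝ)..T, ((m : ℝ) + 1) * u ^ 2 :=
        integral_mono_on hT (((mom_continuous 2 (m + 4)).const_mul _).intervalIntegrable _ _)
          (Continuous.intervalIntegrable (by fun_prop) _ _) fun u _ =>
          mul_le_mul_of_nonneg_left (div_le_self (sq_nonneg u) (one_le_pow₀ (one_le_w u)))
            (by positivity)
    _ = _ := by rw [intervalIntegral.integral_const_mul, integral_pow]; norm_num; ring

/-- `T³ - P³ ≤ (3/2) d T` when `T² - P² ≤ d`. -/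
lemma cube_gap {d P : ℝ} (hP : 0 ≤ P) (hPT : P ≤ T) (hd : T ^ 2 - P ^ 2 ≤ d) :
    T ^ 3 - P ^ 3 ≤ 3 / 2 * d * T := by
  have hT : 0 ≤ T := hP.trans hPT
  have h1 : (T ^ 2 + T * P + P ^ 2) * (T - P) ≤ 3 / 2 * ((T + P) * T) * (T - P) := by
    refine mul_le_mul_of_nonneg_right ?_ (sub_nonneg.2 hPT)
    linarith [mul_le_mul_of_nonneg_left hPT hP, mul_le_mul_of_nonneg_right hPT hT]
  have h2 := mul_le_mul_of_nonneg_right hd hT
  linarith

/-- The integral of `u (u - √(u² - d))` in closed form. -/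
lemma integral_low_plain (hY : 1 ≤ Y) (hT : 0 ≤ T) :
    ∫ u in (0 : ℝ)..T, u * (u - √(1 + u ^ 2 - Y ^ 2)) =
      (T ^ 3 - √(1 + T ^ 2 - Y ^ 2) ^ 3) / 3 := by
  set c := √(Y ^ 2 - 1) with hc
  have hd : 0 ≤ Y ^ 2 - 1 := by linarith [one_le_pow₀ (n := 2) hY]
  have hc0 : 0 ≤ c := sqrt_nonneg _
  have hcont : Continuous fun u : ℝ => u * (u - √(1 + u ^ 2 - Y ^ 2)) := by fun_prop
  have key : ∀ a b : ℝ, 0 ≤ a → a ≤ b → (b ≤ c ∨ c ≤ a) →
      ∫ u in a..b, u * (u - √(1 + u ^ 2 - Y ^ 2)) =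
        (b ^ 3 - √(1 + b ^ 2 - Y ^ 2) ^ 3) / 3 - (a ^ 3 - √(1 + a ^ 2 - Y ^ 2) ^ 3) / 3 := by
    intro a b ha hab hcase
    refine integral_eq_sub_of_hasDerivAt_of_le hab (Continuous.continuousOn (by fun_prop))
      (f := fun u : ℝ => (u ^ 3 - √(1 + u ^ 2 - Y ^ 2) ^ 3) / 3) (fun u hu => ?_)
      (hcont.intervalIntegrable _ _)
    have hu0 : 0 ≤ u := ha.trans hu.1.le
    rcases hcase with h | h
    · have hlt : u < c := hu.2.trans_le h
      have hu2 : 1 + u ^ 2 - Y ^ 2 < 0 := by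
        have := pow_lt_pow_left₀ hlt hu0 two_ne_zero
        rw [hc, sq_sqrt hd] at this
        linarith
      have hz : (fun v : ℝ => (v ^ 3 - √(1 + v ^ 2 - Y ^ 2) ^ 3) / 3) =ᶠ[nhds u]
          fun v => v ^ 3 / 3 := by
        have hev : ∀ᶠ v in nhds u, 1 + v ^ 2 - Y ^ 2 < 0 :=
          ContinuousAt.eventually_lt (by fun_prop) continuousAt_const hu2
        filter_upwards [hev] with v hv
        simp [sqrt_eq_zero'.2 hv.le]
      refine (((hasDerivAt_pow 3 u).div_const 3).congr_of_eventuallyEq hz).congr_deriv ?_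
      rw [sqrt_eq_zero'.2 hu2.le]
      norm_num
      ring
    · have hlt : c < u := h.trans_lt hu.1
      have hu2 : 0 < 1 + u ^ 2 - Y ^ 2 := by
        have := pow_lt_pow_left₀ hlt hc0 two_ne_zero
        rw [hc, sq_sqrt hd] at this
        linarith
      have hs := ((((hasDerivAt_pow 2 u).const_add 1).sub_const (Y ^ 2)).sqrt hu2.ne').fun_pow 3
      refine (((hasDerivAt_pow 3 u).fun_sub hs).div_const 3).congr_deriv ?_
      have hP : √(1 + u ^ 2 - Y ^ 2) ≠ 0 := (sqrt_pos.2 hu2).ne'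
      norm_num
      field_simp
  have h0 : √(1 + (0 : ℝ) ^ 2 - Y ^ 2) = 0 := sqrt_eq_zero'.2 (by linarith)
  rcases le_total T c with h | h
  · rw [key 0 T le_rfl hT (Or.inl h), h0]
    ring
  · rw [← integral_add_adjacent_intervals (hcont.intervalIntegrable 0 c)
      (hcont.intervalIntegrable c T), key 0 c le_rfl hc0 (Or.inl le_rfl),
      key c T hc0 h (Or.inr le_rfl), h0]
    ring

/-- **The least state, linear bound.** -/
theorem X0_sub_XL_le (hY : 1 ≤ Y) (hT : 0 ≤ T) :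
    X0 m T - XL m Y T ≤ ((m : ℝ) + 1) * (Y ^ 2 - 1) * T / 2 := by
  have hd : 0 ≤ Y ^ 2 - 1 := by linarith [one_le_pow₀ (n := 2) hY]
  have h1 : X0 m T - XL m Y T ≤
      ∫ u in (0 : ℝ)..T, ((m : ℝ) + 1) * (u * (u - √(1 + u ^ 2 - Y ^ 2))) := by
    rw [← neg_sub, XL_sub_X0, ← intervalIntegral.integral_neg]
    refine integral_mono_on hT ((continuous_muX.mul (by fun_prop)).neg.intervalIntegrable _ _)
      (Continuous.intervalIntegrable (by fun_prop) _ _) fun u hu => ?_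
    have := mul_le_mul_of_nonneg_right (muX_le (m := m) hu.1)
      (sub_nonneg.2 (sqrt_low_le hY hu.1))
    linarith
  refine h1.trans ?_
  rw [intervalIntegral.integral_const_mul, integral_low_plain hY hT, mul_assoc, mul_div_assoc]
  refine mul_le_mul_of_nonneg_left ?_ (by positivity)
  have h2 := cube_gap (T := T) (d := Y ^ 2 - 1) (sqrt_nonneg (1 + T ^ 2 - Y ^ 2))
    (sqrt_low_le hY hT) (by
      rcases le_total 0 (1 + T ^ 2 - Y ^ 2) with h | h
      · rw [sq_sqrt h]; linarith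
      · rw [sqrt_eq_zero'.2 h]; linarith)
  linarith

/-- **The least state, cubic bound.** -/
theorem X0_sub_XL_le_cube (hT : 0 ≤ T) : X0 m T - XL m Y T ≤ ((m : ℝ) + 1) * T ^ 3 / 3 := by
  linarith [X0_le_cube (m := m) hT, XL_nonneg (m := m) (Y := Y) hT]

/-- **The state from above by the moment.** -/
theorem Xc_le_high (hY : 1 ≤ Y) (hT : 0 ≤ T) (hB : XBox m V Y T σ X) :
    X - X0 m T ≤ (V - semiMom m 1) / Y ^ (m + 1) := by
  linarith [hB.high, XL_le_X0 (m := m) hY hT]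

/-- `(T/W)(1 - W^(-k)) - X₀ ≤ k T³/6`. -/
lemma top_sub_X0_le (hm : 1 ≤ m) (hT : 0 ≤ T) :
    T / √(1 + T ^ 2) * (1 - (√(1 + T ^ 2) ^ (m + 1))⁻¹) - X0 m T ≤
      ((m : ℝ) + 1) * T ^ 3 / 6 := by
  set F := fun u : ℝ =>
    u * (1 / √(1 + u ^ 2) ^ 1 - 1 / √(1 + u ^ 2) ^ (m + 2)) - X0 m u -
      ((m : ℝ) + 1) * u ^ 3 / 6 with hF
  have hd : ∀ u : ℝ, HasDerivAt F
      ((1 / √(1 + u ^ 2) ^ 1 - 1 / √(1 + u ^ 2) ^ (m + 2)) +
        u * (-((1 : ℕ) * (u / √(1 + u ^ 2) ^ (1 + 2))) -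
          -(((m + 2 : ℕ) : ℝ) * (u / √(1 + u ^ 2) ^ (m + 2 + 2)))) - muX m u * u -
        ((m : ℝ) + 1) * u ^ 2 / 2) u := fun u => by
    refine ((((hasDerivAt_id u).fun_mul ((hasDerivAt_w_inv 1 u).fun_sub
      (hasDerivAt_w_inv (m + 2) u))).fun_sub (hasDerivAt_X0 u)).fun_sub
      (((hasDerivAt_pow 3 u).const_mul ((m : ℝ) + 1)).div_const 6)).congr_deriv ?_
    simp only [id_eq]
    push_cast
    ring
  have hanti : AntitoneOn F (Ici 0) := by
    refine antitoneOn_of_hasDerivWithinAt_nonpos (convex_Ici 0)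
      (fun u _ => (hd u).continuousAt.continuousWithinAt) (fun u _ => (hd u).hasDerivWithinAt)
      fun u hu => ?_
    rw [interior_Ici] at hu
    have hu0 : 0 ≤ u := le_of_lt hu
    have hW := w_pos u
    have hW1 := one_le_w u
    have hW2 := w_sq u
    simp only [muX, show m + 2 + 2 = m + 4 from rfl, show 1 + 2 = 3 from rfl]
    push_cast
    set W := √(1 + u ^ 2)
    obtain ⟨j, rfl⟩ : ∃ j, m = j + 1 := ⟨m - 1, by omega⟩
    have hb := one_sub_pow_le (b := 1 / W) (by positivity) ((div_le_one hW).2 hW1) j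
    have h2 : 1 - (1 / W) ^ 2 ≤ u ^ 2 := by
      rw [div_pow, one_pow, hW2, one_sub_div (by positivity), div_le_iff₀ (by positivity)]
      nlinarith
    have e : (1 / W ^ 1 - 1 / W ^ (j + 1 + 2)) +
        u * (-(1 * (u / W ^ 3)) - -((((j : ℝ) + 1) + 2) * (u / W ^ (j + 1 + 4)))) -
        (((j : ℝ) + 1) + 1) * u / W ^ (j + 1 + 4) * u - (((j : ℝ) + 1) + 1) * u ^ 2 / 2 =
        (1 / W) ^ 3 * (1 - (1 / W) ^ (j + 2)) - ((j : ℝ) + 2) * u ^ 2 / 2 := by
      rw [div_pow, div_pow, one_pow, one_pow, show j + 1 + 4 = j + 2 + 3 by omega,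
        show j + 1 + 2 = j + 2 + 1 by omega, pow_add W (j + 2) 3, pow_add W (j + 2) 1, pow_one,
        show W ^ 3 = (1 + u ^ 2) * W by rw [← hW2]; ring]
      field_simp
      ring
    push_cast
    rw [e, sub_nonpos]
    have h0 : 0 ≤ 1 - (1 / W) ^ (j + 2) :=
      sub_nonneg.2 (pow_le_one₀ (by positivity) ((div_le_one hW).2 hW1))
    refine (mul_le_of_le_one_left h0
      (pow_le_one₀ (by positivity) ((div_le_one hW).2 hW1))).trans (hb.trans ?_)
    have h3 := mul_le_mul_of_nonneg_left h2 (show (0 : ℝ) ≤ ((j : ℝ) + 2) / 2 by positivity)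
    linarith
  have h := hanti self_mem_Ici hT hT
  simp only [hF, X0_zero] at h
  have e : T / √(1 + T ^ 2) * (1 - (√(1 + T ^ 2) ^ (m + 1))⁻¹) =
      T * (1 / √(1 + T ^ 2) ^ 1 - 1 / √(1 + T ^ 2) ^ (m + 2)) := by
    have := w_pos T
    rw [pow_succ _ (m + 1), pow_one]
    field_simp
  linarith

/-- **The state from above where `σ ≤ T`.** -/
theorem Xc_le_cube (hm : 1 ≤ m) (hT : 0 ≤ T) (hσ : σ ≤ T) (hB : XBox m V Y T σ X) :
    X - X0 m T ≤ ((m : ℝ) + 1) * T ^ 3 / 6 := by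
  have hW := w_pos T
  have h1 : σ / √(1 + T ^ 2) * (1 - (√(1 + T ^ 2) ^ (m + 1))⁻¹) ≤
      T / √(1 + T ^ 2) * (1 - (√(1 + T ^ 2) ^ (m + 1))⁻¹) := by
    refine mul_le_mul_of_nonneg_right (div_le_div_of_nonneg_right hσ hW.le) ?_
    rw [sub_nonneg, inv_le_one_iff₀]
    exact Or.inr (one_le_pow₀ (one_le_w T))
  linarith [hB.top, top_sub_X0_le hm hT]

/-- The quotient of `S` by the prefactor. -/
lemma shS_div_pre {c₀ c₁ : ℝ} (hT : T ≠ 0) :
    shS m c₀ c₁ T / pre m T = shUM m c₀ c₁ * (1 + T ^ 2) / (((m : ℝ) + 1) * T ^ 2) := by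
  have := w_pos T
  have : ((m : ℝ) + 1) ≠ 0 := by positivity
  rw [shS, pre, show m + 4 = m + 2 + 2 from rfl, pow_add _ (m + 2) 2, w_sq]
  field_simp

/-- **The state part of the coefficient of `h - 1`, from below.** -/
theorem stateG_low {c₀ c₁ : ℝ} (hY : 1 ≤ Y) (hT : 0 < T) (hU : 0 ≤ shUM m c₀ c₁)
    (hB : XBox m V Y T σ X) :
    -(shUM m c₀ c₁ * (1 + T ^ 2) * min ((Y ^ 2 - 1) / T) (2 * T / 3)) ≤
      2 * shS m c₀ c₁ T * (X - X0 m T) / pre m T := by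
  have hk : (0 : ℝ) < (m : ℝ) + 1 := by positivity
  rw [show 2 * shS m c₀ c₁ T * (X - X0 m T) / pre m T =
    2 * (shS m c₀ c₁ T / pre m T) * (X - X0 m T) by ring, shS_div_pre hT.ne']
  have h1 : -(X - X0 m T) ≤ ((m : ℝ) + 1) * T ^ 2 / 2 * min ((Y ^ 2 - 1) / T) (2 * T / 3) := by
    rw [mul_min_of_nonneg _ _ (by positivity), le_min_iff]
    have a := X0_sub_XL_le (m := m) hY hT.le
    have b := X0_sub_XL_le_cube (m := m) (Y := Y) hT.le
    have e1 : ((m : ℝ) + 1) * T ^ 2 / 2 * ((Y ^ 2 - 1) / T) =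
        ((m : ℝ) + 1) * (Y ^ 2 - 1) * T / 2 := by field_simp
    have e2 : ((m : ℝ) + 1) * T ^ 2 / 2 * (2 * T / 3) = ((m : ℝ) + 1) * T ^ 3 / 3 := by ring
    constructor
    · linarith [hB.low]
    · linarith [hB.low]
  have h2 := mul_le_mul_of_nonneg_left h1
    (show 0 ≤ 2 * (shUM m c₀ c₁ * (1 + T ^ 2) / (((m : ℝ) + 1) * T ^ 2)) by positivity)
  have e : 2 * (shUM m c₀ c₁ * (1 + T ^ 2) / (((m : ℝ) + 1) * T ^ 2)) *
      (((m : ℝ) + 1) * T ^ 2 / 2 * min ((Y ^ 2 - 1) / T) (2 * T / 3)) =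
      shUM m c₀ c₁ * (1 + T ^ 2) * min ((Y ^ 2 - 1) / T) (2 * T / 3) := by field_simp
  rw [e] at h2
  linarith

/-- **The state part of the coefficient of `h - 1`, from above where `σ ≤ T`.** -/
theorem stateG_high {c₀ c₁ : ℝ} (hm : 1 ≤ m) (hY : 1 ≤ Y) (hT : 0 < T) (hσ : σ ≤ T)
    (hU : 0 ≤ shUM m c₀ c₁) (hB : XBox m V Y T σ X) :
    2 * shS m c₀ c₁ T * (X - X0 m T) / pre m T ≤
      shUM m c₀ c₁ * (1 + T ^ 2) *
        min (T / 3) (2 * ((V - semiMom m 1) / Y ^ (m + 1)) / (((m : ℝ) + 1) * T ^ 2)) := by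
  have hk : (0 : ℝ) < (m : ℝ) + 1 := by positivity
  rw [show 2 * shS m c₀ c₁ T * (X - X0 m T) / pre m T =
    2 * (shS m c₀ c₁ T / pre m T) * (X - X0 m T) by ring, shS_div_pre hT.ne']
  have h1 : X - X0 m T ≤ ((m : ℝ) + 1) * T ^ 2 / 2 *
      min (T / 3) (2 * ((V - semiMom m 1) / Y ^ (m + 1)) / (((m : ℝ) + 1) * T ^ 2)) := by
    rw [mul_min_of_nonneg _ _ (by positivity), le_min_iff]
    have e1 : ((m : ℝ) + 1) * T ^ 2 / 2 * (2 * ((V - semiMom m 1) / Y ^ (m + 1)) /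
        (((m : ℝ) + 1) * T ^ 2)) = (V - semiMom m 1) / Y ^ (m + 1) := by field_simp
    constructor
    · linarith [Xc_le_cube hm hT.le hσ hB]
    · linarith [Xc_le_high hY hT.le hB]
  have h2 := mul_le_mul_of_nonneg_left h1
    (show 0 ≤ 2 * (shUM m c₀ c₁ * (1 + T ^ 2) / (((m : ℝ) + 1) * T ^ 2)) by positivity)
  refine h2.trans (le_of_eq ?_)
  field_simp

end Vale.Agent.P237.Cal
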