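import Vale.Agent.P237.Cal.PosX
import Vale.Agent.P237.Cal.StateG

/-!
# P237: the state from above on the side `σ ≥ T`, absorbed into the quadratic field

`2 (X - X₀)/(k T²) ≤ φ D + T/3` with `φ = 1/(W (1 + k s/4))`. So the coefficient
`g + 2 S (X - X₀)/pre` is `G' + 2 δ D` with `G' ≤ g + UM W² min(T/3, A/T²)` and
`0 ≤ δ ≤ 2 UM W/(4 + k s)`, and the shifted field `P/pre + δ` stays below `-(4/5) ε/√n`.
-/

open Real Set

namespace Vale.Agent.P237.Cal

variable {m : ℕ} {V Y T σ X : ℝ}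

/-- `(2 - x) eˣ ≤ 2 + x` for `x ≥ 0`. -/
lemma pade_exp_le {x : ℝ} (hx : 0 ≤ x) : (2 - x) * exp x ≤ 2 + x := by
  have hd : ∀ t : ℝ, HasDerivAt (fun t => 2 + t - (2 - t) * exp t) (1 - (1 - t) * exp t) t :=
    fun t => (((hasDerivAt_id t).const_add (2 : ℝ)).fun_sub
      (((hasDerivAt_id t).const_sub (2 : ℝ)).fun_mul (hasDerivAt_exp t))).congr_deriv
      (by simp only [id_eq]; ring)
  have hmono : MonotoneOn (fun t => 2 + t - (2 - t) * exp t) (Ici 0) := by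
    refine monotoneOn_of_hasDerivWithinAt_nonneg (convex_Ici 0)
      (fun t _ => (hd t).continuousAt.continuousWithinAt) (fun t _ => (hd t).hasDerivWithinAt)
      fun t _ => ?_
    rw [sub_nonneg]
    have h := mul_le_mul_of_nonneg_right (add_one_le_exp (-t)) (exp_pos t).le
    rw [← exp_add, neg_add_cancel, exp_zero] at h
    linarith
  have h := hmono self_mem_Ici hx hx
  simp only [exp_zero, add_zero, sub_zero, mul_one, sub_self] at h
  linarith

/-- `1 - W^(-k) ≤ (k s/2)/(1 + k s/4)`. -/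
lemma one_sub_w_pow_le (k : ℕ) (T : ℝ) :
    1 - (√(1 + T ^ 2) ^ k)⁻¹ ≤ (k : ℝ) * T ^ 2 / 2 / (1 + (k : ℝ) * T ^ 2 / 4) := by
  have hW := w_pos T
  set x := (k : ℝ) * T ^ 2 / 2 with hxdef
  have hx : 0 ≤ x := by positivity
  have hlog : √(1 + T ^ 2) ^ k ≤ exp x := by
    have h1 : √(1 + T ^ 2) ≤ exp (T ^ 2 / 2) := by
      rw [exp_half]
      exact sqrt_le_sqrt (by linarith [add_one_le_exp (T ^ 2)])
    calc √(1 + T ^ 2) ^ k ≤ exp (T ^ 2 / 2) ^ k := pow_le_pow_left₀ hW.le h1 k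
      _ = exp x := by rw [← exp_nat_mul, hxdef]; ring_nf
  have h2 := inv_anti₀ (pow_pos hW k) hlog
  have h3 := pade_exp_le hx
  have h4 : (2 - x) / (2 + x) ≤ (exp x)⁻¹ := by
    rw [div_le_iff₀ (by positivity), inv_mul_eq_div, le_div_iff₀ (exp_pos x)]
    exact h3
  have e : 1 - (2 - x) / (2 + x) = x / (1 + (k : ℝ) * T ^ 2 / 4) := by
    rw [hxdef]; field_simp; ring
  linarith

/-- **The state from above, affine in `D = σ - T`.** -/
theorem Xc_le_shift (hm : 1 ≤ m) (hT : 0 < T) (hσ : T ≤ σ) (hB : XBox m V Y T σ X) :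
    2 * (X - X0 m T) / (((m : ℝ) + 1) * T ^ 2) ≤
      (σ - T) / (√(1 + T ^ 2) * (1 + ((m : ℝ) + 1) * T ^ 2 / 4)) + T / 3 := by
  have hW := w_pos T
  have h0 := top_sub_X0_le hm hT.le
  have h1 := hB.top
  have h2 := one_sub_w_pow_le (m + 1) T
  push_cast at h2
  have hk : (0 : ℝ) < ((m : ℝ) + 1) * T ^ 2 := by positivity
  have h3 := mul_le_mul_of_nonneg_left h2
    (div_nonneg (sub_nonneg.2 hσ) hW.le)
  rw [div_le_iff₀ hk]
  have e : ((σ - T) / (√(1 + T ^ 2) * (1 + ((m : ℝ) + 1) * T ^ 2 / 4)) + T / 3) *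
      (((m : ℝ) + 1) * T ^ 2) =
      2 * ((σ - T) / √(1 + T ^ 2) *
        (((m : ℝ) + 1) * T ^ 2 / 2 / (1 + ((m : ℝ) + 1) * T ^ 2 / 4))) +
        2 * (((m : ℝ) + 1) * T ^ 3 / 6) := by
    field_simp; ring
  have e2 : σ / √(1 + T ^ 2) = T / √(1 + T ^ 2) + (σ - T) / √(1 + T ^ 2) := by ring
  rw [e2, add_mul] at h1
  linarith

/-- The envelope of the state part from above, `A = 2 (V - V₀)/(k Y^k)`. -/
noncomputable def stateUp (m : ℕ) (V Y c₀ c₁ T : ℝ) : ℝ :=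
  shUM m c₀ c₁ * (1 + T ^ 2) *
    min (T / 3) (2 * ((V - semiMom m 1) / Y ^ (m + 1)) / (((m : ℝ) + 1) * T ^ 2))

/-- **The split.** `g + state = G' + 2 δ D`; `G'` is the whole coefficient or the envelope. -/
theorem state_shift {c₀ c₁ g : ℝ} (hm : 1 ≤ m) (hY : 1 ≤ Y) (hT : 0 < T) (hσ : T ≤ σ)
    (hU : 0 ≤ shUM m c₀ c₁) (hB : XBox m V Y T σ X) :
    ∃ δ G' : ℝ, 0 ≤ δ ∧ δ ≤ 2 * shUM m c₀ c₁ * √(1 + T ^ 2) / (4 + ((m : ℝ) + 1) * T ^ 2) ∧
      g + 2 * shS m c₀ c₁ T * (X - X0 m T) / pre m T = G' + 2 * δ * (σ - T) ∧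
      G' ≤ g + stateUp m V Y c₀ c₁ T ∧
      (G' = g + 2 * shS m c₀ c₁ T * (X - X0 m T) / pre m T ∨
        G' = g + stateUp m V Y c₀ c₁ T) := by
  have hW := w_pos T
  set st := 2 * shS m c₀ c₁ T * (X - X0 m T) / pre m T with hst
  set up := stateUp m V Y c₀ c₁ T with hup
  rcases le_or_gt st up with h | h
  · exact ⟨0, g + st, le_rfl, by positivity, by ring, by linarith, .inl rfl⟩
  · have hk : (0 : ℝ) < ((m : ℝ) + 1) * T ^ 2 := by positivity
    have hUW : 0 ≤ shUM m c₀ c₁ * (1 + T ^ 2) := by positivity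
    have est : st = shUM m c₀ c₁ * (1 + T ^ 2) *
        (2 * (X - X0 m T) / (((m : ℝ) + 1) * T ^ 2)) := by
      rw [hst, show 2 * shS m c₀ c₁ T * (X - X0 m T) / pre m T =
        2 * (shS m c₀ c₁ T / pre m T) * (X - X0 m T) by ring, shS_div_pre hT.ne']
      field_simp
    set a := 2 * (X - X0 m T) / (((m : ℝ) + 1) * T ^ 2) with ha
    set B := 2 * ((V - semiMom m 1) / Y ^ (m + 1)) / (((m : ℝ) + 1) * T ^ 2) with hBdef
    have haB : a ≤ B := by
      simp only [ha, hBdef]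
      gcongr
      exact Xc_le_high hY hT.le hB
    have hs := Xc_le_shift hm hT hσ hB
    rw [← ha] at hs
    set φ := 1 / (√(1 + T ^ 2) * (1 + ((m : ℝ) + 1) * T ^ 2 / 4)) with hφ
    have hφ0 : 0 ≤ φ := by positivity
    have hD0 : 0 ≤ σ - T := sub_nonneg.2 hσ
    have hmin : a ≤ min (T / 3) B + φ * (σ - T) := by
      rw [← min_add_add_right, le_min_iff]
      have e : φ * (σ - T) =
          (σ - T) / (√(1 + T ^ 2) * (1 + ((m : ℝ) + 1) * T ^ 2 / 4)) := by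
        rw [hφ]; ring
      exact ⟨by linarith, by linarith [mul_nonneg hφ0 hD0]⟩
    have hgap : st - up ≤ shUM m c₀ c₁ * (1 + T ^ 2) * φ * (σ - T) := by
      rw [est, hup, stateUp, ← hBdef]
      have := mul_le_mul_of_nonneg_left hmin hUW
      linarith
    have hD : 0 < σ - T := by
      rcases hD0.eq_or_lt with h0 | h0
      · rw [← h0, mul_zero] at hgap; linarith
      · exact h0
    refine ⟨(st - up) / (2 * (σ - T)), g + up, div_nonneg (by linarith) (by linarith), ?_, ?_,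
      le_rfl, .inr rfl⟩
    · rw [div_le_iff₀ (by linarith)]
      refine hgap.trans (le_of_eq ?_)
      rw [hφ]
      have hsq := w_sq T
      set W := √(1 + T ^ 2)
      rw [← hsq]
      field_simp
      ring
    · field_simp
      ring

/-- The shifted field from above, `n = m + 2 ≥ 256`. -/
theorem shifted_field_le {ε c₀ c₁ δ : ℝ} (hm : 254 ≤ m) (hε : 0 ≤ ε)
    (hc₀ : c₀ = 9 / 5 * ε / √((m : ℝ) + 2)) (hc₁ : c₁ = 6 / 5 * ε * √((m : ℝ) + 2)) (hT : 0 < T)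
    (hδ : δ ≤ 2 * shUM m c₀ c₁ * √(1 + T ^ 2) / (4 + ((m : ℝ) + 1) * T ^ 2)) :
    shP m c₀ c₁ T / pre m T + δ ≤ -(4 / 5 * ε / √((m : ℝ) + 2)) := by
  have hm' : (254 : ℝ) ≤ (m : ℝ) := by exact_mod_cast hm
  set v := √((m : ℝ) + 2) with hv
  have hv0 : 0 < v := by rw [hv]; positivity
  have hv2 : v ^ 2 = (m : ℝ) + 2 := sq_sqrt (by positivity)
  have hpre : 0 < pre m T := by unfold pre; positivity
  have h0 : 0 ≤ c₀ := by rw [hc₀]; positivity
  have h1 : 0 ≤ c₁ := by rw [hc₁]; positivity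
  have hU : 0 ≤ shUM m c₀ c₁ := by unfold shUM; positivity
  have hP := neg_shP_ge (m := m) h0 h1 T
  have hP' : shP m c₀ c₁ T / pre m T ≤ -(c₁ / ((m : ℝ) + 4) +
      shUM m c₀ c₁ * (1 + T ^ 2) / (2 + ((m : ℝ) + 2) * T ^ 2)) := by
    rw [div_le_iff₀ hpre]; linarith
  have hq : 0 ≤ ε / v := div_nonneg hε hv0.le
  have hc1 : 119 / 100 * (ε / v) ≤ c₁ / ((m : ℝ) + 4) := by
    rw [le_div_iff₀ (by positivity), hc₁,
      show 6 / 5 * ε * v = 6 / 5 * (ε / v) * v ^ 2 by field_simp, hv2]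
    have := mul_le_mul_of_nonneg_left
      (show 119 / 100 * ((m : ℝ) + 4) ≤ 6 / 5 * ((m : ℝ) + 2) by linarith) hq
    linarith
  have hUM : shUM m c₀ c₁ ≤ 21 / 5 * (ε / v) := by
    rw [shUM, hc₀]
    have : 2 * c₁ / ((m : ℝ) + 4) ≤ 12 / 5 * (ε / v) := by
      rw [div_le_iff₀ (by positivity), hc₁,
        show 6 / 5 * ε * v = 6 / 5 * (ε / v) * v ^ 2 by field_simp, hv2]
      have := mul_le_mul_of_nonneg_left
        (show ((m : ℝ) + 2) ≤ (m : ℝ) + 4 by linarith) hq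
      linarith
    have e : 9 / 5 * ε / v = 9 / 5 * (ε / v) := by ring
    linarith
  set s := T ^ 2 with hsdef
  have hs0 : 0 ≤ s := sq_nonneg T
  set z := ((m : ℝ) + 2) * s with hz
  have hz0 : 0 ≤ z := by positivity
  have hA : 0 < 4 + ((m : ℝ) + 1) * s := by positivity
  have hB : 0 < 2 + z := by positivity
  have hb : 2 * √(1 + s) / (4 + ((m : ℝ) + 1) * s) - (1 + s) / (2 + z) ≤ 88 / 1000 := by
    refine le_trans (sub_le_sub_right (div_le_div_of_nonneg_right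
      (mul_le_mul_of_nonneg_left (Real.sqrt_le_iff.2 ⟨by positivity, ?_⟩) zero_le_two) hA.le)
      _) (?_ : 2 * (1 + s) / (4 + ((m : ℝ) + 1) * s) - (1 + s) / (2 + z) ≤ _)
    · nlinarith
    rw [div_sub_div _ _ hA.ne' hB.ne', div_le_iff₀ (mul_pos hA hB), hz]
    have e1 : s ≤ 1 / 256 * z := by
      rw [hz]; linarith [mul_le_mul_of_nonneg_right (by linarith : (256 : ℝ) ≤ (m : ℝ) + 2) hs0]
    have e2 := mul_le_mul_of_nonneg_right e1 hz0
    rw [hz] at e1 e2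
    nlinarith [sq_nonneg (((m : ℝ) + 2) * s - 283 / 100), mul_le_mul_of_nonneg_left e1 hs0]
  have hb' := mul_le_mul_of_nonneg_left hb hU
  have e : 2 * shUM m c₀ c₁ * √(1 + s) / (4 + ((m : ℝ) + 1) * s) -
      shUM m c₀ c₁ * (1 + s) / (2 + z) =
      shUM m c₀ c₁ * (2 * √(1 + s) / (4 + ((m : ℝ) + 1) * s) - (1 + s) / (2 + z)) := by ring
  have e2 : 4 / 5 * ε / v = 4 / 5 * (ε / v) := by ring
  rw [e2]
  linarith

end Vale.Agent.P237.Cal
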