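import Vale.Agent.P237.Cal.EllFlat
import Vale.Agent.P237.Cal.StateShift

/-!
# P237: the terms of the pointwise loss for `n ≥ 384`

The coefficient of `h - 1` without its part in `D` lies in `[gG - negE, gG + stateUp]` on both
sides; every side loses at most `cP z` times its square against the prefactor, `z = n T²`.
-/

open Real

namespace Vale.Agent.P237.Cal

/-- The weight of the square of the coefficient. -/
noncomputable def cP (z : ℝ) : ℝ := 7 / 10 + 3 / 250 * z ^ 2

/-- `gFlat` over the prefactor. -/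
noncomputable def gG (m : ℕ) (ε kap T : ℝ) : ℝ :=
  kap * (1 + ε) * (3 / 2 + 3 / 4 * (((m : ℝ) + 2) * T ^ 2)) / ((m : ℝ) + 2)

/-- The state part from below. -/
noncomputable def negE (m : ℕ) (Y c₀ c₁ T : ℝ) : ℝ :=
  shUM m c₀ c₁ * (1 + T ^ 2) *
    min ((Y ^ 2 - 1) / (T * √(1 + ((m : ℝ) + 2) * T ^ 2 / 3))) (2 * T / 3)

lemma gFlat_div_pre {m : ℕ} {ε kap T : ℝ} (hT : T ≠ 0) :
    gFlat m ε kap T / pre m T = gG m ε kap T := by
  have h : pre m T ≠ 0 := by unfold pre; positivity
  rw [gFlat, mul_div_cancel_left₀ _ h, gG]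

lemma cP_pos (z : ℝ) : 0 < cP z := by unfold cP; positivity

lemma gG_nonneg {m : ℕ} {ε kap T : ℝ} (hε : 0 ≤ 1 + ε) (hk : 0 ≤ kap) :
    0 ≤ gG m ε kap T := by
  unfold gG; positivity

/-- The square of a point of `[g - a, g + b]`. -/
lemma sq_le_envelope {G g a b : ℝ} (h1 : g - a ≤ G) (h2 : G ≤ g + b) :
    G ^ 2 ≤ (g + b) ^ 2 + max (a - g) 0 ^ 2 := by
  rcases le_total 0 G with h | h
  · linarith [pow_le_pow_left₀ h h2 2, sq_nonneg (max (a - g) 0)]
  · have h3 : -G ≤ max (a - g) 0 := le_trans (by linarith) (le_max_left _ _)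
    have := pow_le_pow_left₀ (neg_nonneg.2 h) h3 2
    rw [neg_sq] at this
    linarith [sq_nonneg (g + b)]

end Vale.Agent.P237.Cal
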