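import Vale.Agent.P237.Cal.PosVertex

/-!
# P237: the side `σ ≥ T` behind the tangent multiplier

With a multiplier `b` the two coefficients are `A = (1 + b) - (ε - b) σ² + b η` and
`B = (1 + b) - (ε - b) T² + G - b η (1 + 1/T²)`, `η = Y² - 1`; nothing is lost in the term in h alone.
-/

open Real

namespace Vale.Agent.P237.Cal

/-- The coefficient of `1/h` behind the multiplier `b`. -/
noncomputable def tanA (ε b η σ : ℝ) : ℝ := (1 + b) - (ε - b) * σ ^ 2 + b * η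

/-- The coefficient of `h` behind the multiplier `b`. -/
noncomputable def tanB (ε b η T G : ℝ) : ℝ :=
  (1 + b) - (ε - b) * T ^ 2 + G - b * η * (1 + 1 / T ^ 2)

/-- **Slope-free bound behind the multiplier.** -/
theorem valQ_ge_tan {Y T σ h ε b G : ℝ} (hb : 0 ≤ b) (hR : RegC Y T σ h)
    (hA : 0 ≤ tanA ε b (Y ^ 2 - 1) σ) (hB : 0 ≤ tanB ε b (Y ^ 2 - 1) T G)
    (hAB : 0 < tanA ε b (Y ^ 2 - 1) σ + tanB ε b (Y ^ 2 - 1) T G) :
    -((ε - b) * (σ - T) ^ 2) - 2 * b * (σ - T) / T - b * (Y ^ 2 - 1) / T ^ 2 -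
        (tanB ε b (Y ^ 2 - 1) T G - tanA ε b (Y ^ 2 - 1) σ) ^ 2 /
          (tanA ε b (Y ^ 2 - 1) σ + tanB ε b (Y ^ 2 - 1) T G) ≤
      valQ ε T σ h + G * (h - 1) := by
  have hh := hR.h_pos
  have hT := hR.T_pos
  have h1b : 0 < 1 + b := by linarith
  have h1 := valQ_tangentC (ε := ε) hb hR
  generalize hA' : tanA ε b (Y ^ 2 - 1) σ = A at hA hAB ⊢
  generalize hB' : tanB ε b (Y ^ 2 - 1) T G = B at hB hAB ⊢
  have e : (1 + b) * valQ ((ε - b) / (1 + b)) T σ h - 2 * b * (σ - T) / T -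
      b * (Y ^ 2 - 1) * ((1 + T ^ 2) * h - T ^ 2 / h) / T ^ 2 + G * (h - 1) =
      A / h + B * h - (A + B) - (ε - b) * (σ - T) ^ 2 - 2 * b * (σ - T) / T -
        b * (Y ^ 2 - 1) / T ^ 2 := by
    simp only [← hA', ← hB', tanA, tanB, valQ]
    field_simp
    ring
  have h2 : 2 * √(A * B) ≤ A / h + B * h := two_sqrt_mul_le hA hB hh
  have h3 : -((B - A) ^ 2 / (A + B)) ≤ 2 * √(A * B) - (A + B) := by
    rw [neg_le, le_div_iff₀ hAB, sqrt_mul hA]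
    have ha := sq_sqrt hA
    have hb := sq_sqrt hB
    nlinarith [mul_nonneg (mul_nonneg (sqrt_nonneg A) (sqrt_nonneg B))
      (sq_nonneg (√A - √B))]
  linarith

/-- **One point behind the multiplier**: `a` is the coefficient of `σ - T` in `B - A`. -/
theorem posX_tan {π' l Cw Sl Y T σ h ε b p G₂ C ω a : ℝ} (hπ : 0 ≤ π') (hb : 0 ≤ b)
    (hR : RegC Y T σ h) (hω : 0 < ω) (hC : 0 ≤ C) (hD : 0 < σ - T)
    (hA : 0 ≤ tanA ε b (Y ^ 2 - 1) σ)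
    (hB : 0 ≤ tanB ε b (Y ^ 2 - 1) T (2 * p * (σ - T) + G₂))
    (ha : a = (ε - b) * (σ + T) + 2 * p - b * (Y ^ 2 - 1) * (2 + 1 / T ^ 2) / (σ - T))
    (hN : ω ≤ tanA ε b (Y ^ 2 - 1) σ + tanB ε b (Y ^ 2 - 1) T (2 * p * (σ - T) + G₂))
    (hsq : a ^ 2 ≤ C * (tanA ε b (Y ^ 2 - 1) σ +
      tanB ε b (Y ^ 2 - 1) T (2 * p * (σ - T) + G₂) - ω))
    (hend : π' * (((ε - b) + C) * (σ - T) ^ 2 + 2 * b * (σ - T) / T +
      b * (Y ^ 2 - 1) / T ^ 2) ≤ (σ - T) * l + (σ - T) ^ 2 * Cw + Sl) :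
    ∃ L, L ≤ valQ ε T σ h + (2 * p * (σ - T) + G₂) * (h - 1) ∧
      -(π' * (G₂ ^ 2 / ω)) ≤ π' * L + (σ - T) * l + (σ - T) ^ 2 * Cw + Sl := by
  refine ⟨_, valQ_ge_tan hb hR hA hB (hω.trans_le hN), ?_⟩
  have e : tanB ε b (Y ^ 2 - 1) T (2 * p * (σ - T) + G₂) - tanA ε b (Y ^ 2 - 1) σ =
      a * (σ - T) + G₂ := by
    rw [ha]; simp only [tanA, tanB]
    field_simp
    ring
  rw [e]
  have key := mul_le_mul_of_nonneg_left (engel_split (D := σ - T) (G := G₂) hC hω hN hsq) hπ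
  linarith

end Vale.Agent.P237.Cal
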