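import Vale.Agent.P237.Cal.NegSplit
import Vale.Agent.P237.Cal.PosLow

/-!
# P237: the side `σ ≤ T` for `z = n T² ≤ 16`, `n ≥ 256`

With `c₀ = 9ε/(5√n)`, `c₁ = 6ε√n/5`: the weight of `D²` carries `κ = 6`, so the loss is
`(6/5) G₂²/(7/4 - 2εT²)` over the prefactor, with no remainder.
-/

open Real

namespace Vale.Agent.P237.Cal

variable {m : ℕ}

/-- The first coefficient inequality. -/
lemma negMain_poly1 {τ : ℝ} (h0 : 0 ≤ τ) (h1 : τ ≤ 4) :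
    24 / 250 * (66 / 10 - τ) ^ 2 * τ ≤
      (9 / 5 + 1126 / 1000 * τ ^ 2 - τ) * (7 / 4 - 4 / 125 * τ ^ 2) := by
  rcases le_or_gt τ 2 with h | h
  · nlinarith [mul_nonneg h0 (sub_nonneg.2 h), sq_nonneg (τ - 5 / 4),
      mul_nonneg h0 (sq_nonneg (τ - 5 / 4)), mul_nonneg (sub_nonneg.2 h) (sq_nonneg (τ - 5 / 4))]
  · nlinarith [mul_nonneg (sub_nonneg.2 h.le) (sub_nonneg.2 h1), sq_nonneg (τ - 3),
      mul_nonneg (mul_nonneg (sub_nonneg.2 h.le) (sub_nonneg.2 h1)) h0]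

/-- The second coefficient inequality. -/
lemma negMain_poly2 {τ : ℝ} (h0 : 0 ≤ τ) (h1 : τ ≤ 4) (h14 : 14 / 10 ≤ τ) :
    24 / 250 * (2 * τ - 28 / 10) ^ 2 * τ ≤
      (9 / 5 + 1126 / 1000 * τ ^ 2 - τ) * (7 / 4 - 4 / 125 * τ ^ 2) := by
  nlinarith [mul_nonneg (sub_nonneg.2 h14) (sub_nonneg.2 h1), sq_nonneg (τ - 3),
    mul_nonneg (mul_nonneg (sub_nonneg.2 h14) (sub_nonneg.2 h1)) h0]

/-- **The side `σ ≤ T` for `z ≤ 16`.** -/
theorem negX_main {ε T σ h l ν G₂ lo c₀ c₁ : ℝ} (hm : 254 ≤ m) (hε1 : 7 / 2 ≤ ε)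
    (hε2 : ε ≤ 203 / 50) (hc₀ : c₀ = 9 / 5 * ε / √((m : ℝ) + 2))
    (hc₁ : c₁ = 6 / 5 * ε * √((m : ℝ) + 2)) (hT : 0 < T) (hh : 0 < h) (hσ0 : 0 ≤ σ) (hσ : σ ≤ T)
    (hlo : lo ≤ σ - T) (hz : ((m : ℝ) + 2) * T ^ 2 ≤ 16) (hG : -(1 / 4) ≤ G₂) (hν : 0 ≤ ν)
    (hl : 0 ≤ l + ν) :
    ∃ L, L ≤ valQ ε T σ h + (2 * (shP m c₀ c₁ T / pre m T) * (σ - T) + G₂) * (h - 1) ∧
      -(pre m T * (6 / 5 * G₂ ^ 2 / (7 / 4 - 2 * (ε * T ^ 2)))) + lo * (l + ν) ≤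
        pre m T * L + (σ - T) * l +
          (σ - T) ^ 2 * (shP' m c₀ c₁ T + 2 * muX m T * shS m c₀ c₁ T) := by
  have hm' : (254 : ℝ) ≤ (m : ℝ) := by exact_mod_cast hm
  set v := √((m : ℝ) + 2) with hvdef
  have hv16 : 16 ≤ v := by
    rw [hvdef, le_sqrt (by norm_num) (by linarith)]; norm_num; linarith
  have hv2 : v ^ 2 = (m : ℝ) + 2 := sq_sqrt (by linarith)
  have hε : 0 < ε := by linarith
  have hv0 : 0 < v := by linarith
  have hpre : 0 < pre m T := by unfold pre; positivity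
  set τ := v * T with hτ
  have hτ0 : 0 < τ := mul_pos hv0 hT
  have hτ2 : τ ^ 2 = ((m : ℝ) + 2) * T ^ 2 := by rw [hτ, mul_pow, hv2]
  have hτ4 : τ ≤ 4 := le_of_pow_le_pow_left₀ two_ne_zero (by norm_num) (by rw [hτ2]; linarith)
  have hv256 : 256 ≤ v ^ 2 := by rw [hv2]; linarith
  have hs : T ^ 2 ≤ 65 / 1000 := by
    have := mul_le_mul_of_nonneg_right hv256 (sq_nonneg T)
    rw [hv2] at this
    linarith
  have hεn : ε / v ^ 2 ≤ 4 / 250 := by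
    rw [div_le_iff₀ (by positivity)]; linarith
  have hεs : ε * T ^ 2 ≤ 4 / 250 * τ ^ 2 := by
    rw [show ε * T ^ 2 = ε / v ^ 2 * τ ^ 2 by rw [hτ]; field_simp]
    exact mul_le_mul_of_nonneg_right hεn (sq_nonneg τ)
  have hτ16 : τ ^ 2 ≤ 16 := by rw [hτ2]; exact hz
  have hN0 : 0 < 7 / 4 - 2 * (ε * T ^ 2) := by linarith
  have hp2 := zone0_P (m := m) (T := T) hε.le (by linarith) hv2 hc₀ hc₁ hpre
  have hp1 := low_P (m := m) (T := T) (z1 := 16) hε.le (by linarith) hv2 hc₀ hc₁ hpre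
    (by rw [hv2]; exact hz)
  have hp1' : shP m c₀ c₁ T / pre m T ≤ -(ε * (7 / 5) / v) := by
    refine hp1.trans (neg_le_neg (div_le_div_of_nonneg_right ?_ hv0.le))
    exact mul_le_mul_of_nonneg_left (by norm_num) hε.le
  set M := max (2 * ε * T - 2 * (ε * (7 / 5) / v)) (2 * (33 / 10 * ε / v) - ε * T) with hM
  have hM0 : 0 ≤ M := by
    rcases le_or_gt τ (66 / 10) with h6 | h6
    · refine le_max_of_le_right ?_
      rw [show 2 * (33 / 10 * ε / v) - ε * T = ε / v * (66 / 10 - τ) by rw [hτ]; field_simp; ring]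
      exact mul_nonneg (by positivity) (by linarith)
    · linarith
  -- the coefficient
  have hcoef : ε + 6 * M ^ 2 / (7 / 4 - 2 * (ε * T ^ 2)) ≤
      ε * (9 / (5 * τ) + 1126 / 1000 * τ) := by
    have hr : 0 ≤ 9 / 5 + 1126 / 1000 * τ ^ 2 - τ := by nlinarith [sq_nonneg (τ - 1 / 2)]
    have key : ∀ x : ℝ, 24 / 250 * x ^ 2 * τ ≤
        (9 / 5 + 1126 / 1000 * τ ^ 2 - τ) * (7 / 4 - 4 / 125 * τ ^ 2) → M = ε / v * x →
        ε + 6 * M ^ 2 / (7 / 4 - 2 * (ε * T ^ 2)) ≤ ε * (9 / (5 * τ) + 1126 / 1000 * τ) := by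
      intro x hx hMx
      rw [← le_sub_iff_add_le', div_le_iff₀ hN0, hMx]
      have e : ε * (9 / (5 * τ) + 1126 / 1000 * τ) - ε =
          ε * ((9 / 5 + 1126 / 1000 * τ ^ 2 - τ) / τ) := by field_simp
      rw [e, show 6 * (ε / v * x) ^ 2 = ε * (6 * (ε / v ^ 2) * x ^ 2) by field_simp, mul_assoc ε]
      refine mul_le_mul_of_nonneg_left ?_ hε.le
      rw [div_mul_eq_mul_div, le_div_iff₀ hτ0]
      have h1 := mul_le_mul_of_nonneg_right hεn (mul_nonneg (sq_nonneg x) hτ0.le)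
      have h2 := mul_le_mul_of_nonneg_left
        (show 7 / 4 - 4 / 125 * τ ^ 2 ≤ 7 / 4 - 2 * (ε * T ^ 2) by linarith) hr
      linarith
    rcases max_choice (2 * ε * T - 2 * (ε * (7 / 5) / v)) (2 * (33 / 10 * ε / v) - ε * T) with h' | h'
    · have e1 : 2 * ε * T - 2 * (ε * (7 / 5) / v) = ε / v * (2 * τ - 28 / 10) := by
        rw [hτ]; field_simp; ring
      refine key (2 * τ - 28 / 10) (negMain_poly2 hτ0.le hτ4 ?_) (h'.trans e1)
      have h3 : 0 ≤ ε / v * (2 * τ - 28 / 10) := by rw [← e1, ← h', ← hM]; exact hM0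
      have := nonneg_of_mul_nonneg_right h3 (by positivity : 0 < ε / v)
      linarith
    · refine key (66 / 10 - τ) (negMain_poly1 hτ0.le hτ4) (h'.trans ?_)
      rw [hτ]; field_simp; ring
  have hK : pre m T * (ε + 6 * M ^ 2 / (7 / 4 - 2 * (ε * T ^ 2))) ≤
      shP' m c₀ c₁ T + 2 * muX m T * shS m c₀ c₁ T + 0 := by
    rw [add_zero, shP'_add]
    have hmu : muX m T * (c₀ + c₁ * (T ^ 2 / √(1 + T ^ 2) ^ 2)) =
        pre m T * ((c₀ + c₁ * (T ^ 2 / √(1 + T ^ 2) ^ 2)) / T) := by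
      simp only [muX, pre]; field_simp
    rw [hmu]
    exact mul_le_mul_of_nonneg_left (hcoef.trans (zone0_C hε.le hv0 hT hc₀ hc₁ hs)) hpre.le
  obtain ⟨L, hL, hle⟩ := negX_zone' (κ := 6) (Pl := ε * (7 / 5) / v) (Ph := 33 / 10 * ε / v)
    (gl := 1 / 4) (M := M) (N := 7 / 4 - 2 * (ε * T ^ 2)) (R := 0) hpre.le hh hε.le (by norm_num)
    hσ0 hσ hlo (by linarith) hp1' (by positivity) hp2 hG (le_max_left _ _) (le_max_right _ _)
    hN0 (by linarith) (by linarith) hν hl le_rfl hK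
  refine ⟨L, hL, le_trans (le_of_eq ?_) hle⟩
  norm_num

end Vale.Agent.P237.Cal
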