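import Vale.Agent.P237.Cal.MinTail
import Vale.Agent.P237.Cal.MinInt
import Vale.Agent.P237.Cal.ChordTight

/-!
# P237: the weighted integrals of the square of the state envelope, `n ≥ 96`

With `A = 2 x V₀/k`, `z = n T²` and `i ≤ 1`, `n ∫ pre W⁴ z^i min(T/3, A/T²)² / V₀` is at most
`c₁ x + c₂ x²` as soon as a polynomial inequality in `v = m T₀²/2`, `T₀³ = 3A`, holds (`Cert0`,
`Cert1`). Both inner integrals use super-solutions, both tails the Mills super-solutions.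
-/

open MeasureTheory Set Filter Topology Real

namespace Vale.Agent.P237.Cal

variable {m : ℕ}

/-- Super-solution of `5 P + 2 v P' - 2 v P = 1` on `v ≤ 11/4`. -/
noncomputable def P4 (v : ℝ) : ℝ :=
  (1 + 2 / 7 * v + 4 / 63 * v ^ 2 + 8 / 693 * v ^ 3 + 16 / 9009 * v ^ 4 + 32 / 135135 * v ^ 5 +
    128 / 3108105 * v ^ 6) / 5

/-- Super-solution of `7 P + 2 v P' - 2 v P = 1` on `v ≤ 11/4`. -/
noncomputable def P6 (v : ℝ) : ℝ :=
  (1 + 2 / 9 * v + 4 / 99 * v ^ 2 + 8 / 1287 * v ^ 3 + 16 / 19305 * v ^ 4 + 32 / 328185 * v ^ 5 +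
    128 / 8860995 * v ^ 6) / 7

/-- The lower bound of `W^m`. -/
noncomputable def wB (v : ℝ) : ℝ := ∑ k ∈ Finset.range 11, (Nat.choose 47 k : ℝ) * (v / 47) ^ k

lemma hasDerivAt_poly6 (a₀ a₁ a₂ a₃ a₄ a₅ a₆ c v : ℝ) :
    HasDerivAt (fun x : ℝ => (a₀ + a₁ * x + a₂ * x ^ 2 + a₃ * x ^ 3 + a₄ * x ^ 4 + a₅ * x ^ 5 +
      a₆ * x ^ 6) / c) ((a₁ + 2 * a₂ * v + 3 * a₃ * v ^ 2 + 4 * a₄ * v ^ 3 + 5 * a₅ * v ^ 4 +
      6 * a₆ * v ^ 5) / c) v := by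
  refine ((((((((hasDerivAt_id' v).const_mul a₁).const_add a₀).fun_add
    ((hasDerivAt_pow 2 v).const_mul a₂)).fun_add ((hasDerivAt_pow 3 v).const_mul a₃)).fun_add
    ((hasDerivAt_pow 4 v).const_mul a₄)).fun_add ((hasDerivAt_pow 5 v).const_mul a₅)).fun_add
    ((hasDerivAt_pow 6 v).const_mul a₆)).div_const c |>.congr_deriv ?_
  push_cast
  ring

lemma P4_nonneg {v : ℝ} (hv : 0 ≤ v) : 0 ≤ P4 v := by unfold P4; positivity

lemma P6_nonneg {v : ℝ} (hv : 0 ≤ v) : 0 ≤ P6 v := by unfold P6; positivity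

lemma inner4_le {T : ℝ} (hT : 0 ≤ T) (hv : (m : ℝ) * T ^ 2 / 2 ≤ 11 / 4) :
    ∫ t in (0 : ℝ)..T, t ^ 4 / √(1 + t ^ 2) ^ m ≤
      T ^ 5 / √(1 + T ^ 2) ^ m * P4 ((m : ℝ) * T ^ 2 / 2) := by
  refine inner_le 4 (P := P4) hT (fun v => hasDerivAt_poly6 1 (2 / 7) (4 / 63) (8 / 693)
    (16 / 9009) (32 / 135135) (128 / 3108105) 5 v) (by fun_prop) (fun v => P4_nonneg) ?_
  intro v h0 h1
  have := mul_nonneg (pow_nonneg h0 6) (by linarith : 0 ≤ 11 / 4 - v)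
  unfold P4
  push_cast
  linarith

lemma inner6_le {T : ℝ} (hT : 0 ≤ T) (hv : (m : ℝ) * T ^ 2 / 2 ≤ 11 / 4) :
    ∫ t in (0 : ℝ)..T, t ^ 6 / √(1 + t ^ 2) ^ m ≤
      T ^ 7 / √(1 + T ^ 2) ^ m * P6 ((m : ℝ) * T ^ 2 / 2) := by
  refine inner_le 6 (P := P6) hT (fun v => hasDerivAt_poly6 1 (2 / 9) (4 / 99) (8 / 1287)
    (16 / 19305) (32 / 328185) (128 / 8860995) 7 v) (by fun_prop) (fun v => P6_nonneg) ?_
  intro v h0 h1
  have := mul_nonneg (pow_nonneg h0 6) (by linarith : 0 ≤ 11 / 4 - v)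
  unfold P6
  push_cast
  linarith

/-- An integral on `(0, ∞)` split at `T`. -/
lemma split_le {f gi go : ℝ → ℝ} {T : ℝ} (hT : 0 ≤ T) (hf : ContinuousOn f (Ioi 0))
    (h0 : ∀ t, 0 < t → 0 ≤ f t) (hgi : Continuous gi) (hgo : IntegrableOn go (Ioi T))
    (h1 : ∀ t ∈ Ioc (0 : ℝ) T, f t ≤ gi t) (h2 : ∀ t, T < t → f t ≤ go t) :
    IntegrableOn f (Ioi 0) ∧
      ∫ t in Ioi (0 : ℝ), f t ≤ (∫ t in (0 : ℝ)..T, gi t) + ∫ t in Ioi T, go t := by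
  have g1 : IntegrableOn gi (Ioc 0 T) := hgi.integrableOn_Ioc
  have i1 : IntegrableOn f (Ioc 0 T) := by
    refine g1.mono' ((hf.mono Ioc_subset_Ioi_self).aestronglyMeasurable measurableSet_Ioc) ?_
    filter_upwards [ae_restrict_mem measurableSet_Ioc] with t ht
    rw [norm_of_nonneg (h0 t ht.1)]
    exact h1 t ht
  have i2 : IntegrableOn f (Ioi T) := by
    refine hgo.mono' ((hf.mono (Ioi_subset_Ioi hT)).aestronglyMeasurable measurableSet_Ioi) ?_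
    filter_upwards [ae_restrict_mem measurableSet_Ioi] with t ht
    rw [norm_of_nonneg (h0 t (hT.trans_lt ht))]
    exact h2 t ht
  have hsplit : Ioc (0 : ℝ) T ∪ Ioi T = Ioi 0 := Ioc_union_Ioi_eq_Ioi hT
  refine ⟨hsplit ▸ i1.union i2, ?_⟩
  rw [← hsplit, setIntegral_union Ioc_disjoint_Ioi_same measurableSet_Ioi i1 i2,
    intervalIntegral.integral_of_le hT]
  exact add_le_add (setIntegral_mono_on i1 g1 measurableSet_Ioc h1)
    (setIntegral_mono_on i2 hgo measurableSet_Ioi h2)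

/-- The squared minimum against `pre W⁴`, split at `T₀`. -/
theorem minSq_split0 (hm : 94 ≤ m) {A T₀ : ℝ} (hA : 0 ≤ A) (hT₀ : 0 < T₀)
    (hv : (m : ℝ) * T₀ ^ 2 / 2 ≤ 11 / 4) :
    IntegrableOn (fun T => pre m T * (1 + T ^ 2) ^ 2 * min (T / 3) (A / T ^ 2) ^ 2) (Ioi 0) ∧
      ∫ T in Ioi (0 : ℝ), pre m T * (1 + T ^ 2) ^ 2 * min (T / 3) (A / T ^ 2) ^ 2 ≤
        ((m : ℝ) + 1) / 9 * (T₀ ^ 5 / √(1 + T₀ ^ 2) ^ m * P4 ((m : ℝ) * T₀ ^ 2 / 2)) +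
        ((m : ℝ) + 1) * A ^ 2 * ((1 + T₀ ^ 2) / (T₀ * √(1 + T₀ ^ 2) ^ m) *
          Lt (((m : ℝ) - 1) * T₀ ^ 2)) := by
  obtain ⟨j1, j2⟩ := tail2_le (m := m) (by omega) hT₀
  have hk : (0 : ℝ) ≤ (m : ℝ) + 1 := by positivity
  have hc : ContinuousOn (fun T => pre m T * (1 + T ^ 2) ^ 2 * min (T / 3) (A / T ^ 2) ^ 2)
      (Ioi 0) := by
    refine (continuousOn_minSq m (1 / 3) A).congr fun T _ => ?_
    simp only [one_div, inv_mul_eq_div]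
  refine (split_le
    (gi := fun t => ((m : ℝ) + 1) / 9 * (t ^ 4 / √(1 + t ^ 2) ^ m))
    (go := fun t => ((m : ℝ) + 1) * A ^ 2 * (1 / (t ^ 2 * √(1 + t ^ 2) ^ m)))
    hT₀.le hc ?h0 (continuous_const.mul (mom_continuous 4 m)) (j1.const_mul _) ?h1 ?h2).imp id fun hle => ?main
  case main =>
    refine hle.trans (add_le_add ?_ ?_)
    · rw [intervalIntegral.integral_const_mul]
      exact mul_le_mul_of_nonneg_left (inner4_le hT₀.le hv) (by positivity)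
    · rw [MeasureTheory.integral_const_mul]
      exact mul_le_mul_of_nonneg_left j2 (by positivity)
  case h0 =>
    intro T hT
    rw [pre_mul_w4]
    positivity
  case h1 =>
    intro T hT
    have hT0 : 0 < T := hT.1
    rw [pre_mul_w4]
    calc ((m : ℝ) + 1) * T ^ 2 / √(1 + T ^ 2) ^ m * min (T / 3) (A / T ^ 2) ^ 2
        ≤ ((m : ℝ) + 1) * T ^ 2 / √(1 + T ^ 2) ^ m * (T / 3) ^ 2 := mul_le_mul_of_nonneg_left
          (pow_le_pow_left₀ (le_min (by positivity) (by positivity)) (min_le_left _ _) 2)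
          (by positivity)
      _ = _ := by ring
  case h2 =>
    intro T hT
    have hT0 : 0 < T := hT₀.trans hT
    have := w_pos T
    rw [pre_mul_w4]
    calc ((m : ℝ) + 1) * T ^ 2 / √(1 + T ^ 2) ^ m * min (T / 3) (A / T ^ 2) ^ 2
        ≤ ((m : ℝ) + 1) * T ^ 2 / √(1 + T ^ 2) ^ m * (A / T ^ 2) ^ 2 := mul_le_mul_of_nonneg_left
          (pow_le_pow_left₀ (le_min (by positivity) (by positivity)) (min_le_right _ _) 2)
          (by positivity)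
      _ = _ := by field_simp

/-- The squared minimum against `pre W⁴ T²`, split at `T₀`. -/
theorem minSq_split1 (hm : 94 ≤ m) {A T₀ : ℝ} (hA : 0 ≤ A) (hT₀ : 0 < T₀)
    (hv : (m : ℝ) * T₀ ^ 2 / 2 ≤ 11 / 4) :
    IntegrableOn (fun T => pre m T * (1 + T ^ 2) ^ 2 * (((m : ℝ) + 2) * T ^ 2) *
      min (T / 3) (A / T ^ 2) ^ 2) (Ioi 0) ∧
      ∫ T in Ioi (0 : ℝ), pre m T * (1 + T ^ 2) ^ 2 * (((m : ℝ) + 2) * T ^ 2) *
          min (T / 3) (A / T ^ 2) ^ 2 ≤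
        ((m : ℝ) + 2) * (((m : ℝ) + 1) / 9 *
          (T₀ ^ 7 / √(1 + T₀ ^ 2) ^ m * P6 ((m : ℝ) * T₀ ^ 2 / 2)) +
        ((m : ℝ) + 1) * A ^ 2 * ((1 + T₀ ^ 2) ^ 2 /
          (((m : ℝ) - 3) * (T₀ * √(1 + T₀ ^ 2) ^ m)) * Nt (((m : ℝ) - 3) * T₀ ^ 2))) := by
  obtain ⟨j1, j2⟩ := tail0_le hm hT₀
  have hk : (0 : ℝ) ≤ (m : ℝ) + 1 := by positivity
  have hc : ContinuousOn (fun T => pre m T * (1 + T ^ 2) ^ 2 * (((m : ℝ) + 2) * T ^ 2) *
      min (T / 3) (A / T ^ 2) ^ 2) (Ioi 0) := by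
    refine ((continuousOn_minSq m (1 / 3) A).mul
      (Continuous.continuousOn (by fun_prop : Continuous fun T : ℝ =>
        ((m : ℝ) + 2) * T ^ 2))).congr fun T _ => ?_
    simp only [one_div, inv_mul_eq_div, Pi.mul_apply]
    ring
  refine (split_le
    (gi := fun t => ((m : ℝ) + 2) * (((m : ℝ) + 1) / 9 * (t ^ 6 / √(1 + t ^ 2) ^ m)))
    (go := fun t => ((m : ℝ) + 2) * (((m : ℝ) + 1) * A ^ 2 * (1 / √(1 + t ^ 2) ^ m)))
    hT₀.le hc ?h0 (continuous_const.mul (continuous_const.mul (mom_continuous 6 m)))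
    ((j1.const_mul _).const_mul _) ?h1 ?h2).imp id fun hle => ?main
  case main =>
    refine hle.trans ?_
    rw [intervalIntegral.integral_const_mul, intervalIntegral.integral_const_mul,
      MeasureTheory.integral_const_mul, MeasureTheory.integral_const_mul, ← mul_add]
    refine mul_le_mul_of_nonneg_left (add_le_add ?_ ?_) (by positivity)
    · exact mul_le_mul_of_nonneg_left (inner6_le hT₀.le hv) (by positivity)
    · exact mul_le_mul_of_nonneg_left j2 (by positivity)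
  case h0 =>
    intro T hT
    rw [pre_mul_w4]
    positivity
  case h1 =>
    intro T hT
    have hT0 : 0 < T := hT.1
    rw [pre_mul_w4]
    calc ((m : ℝ) + 1) * T ^ 2 / √(1 + T ^ 2) ^ m * (((m : ℝ) + 2) * T ^ 2) *
          min (T / 3) (A / T ^ 2) ^ 2
        ≤ ((m : ℝ) + 1) * T ^ 2 / √(1 + T ^ 2) ^ m * (((m : ℝ) + 2) * T ^ 2) * (T / 3) ^ 2 :=
          mul_le_mul_of_nonneg_left (pow_le_pow_left₀ (le_min (by positivity) (by positivity))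
            (min_le_left _ _) 2) (by positivity)
      _ = _ := by ring
  case h2 =>
    intro T hT
    have hT0 : 0 < T := hT₀.trans hT
    have := w_pos T
    rw [pre_mul_w4]
    calc ((m : ℝ) + 1) * T ^ 2 / √(1 + T ^ 2) ^ m * (((m : ℝ) + 2) * T ^ 2) *
          min (T / 3) (A / T ^ 2) ^ 2
        ≤ ((m : ℝ) + 1) * T ^ 2 / √(1 + T ^ 2) ^ m * (((m : ℝ) + 2) * T ^ 2) *
            (A / T ^ 2) ^ 2 :=
          mul_le_mul_of_nonneg_left (pow_le_pow_left₀ (le_min (by positivity) (by positivity))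
            (min_le_right _ _) 2) (by positivity)
      _ = _ := by field_simp

/-- `wB v ≤ W^m` at `v = m T²/2`. -/
lemma wB_le (hm : 94 ≤ m) (T : ℝ) : wB ((m : ℝ) * T ^ 2 / 2) ≤ √(1 + T ^ 2) ^ m := by
  have hm' : (94 : ℝ) ≤ (m : ℝ) := by exact_mod_cast hm
  set v := (m : ℝ) * T ^ 2 / 2 with hv
  have hv0 : 0 ≤ v := by positivity
  have h1 : wB v ≤ (1 + v / 47) ^ 47 := by
    rw [add_comm (1 : ℝ), add_pow, wB]
    refine le_trans (le_of_eq ?_) (Finset.sum_le_sum_of_subset_of_nonneg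
      (Finset.range_mono (by norm_num : 11 ≤ 47 + 1)) fun i _ _ => by positivity)
    refine Finset.sum_congr rfl fun i _ => ?_
    ring
  have h2 : 1 + v / 47 ≤ (1 + T ^ 2) ^ ((m : ℝ) / 94) := by
    refine le_trans (le_of_eq ?_) (one_add_mul_self_le_rpow_one_add
      (by linarith [sq_nonneg T]) (by linarith : (1 : ℝ) ≤ (m : ℝ) / 94))
    rw [hv]; ring
  refine h1.trans ((pow_le_pow_left₀ (by positivity) h2 47).trans (le_of_eq ?_))
  rw [sqrt_eq_rpow, ← rpow_natCast _ 47, ← rpow_natCast _ m, ← rpow_mul (by positivity),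
    ← rpow_mul (by positivity)]
  congr 1
  push_cast
  ring

lemma wB_pos {v : ℝ} (hv : 0 ≤ v) : 0 < wB v :=
  Finset.sum_pos' (fun i _ => by positivity) ⟨0, by simp, by simp⟩

lemma Lt_antitone {a b : ℝ} (ha : 0 ≤ a) (hab : a ≤ b) : Lt b ≤ Lt a := by
  have h : AntitoneOn Lt (Ici 0) := by
    choose d hd hd0 _ using fun y : {y : ℝ // 0 ≤ y} => Lt_deriv y.2
    refine antitoneOn_of_hasDerivWithinAt_nonpos (convex_Ici 0) (f' := fun y =>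
      if hy : 0 ≤ y then d ⟨y, hy⟩ else 0) (fun y hy =>
      (hd ⟨y, hy⟩).continuousAt.continuousWithinAt) ?_ ?_
    · intro y hy
      rw [interior_Ici] at hy
      simp only [dif_pos (le_of_lt (mem_Ioi.1 hy))]
      exact (hd _).hasDerivWithinAt
    · intro y hy
      rw [interior_Ici] at hy
      simp only [dif_pos (le_of_lt (mem_Ioi.1 hy))]
      exact hd0 _
  exact h ha (ha.trans hab) hab

lemma Nt_monotone {a b : ℝ} (ha : 0 ≤ a) (hab : a ≤ b) : Nt a ≤ Nt b := by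
  unfold Nt
  have hb := ha.trans hab
  rw [div_le_div_iff₀ (by positivity) (by positivity)]
  have := mul_le_mul_of_nonneg_left hab (by positivity : 0 ≤ a * b + 7 * a + 7 * b + 55)
  linarith

/-- The polynomial inequality behind `minUp_sq0`. -/
def Cert0 (c₁ c₂ u₀ : ℝ) : Prop :=
  ∀ v, 0 ≤ v → v ≤ 11 / 4 →
    2 / 3 * (96 / 47) * v * (P4 v + (1 + v / 47) * Lt (93 / 47 * v)) ≤
      (c₁ + c₂ * (1315 / 10000 * (3 * u₀ * v - u₀ ^ 3 / 2))) * wB v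

/-- The polynomial inequality behind `minUp_sq1`. -/
def Cert1 (c₁ c₂ u₀ : ℝ) : Prop :=
  ∀ v, 0 ≤ v → v ≤ 11 / 4 →
    2 / 3 * (96 / 47) * v *
        (96 / 47 * v * P6 v + 96 / 91 * ((1 + v / 47) ^ 2 * Nt (2 * v))) ≤
      (c₁ + c₂ * (1315 / 10000 * (3 * u₀ * v - u₀ ^ 3 / 2))) * wB v

/-- The place of the split against `x`. -/
lemma split_rel (hm : 94 ≤ m) {x T₀ u₀ : ℝ} (hx0 : 0 ≤ x) (hT₀ : 0 < T₀) (hu₀ : 0 ≤ u₀)
    (hkT : ((m : ℝ) + 1) * T₀ ^ 3 = 6 * (x * semiMom m 1)) :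
    1315 / 10000 * (3 * u₀ * ((m : ℝ) * T₀ ^ 2 / 2) - u₀ ^ 3 / 2) ≤ x ∧
      (x ≤ 83 / 50 → (m : ℝ) * T₀ ^ 2 / 2 ≤ 11 / 4) := by
  have hm' : (94 : ℝ) ≤ (m : ℝ) := by exact_mod_cast hm
  have hVn := sqrt_mul_semiMom_le m
  set v := √((m : ℝ) + 2) with hv
  have hv0 : 0 < v := by positivity
  have hv2 : v ^ 2 = (m : ℝ) + 2 := sq_sqrt (by positivity)
  set u := v * T₀ with hu
  have hu0 : 0 ≤ u := by positivity
  have hu2 : u ^ 2 = ((m : ℝ) + 2) * T₀ ^ 2 := by rw [hu, mul_pow, hv2]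
  have hk0 : (0 : ℝ) < (m : ℝ) + 1 := by positivity
  have h1 : u ^ 3 * ((m : ℝ) + 1) = ((m : ℝ) + 2) * (6 * (x * (v * semiMom m 1))) := by
    rw [hu, mul_pow, show v ^ 3 = v ^ 2 * v by ring, hv2]
    linear_combination ((m : ℝ) + 2) * v * hkT
  have h2 : ((m : ℝ) + 2) * (6 * (x * (v * semiMom m 1))) ≤
      ((m : ℝ) + 2) * (6 * (x * (12534 / 10000))) := by
    gcongr
  have hu3 : 95 / 96 * u ^ 3 ≤ 6 * (12534 / 10000) * x := by
    refine le_of_mul_le_mul_left ?_ hk0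
    have hux : 0 ≤ x * ((m : ℝ) - 94) := mul_nonneg hx0 (by linarith)
    linarith
  have hms : (m : ℝ) * T₀ ^ 2 ≤ u ^ 2 := by
    rw [hu2]; exact mul_le_mul_of_nonneg_right (by linarith) (sq_nonneg _)
  constructor
  · have ha : 3 / 2 * u₀ * u ^ 2 - u₀ ^ 3 / 2 ≤ u ^ 3 := by
      have := mul_nonneg (sq_nonneg (u - u₀)) (by linarith : 0 ≤ 2 * u + u₀)
      linarith
    have hb := mul_le_mul_of_nonneg_left hms hu₀
    have hu3' : 0 ≤ u ^ 3 := pow_nonneg hu0 3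
    linarith
  · intro hx1
    by_contra hc
    push Not at hc
    have h3 : u ^ 3 ≤ 12625 / 1000 := by linarith
    have h4 := pow_le_pow_left₀ (pow_nonneg hu0 3) h3 2
    have h5 := pow_le_pow_left₀ (by norm_num) (by linarith : (11 : ℝ) / 2 ≤ u ^ 2) 3
    ring_nf at h4 h5
    linarith

/-- Without excess the envelope vanishes. -/
lemma min_zero_of {A : ℝ} (hA : A = 0) {T : ℝ} (hT : 0 < T) :
    min (T / 3) (A / T ^ 2) = 0 := by
  rw [hA, zero_div, min_eq_right (by positivity)]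

/-- **The state envelope, weight `1`.** -/
theorem minUp_sq0 (hm : 94 ≤ m) {x A c₁ c₂ u₀ : ℝ} (hx0 : 0 ≤ x) (hx1 : x ≤ 83 / 50)
    (hA : A = 2 * (x * semiMom m 1) / ((m : ℝ) + 1)) (hu₀ : 0 ≤ u₀) (hc₂ : 0 ≤ c₂)
    (hcert : Cert0 c₁ c₂ u₀) :
    IntegrableOn (fun T => pre m T * (1 + T ^ 2) ^ 2 * min (T / 3) (A / T ^ 2) ^ 2) (Ioi 0) ∧
      ((m : ℝ) + 2) * ((∫ T in Ioi (0 : ℝ), pre m T * (1 + T ^ 2) ^ 2 *
        min (T / 3) (A / T ^ 2) ^ 2) / semiMom m 1) ≤ c₁ * x + c₂ * x ^ 2 := by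
  have hm' : (94 : ℝ) ≤ (m : ℝ) := by exact_mod_cast hm
  have hV : 0 < semiMom m 1 := by rw [semiMom_one]; exact mom_zero_pos (m + 2)
  rcases hx0.eq_or_lt with h | hxp
  · have hA0 : A = 0 := by rw [hA, ← h]; simp
    have hz : ∀ T ∈ Ioi (0 : ℝ),
        pre m T * (1 + T ^ 2) ^ 2 * min (T / 3) (A / T ^ 2) ^ 2 = 0 := fun T hT => by
      rw [min_zero_of hA0 hT]; ring
    refine ⟨integrableOn_zero.congr_fun (fun T hT => (hz T hT).symm) measurableSet_Ioi, ?_⟩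
    rw [setIntegral_congr_fun measurableSet_Ioi hz, ← h]
    simp
  have hk0 : (0 : ℝ) < (m : ℝ) + 1 := by positivity
  have hA0 : 0 < A := by rw [hA]; positivity
  set T₀ := (3 * A) ^ ((1 : ℝ) / 3) with hT₀def
  have hT₀ : 0 < T₀ := rpow_pos_of_pos (by positivity) _
  have hT3 : T₀ ^ 3 = 3 * A := by
    rw [hT₀def, ← rpow_natCast, ← rpow_mul (by positivity)]
    norm_num
  have hkT : ((m : ℝ) + 1) * T₀ ^ 3 = 6 * (x * semiMom m 1) := by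
    rw [hT3, hA]; field_simp; ring
  obtain ⟨hline, hvmax⟩ := split_rel hm hx0 hT₀ hu₀ hkT
  have hv1 := hvmax hx1
  obtain ⟨hi, hle⟩ := minSq_split0 hm hA0.le hT₀ hv1
  refine ⟨hi, ?_⟩
  refine (mul_le_mul_of_nonneg_left (div_le_div_of_nonneg_right hle hV.le)
    (by positivity : (0 : ℝ) ≤ (m : ℝ) + 2)).trans ?_
  set v := (m : ℝ) * T₀ ^ 2 / 2 with hv
  set W := √(1 + T₀ ^ 2) ^ m with hW
  have hW0 : 0 < W := pow_pos (w_pos _) _
  have hv0 : 0 ≤ v := by positivity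
  set L := Lt (((m : ℝ) - 1) * T₀ ^ 2) with hL
  have hA3 : A = T₀ ^ 3 / 3 := by linarith
  have e : ((m : ℝ) + 2) * ((((m : ℝ) + 1) / 9 * (T₀ ^ 5 / W * P4 v) +
      ((m : ℝ) + 1) * A ^ 2 * ((1 + T₀ ^ 2) / (T₀ * W) * L)) / semiMom m 1) =
      x * (2 / 3 * (((m : ℝ) + 2) * T₀ ^ 2) * (P4 v + (1 + T₀ ^ 2) * L) / W) := by
    rw [hA3]
    field_simp
    linear_combination 9 * (P4 v + (1 + T₀ ^ 2) * L) * hkT
  rw [e]
  have hc := hcert v hv0 hv1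
  have hB := wB_le hm T₀
  have hB0 := wB_pos hv0
  rw [← hv, ← hW] at hB
  have hz : ((m : ℝ) + 2) * T₀ ^ 2 ≤ 96 / 47 * v := by
    rw [hv]
    have := mul_le_mul_of_nonneg_right
      (by linarith : (m : ℝ) + 2 ≤ 48 / 47 * (m : ℝ)) (sq_nonneg T₀)
    linarith
  have hs : 1 + T₀ ^ 2 ≤ 1 + v / 47 := by
    rw [hv]
    have := mul_le_mul_of_nonneg_right hm' (sq_nonneg T₀)
    linarith
  have hLle : L ≤ Lt (93 / 47 * v) := by
    refine Lt_antitone (by positivity) ?_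
    rw [hv]
    have := mul_le_mul_of_nonneg_right hm' (sq_nonneg T₀)
    linarith
  have hL0 : 0 ≤ L := (Lt_bounds (mul_nonneg (by linarith) (sq_nonneg _))).1
  have hP := P4_nonneg hv0
  have hnum : 2 / 3 * (((m : ℝ) + 2) * T₀ ^ 2) * (P4 v + (1 + T₀ ^ 2) * L) ≤
      2 / 3 * (96 / 47 * v) * (P4 v + (1 + v / 47) * Lt (93 / 47 * v)) := by
    gcongr
  set R := c₁ + c₂ * (1315 / 10000 * (3 * u₀ * v - u₀ ^ 3 / 2)) with hR
  have hlhs0 : 0 ≤ 2 / 3 * (96 / 47) * v * (P4 v + (1 + v / 47) * Lt (93 / 47 * v)) := by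
    have := (Lt_bounds (by positivity : (0 : ℝ) ≤ 93 / 47 * v)).1
    positivity
  have hR0 : 0 ≤ R := nonneg_of_mul_nonneg_left (hlhs0.trans hc) hB0
  have hf : 2 / 3 * (((m : ℝ) + 2) * T₀ ^ 2) * (P4 v + (1 + T₀ ^ 2) * L) / W ≤ R := by
    rw [div_le_iff₀ hW0]
    refine le_trans ?_ (mul_le_mul_of_nonneg_left hB hR0)
    linarith
  refine (mul_le_mul_of_nonneg_left hf hx0).trans ?_
  have := mul_le_mul_of_nonneg_left (mul_le_mul_of_nonneg_left hline hc₂) hx0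
  rw [hR]
  linarith

/-- **The state envelope, weight `z = n T²`.** -/
theorem minUp_sq1 (hm : 94 ≤ m) {x A c₁ c₂ u₀ : ℝ} (hx0 : 0 ≤ x) (hx1 : x ≤ 83 / 50)
    (hA : A = 2 * (x * semiMom m 1) / ((m : ℝ) + 1)) (hu₀ : 0 ≤ u₀) (hc₂ : 0 ≤ c₂)
    (hcert : Cert1 c₁ c₂ u₀) :
    IntegrableOn (fun T => pre m T * (1 + T ^ 2) ^ 2 * (((m : ℝ) + 2) * T ^ 2) *
      min (T / 3) (A / T ^ 2) ^ 2) (Ioi 0) ∧
      ((m : ℝ) + 2) * ((∫ T in Ioi (0 : ℝ), pre m T * (1 + T ^ 2) ^ 2 *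
        (((m : ℝ) + 2) * T ^ 2) * min (T / 3) (A / T ^ 2) ^ 2) / semiMom m 1) ≤
        c₁ * x + c₂ * x ^ 2 := by
  have hm' : (94 : ℝ) ≤ (m : ℝ) := by exact_mod_cast hm
  have hV : 0 < semiMom m 1 := by rw [semiMom_one]; exact mom_zero_pos (m + 2)
  rcases hx0.eq_or_lt with h | hxp
  · have hA0 : A = 0 := by rw [hA, ← h]; simp
    have hz : ∀ T ∈ Ioi (0 : ℝ), pre m T * (1 + T ^ 2) ^ 2 * (((m : ℝ) + 2) * T ^ 2) *
        min (T / 3) (A / T ^ 2) ^ 2 = 0 := fun T hT => by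
      rw [min_zero_of hA0 hT]; ring
    refine ⟨integrableOn_zero.congr_fun (fun T hT => (hz T hT).symm) measurableSet_Ioi, ?_⟩
    rw [setIntegral_congr_fun measurableSet_Ioi hz, ← h]
    simp
  have hk0 : (0 : ℝ) < (m : ℝ) + 1 := by positivity
  have hA0 : 0 < A := by rw [hA]; positivity
  set T₀ := (3 * A) ^ ((1 : ℝ) / 3) with hT₀def
  have hT₀ : 0 < T₀ := rpow_pos_of_pos (by positivity) _
  have hT3 : T₀ ^ 3 = 3 * A := by
    rw [hT₀def, ← rpow_natCast, ← rpow_mul (by positivity)]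
    norm_num
  have hkT : ((m : ℝ) + 1) * T₀ ^ 3 = 6 * (x * semiMom m 1) := by
    rw [hT3, hA]; field_simp; ring
  obtain ⟨hline, hvmax⟩ := split_rel hm hx0 hT₀ hu₀ hkT
  have hv1 := hvmax hx1
  obtain ⟨hi, hle⟩ := minSq_split1 hm hA0.le hT₀ hv1
  refine ⟨hi, ?_⟩
  refine (mul_le_mul_of_nonneg_left (div_le_div_of_nonneg_right hle hV.le)
    (by positivity : (0 : ℝ) ≤ (m : ℝ) + 2)).trans ?_
  set v := (m : ℝ) * T₀ ^ 2 / 2 with hv
  set W := √(1 + T₀ ^ 2) ^ m with hW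
  have hW0 : 0 < W := pow_pos (w_pos _) _
  have hv0 : 0 ≤ v := by positivity
  set N := Nt (((m : ℝ) - 3) * T₀ ^ 2) with hN
  set z := ((m : ℝ) + 2) * T₀ ^ 2 with hzdef
  have hK : 0 < (m : ℝ) - 3 := by linarith
  have hA3 : A = T₀ ^ 3 / 3 := by linarith
  have e : ((m : ℝ) + 2) * (((m : ℝ) + 2) * (((m : ℝ) + 1) / 9 * (T₀ ^ 7 / W * P6 v) +
      ((m : ℝ) + 1) * A ^ 2 * ((1 + T₀ ^ 2) ^ 2 / (((m : ℝ) - 3) * (T₀ * W)) * N)) /
        semiMom m 1) =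
      x * (2 / 3 * z * (z * P6 v +
        ((m : ℝ) + 2) / ((m : ℝ) - 3) * ((1 + T₀ ^ 2) ^ 2 * N)) / W) := by
    rw [hA3, hzdef]
    field_simp
    linear_combination 9 * (((m : ℝ) - 3) * T₀ ^ 2 * P6 v + (1 + T₀ ^ 2) ^ 2 * N) * hkT
  rw [e]
  have hc := hcert v hv0 hv1
  have hB := wB_le hm T₀
  have hB0 := wB_pos hv0
  rw [← hv, ← hW] at hB
  have hz : z ≤ 96 / 47 * v := by
    rw [hzdef, hv]
    have := mul_le_mul_of_nonneg_right
      (by linarith : (m : ℝ) + 2 ≤ 48 / 47 * (m : ℝ)) (sq_nonneg T₀)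
    linarith
  have hz0 : 0 ≤ z := by positivity
  have hs : 1 + T₀ ^ 2 ≤ 1 + v / 47 := by
    rw [hv]
    have := mul_le_mul_of_nonneg_right hm' (sq_nonneg T₀)
    linarith
  have hq : ((m : ℝ) + 2) / ((m : ℝ) - 3) ≤ 96 / 91 := by
    rw [div_le_iff₀ hK]; linarith
  have hNle : N ≤ Nt (2 * v) := by
    refine Nt_monotone (mul_nonneg hK.le (sq_nonneg _)) ?_
    rw [hv]
    linarith [sq_nonneg T₀]
  have hN0 : 0 ≤ N := (Nt_bounds (mul_nonneg hK.le (sq_nonneg _))).1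
  have hP := P6_nonneg hv0
  have hnum : 2 / 3 * z * (z * P6 v + ((m : ℝ) + 2) / ((m : ℝ) - 3) *
      ((1 + T₀ ^ 2) ^ 2 * N)) ≤ 2 / 3 * (96 / 47 * v) *
      (96 / 47 * v * P6 v + 96 / 91 * ((1 + v / 47) ^ 2 * Nt (2 * v))) := by
    gcongr
  set R := c₁ + c₂ * (1315 / 10000 * (3 * u₀ * v - u₀ ^ 3 / 2)) with hR
  have hlhs0 : 0 ≤ 2 / 3 * (96 / 47) * v *
      (96 / 47 * v * P6 v + 96 / 91 * ((1 + v / 47) ^ 2 * Nt (2 * v))) := by
    have := (Nt_bounds (by positivity : (0 : ℝ) ≤ 2 * v)).1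
    positivity
  have hR0 : 0 ≤ R := nonneg_of_mul_nonneg_left (hlhs0.trans hc) hB0
  have hf : 2 / 3 * z * (z * P6 v + ((m : ℝ) + 2) / ((m : ℝ) - 3) *
      ((1 + T₀ ^ 2) ^ 2 * N)) / W ≤ R := by
    rw [div_le_iff₀ hW0]
    refine le_trans ?_ (mul_le_mul_of_nonneg_left hB hR0)
    linarith
  refine (mul_le_mul_of_nonneg_left hf hx0).trans ?_
  have := mul_le_mul_of_nonneg_left (mul_le_mul_of_nonneg_left hline hc₂) hx0
  rw [hR]
  linarith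

end Vale.Agent.P237.Cal
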