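import Vale.Agent.P237.Cal.Moments

/-!
# P237: primitives for the moments of `W^(-m)` split at a point

On `[0, T]` a polynomial super-solution `P` of `(a+1) P + 2 v P' - 2 v P = 1`, `v = m T²/2`, gives
`∫₀ᵀ t^a/W^m ≤ T^(a+1) P(v)/W^m`. Beyond `T` the rational super-solutions `Lt`, `Nt` of the
Mills equation give the tails of `W^(-m)/t²` and of `W^(-m)`.
-/

open MeasureTheory Set Filter Topology Real

namespace Vale.Agent.P237.Cal

variable {m : ℕ}

/-- The bound from a super-solution on `[0, T]`. -/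
theorem inner_le (a : ℕ) {P P' : ℝ → ℝ} {T : ℝ} (hT : 0 ≤ T)
    (hP : ∀ v, HasDerivAt P (P' v) v) (hP' : Continuous P')
    (hnn : ∀ v, 0 ≤ v → 0 ≤ P v)
    (h : ∀ v, 0 ≤ v → v ≤ (m : ℝ) * T ^ 2 / 2 →
      1 ≤ ((a : ℝ) + 1) * P v + 2 * v * P' v - 2 * v * P v) :
    ∫ t in (0 : ℝ)..T, t ^ a / √(1 + t ^ 2) ^ m ≤
      T ^ (a + 1) / √(1 + T ^ 2) ^ m * P ((m : ℝ) * T ^ 2 / 2) := by
  have hPc : Continuous P := continuous_iff_continuousAt.2 fun v => (hP v).continuousAt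
  set d : ℝ → ℝ := fun t =>
    (((a : ℝ) + 1) * (t ^ a / √(1 + t ^ 2) ^ m) -
        (m : ℝ) * (t ^ (a + 2) / √(1 + t ^ 2) ^ (m + 2))) * P ((m : ℝ) * t ^ 2 / 2) +
      t ^ (a + 1) / √(1 + t ^ 2) ^ m * (P' ((m : ℝ) * t ^ 2 / 2) * ((m : ℝ) * t)) with hd
  have hder : ∀ t ∈ uIcc (0 : ℝ) T, HasDerivAt
      (fun x => x ^ (a + 1) / √(1 + x ^ 2) ^ m * P ((m : ℝ) * x ^ 2 / 2)) (d t) t := fun t _ => by
    have hv : HasDerivAt (fun x : ℝ => (m : ℝ) * x ^ 2 / 2) ((m : ℝ) * t) t :=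
      (((hasDerivAt_pow 2 t).const_mul (m : ℝ)).div_const 2).congr_deriv (by push_cast; ring)
    exact (hasDerivAt_pow_div_w a m t).fun_mul ((hP _).comp t hv)
  have hdc : Continuous d := by
    have h1 := mom_continuous a m
    have h2 := mom_continuous (a + 2) (m + 2)
    have h3 := mom_continuous (a + 1) m
    simp only [hd]
    exact (((continuous_const.mul h1).sub (continuous_const.mul h2)).mul
      (hPc.comp (by fun_prop))).add (h3.mul ((hP'.comp (by fun_prop)).mul (by fun_prop)))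
  have e := intervalIntegral.integral_eq_sub_of_hasDerivAt hder (hdc.intervalIntegrable 0 T)
  simp only [zero_pow (Nat.succ_ne_zero a), zero_div, zero_mul, sub_zero] at e
  rw [← e]
  refine intervalIntegral.integral_mono_on hT ((mom_continuous a m).intervalIntegrable 0 T)
    (hdc.intervalIntegrable 0 T) fun t ht => ?_
  have hw := w_pos t
  set v := (m : ℝ) * t ^ 2 / 2 with hv
  have hv0 : 0 ≤ v := by positivity
  have hvT : v ≤ (m : ℝ) * T ^ 2 / 2 := by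
    rw [hv]; have := ht.1; gcongr; exact ht.2
  have hsol := h v hv0 hvT
  have hPv := hnn v hv0
  have hta : 0 ≤ t ^ a / √(1 + t ^ 2) ^ m := div_nonneg (pow_nonneg ht.1 a) (by positivity)
  have e1 : t ^ (a + 2) / √(1 + t ^ 2) ^ (m + 2) =
      t ^ a / √(1 + t ^ 2) ^ m * (t ^ 2 / (1 + t ^ 2)) := by
    rw [pow_add, pow_add, w_sq, mul_div_mul_comm]
  have e2 : (m : ℝ) * (t ^ 2 / (1 + t ^ 2)) ≤ 2 * v := by
    rw [hv, show 2 * ((m : ℝ) * t ^ 2 / 2) = (m : ℝ) * t ^ 2 by ring]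
    exact mul_le_mul_of_nonneg_left (div_le_self (sq_nonneg t) (by linarith [sq_nonneg t]))
      (Nat.cast_nonneg m)
  have e3 : d t = t ^ a / √(1 + t ^ 2) ^ m *
      ((((a : ℝ) + 1) - (m : ℝ) * (t ^ 2 / (1 + t ^ 2))) * P v + 2 * v * P' v) := by
    simp only [hd]; rw [e1, ← hv, pow_succ t a, hv]; ring
  rw [e3]
  refine le_mul_of_one_le_right hta ?_
  have := mul_le_mul_of_nonneg_right e2 hPv
  linarith

/-- A tail bounded by a primitive. -/
theorem tail_of_prim {G D g : ℝ → ℝ} {T₀ : ℝ} (hg : ContinuousOn g (Ioi T₀))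
    (hG : ∀ t, T₀ ≤ t → HasDerivAt G (D t) t) (h0 : ∀ t, T₀ < t → 0 ≤ g t)
    (h1 : ∀ t, T₀ < t → g t ≤ -D t) (hlim : Tendsto G atTop (𝓝 0)) :
    IntegrableOn g (Ioi T₀) ∧ ∫ t in Ioi T₀, g t ≤ G T₀ := by
  have hd : ∀ t ∈ Ioi T₀, HasDerivAt (fun x => -G x) (-D t) t := fun t ht =>
    (hG t (le_of_lt ht)).neg
  have hp : ∀ t ∈ Ioi T₀, 0 ≤ -D t := fun t ht => (h0 t ht).trans (h1 t ht)
  have hcw : ContinuousWithinAt (fun x => -G x) (Ici T₀) T₀ :=
    (hG T₀ le_rfl).continuousAt.neg.continuousWithinAt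
  have hl : Tendsto (fun x => -G x) atTop (𝓝 0) := by simpa using hlim.neg
  have hi := integrableOn_Ioi_deriv_of_nonneg hcw hd hp hl
  have hgi : IntegrableOn g (Ioi T₀) := by
    refine hi.mono' (hg.aestronglyMeasurable measurableSet_Ioi) ?_
    filter_upwards [ae_restrict_mem measurableSet_Ioi] with t ht
    rw [norm_of_nonneg (h0 t ht)]
    exact h1 t ht
  refine ⟨hgi, (setIntegral_mono_on hgi hi measurableSet_Ioi h1).trans (le_of_eq ?_)⟩
  rw [integral_Ioi_of_hasDerivAt_of_nonneg hcw hd hp hl]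
  ring

/-- Super-solution of `L (1+y) - 2 y L' = 1`. -/
noncomputable def Lt (y : ℝ) : ℝ :=
  (y ^ 2 + 12 * y + 15) / (y ^ 3 + 15 * y ^ 2 + 45 * y + 15)

/-- Super-solution of `N (1+y) - 2 y N' = y`. -/
noncomputable def Nt (y : ℝ) : ℝ := (y ^ 2 + 9 * y + 8) / (y ^ 2 + 10 * y + 15)

lemma Lt_deriv {y : ℝ} (hy : 0 ≤ y) :
    ∃ d, HasDerivAt Lt d y ∧ d ≤ 0 ∧ 1 ≤ Lt y * (1 + y) - 2 * y * d := by
  set D := y ^ 3 + 15 * y ^ 2 + 45 * y + 15 with hD
  have hD0 : 0 < D := by positivity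
  refine ⟨-(y ^ 4 + 24 * y ^ 3 + 180 * y ^ 2 + 420 * y + 495) / D ^ 2, ?_, ?_, ?_⟩
  · have h1 := (((hasDerivAt_pow 2 y).fun_add ((hasDerivAt_id' y).const_mul (12 : ℝ))).add_const
      (15 : ℝ))
    have h2 := ((((hasDerivAt_pow 3 y).fun_add ((hasDerivAt_pow 2 y).const_mul (15 : ℝ))).fun_add
      ((hasDerivAt_id' y).const_mul (45 : ℝ))).add_const (15 : ℝ))
    refine (h1.fun_div h2 (by positivity)).congr_deriv ?_
    rw [hD]; push_cast; field_simp; ring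
  · exact div_nonpos_of_nonpos_of_nonneg (neg_nonpos.2 (by positivity)) (sq_nonneg D)
  · have e : Lt y * (1 + y) -
        2 * y * (-(y ^ 4 + 24 * y ^ 3 + 180 * y ^ 2 + 420 * y + 495) / D ^ 2) =
        1 + 720 * y / D ^ 2 := by
      rw [Lt, ← hD]; field_simp; rw [hD]; ring
    rw [e]
    exact le_add_of_nonneg_right (by positivity)

lemma Nt_deriv {y : ℝ} (hy : 0 ≤ y) :
    ∃ d, HasDerivAt Nt d y ∧ 0 ≤ d ∧ 2 * (1 + y / 91) * d ≤ 1 ∧
      y ≤ Nt y * (1 + y) - 2 * y * d := by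
  set D := y ^ 2 + 10 * y + 15 with hD
  have hD0 : 0 < D := by positivity
  refine ⟨(y ^ 2 + 14 * y + 55) / D ^ 2, ?_, by positivity, ?_, ?_⟩
  · have h1 := (((hasDerivAt_pow 2 y).fun_add ((hasDerivAt_id' y).const_mul (9 : ℝ))).add_const
      (8 : ℝ))
    have h2 := (((hasDerivAt_pow 2 y).fun_add ((hasDerivAt_id' y).const_mul (10 : ℝ))).add_const
      (15 : ℝ))
    refine (h1.fun_div h2 (by positivity)).congr_deriv ?_
    rw [hD]; push_cast; field_simp; ring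
  · rw [← mul_div_assoc, div_le_one (by positivity), hD]
    linarith [pow_nonneg hy 4, pow_nonneg hy 3, pow_nonneg hy 2]
  · have e : Nt y * (1 + y) - 2 * y * ((y ^ 2 + 14 * y + 55) / D ^ 2) = y + 120 / D ^ 2 := by
      rw [Nt, ← hD]; field_simp; rw [hD]; ring
    rw [e]
    exact le_add_of_nonneg_right (by positivity)

lemma Lt_bounds {y : ℝ} (hy : 0 ≤ y) : 0 ≤ Lt y ∧ Lt y ≤ 1 := by
  constructor
  · unfold Lt; positivity
  · unfold Lt
    rw [div_le_one (by positivity)]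
    linarith [pow_nonneg hy 3, pow_nonneg hy 2]

lemma Nt_bounds {y : ℝ} (hy : 0 ≤ y) : 0 ≤ Nt y ∧ Nt y ≤ 1 := by
  constructor
  · unfold Nt; positivity
  · unfold Nt
    rw [div_le_one (by positivity)]
    linarith

/-- `t⁻¹ W^(-m)` and its derivative. -/
lemma hasDerivAt_inv_mul_w (m : ℕ) {t : ℝ} (ht : 0 < t) :
    HasDerivAt (fun x : ℝ => (x * √(1 + x ^ 2) ^ m)⁻¹)
      (-((1 + ((m : ℝ) + 1) * t ^ 2) / ((1 + t ^ 2) * (t ^ 2 * √(1 + t ^ 2) ^ m)))) t := by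
  have hw := w_pos t
  have hp : HasDerivAt (fun x : ℝ => √(1 + x ^ 2) ^ m)
      ((m : ℝ) * t * √(1 + t ^ 2) ^ m / (1 + t ^ 2)) t := by
    refine ((hasDerivAt_w t).fun_pow m).congr_deriv ?_
    rcases m with _ | j
    · simp
    · simp only [Nat.add_sub_cancel]
      have e : t / √(1 + t ^ 2) * (1 + t ^ 2) = t * √(1 + t ^ 2) := by
        rw [div_mul_eq_mul_div, div_eq_iff hw.ne', mul_assoc, ← sq, w_sq]
      rw [eq_div_iff (by positivity), pow_succ √(1 + t ^ 2) j, mul_assoc _ _ (1 + t ^ 2), e]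
      push_cast
      ring
  refine (((hasDerivAt_id' t).fun_mul hp).fun_inv (by positivity)).congr_deriv ?_
  field_simp
  ring

lemma prim_tendsto {k : ℕ} {F : ℝ → ℝ} (hm : 2 * k ≤ m) {C : ℝ}
    (hF : ∀ t : ℝ, 0 < t → 0 ≤ F t ∧ F t ≤ C) :
    Tendsto (fun t : ℝ => (1 + t ^ 2) ^ k * (t * √(1 + t ^ 2) ^ m)⁻¹ * F t) atTop (𝓝 0) := by
  have hz : Tendsto (fun t : ℝ => C * t⁻¹) atTop (𝓝 0) := by
    simpa using tendsto_inv_atTop_zero.const_mul C
  refine squeeze_zero' ?_ ?_ hz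
  · filter_upwards [eventually_gt_atTop 0] with t ht
    have := w_pos t
    exact mul_nonneg (by positivity) (hF t ht).1
  · filter_upwards [eventually_gt_atTop 0] with t ht
    have hw := w_pos t
    have h1 : (1 + t ^ 2) ^ k ≤ √(1 + t ^ 2) ^ m := by
      rw [← w_sq, ← pow_mul, w_sq]
      exact pow_le_pow_right₀ (one_le_w t) hm
    have h2 : (1 + t ^ 2) ^ k * (t * √(1 + t ^ 2) ^ m)⁻¹ ≤ t⁻¹ := by
      rw [mul_inv, ← mul_assoc, mul_comm _ t⁻¹, mul_assoc]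
      refine mul_le_of_le_one_right (by positivity) ?_
      exact mul_inv_le_one_of_le₀ h1 (by positivity)
    rw [mul_comm C]
    exact mul_le_mul h2 (hF t ht).2 (hF t ht).1 (by positivity)

/-- **The tail of `W^(-m)/t²`.** -/
theorem tail2_le (hm : 2 ≤ m) {T : ℝ} (hT : 0 < T) :
    IntegrableOn (fun t : ℝ => 1 / (t ^ 2 * √(1 + t ^ 2) ^ m)) (Ioi T) ∧
      ∫ t in Ioi T, 1 / (t ^ 2 * √(1 + t ^ 2) ^ m) ≤
        (1 + T ^ 2) / (T * √(1 + T ^ 2) ^ m) * Lt (((m : ℝ) - 1) * T ^ 2) := by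
  have hm' : (2 : ℝ) ≤ (m : ℝ) := by exact_mod_cast hm
  set K := (m : ℝ) - 1 with hK
  have hK0 : 0 < K := by linarith
  choose d hd hd0 hd1 using fun t : ℝ => Lt_deriv (y := K * t ^ 2) (by positivity)
  set G := fun t : ℝ => (1 + t ^ 2) ^ 1 * (t * √(1 + t ^ 2) ^ m)⁻¹ * Lt (K * t ^ 2) with hG
  set D := fun t : ℝ => (2 * t * (t * √(1 + t ^ 2) ^ m)⁻¹ + (1 + t ^ 2) ^ 1 *
    (-((1 + ((m : ℝ) + 1) * t ^ 2) / ((1 + t ^ 2) * (t ^ 2 * √(1 + t ^ 2) ^ m))))) *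
      Lt (K * t ^ 2) + (1 + t ^ 2) ^ 1 * (t * √(1 + t ^ 2) ^ m)⁻¹ * (d t * (2 * K * t)) with hD
  have h := tail_of_prim (G := G) (D := D) (T₀ := T)
    (g := fun t : ℝ => 1 / (t ^ 2 * √(1 + t ^ 2) ^ m)) ?_ ?_ ?_ ?_ ?_
  · refine ⟨h.1, h.2.trans (le_of_eq ?_)⟩
    simp only [hG, div_eq_mul_inv, pow_one]
  · refine continuousOn_const.div (by fun_prop) fun t ht => ?_
    have : 0 < t := hT.trans ht
    have := w_pos t
    positivity
  · intro t ht
    have ht0 : 0 < t := hT.trans_le ht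
    have hy : HasDerivAt (fun x : ℝ => K * x ^ 2) (2 * K * t) t :=
      ((hasDerivAt_pow 2 t).const_mul K).congr_deriv (by push_cast; ring)
    have h1 : HasDerivAt (fun x : ℝ => (1 + x ^ 2) ^ 1) (2 * t) t := by
      simp only [pow_one]
      exact ((hasDerivAt_pow 2 t).const_add 1).congr_deriv (by push_cast; ring)
    have hc : HasDerivAt (fun x => Lt (K * x ^ 2)) (d t * (2 * K * t)) t :=
      HasDerivAt.comp (h := fun x => K * x ^ 2) t (hd t) hy
    exact (h1.fun_mul (hasDerivAt_inv_mul_w m ht0)).fun_mul hc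
  · intro t ht
    have : 0 < t := hT.trans ht
    have := w_pos t
    positivity
  · intro t ht
    have ht0 : 0 < t := hT.trans ht
    have hw := w_pos t
    have e : -D t = (Lt (K * t ^ 2) * (1 + K * t ^ 2) -
        2 * (K * t ^ 2) * d t * (1 + t ^ 2)) * (1 / (t ^ 2 * √(1 + t ^ 2) ^ m)) := by
      simp only [hD, hK]; field_simp; ring
    rw [e]
    refine le_mul_of_one_le_left (by positivity) ((hd1 t).trans (sub_le_sub_left ?_ _))
    have h2 := mul_le_mul_of_nonpos_left (by linarith [sq_nonneg t] : (1 : ℝ) ≤ 1 + t ^ 2)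
      (mul_nonpos_of_nonneg_of_nonpos (by positivity : 0 ≤ 2 * (K * t ^ 2)) (hd0 t))
    linarith
  · exact prim_tendsto (k := 1) (by omega) fun t _ => Lt_bounds (by positivity)

/-- **The tail of `W^(-m)`.** -/
theorem tail0_le (hm : 94 ≤ m) {T : ℝ} (hT : 0 < T) :
    IntegrableOn (fun t : ℝ => 1 / √(1 + t ^ 2) ^ m) (Ioi T) ∧
      ∫ t in Ioi T, 1 / √(1 + t ^ 2) ^ m ≤
        (1 + T ^ 2) ^ 2 / (((m : ℝ) - 3) * (T * √(1 + T ^ 2) ^ m)) *
          Nt (((m : ℝ) - 3) * T ^ 2) := by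
  have hm' : (94 : ℝ) ≤ (m : ℝ) := by exact_mod_cast hm
  set K := (m : ℝ) - 3 with hK
  have hK0 : 0 < K := by linarith
  choose d hd hd0 hd1 hd2 using fun t : ℝ => Nt_deriv (y := K * t ^ 2) (by positivity)
  set G := fun t : ℝ => (1 + t ^ 2) ^ 2 * (t * √(1 + t ^ 2) ^ m)⁻¹ * (Nt (K * t ^ 2) / K) with hG
  set D := fun t : ℝ => (4 * t * (1 + t ^ 2) * (t * √(1 + t ^ 2) ^ m)⁻¹ + (1 + t ^ 2) ^ 2 *
    (-((1 + ((m : ℝ) + 1) * t ^ 2) / ((1 + t ^ 2) * (t ^ 2 * √(1 + t ^ 2) ^ m))))) *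
      (Nt (K * t ^ 2) / K) +
        (1 + t ^ 2) ^ 2 * (t * √(1 + t ^ 2) ^ m)⁻¹ * (d t * (2 * K * t) / K) with hD
  have h := tail_of_prim (G := G) (D := D) (T₀ := T)
    (g := fun t : ℝ => 1 / √(1 + t ^ 2) ^ m) ?_ ?_ ?_ ?_ ?_
  · refine ⟨h.1, h.2.trans (le_of_eq ?_)⟩
    simp only [hG]; field_simp
  · exact continuousOn_const.div (by fun_prop) fun t _ => pow_ne_zero _ (w_pos t).ne'
  · intro t ht
    have ht0 : 0 < t := hT.trans_le ht
    have hy : HasDerivAt (fun x : ℝ => K * x ^ 2) (2 * K * t) t :=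
      ((hasDerivAt_pow 2 t).const_mul K).congr_deriv (by push_cast; ring)
    have h1 : HasDerivAt (fun x : ℝ => (1 + x ^ 2) ^ 2) (4 * t * (1 + t ^ 2)) t :=
      (((hasDerivAt_pow 2 t).const_add 1).fun_pow 2).congr_deriv (by push_cast; ring)
    have hc : HasDerivAt (fun x => Nt (K * x ^ 2)) (d t * (2 * K * t)) t :=
      HasDerivAt.comp (h := fun x => K * x ^ 2) t (hd t) hy
    exact (h1.fun_mul (hasDerivAt_inv_mul_w m ht0)).fun_mul (hc.div_const K)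
  · intro t _
    have := w_pos t
    positivity
  · intro t ht
    have ht0 : 0 < t := hT.trans ht
    have hw := w_pos t
    set y := K * t ^ 2 with hy
    have e : -D t = ((1 + t ^ 2) * (Nt y * (1 + y) - 2 * y * d t * (1 + t ^ 2))) / y *
        (1 / √(1 + t ^ 2) ^ m) := by
      simp only [hD, hy, hK]; field_simp; ring
    rw [e]
    have hy0 : 0 < y := by positivity
    refine le_mul_of_one_le_left (by positivity) ?_
    rw [le_div_iff₀ hy0, one_mul]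
    have hs : t ^ 2 ≤ y / 91 := by
      rw [le_div_iff₀ (by norm_num), hy, mul_comm (t ^ 2)]
      exact mul_le_mul_of_nonneg_right (by linarith) (sq_nonneg t)
    have h2 : 2 * (1 + t ^ 2) * d t ≤ 1 :=
      le_trans (mul_le_mul_of_nonneg_right (by linarith) (hd0 t)) (hd1 t)
    have h3 := mul_le_mul_of_nonneg_left (hd2 t) (by positivity : 0 ≤ 1 + t ^ 2)
    have h4 := mul_le_mul_of_nonneg_left h2 (by positivity : 0 ≤ t ^ 2 * y)
    linarith
  · exact prim_tendsto (k := 2) (C := 1 / K) (by omega) fun t _ =>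
      ⟨div_nonneg (Nt_bounds (by positivity)).1 hK0.le,
        div_le_div_of_nonneg_right (Nt_bounds (by positivity)).2 hK0.le⟩

end Vale.Agent.P237.Cal
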