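import Vale.Agent.P237.Cal.NegX
import Vale.Agent.P237.Cal.LowMoment

/-!
# P237: the side `σ ≤ T` with a one-sided bound on the slope coefficient and a `D²` remainder

The coefficient of `h - 1` is only bounded from below (it enters the denominator with its sign), the
loss keeps its exact square, and a deficit of the weight of `D²` is paid against `lo²`.
-/

open Real

namespace Vale.Agent.P237.Cal

/-- A deficit of the weight of `D²` costs at most the deficit times `lo²`. -/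
lemma deficit_sq_le {D lo C A R : ℝ} (hlo : lo ≤ D) (hD : D ≤ 0) (hA : A ≤ C + R) (hR : 0 ≤ R) :
    D ^ 2 * A ≤ D ^ 2 * C + R * lo ^ 2 := by
  have h1 : D ^ 2 ≤ lo ^ 2 := by nlinarith
  linarith [mul_le_mul_of_nonneg_left hA (sq_nonneg D), mul_le_mul_of_nonneg_left h1 hR]

/-- **Zone `ε T² ≤ θ` of the side `σ ≤ T`, one-sided.** -/
theorem negX_zone' {π' l ν C R ε T σ h p G₂ κ Pl Ph gl M N lo : ℝ}
    (hπ : 0 ≤ π') (hh : 0 < h) (hε : 0 ≤ ε) (hκ : 1 < κ) (hσ0 : 0 ≤ σ) (hσ : σ ≤ T)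
    (hlo : lo ≤ σ - T) (hθ : ε * T ^ 2 ≤ 1) (hp1 : p ≤ -Pl) (hPl : 0 ≤ Pl) (hp2 : -Ph ≤ p)
    (hg : -gl ≤ G₂) (hM1 : 2 * ε * T - 2 * Pl ≤ M) (hM2 : 2 * Ph - ε * T ≤ M) (hN0 : 0 < N)
    (hN : N ≤ 2 - 2 * (ε * T ^ 2) - gl) (hB : ε * T ^ 2 + gl ≤ 1) (hν : 0 ≤ ν) (hl : 0 ≤ l + ν)
    (hR : 0 ≤ R) (hC : π' * (ε + κ * M ^ 2 / N) ≤ C + R) :
    ∃ L, L ≤ valQ ε T σ h + (2 * p * (σ - T) + G₂) * (h - 1) ∧
      -(π' * (κ / (κ - 1) * G₂ ^ 2 / N)) - R * lo ^ 2 + lo * (l + ν) ≤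
        π' * L + (σ - T) * l + (σ - T) ^ 2 * C := by
  have hD : σ - T ≤ 0 := sub_nonpos.2 hσ
  have hpD : 0 ≤ 2 * p * (σ - T) := mul_nonneg_of_nonpos_of_nonpos (by linarith) hD
  have hσ2 : ε * σ ^ 2 ≤ ε * T ^ 2 :=
    mul_le_mul_of_nonneg_left (pow_le_pow_left₀ hσ0 hσ 2) hε
  have hM : |ε * (σ + T) + 2 * p| ≤ M := by
    rw [abs_le]
    have h1 := mul_le_mul_of_nonneg_left hσ hε
    have h2 : 0 ≤ ε * σ := mul_nonneg hε hσ0
    constructor <;> linarith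
  have hL := valQ_ge_split (T := T) (σ := σ) (p := p) (G₂ := G₂) (M := M) (N := N) (κ := κ) hh hκ
    (by linarith : (0 : ℝ) ≤ 1 - ε * σ ^ 2) (by linarith) hN0 (by linarith) hM
  refine ⟨_, hL, ?_⟩
  have hq := deficit_sq_le hlo hD hC hR
  have hlin : lo * (l + ν) ≤ (σ - T) * l := by
    nlinarith [mul_le_mul_of_nonneg_right hlo hl, mul_nonpos_of_nonpos_of_nonneg hD hν]
  linarith

/-- **The tangent zone `ε T² ≥ θ`, one-sided.** -/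
theorem negX_tangent' {π' l ν C R ε θ Y T σ h p G₂ b κ Pl Ph gl M N lo : ℝ}
    (hπ : 0 ≤ π') (hθ0 : 0 ≤ θ) (hκ : 1 < κ) (hY : 1 ≤ Y)
    (hd : Y ^ 2 - 1 ≤ 2 * T ^ 2) (hR' : RegC Y T σ h) (hσ : σ ≤ T)
    (hlo : lo = √(max (T ^ 2 - (Y ^ 2 - 1)) 0) - T)
    (hb : b = (ε * T ^ 2 - θ) / (T ^ 2 + θ)) (hb0 : 0 ≤ b)
    (hp1 : p ≤ -(Pl * (1 + b))) (hPl : 0 ≤ Pl) (hp2 : -(Ph * (1 + b)) ≤ p)
    (hg : -(gl * (1 + b)) ≤ G₂ - b * (Y ^ 2 - 1) * (2 + 1 / T ^ 2))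
    (hM1 : 2 * θ / T - 2 * Pl ≤ M) (hM2 : 2 * Ph - θ / T ≤ M) (hN0 : 0 < N)
    (hN : N ≤ 2 - 2 * θ - gl) (hgl : 0 ≤ gl) (hB : θ + gl ≤ 1) (hν : 0 ≤ ν) (hl : 2 * b * π' / T ≤ l + ν)
    (hR : 0 ≤ R) (hC : π' * ((1 + b) * (θ / T ^ 2 + κ * M ^ 2 / N)) ≤ C + R) :
    ∃ L, L ≤ valQ ε T σ h + (2 * p * (σ - T) + G₂) * (h - 1) ∧
      -(π' * (κ / (κ - 1) * (G₂ - b * (Y ^ 2 - 1) * (2 + 1 / T ^ 2)) ^ 2 / N)) - R * lo ^ 2 +
          lo * (l + ν) ≤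
        π' * L + (σ - T) * l + (σ - T) ^ 2 * C := by
  have hT : 0 < T := hR'.T_pos
  have hσ0 : 0 < σ := hR'.σ_pos
  have hb1 : 0 < 1 + b := by linarith
  have hD : σ - T ≤ 0 := sub_nonpos.2 hσ
  have hlD : lo ≤ σ - T := hR'.lo_le hlo
  have he : θ / T ^ 2 = (ε - b) / (1 + b) := by
    rw [div_eq_div_iff (by positivity) hb1.ne']
    have : b * (T ^ 2 + θ) = ε * T ^ 2 - θ := by
      rw [hb, div_mul_cancel₀ _ (by positivity : T ^ 2 + θ ≠ 0)]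
    linarith
  set η := b * (Y ^ 2 - 1) * (2 + 1 / T ^ 2) with hηdef
  have eT : θ / T ^ 2 * T ^ 2 = θ := by field_simp
  have hA' : θ / T ^ 2 * σ ^ 2 ≤ θ := by
    have := mul_le_mul_of_nonneg_left (pow_le_pow_left₀ hσ0.le hσ 2)
      (div_nonneg hθ0 (sq_nonneg T))
    rwa [eT] at this
  have hG : -gl ≤ (G₂ - η) / (1 + b) := by rw [le_div_iff₀ hb1]; linarith
  have hp' : p / (1 + b) ≤ -Pl := by rw [div_le_iff₀ hb1]; linarith
  have hp'' : -Ph ≤ p / (1 + b) := by rw [le_div_iff₀ hb1]; linarith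
  have hpD' : 0 ≤ 2 * (p / (1 + b)) * (σ - T) :=
    mul_nonneg_of_nonpos_of_nonpos (by linarith) hD
  have hM : |θ / T ^ 2 * (σ + T) + 2 * (p / (1 + b))| ≤ M := by
    have h0 : 0 ≤ θ / T ^ 2 := div_nonneg hθ0 (sq_nonneg T)
    have h1 := mul_le_mul_of_nonneg_left hσ h0
    have h2 := mul_nonneg h0 hσ0.le
    have e : θ / T ^ 2 * T = θ / T := by field_simp
    have e2 : 2 * θ / T = 2 * (θ / T) := mul_div_assoc ..
    rw [abs_le]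
    constructor <;> linarith
  have hL := valQ_tangent_split (M := M) (N := N) (G₂ := G₂) (p := p) hκ hY hR' hb0 he
    (by linarith) (by rw [eT, ← hηdef]; linarith) hN0 (by rw [eT, ← hηdef]; linarith) hM
  refine ⟨_, hL, ?_⟩
  rw [← hηdef]
  have hsq : π' * ((1 + b) * (κ / (κ - 1) * ((G₂ - η) / (1 + b)) ^ 2 / N)) ≤
      π' * (κ / (κ - 1) * (G₂ - η) ^ 2 / N) := by
    refine mul_le_mul_of_nonneg_left ?_ hπ
    rw [show (1 + b) * (κ / (κ - 1) * ((G₂ - η) / (1 + b)) ^ 2 / N) =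
      κ / (κ - 1) * (G₂ - η) ^ 2 / N / (1 + b) by field_simp]
    exact div_le_self (div_nonneg (mul_nonneg (div_nonneg (by linarith) (by linarith))
      (sq_nonneg _)) hN0.le) (by linarith)
  have hq := deficit_sq_le hlD hD hC hR
  have hlo0 : 0 ≤ -2 * lo / T - (Y ^ 2 - 1) / T ^ 2 := lo_price_nonneg hT hd hlo
  have e2 : 2 * b * (σ - T) / T + b * (Y ^ 2 - 1) / T ^ 2 =
      2 * b / T * (σ - T - lo) - b * (-2 * lo / T - (Y ^ 2 - 1) / T ^ 2) := by ring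
  have h4 : 0 ≤ b * (-2 * lo / T - (Y ^ 2 - 1) / T ^ 2) := mul_nonneg hb0 hlo0
  have h5 : π' * (2 * b / T * (σ - T - lo)) ≤ (σ - T - lo) * (l + ν) := by
    have := mul_le_mul_of_nonneg_right hl (sub_nonneg.2 hlD)
    rw [show π' * (2 * b / T * (σ - T - lo)) = 2 * b * π' / T * (σ - T - lo) by ring]
    linarith
  have h6 := mul_nonneg hπ h4
  have h7 := mul_nonpos_of_nonpos_of_nonneg hD hν
  have e3 := congrArg (fun x => π' * x) e2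
  linarith

end Vale.Agent.P237.Cal
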