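import Vale.Agent.P237.Cal.PosX

/-!
# P237: the side `σ ≤ T` of the pointwise inequality for the fields in the centred state

Here `D = σ - T` lies in `[lo, 0]`, so the linear part costs at most `lo (ell + ν)`, and the
coefficient of `D²` pays for the slope. Where `ε T² > θ` the tangent multiplier
`b = (ε T² - θ)/(T² + θ)` is used; its price `-2 b D/T - b (Y² - 1)/T²` is absorbed by
`(ell + ν) (D - lo)`, since it is nonnegative at `D = lo`.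
-/

open Real

namespace Vale.Agent.P237.Cal

/-- At the lower edge the price of the multiplier is nonnegative. -/
lemma lo_price_nonneg {T d lo : ℝ} (hT : 0 < T) (hd : d ≤ 2 * T ^ 2)
    (hlo : lo = √(max (T ^ 2 - d) 0) - T) : 0 ≤ -2 * lo / T - d / T ^ 2 := by
  have e : -2 * lo / T - d / T ^ 2 = (-2 * lo * T - d) / T ^ 2 := by field_simp
  rw [e]
  refine div_nonneg ?_ (sq_nonneg T)
  rcases le_total (T ^ 2 - d) 0 with h | h
  · rw [max_eq_right h, sqrt_zero] at hlo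
    subst hlo
    linarith
  · rw [max_eq_left h] at hlo
    have hsq := sq_sqrt h
    subst hlo
    linarith [sq_nonneg (√(T ^ 2 - d) - T)]

/-- On the closed region `σ - T` is at least `lo`. -/
lemma RegC.lo_le {Y T σ h lo : ℝ} (hR : RegC Y T σ h)
    (hlo : lo = √(max (T ^ 2 - (Y ^ 2 - 1)) 0) - T) : lo ≤ σ - T := by
  have h1 : √(max (T ^ 2 - (Y ^ 2 - 1)) 0) ≤ σ := by
    rw [sqrt_le_left hR.σ_pos.le]
    exact max_le (by linarith [hR.σ_low]) (sq_nonneg σ)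
  linarith

/-- **Zone `ε T² ≤ θ` of the side `σ ≤ T`.** Here `π'` is the prefactor, `l` the linear weight
with slack `ν`, `C` the weight of `D²`, `p` the quadratic field and `G₂` the rest of the
coefficient of `h - 1`, both over `π'`. -/
theorem negX_zone {π' l ν C ε θ T σ h p G₂ κ Ph g₂ M N lo : ℝ}
    (hπ : 0 ≤ π') (hh : 0 < h) (hε : 0 ≤ ε) (hκ : 1 < κ) (hσ0 : 0 ≤ σ) (hσ : σ ≤ T)
    (hlo : lo ≤ σ - T) (hθ : ε * T ^ 2 ≤ θ) (hp1 : p ≤ 0) (hp2 : -Ph ≤ p) (hg : |G₂| ≤ g₂)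
    (hM1 : 2 * ε * T ≤ M) (hM2 : 2 * Ph ≤ M) (hN0 : 0 < N) (hN : N ≤ 2 - 2 * θ - g₂)
    (hθ1 : θ + g₂ ≤ 1) (hν : 0 ≤ ν) (hl : 0 ≤ l + ν)
    (hC : π' * (ε + κ * M ^ 2 / N) ≤ C) :
    ∃ L, L ≤ valQ ε T σ h + (2 * p * (σ - T) + G₂) * (h - 1) ∧
      -(π' * (κ / (κ - 1) * g₂ ^ 2 / N)) + lo * (l + ν) ≤
        π' * L + (σ - T) * l + (σ - T) ^ 2 * C := by
  have hD : σ - T ≤ 0 := sub_nonpos.2 hσ
  have hpD : 0 ≤ 2 * p * (σ - T) := mul_nonneg_of_nonpos_of_nonpos (by linarith) hD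
  have hσ2 : ε * σ ^ 2 ≤ ε * T ^ 2 :=
    mul_le_mul_of_nonneg_left (pow_le_pow_left₀ hσ0 hσ 2) hε
  have hG := abs_le.1 hg
  have hM : |ε * (σ + T) + 2 * p| ≤ M := by
    rw [abs_le]
    have h1 := mul_le_mul_of_nonneg_left hσ hε
    have h2 : 0 ≤ ε * (σ + T) := mul_nonneg hε (by linarith)
    constructor <;> linarith
  have hL := valQ_ge_split (T := T) (σ := σ) (p := p) (G₂ := G₂) (M := M) (N := N) (κ := κ) hh hκ
    (by linarith : (0 : ℝ) ≤ 1 - ε * σ ^ 2) (by linarith) hN0 (by linarith) hM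
  refine ⟨_, hL, ?_⟩
  have hs : π' * (κ / (κ - 1) * G₂ ^ 2 / N) ≤ π' * (κ / (κ - 1) * g₂ ^ 2 / N) := by
    refine mul_le_mul_of_nonneg_left ?_ hπ
    exact div_le_div_of_nonneg_right (mul_le_mul_of_nonneg_left (sq_le_sq' hG.1 hG.2)
      (div_nonneg (by linarith) (by linarith))) hN0.le
  have hq := mul_le_mul_of_nonneg_left hC (sq_nonneg (σ - T))
  have hlin : lo * (l + ν) ≤ (σ - T) * l := by
    nlinarith [mul_le_mul_of_nonneg_right hlo hl, mul_nonpos_of_nonpos_of_nonneg hD hν]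
  linarith

/-- The slope-free bound after the multiplier. -/
lemma valQ_tangent_split {Y T σ h ε p G₂ b e κ M N : ℝ} (hκ : 1 < κ) (hY : 1 ≤ Y)
    (hR : RegC Y T σ h) (hb : 0 ≤ b) (he : e = (ε - b) / (1 + b))
    (hA : 0 ≤ 1 - e * σ ^ 2)
    (hB : 0 ≤ 1 - e * T ^ 2 + (2 * (p / (1 + b)) * (σ - T) +
      (G₂ - b * (Y ^ 2 - 1) * (2 + 1 / T ^ 2)) / (1 + b)))
    (hN0 : 0 < N) (hN : N ≤ (1 - e * σ ^ 2) + (1 - e * T ^ 2 + (2 * (p / (1 + b)) * (σ - T) +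
      (G₂ - b * (Y ^ 2 - 1) * (2 + 1 / T ^ 2)) / (1 + b))))
    (hM : |e * (σ + T) + 2 * (p / (1 + b))| ≤ M) :
    (1 + b) * (-((e + κ * M ^ 2 / N) * (σ - T) ^ 2) -
      κ / (κ - 1) * ((G₂ - b * (Y ^ 2 - 1) * (2 + 1 / T ^ 2)) / (1 + b)) ^ 2 / N) -
      2 * b * (σ - T) / T - b * (Y ^ 2 - 1) / T ^ 2 ≤
      valQ ε T σ h + (2 * p * (σ - T) + G₂) * (h - 1) := by
  have hT := hR.T_pos
  have hh := hR.h_pos
  have hb1 : 0 < 1 + b := by linarith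
  set η := b * (Y ^ 2 - 1) * (2 + 1 / T ^ 2) with hηdef
  have h1 := valQ_tangentC (ε := ε) hb hR
  rw [← he] at h1
  have h2 := mul_le_mul_of_nonneg_left (valQ_ge_split (T := T) (σ := σ) (ε := e)
    (p := p / (1 + b)) (G₂ := (G₂ - η) / (1 + b)) (M := M) (N := N) (κ := κ) hh hκ
    hA hB hN0 hN hM) hb1.le
  have hη0 : 0 ≤ b * (Y ^ 2 - 1) := mul_nonneg hb (by nlinarith)
  have h3 : 0 ≤ b * (Y ^ 2 - 1) * ((h - 1) ^ 2 / h) := mul_nonneg hη0 (by positivity)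
  have e1 : (1 + b) * (valQ e T σ h +
      (2 * (p / (1 + b)) * (σ - T) + (G₂ - η) / (1 + b)) * (h - 1)) =
      (1 + b) * valQ e T σ h + (2 * p * (σ - T) + G₂) * (h - 1) - η * (h - 1) := by
    field_simp
    ring
  have e2 : b * (Y ^ 2 - 1) * ((1 + T ^ 2) * h - T ^ 2 / h) / T ^ 2 =
      η * (h - 1) + b * (Y ^ 2 - 1) / T ^ 2 - b * (Y ^ 2 - 1) * ((h - 1) ^ 2 / h) := by
    simp only [hηdef]
    field_simp
    ring
  linarith

/-- **Zone `ε T² ≥ θ` of the side `σ ≤ T`.** The effective `ε` is `θ/T²`. -/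
theorem negX_tangent {π' l ν C ε θ Y T σ h p G₂ b κ Ph g₂ M N lo : ℝ}
    (hπ : 0 ≤ π') (hθ0 : 0 ≤ θ) (hκ : 1 < κ) (hY : 1 ≤ Y)
    (hd : Y ^ 2 - 1 ≤ 2 * T ^ 2) (hR : RegC Y T σ h) (hσ : σ ≤ T) (hlo : lo = √(max (T ^ 2 - (Y ^ 2 - 1)) 0) - T)
    (hb : b = (ε * T ^ 2 - θ) / (T ^ 2 + θ)) (hb0 : 0 ≤ b) (hp1 : p ≤ 0) (hp2 : -Ph ≤ p)
    (hg : |G₂ - b * (Y ^ 2 - 1) * (2 + 1 / T ^ 2)| ≤ g₂)
    (hM1 : 2 * θ / T ≤ M) (hM2 : 2 * Ph ≤ M) (hN0 : 0 < N) (hN : N ≤ 2 - 2 * θ - g₂)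
    (hθ1 : θ + g₂ ≤ 1) (hν : 0 ≤ ν) (hl : 2 * b * π' / T ≤ l + ν)
    (hC : π' * ((1 + b) * (θ / T ^ 2 + κ * M ^ 2 / N)) ≤ C) :
    ∃ L, L ≤ valQ ε T σ h + (2 * p * (σ - T) + G₂) * (h - 1) ∧
      -(π' * (κ / (κ - 1) * g₂ ^ 2 / N)) + lo * (l + ν) ≤
        π' * L + (σ - T) * l + (σ - T) ^ 2 * C := by
  have hT : 0 < T := hR.T_pos
  have hh : 0 < h := hR.h_pos
  have hσ0 : 0 < σ := hR.σ_pos
  have hb1 : 0 < 1 + b := by linarith
  have hD : σ - T ≤ 0 := sub_nonpos.2 hσ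
  have hlD : lo ≤ σ - T := hR.lo_le hlo
  have hpD : 0 ≤ 2 * p * (σ - T) := mul_nonneg_of_nonpos_of_nonpos (by linarith) hD
  have he : θ / T ^ 2 = (ε - b) / (1 + b) := by
    rw [div_eq_div_iff (by positivity) hb1.ne']
    have : b * (T ^ 2 + θ) = ε * T ^ 2 - θ := by
      rw [hb, div_mul_cancel₀ _ (by positivity : T ^ 2 + θ ≠ 0)]
    linarith
  set η := b * (Y ^ 2 - 1) * (2 + 1 / T ^ 2) with hηdef
  have hG := abs_le.1 hg
  have hg0 : 0 ≤ g₂ := le_trans (abs_nonneg _) hg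
  have eT : θ / T ^ 2 * T ^ 2 = θ := by field_simp
  have hA' : θ / T ^ 2 * σ ^ 2 ≤ θ := by
    have := mul_le_mul_of_nonneg_left (pow_le_pow_left₀ hσ0.le hσ 2)
      (div_nonneg hθ0 (sq_nonneg T))
    rwa [eT] at this
  have hq2 : |(G₂ - η) / (1 + b)| ≤ g₂ := by
    rw [abs_div, abs_of_pos hb1]
    exact (div_le_self (abs_nonneg _) (by linarith)).trans hg
  have hp' : p / (1 + b) ≤ 0 := div_nonpos_of_nonpos_of_nonneg hp1 hb1.le
  have hp'' : -Ph ≤ p / (1 + b) := by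
    rw [le_div_iff₀ hb1]
    nlinarith
  have hpD' : 0 ≤ 2 * (p / (1 + b)) * (σ - T) :=
    mul_nonneg_of_nonpos_of_nonpos (by linarith) hD
  have hM : |θ / T ^ 2 * (σ + T) + 2 * (p / (1 + b))| ≤ M := by
    rw [abs_le]
    have h0 : 0 ≤ θ / T ^ 2 * (σ + T) := mul_nonneg (by positivity) (by linarith)
    have h2 : θ / T ^ 2 * (σ + T) ≤ 2 * θ / T := by
      refine (mul_le_mul_of_nonneg_left (by linarith : σ + T ≤ 2 * T) (by positivity)).trans_eq ?_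
      field_simp
    constructor <;> linarith
  have hG' := abs_le.1 hq2
  have hL := valQ_tangent_split (ε := ε) hκ hY hR hb0 he (by linarith)
    (by rw [eT]; linarith) hN0 (by rw [eT]; linarith) hM
  refine ⟨(1 + b) * (-((θ / T ^ 2 + κ * M ^ 2 / N) * (σ - T) ^ 2) -
      κ / (κ - 1) * ((G₂ - η) / (1 + b)) ^ 2 / N) - 2 * b * (σ - T) / T -
      b * (Y ^ 2 - 1) / T ^ 2, hL, ?_⟩
  have hs : π' * ((1 + b) * (κ / (κ - 1) * ((G₂ - η) / (1 + b)) ^ 2 / N)) ≤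
      π' * (κ / (κ - 1) * g₂ ^ 2 / N) := by
    refine mul_le_mul_of_nonneg_left ?_ hπ
    rw [show (1 + b) * (κ / (κ - 1) * ((G₂ - η) / (1 + b)) ^ 2 / N) =
      κ / (κ - 1) * ((G₂ - η) ^ 2 / (1 + b)) / N by field_simp]
    refine div_le_div_of_nonneg_right (mul_le_mul_of_nonneg_left ?_
      (div_nonneg (by linarith) (by linarith))) hN0.le
    exact (div_le_self (sq_nonneg _) (by linarith)).trans (sq_le_sq' hG.1 hG.2)
  have hq := mul_le_mul_of_nonneg_left hC (sq_nonneg (σ - T))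
  have hpr := mul_nonneg hb0 (mul_nonneg hπ (lo_price_nonneg hT hd hlo))
  have hlin := mul_le_mul_of_nonneg_left hl (sub_nonneg.2 hlD)
  have hνD : 0 ≤ -((σ - T) * ν) := neg_nonneg.2 (mul_nonpos_of_nonpos_of_nonneg hD hν)
  have eA : (σ - T - lo) * (2 * b * π' / T) - 2 * b * π' * (σ - T) / T -
      b * π' * ((Y ^ 2 - 1) / T ^ 2) = b * (π' * (-2 * lo / T - (Y ^ 2 - 1) / T ^ 2)) := by ring
  have eB : π' * ((1 + b) * (-((θ / T ^ 2 + κ * M ^ 2 / N) * (σ - T) ^ 2) -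
      κ / (κ - 1) * ((G₂ - η) / (1 + b)) ^ 2 / N) - 2 * b * (σ - T) / T -
      b * (Y ^ 2 - 1) / T ^ 2) =
      -((σ - T) ^ 2 * (π' * ((1 + b) * (θ / T ^ 2 + κ * M ^ 2 / N)))) -
      π' * ((1 + b) * (κ / (κ - 1) * ((G₂ - η) / (1 + b)) ^ 2 / N)) -
      2 * b * π' * (σ - T) / T - b * π' * ((Y ^ 2 - 1) / T ^ 2) := by ring
  rw [eB]
  have eC : (σ - T - lo) * (l + ν) = (σ - T) * l + (σ - T) * ν - lo * (l + ν) := by ring
  linarith

end Vale.Agent.P237.Cal
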