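import Vale.Agent.P237.Cal.PackDot

/-!
# P237: the cell test on packed tables, evaluated with shared values

`pcellTest` takes each dot product from one product of packed numbers and hands every enclosure and
weight on as a literal, so kernel evaluation does not recompute it. It implies `cellTest`.
-/

namespace Vale.Agent.P237.Cal.CellCert

open AtomCert

/-- Pass a natural number on as a literal. -/
def forceN {α : Type} : ℕ → (ℕ → α) → α
  | 0, k => k 0
  | j + 1, k => k (j + 1)

/-- Pass an integer on as a literal. -/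
def forceI {α : Type} : ℤ → (ℤ → α) → α
  | Int.ofNat m, k => forceN m fun a => k (Int.ofNat a)
  | Int.negSucc m, k => forceN m fun a => k (Int.negSucc a)

/-- Pass a pair on as literals. -/
def forceP {α : Type} : ℤ × ℤ → (ℤ × ℤ → α) → α
  | (a, b), k => forceI a fun a => forceI b fun b => k (a, b)

/-- Pass enclosed coefficients on as literals. -/
def forcePoly {α : Type} : Poly (ℤ × ℤ) → (Poly (ℤ × ℤ) → α) → α
  | ⟨p0, p1, p2, p3, p4, p5, p6⟩, k => forceP p0 fun a => forceP p1 fun b => forceP p2 fun c =>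
    forceP p3 fun d => forceP p4 fun e => forceP p5 fun f => forceP p6 fun g =>
      k ⟨a, b, c, d, e, f, g⟩

/-- Pass weights on as literals. -/
def forceW {α : Type} : Poly ℤ → (Poly ℤ → α) → α
  | ⟨p0, p1, p2, p3, p4, p5, p6⟩, k => forceI p0 fun a => forceI p1 fun b => forceI p2 fun c =>
    forceI p3 fun d => forceI p4 fun e => forceI p5 fun f => forceI p6 fun g =>
      k ⟨a, b, c, d, e, f, g⟩

lemma forceN_eq {α : Type} (n : ℕ) (k : ℕ → α) : forceN n k = k n := by cases n <;> rfl

lemma forceI_eq {α : Type} (n : ℤ) (k : ℤ → α) : forceI n k = k n := by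
  cases n <;> simp [forceI, forceN_eq]

lemma forceP_eq {α : Type} (p : ℤ × ℤ) (k : ℤ × ℤ → α) : forceP p k = k p := by
  cases p; simp [forceP, forceI_eq]

lemma forcePoly_eq {α : Type} (p : Poly (ℤ × ℤ)) (k : Poly (ℤ × ℤ) → α) :
    forcePoly p k = k p := by
  cases p; simp [forcePoly, forceP_eq]

lemma forceW_eq {α : Type} (p : Poly ℤ) (k : Poly ℤ → α) : forceW p k = k p := by
  cases p; simp [forceW, forceI_eq]

/-- The test of one control quadruple, with shared values. -/
def fctrlTest (a b N d : Poly (ℤ × ℤ)) (w : Poly ℤ) : Bool :=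
  forceW w fun w => forceI (pairI w a).1 fun va => forceI (pairI w b).1 fun vb =>
    forceI (pairI w N).1 fun vN => forceP (pairI w d) fun e =>
    forceI (max e.2 (-e.1)) fun vd => quadTest va vb vN vd

/-- The tests of the twelve control quadruples, with shared values. -/
def fctrlAll (a b N d : Poly (ℤ × ℤ)) (l h x0 x1 : ℤ) : Bool :=
  forceI l fun l => forceI h fun h => forceI x0 fun x0 => forceI x1 fun x1 =>
  let u : ℤ := 2 ^ 32
  let t (d1 d2 d3 : ℤ) : Bool :=
    fctrlTest a b N d (wts u d1 d2 d3 x0 x0) && fctrlTest a b N d (wts u d1 d2 d3 x0 x1) &&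
      fctrlTest a b N d (wts u d1 d2 d3 x1 x1)
  t l l l && t l l h && t l h h && t h h h

lemma fctrlAll_eq (a b N d : Poly (ℤ × ℤ)) (l h x0 x1 : ℤ) :
    fctrlAll a b N d l h x0 x1 = ctrlAll a b N d l h x0 x1 := by
  simp [fctrlAll, ctrlAll, fctrlTest, ctrlTest, forceI_eq, forceP_eq, forceW_eq]

/-- A packed function. -/
abbrev PFn := ℕ × ℕ × ℕ

/-- A packed family. -/
structure PFam where
  a : Poly PFn
  b : Poly PFn
  N : Poly PFn
  d : Poly PFn

/-- The packed tables of a cell. -/
structure PCell where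
  lo : ℕ
  hi : ℕ
  lo' : ℕ
  hi' : ℕ
  er : ℕ

/-- Enclosure of a packed function. -/
def pencl (W K : ℕ) (f : PFn) (lo hi er : ℕ) : ℤ × ℤ :=
  forceN (pdot W K f.2.2 er) fun e =>
    ((pdot W K f.1 lo : ℤ) - (pdot W K f.2.1 hi + e : ℕ),
      ((pdot W K f.1 hi + e : ℕ) : ℤ) - (pdot W K f.2.1 lo : ℕ))

/-- Enclose all coefficients of a packed polynomial. -/
def penclP (W K : ℕ) (p : Poly PFn) (lo hi er : ℕ) : Poly (ℤ × ℤ) :=
  ⟨pencl W K p.c00 lo hi er, pencl W K p.c10 lo hi er, pencl W K p.c20 lo hi er,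
    pencl W K p.c30 lo hi er, pencl W K p.c01 lo hi er, pencl W K p.c11 lo hi er,
    pencl W K p.c02 lo hi er⟩

/-- The test of a packed family at one node. -/
def pnodeTest (W K : ℕ) (F : PFam) (lo hi er : ℕ) (l h x0 x1 : ℤ) : Bool :=
  forceN lo fun lo => forceN hi fun hi => forceN er fun er =>
  forcePoly (penclP W K F.a lo hi er) fun a => forcePoly (penclP W K F.b lo hi er) fun b =>
  forcePoly (penclP W K F.N lo hi er) fun N => forcePoly (penclP W K F.d lo hi er) fun d =>
  fctrlAll a b N d l h x0 x1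

/-- The test of a packed family on a packed cell. -/
def pcellTest (W K : ℕ) (F : PFam) (C : PCell) (l h x0 x1 : ℤ) : Bool :=
  pnodeTest W K F C.lo C.hi C.er l h x0 x1 && pnodeTest W K F C.lo' C.hi' C.er l h x0 x1

/-- A list has length `K`, entries at most `M`, and the packed value `q`. -/
def listOk (W K M : ℕ) (pk : ℕ → List ℕ → ℕ) (l : List ℕ) (q : ℕ) : Bool :=
  Nat.beq l.length K && leAll M l && Nat.beq (pk W l) q

/-- `rpack`, computed by Horner's rule. -/
def rpackH (W : ℕ) (l : List ℕ) : ℕ := pack W l.reverse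

lemma pack_append (W a : ℕ) : ∀ l : List ℕ, pack W (l ++ [a]) = pack W l + (2 ^ W) ^ l.length * a
  | [] => by simp [pack]
  | b :: l => by
    simp only [List.cons_append, pack, pack_append W a l, List.length_cons, pow_succ]
    ring

lemma rpackH_eq (W : ℕ) : ∀ l : List ℕ, rpackH W l = rpack W l
  | [] => rfl
  | a :: l => by
    rw [rpackH, List.reverse_cons, pack_append, List.length_reverse, ← rpackH, rpackH_eq W l, rpack]
    ring

/-- A function is packed correctly. -/
def fnOk (W K M : ℕ) (f : Fn) (q : PFn) : Bool :=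
  listOk W K M rpackH f.1 q.1 && listOk W K M rpackH f.2.1 q.2.1 &&
    listOk W K M rpackH f.2.2 q.2.2

/-- A polynomial is packed correctly. -/
def polyOk (W K M : ℕ) (f : Poly Fn) (q : Poly PFn) : Bool :=
  fnOk W K M f.c00 q.c00 && fnOk W K M f.c10 q.c10 && fnOk W K M f.c20 q.c20 &&
    fnOk W K M f.c30 q.c30 && fnOk W K M f.c01 q.c01 && fnOk W K M f.c11 q.c11 &&
    fnOk W K M f.c02 q.c02

/-- A family is packed correctly. -/
def famOk (W K M : ℕ) (F : VFam) (q : PFam) : Bool :=
  polyOk W K M F.a q.a && polyOk W K M F.b q.b && polyOk W K M F.N q.N && polyOk W K M F.d q.d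

/-- A cell is packed correctly. -/
def cellOk (W K M : ℕ) (C : Cell) (q : PCell) : Bool :=
  listOk W K M pack C.lo q.lo && listOk W K M pack C.hi q.hi && listOk W K M pack C.lo' q.lo' &&
    listOk W K M pack C.hi' q.hi' && listOk W K M pack C.er q.er

variable {W K Mp Mq : ℕ}

lemma pdot_of_ok (hb : packTest W Mp Mq K = true) {p q : List ℕ} {a b : ℕ}
    (hp : listOk W K Mp rpackH p a = true) (hq : listOk W K Mq pack q b = true) :
    pdot W K a b = dot p q := by
  simp only [listOk, Bool.and_eq_true, Nat.beq_eq, rpackH_eq] at hp hq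
  simp only [packTest, decide_eq_true_eq] at hb
  obtain ⟨⟨hpl, hpM⟩, rfl⟩ := hp
  obtain ⟨⟨hql, hqM⟩, rfl⟩ := hq
  subst hpl
  exact pdot_eq hql.symm hpM hqM hb

lemma pencl_eq (hb : packTest W Mp Mq K = true) {f : Fn} {q : PFn} (hf : fnOk W K Mp f q = true)
    {lo hi er : List ℕ} {a b e : ℕ} (h1 : listOk W K Mq pack lo a = true)
    (h2 : listOk W K Mq pack hi b = true) (h3 : listOk W K Mq pack er e = true) :
    pencl W K q a b e = encl f lo hi er := by
  simp only [fnOk, Bool.and_eq_true] at hf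
  obtain ⟨⟨f1, f2⟩, f3⟩ := hf
  rw [pencl, forceN_eq, encl, pdot_of_ok hb f1 h1, pdot_of_ok hb f1 h2, pdot_of_ok hb f2 h1,
    pdot_of_ok hb f2 h2, pdot_of_ok hb f3 h3]

lemma penclP_eq (hb : packTest W Mp Mq K = true) {f : Poly Fn} {q : Poly PFn}
    (hf : polyOk W K Mp f q = true) {lo hi er : List ℕ} {a b e : ℕ}
    (h1 : listOk W K Mq pack lo a = true) (h2 : listOk W K Mq pack hi b = true)
    (h3 : listOk W K Mq pack er e = true) : penclP W K q a b e = enclP f lo hi er := by
  simp only [polyOk, Bool.and_eq_true] at hf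
  obtain ⟨⟨⟨⟨⟨⟨g0, g1⟩, g2⟩, g3⟩, g4⟩, g5⟩, g6⟩ := hf
  simp only [penclP, enclP, pencl_eq hb g0 h1 h2 h3, pencl_eq hb g1 h1 h2 h3,
    pencl_eq hb g2 h1 h2 h3, pencl_eq hb g3 h1 h2 h3, pencl_eq hb g4 h1 h2 h3,
    pencl_eq hb g5 h1 h2 h3, pencl_eq hb g6 h1 h2 h3]

lemma pnodeTest_eq (hb : packTest W Mp Mq K = true) {F : VFam} {Q : PFam}
    (hF : famOk W K Mp F Q = true) {lo hi er : List ℕ} {a b e : ℕ}
    (h1 : listOk W K Mq pack lo a = true) (h2 : listOk W K Mq pack hi b = true)
    (h3 : listOk W K Mq pack er e = true) (l h x0 x1 : ℤ) :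
    pnodeTest W K Q a b e l h x0 x1 = ctrlAll (enclP F.a lo hi er) (enclP F.b lo hi er)
      (enclP F.N lo hi er) (enclP F.d lo hi er) l h x0 x1 := by
  simp only [famOk, Bool.and_eq_true] at hF
  obtain ⟨⟨⟨fa, fb⟩, fN⟩, fd⟩ := hF
  simp only [pnodeTest, forceN_eq, forcePoly_eq, fctrlAll_eq, penclP_eq hb fa h1 h2 h3,
    penclP_eq hb fb h1 h2 h3, penclP_eq hb fN h1 h2 h3, penclP_eq hb fd h1 h2 h3]

/-- **The packed test gives the test on lists.** -/
theorem cellTest_of_pcell (hb : packTest W Mp Mq K = true) {F : VFam} {Q : PFam} {C : Cell}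
    {D : PCell} (hF : famOk W K Mp F Q = true) (hC : cellOk W K Mq C D = true)
    (h : pcellTest W K Q D C.l C.h C.x0 C.x1 = true) : cellTest F C = true := by
  simp only [cellOk, Bool.and_eq_true] at hC
  obtain ⟨⟨⟨⟨c1, c2⟩, c3⟩, c4⟩, c5⟩ := hC
  rw [pcellTest, pnodeTest_eq hb hF c1 c2 c5, pnodeTest_eq hb hF c3 c4 c5] at h
  exact h

/-- Packed tests along two lists of cells. -/
def pcellsTest (W K : ℕ) (F : PFam) : List Cell → List PCell → Bool
  | C :: cs, D :: ds => pcellTest W K F D C.l C.h C.x0 C.x1 && pcellsTest W K F cs ds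
  | [], [] => true
  | _, _ => false

/-- Packed tables of a list of cells. -/
def cellsOk (W K M : ℕ) : List Cell → List PCell → Bool
  | C :: cs, D :: ds => cellOk W K M C D && cellsOk W K M cs ds
  | [], [] => true
  | _, _ => false

/-- **A list of packed cells gives the tests of all cells.** -/
theorem cellTest_of_pcells (hb : packTest W Mp Mq K = true) {F : VFam} {Q : PFam}
    (hF : famOk W K Mp F Q = true) : ∀ {cs : List Cell} {ds : List PCell},
    cellsOk W K Mq cs ds = true → pcellsTest W K Q cs ds = true → ∀ C ∈ cs, cellTest F C = true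
  | [], _, _, _ => by simp
  | C :: cs, [], h, _ => by simp [cellsOk] at h
  | C :: cs, D :: ds, h, h' => by
    simp only [cellsOk, pcellsTest, Bool.and_eq_true] at h h'
    intro C' hm
    rcases List.mem_cons.1 hm with rfl | hm
    · exact cellTest_of_pcell hb hF h.1 h'.1
    · exact cellTest_of_pcells hb hF h.2 h'.2 C' hm

end Vale.Agent.P237.Cal.CellCert
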