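import Vale.Agent.P237.Cal.FastCtrl

/-!
# P237: node tables packed by columns

The column of an atom packs its values at all nodes of a chunk in base `2 ^ W`, so one combination
of the columns gives a coefficient function at every node: slot `i` is the dot product with row `i`
as soon as `(sum of the weights) * (largest entry) < 2 ^ W`. The node values are computed once and a
chain test shares each of them between the two cells at the node.
-/

namespace Vale.Agent.P237.Cal.CellCert

open AtomCert

/-- The columns of a table with rows of length `K`, packed in base `2 ^ W`, first row lowest. -/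
def packCols (W K : ℕ) : List (List ℕ) → List ℕ
  | [] => List.replicate K 0
  | r :: rs => List.zipWith (fun a c => a + 2 ^ W * c) r (packCols W K rs)

/-- The first `n` digits in base `2 ^ W`. -/
def digits (W : ℕ) : ℕ → ℕ → List ℕ
  | 0, _ => []
  | n + 1, S => forceN (S / 2 ^ W) fun q => S % 2 ^ W :: digits W n q

/-- A table of `n` rows, all of length `K` and at most `M`, with the packed columns `cols`. -/
def colsOk (W K M n : ℕ) (rows : List (List ℕ)) (cols : List ℕ) : Bool :=
  Nat.beq rows.length n && (rows.all fun r => Nat.beq r.length K && leAll M r) &&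
    decide (packCols W K rows = cols)

/-- A weight list cannot overflow a slot. -/
def sumOk (W M : ℕ) (w : List ℕ) : Bool := decide (w.sum * M < 2 ^ W)

lemma length_packCols {W K : ℕ} : ∀ {rows : List (List ℕ)},
    (∀ r ∈ rows, r.length = K) → (packCols W K rows).length = K
  | [], _ => by simp [packCols]
  | r :: rs, h => by
    simp [packCols, h r (by simp), length_packCols (rows := rs) fun s hs => h s (by simp [hs])]

lemma dot_replicate_zero : ∀ (w : List ℕ) (K : ℕ), dot w (List.replicate K 0) = 0
  | [], K => by cases K <;> simp [dot, List.replicate]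
  | a :: w, 0 => by simp [dot, List.replicate]
  | a :: w, K + 1 => by simp [dot, List.replicate_succ, dot_replicate_zero w K]

lemma dot_zipWith (B : ℕ) : ∀ (w r c : List ℕ), r.length = c.length →
    dot w (List.zipWith (fun a b => a + B * b) r c) = dot w r + B * dot w c
  | [], _, _, _ => by simp [dot]
  | _ :: _, [], [], _ => by simp [dot]
  | _ :: _, [], _ :: _, h => by simp at h
  | _ :: _, _ :: _, [], h => by simp at h
  | x :: w, a :: r, b :: c, h => by
    simp only [List.length_cons, Nat.add_right_cancel_iff] at h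
    simp only [List.zipWith_cons_cons, dot, dot_zipWith B w r c h]
    ring

lemma dot_le_sum {M : ℕ} : ∀ (w r : List ℕ), leAll M r = true → dot w r ≤ w.sum * M
  | [], _, _ => by simp [dot]
  | _ :: _, [], _ => by simp [dot]
  | x :: w, a :: r, h => by
    simp only [leAll, List.all_cons, Bool.and_eq_true, decide_eq_true_eq] at h
    have h1 := dot_le_sum (M := M) w r h.2
    have h2 : x * a ≤ x * M := Nat.mul_le_mul_left _ h.1
    simp only [dot, List.sum_cons, Nat.add_mul]
    omega

lemma digits_packCols {W K M : ℕ} {w : List ℕ} (hw : sumOk W M w = true) :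
    ∀ {rows : List (List ℕ)}, (∀ r ∈ rows, r.length = K ∧ leAll M r = true) →
      digits W rows.length (dot w (packCols W K rows)) = rows.map (dot w)
  | [], _ => by simp [digits]
  | r :: rs, h => by
    have hr := h r (by simp)
    have hl := length_packCols (W := W) (rows := rs) fun s hs => (h s (by simp [hs])).1
    have hlt : dot w r < 2 ^ W :=
      lt_of_le_of_lt (dot_le_sum w r hr.2) (by simpa [sumOk] using hw)
    have ih := digits_packCols hw (K := K) (rows := rs) fun s hs => h s (by simp [hs])
    simp only [packCols, List.length_cons, digits, forceN_eq, List.map_cons,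
      dot_zipWith _ w r _ (hr.1.trans hl.symm)]
    rw [Nat.add_mul_div_left _ _ (Nat.two_pow_pos W), Nat.div_eq_of_lt hlt, Nat.zero_add,
      Nat.add_mul_mod_self_left, Nat.mod_eq_of_lt hlt, ih]

/-- **Slot `i` of the combined columns is the dot product with row `i`.** -/
theorem digits_dot {W K M n : ℕ} {rows : List (List ℕ)} {cols w : List ℕ}
    (hc : colsOk W K M n rows cols = true) (hw : sumOk W M w = true) :
    digits W n (dot w cols) = rows.map (dot w) := by
  simp only [colsOk, Bool.and_eq_true, Nat.beq_eq, decide_eq_true_eq, List.all_eq_true] at hc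
  obtain ⟨⟨rfl, hr⟩, rfl⟩ := hc
  exact digits_packCols hw fun r hm => by simpa [Bool.and_eq_true, Nat.beq_eq] using hr r hm

/-- A function cannot overflow a slot. -/
def fnSumOk (W M : ℕ) (f : Fn) : Bool :=
  decide (f.1.sum * M < 2 ^ W / 2) && decide (f.2.1.sum * M < 2 ^ W / 2)

/-- The offset which keeps a signed slot nonnegative. -/
def half (W : ℕ) : ℕ := 2 ^ W / 2

/-- The offset in each of `n` slots. -/
def offC (W n : ℕ) : ℕ := half W * pack W (List.replicate n 1)

/-- `dot` as a plain recursor on raw operations, which the kernel evaluates three times faster. -/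
noncomputable def fdot (p : List ℕ) : List ℕ → ℕ :=
  @List.rec ℕ (fun _ => List ℕ → ℕ) (fun _ => 0)
    (fun a _ ih r => @List.rec ℕ (fun _ => ℕ) 0 (fun b t _ => Nat.add (Nat.mul a b) (ih t)) r) p

lemma fdot_eq : ∀ p r : List ℕ, fdot p r = dot p r
  | [], _ => rfl
  | a :: p, [] => rfl
  | a :: p, b :: r => by
    show Nat.add (Nat.mul a b) (fdot p r) = _
    rw [fdot_eq p r]; rfl

/-- The ends of a signed value from the slots of its two offset values. -/
def endsL (H : ℕ) : List ℕ → List ℕ → List (ℤ × ℤ)
  | a :: l, b :: r => forceP ((a : ℤ) - (H : ℕ), (b : ℤ) - (H : ℕ)) fun v => v :: endsL H l r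
  | _, _ => []

/-- The values of a function at all nodes, from the packed columns and the packed offset `R`. -/
noncomputable def nodeValsR (W n R : ℕ) (f : Fn) (clo chi : List ℕ) : List (ℤ × ℤ) :=
  forceN (fdot f.1 clo + R - fdot f.2.1 chi) fun l =>
  forceN (fdot f.1 chi + R - fdot f.2.1 clo) fun h =>
    forceN (half W) fun H => endsL H (digits W n l) (digits W n h)

/-- The values of a function at all nodes, from the packed columns. -/
noncomputable def nodeVals (W n : ℕ) (f : Fn) (clo chi : List ℕ) : List (ℤ × ℤ) :=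
  nodeValsR W n (offC W n) f clo chi

lemma dot_packCols {W K : ℕ} (w : List ℕ) : ∀ {rows : List (List ℕ)},
    (∀ r ∈ rows, r.length = K) → dot w (packCols W K rows) = pack W (rows.map (dot w))
  | [], _ => by simp [packCols, pack, dot_replicate_zero]
  | r :: rs, h => by
    have hl := length_packCols (W := W) (rows := rs) fun s hs => h s (by simp [hs])
    simp only [packCols, List.map_cons, pack, dot_zipWith _ w r _ ((h r (by simp)).trans hl.symm),
      dot_packCols w (rows := rs) fun s hs => h s (by simp [hs])]

lemma pack_add_map {β : Type} (W : ℕ) (f g : β → ℕ) : ∀ l : List β,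
    pack W (l.map f) + pack W (l.map g) = pack W (l.map fun x => f x + g x)
  | [] => rfl
  | x :: l => by
    simp only [List.map_cons, pack, ← pack_add_map W f g l]
    ring

lemma offC_eq {β : Type} (W : ℕ) : ∀ l : List β,
    offC W l.length = pack W (l.map fun _ => half W)
  | [] => by simp [offC, pack]
  | x :: l => by
    have h := offC_eq W l
    simp only [offC] at h ⊢
    simp only [List.length_cons, List.replicate_succ, List.map_cons, pack, ← h]
    ring

lemma digits_pack {W : ℕ} : ∀ {l : List ℕ}, (∀ a ∈ l, a < 2 ^ W) →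
    digits W l.length (pack W l) = l
  | [], _ => rfl
  | a :: l, h => by
    have ha := h a (by simp)
    simp only [List.length_cons, digits, forceN_eq, pack]
    rw [Nat.add_mul_div_left _ _ (Nat.two_pow_pos W), Nat.div_eq_of_lt ha, Nat.zero_add,
      Nat.add_mul_mod_self_left, Nat.mod_eq_of_lt ha, digits_pack fun b hb => h b (by simp [hb])]

lemma endsL_map {α : Type} (H : ℕ) (p q : α → ℕ) : ∀ l : List α,
    endsL H (l.map p) (l.map q) = l.map fun x => (((p x : ℕ) : ℤ) - (H : ℕ), ((q x : ℕ) : ℤ) - (H : ℕ))
  | [] => rfl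
  | x :: l => by simp [endsL, forceP_eq, endsL_map H p q l]

/-- Offset slots: the difference of two combinations at every node. -/
lemma digits_diff {W K M n : ℕ} {β : Type} {l : List β} {F G : β → List ℕ} {cf cg p q : List ℕ}
    (hf : colsOk W K M n (l.map F) cf = true) (hg : colsOk W K M n (l.map G) cg = true)
    (hp : p.sum * M < half W) (hq : q.sum * M < half W) :
    digits W n (dot p cf + offC W n - dot q cg) =
      l.map fun x => dot p (F x) + half W - dot q (G x) := by
  simp only [colsOk, Bool.and_eq_true, Nat.beq_eq, decide_eq_true_eq, List.all_eq_true,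
    List.length_map] at hf hg
  obtain ⟨⟨rfl, hF⟩, rfl⟩ := hf
  obtain ⟨⟨-, hG⟩, rfl⟩ := hg
  have hF' : ∀ x ∈ l, (F x).length = K ∧ leAll M (F x) = true := fun x hx =>
    hF (F x) (List.mem_map.2 ⟨x, hx, rfl⟩)
  have hG' : ∀ x ∈ l, (G x).length = K ∧ leAll M (G x) = true := fun x hx =>
    hG (G x) (List.mem_map.2 ⟨x, hx, rfl⟩)
  rw [dot_packCols p fun r hr => (hF r hr).1, dot_packCols q fun r hr => (hG r hr).1, offC_eq W l,
    List.map_map, List.map_map, pack_add_map]
  have hb : ∀ x ∈ l, dot q (G x) < half W := fun x hx =>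
    lt_of_le_of_lt (dot_le_sum q _ (hG' x hx).2) hq
  have key : pack W (l.map fun x => dot p (F x) + half W) =
      pack W (l.map fun x => dot q (G x)) + pack W (l.map fun x => dot p (F x) + half W - dot q (G x)) := by
    rw [pack_add_map]
    congr 1
    exact List.map_congr_left fun x hx => by have := hb x hx; omega
  simp only [Function.comp_def] at key ⊢
  rw [key, Nat.add_sub_cancel_left]
  have hd := digits_pack (W := W) (l := l.map fun x => dot p (F x) + half W - dot q (G x))
    fun a ha => by
      obtain ⟨x, hx, rfl⟩ := List.mem_map.1 ha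
      have h1 := lt_of_le_of_lt (dot_le_sum p _ (hF' x hx).2) hp
      have h2 : 2 * half W ≤ 2 ^ W := Nat.mul_div_le _ _
      omega
  rwa [List.length_map] at hd

/-- **The packed node values are the enclosures without error term.** -/
theorem nodeVals_eq {W K M n : ℕ} {tab : List (List ℕ × List ℕ)} {clo chi : List ℕ} {f : Fn}
    (hl : colsOk W K M n (tab.map (·.1)) clo = true)
    (hh : colsOk W K M n (tab.map (·.2)) chi = true) (hf : fnSumOk W M f = true) :
    nodeVals W n f clo chi = tab.map fun r => encl f r.1 r.2 [] := by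
  simp only [fnSumOk, Bool.and_eq_true, decide_eq_true_eq] at hf
  simp only [nodeVals, nodeValsR, forceN_eq, fdot_eq, digits_diff hl hh hf.1 hf.2, digits_diff hh hl hf.1 hf.2,
    endsL_map]
  refine List.map_congr_left fun r hr => ?_
  have h0 : dot f.2.2 [] = 0 := by cases f.2.2 <;> rfl
  simp only [colsOk, Bool.and_eq_true, Nat.beq_eq, List.all_eq_true] at hl hh
  have h1 := lt_of_le_of_lt (dot_le_sum f.2.1 r.1
    (hl.1.2 r.1 (List.mem_map.2 ⟨r, hr, rfl⟩)).2) hf.2
  have h2 := lt_of_le_of_lt (dot_le_sum f.2.1 r.2
    (hh.1.2 r.2 (List.mem_map.2 ⟨r, hr, rfl⟩)).2) hf.2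
  simp only [encl, h0, half, Nat.add_zero, Prod.mk.injEq]
  constructor <;> omega

/-- An enclosure is the value bounds widened by the error term. -/
lemma encl_eq_widen (f : Fn) (lo hi er : List ℕ) :
    encl f lo hi er = ((encl f lo hi []).1 - (dot f.2.2 er : ℕ),
      (encl f lo hi []).2 + (dot f.2.2 er : ℕ)) := by
  have h0 : dot f.2.2 [] = 0 := by cases f.2.2 <;> rfl
  ext <;> simp [encl, h0] <;> ring

/-- Seven lists as a list of coefficient records. -/
def zip7 {α : Type} : List α → List α → List α → List α → List α → List α → List α → List (Poly α)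
  | a :: p, b :: q, c :: r, d :: s, e :: t, f :: u, g :: v =>
    ⟨a, b, c, d, e, f, g⟩ :: zip7 p q r s t u v
  | _, _, _, _, _, _, _ => []

lemma zip7_map {α β : Type} (f0 f1 f2 f3 f4 f5 f6 : β → α) : ∀ l : List β,
    zip7 (l.map f0) (l.map f1) (l.map f2) (l.map f3) (l.map f4) (l.map f5) (l.map f6) =
      l.map fun x => ⟨f0 x, f1 x, f2 x, f3 x, f4 x, f5 x, f6 x⟩
  | [] => rfl
  | x :: l => by simp [zip7, zip7_map f0 f1 f2 f3 f4 f5 f6 l]

/-- Pass a list of enclosed coefficient records on as literals. -/
def forcePolys {α : Type} : List (Poly (ℤ × ℤ)) → (List (Poly (ℤ × ℤ)) → α) → α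
  | [], k => k []
  | p :: l, k => forcePoly p fun p => forcePolys l fun l => k (p :: l)

lemma forcePolys_eq {α : Type} : ∀ (l : List (Poly (ℤ × ℤ))) (k : List (Poly (ℤ × ℤ)) → α),
    forcePolys l k = k l
  | [], k => rfl
  | p :: l, k => by simp [forcePolys, forcePoly_eq, forcePolys_eq l]

/-- The values of a polynomial's coefficients at all nodes. -/
noncomputable def polyVals (W n : ℕ) (p : Poly Fn) (clo chi : List ℕ) : List (Poly (ℤ × ℤ)) :=
  forceN (offC W n) fun R =>
  zip7 (nodeValsR W n R p.c00 clo chi) (nodeValsR W n R p.c10 clo chi)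
    (nodeValsR W n R p.c20 clo chi) (nodeValsR W n R p.c30 clo chi)
    (nodeValsR W n R p.c01 clo chi) (nodeValsR W n R p.c11 clo chi)
    (nodeValsR W n R p.c02 clo chi)

/-- A polynomial cannot overflow a slot. -/
def polySumOk (W M : ℕ) (p : Poly Fn) : Bool :=
  fnSumOk W M p.c00 && fnSumOk W M p.c10 && fnSumOk W M p.c20 && fnSumOk W M p.c30 &&
    fnSumOk W M p.c01 && fnSumOk W M p.c11 && fnSumOk W M p.c02

theorem polyVals_eq {W K M n : ℕ} {tab : List (List ℕ × List ℕ)} {clo chi : List ℕ} {p : Poly Fn}
    (hl : colsOk W K M n (tab.map (·.1)) clo = true)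
    (hh : colsOk W K M n (tab.map (·.2)) chi = true) (hp : polySumOk W M p = true) :
    polyVals W n p clo chi = tab.map fun r => enclP p r.1 r.2 [] := by
  simp only [polySumOk, Bool.and_eq_true] at hp
  obtain ⟨⟨⟨⟨⟨⟨g0, g1⟩, g2⟩, g3⟩, g4⟩, g5⟩, g6⟩ := hp
  have e : ∀ f, nodeValsR W n (offC W n) f clo chi = nodeVals W n f clo chi := fun _ => rfl
  simp only [polyVals, forceN_eq, e, nodeVals_eq hl hh g0, nodeVals_eq hl hh g1, nodeVals_eq hl hh g2,
    nodeVals_eq hl hh g3, nodeVals_eq hl hh g4, nodeVals_eq hl hh g5, nodeVals_eq hl hh g6,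
    zip7_map, enclP]

/-- The value records of the four polynomials at one node. -/
structure VVals where
  a : Poly (ℤ × ℤ)
  b : Poly (ℤ × ℤ)
  N : Poly (ℤ × ℤ)
  d : Poly (ℤ × ℤ)

/-- Four lists of records as one list. -/
def zip4 : List (Poly (ℤ × ℤ)) → List (Poly (ℤ × ℤ)) → List (Poly (ℤ × ℤ)) →
    List (Poly (ℤ × ℤ)) → List VVals
  | a :: p, b :: q, c :: r, d :: s => ⟨a, b, c, d⟩ :: zip4 p q r s
  | _, _, _, _ => []

lemma zip4_map {β : Type} (f0 f1 f2 f3 : β → Poly (ℤ × ℤ)) : ∀ l : List β,
    zip4 (l.map f0) (l.map f1) (l.map f2) (l.map f3) = l.map fun x => ⟨f0 x, f1 x, f2 x, f3 x⟩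
  | [] => rfl
  | x :: l => by simp [zip4, zip4_map f0 f1 f2 f3 l]

/-- A test along consecutive nodes, one cell each. -/
def chainT {α γ : Type} (test : γ → α → α → Bool) : List γ → List α → Bool
  | C :: cs, a :: b :: l => test C a b && chainT test cs (b :: l)
  | [], [_] => true
  | _, _ => false

/-- A chain test on node values is the chain test on the nodes. -/
lemma chainT_map {α β γ : Type} (test : γ → α → α → Bool) (g : β → α) :
    ∀ (cs : List γ) (l : List β),
      chainT test cs (l.map g) = chainT (fun C a b => test C (g a) (g b)) cs l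
  | [], [] => rfl
  | [], [_] => rfl
  | [], _ :: _ :: _ => rfl
  | _ :: _, [] => rfl
  | _ :: _, [_] => rfl
  | C :: cs, a :: b :: l => by
    have h := chainT_map test g cs (b :: l)
    simp only [List.map_cons] at h
    simp only [List.map_cons, chainT, h]

lemma chainT_get {α γ : Type} {test : γ → α → α → Bool} : ∀ {cs : List γ} {l : List α},
    chainT test cs l = true → ∀ i (hi : i < cs.length), ∃ a b, l[i]? = some a ∧
      l[i + 1]? = some b ∧ test cs[i] a b = true
  | [], _, _, i, hi => by simp at hi
  | C :: cs, [], h, _, _ => by simp [chainT] at h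
  | C :: cs, [_], h, _, _ => by simp [chainT] at h
  | C :: cs, a :: b :: l, h, 0, _ => by
    simp only [chainT, Bool.and_eq_true] at h
    exact ⟨a, b, rfl, rfl, h.1⟩
  | C :: cs, a :: b :: l, h, i + 1, hi => by
    simp only [chainT, Bool.and_eq_true] at h
    simpa using chainT_get h.2 i (by simpa using hi)

/-- The node values of a family at all nodes of a chunk, and a test along the chain. -/
noncomputable def famChain {γ : Type} (W n : ℕ) (F : VFam) (clo chi : List ℕ)
    (test : γ → VVals → VVals → Bool) (cs : List γ) : Bool :=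
  forcePolys (polyVals W n F.a clo chi) fun va => forcePolys (polyVals W n F.b clo chi) fun vb =>
  forcePolys (polyVals W n F.N clo chi) fun vN => forcePolys (polyVals W n F.d clo chi) fun vd =>
    chainT test cs (zip4 va vb vN vd)

/-- A family cannot overflow a slot. -/
def famSumOk (W M : ℕ) (F : VFam) : Bool :=
  polySumOk W M F.a && polySumOk W M F.b && polySumOk W M F.N && polySumOk W M F.d

/-- The values of a family at one node. -/
def VFam.vals (F : VFam) (r : List ℕ × List ℕ) : VVals :=
  ⟨enclP F.a r.1 r.2 [], enclP F.b r.1 r.2 [], enclP F.N r.1 r.2 [], enclP F.d r.1 r.2 []⟩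

/-- **The chain on packed node values is the chain on the node tables.** -/
theorem famChain_eq {γ : Type} {W K M n : ℕ} {tab : List (List ℕ × List ℕ)} {clo chi : List ℕ}
    {F : VFam} (hl : colsOk W K M n (tab.map (·.1)) clo = true)
    (hh : colsOk W K M n (tab.map (·.2)) chi = true) (hF : famSumOk W M F = true)
    (test : γ → VVals → VVals → Bool) (cs : List γ) :
    famChain W n F clo chi test cs = chainT (fun C r r' => test C (F.vals r) (F.vals r')) cs tab := by
  simp only [famSumOk, Bool.and_eq_true] at hF
  obtain ⟨⟨⟨ga, gb⟩, gN⟩, gd⟩ := hF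
  simp only [famChain, forcePolys_eq, polyVals_eq hl hh ga, polyVals_eq hl hh gb,
    polyVals_eq hl hh gN, polyVals_eq hl hh gd, zip4_map]
  exact chainT_map test F.vals cs tab

end Vale.Agent.P237.Cal.CellCert
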