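import Vale.Agent.P237.Cal.CellCert

/-!
# P237: a dot product as one multiplication of packed numbers

With both vectors packed in base `2 ^ W`, the first one reversed, the middle digit of the product is
the dot product as soon as `length * max * max < 2 ^ W`.
-/

namespace Vale.Agent.P237.Cal.CellCert

/-- Pack a list in base `2 ^ W`, least digit first. -/
def pack (W : ℕ) : List ℕ → ℕ
  | [] => 0
  | a :: l => a + 2 ^ W * pack W l

/-- Pack a list in base `2 ^ W`, greatest digit first. -/
def rpack (W : ℕ) : List ℕ → ℕ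
  | [] => 0
  | a :: l => a * (2 ^ W) ^ l.length + rpack W l

/-- The middle digit of a product. -/
def pdot (W K p q : ℕ) : ℕ := p * q / (2 ^ W) ^ (K - 1) % 2 ^ W

/-- All entries are at most `M`. -/
def leAll (M : ℕ) (l : List ℕ) : Bool := l.all fun a => decide (a ≤ M)

lemma rpack_le {W M : ℕ} : ∀ {l : List ℕ}, leAll M l = true →
    rpack W l ≤ M * ∑ i ∈ Finset.range l.length, (2 ^ W) ^ i
  | [], _ => by simp [rpack]
  | a :: l, h => by
    simp only [leAll, List.all_cons, Bool.and_eq_true, decide_eq_true_eq] at h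
    have h2 := rpack_le (W := W) (l := l) h.2
    rw [rpack, List.length_cons, Finset.sum_range_succ, Nat.mul_add]
    have h1 : a * (2 ^ W) ^ l.length ≤ M * (2 ^ W) ^ l.length := Nat.mul_le_mul_right _ h.1
    omega

lemma rpack_mul_pack {W Mp Mq : ℕ} : ∀ {p q : List ℕ}, p.length = q.length →
    leAll Mp p = true → leAll Mq q = true → ∃ L H : ℕ,
      rpack W p * pack W q * 2 ^ W = L * 2 ^ W + (2 ^ W) ^ p.length * dot p q +
        (2 ^ W) ^ (p.length + 1) * H ∧
      L ≤ (p.length - 1) * Mp * Mq * ∑ i ∈ Finset.range (p.length - 1), (2 ^ W) ^ i ∧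
      dot p q ≤ p.length * Mp * Mq
  | [], [], _, _, _ => ⟨0, 0, by simp [rpack, pack, dot], by simp, by simp [dot]⟩
  | [], _ :: _, h, _, _ => by simp at h
  | _ :: _, [], h, _, _ => by simp at h
  | a :: p, c :: q, h, hp, hq => by
    simp only [List.length_cons, Nat.add_right_cancel_iff] at h
    simp only [leAll, List.all_cons, Bool.and_eq_true, decide_eq_true_eq] at hp hq
    obtain ⟨L, H, e, hL, hd⟩ := rpack_mul_pack (W := W) h hp.2 hq.2
    have hR := rpack_le (W := W) (l := p) hp.2
    refine ⟨c * rpack W p + 2 ^ W * L, a * pack W q + H, ?_, ?_, ?_⟩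
    · simp only [rpack, pack, dot, List.length_cons]
      have e' : 2 ^ W * (rpack W p * pack W q * 2 ^ W) =
          2 ^ W * (L * 2 ^ W + (2 ^ W) ^ p.length * dot p q + (2 ^ W) ^ (p.length + 1) * H) := by
        rw [e]
      simp only [pow_succ] at e' ⊢
      linarith
    · simp only [List.length_cons, Nat.add_sub_cancel]
      set S := ∑ i ∈ Finset.range p.length, (2 ^ W) ^ i with hS
      have h1 : c * rpack W p ≤ Mp * Mq * S :=
        (Nat.mul_le_mul hq.1 hR).trans_eq (by rw [hS]; ring)
      rcases Nat.eq_zero_or_pos p.length with h0 | h0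
      · have hL0 : L = 0 := by simpa [h0] using hL
        have : S = 0 := by simp [hS, h0]
        simp [hL0, this] at h1 ⊢
        exact h1
      · obtain ⟨j, hj⟩ := Nat.exists_eq_add_of_le' h0
        have hshift : 2 ^ W * ∑ i ∈ Finset.range j, (2 ^ W) ^ i ≤ S := by
          rw [hS, hj, Finset.sum_range_succ', Finset.mul_sum]
          refine le_trans (le_of_eq (Finset.sum_congr rfl fun i _ => ?_)) (Nat.le_add_right _ _)
          ring
        simp only [hj, Nat.add_sub_cancel] at hL ⊢
        calc c * rpack W p + 2 ^ W * L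
            ≤ Mp * Mq * S + j * Mp * Mq * (2 ^ W * ∑ i ∈ Finset.range j, (2 ^ W) ^ i) :=
              add_le_add h1 ((Nat.mul_le_mul_left _ hL).trans_eq (by ring))
          _ ≤ Mp * Mq * S + j * Mp * Mq * S :=
              add_le_add le_rfl (Nat.mul_le_mul_left _ hshift)
          _ = (j + 1) * Mp * Mq * S := by ring
    · simp only [dot, List.length_cons]
      have h1 : a * c ≤ Mp * Mq := Nat.mul_le_mul hp.1 hq.1
      linarith

/-- **The packed dot product.** -/
theorem pdot_eq {W Mp Mq : ℕ} {p q : List ℕ} (hl : p.length = q.length)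
    (hp : leAll Mp p = true) (hq : leAll Mq q = true) (hb : p.length * Mp * Mq < 2 ^ W) :
    pdot W p.length (rpack W p) (pack W q) = dot p q := by
  obtain ⟨L, H, e, hL, hd⟩ := rpack_mul_pack (W := W) hl hp hq
  rcases Nat.eq_zero_or_pos p.length with h0 | h0
  · rw [List.length_eq_zero_iff] at h0
    subst h0
    simp [pdot, rpack, dot]
  obtain ⟨j, hj⟩ := Nat.exists_eq_add_of_le' h0
  rw [hj] at e hL hd hb
  simp only [Nat.add_sub_cancel] at hL
  have hB : 0 < 2 ^ W := Nat.two_pow_pos W
  have e2 : rpack W p * pack W q = L + (2 ^ W) ^ j * (dot p q + 2 ^ W * H) := by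
    apply Nat.eq_of_mul_eq_mul_right hB
    rw [e]; ring
  have hlt : L < (2 ^ W) ^ j := by
    have h1 : j * Mp * Mq ≤ 2 ^ W - 1 :=
      Nat.le_sub_one_of_lt (lt_of_le_of_lt
        (Nat.mul_le_mul_right _ (Nat.mul_le_mul_right _ (Nat.le_succ j))) hb)
    have hg : (2 ^ W - 1) * ∑ i ∈ Finset.range j, (2 ^ W) ^ i = (2 ^ W) ^ j - 1 := by
      rw [mul_comm]; exact geom_sum_mul_of_one_le hB j
    have h2 := hL.trans ((Nat.mul_le_mul_right _ h1).trans_eq hg)
    have h3 : 0 < (2 ^ W) ^ j := Nat.pow_pos hB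
    omega
  rw [pdot, hj, Nat.add_sub_cancel, e2, Nat.add_mul_div_left _ _ (Nat.pow_pos hB),
    Nat.div_eq_of_lt hlt, Nat.zero_add, Nat.add_mul_mod_self_left, Nat.mod_eq_of_lt]
  exact lt_of_le_of_lt hd hb

/-- The check that the packed forms may be used. -/
def packTest (W Mp Mq K : ℕ) : Bool := decide (K * Mp * Mq < 2 ^ W)

end Vale.Agent.P237.Cal.CellCert
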