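import Vale.Agent.P237.Cal.CellGlue2
import Vale.Agent.P237.Cal.PackCol

/-!
# P237: the chain test of signed-derivative cells from tables packed by columns

For a chunk of consecutive cells the node values, the second and fourth derivative bounds and the
sixth derivative sums of a family come from combinations of packed columns, once per node and once per
cell; the segments of a cell share them. `pfamTest` implies `famTest` of the chunk.
-/

namespace Vale.Agent.P237.Cal.PackGlue2

open AtomCert CellCert CellCert2 CellGlue2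

/-- The tables of a node. -/
structure NTab where
  lo : List ℕ
  hi : List ℕ
  dlo : List ℤ
  dhi : List ℤ
  flo : List ℤ
  fhi : List ℤ

/-- Equality of literal tables as a plain recursor. -/
noncomputable def eqNs (a : List ℕ) : List ℕ → Bool :=
  @List.rec ℕ (fun _ => List ℕ → Bool)
    (fun b => @List.rec ℕ (fun _ => Bool) true (fun _ _ _ => false) b)
    (fun x _ ih b => @List.rec ℕ (fun _ => Bool) false (fun y t _ => Nat.beq x y && ih t) b) a

lemma eqNs_iff : ∀ {a b : List ℕ}, eqNs a b = true ↔ a = b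
  | [], [] => by simp [eqNs]
  | [], _ :: _ => by simp [eqNs]
  | _ :: _, [] => by simp [eqNs]
  | x :: a, y :: b => by
    show (Nat.beq x y && eqNs a b) = true ↔ _
    simp [eqNs_iff (a := a) (b := b)]

/-- Equality of integers by raw operations. -/
noncomputable def beqZ (x y : ℤ) : Bool :=
  @Int.rec (fun _ => Bool) (fun m => @Int.rec (fun _ => Bool) (fun n => Nat.beq m n) (fun _ => false) y)
    (fun m => @Int.rec (fun _ => Bool) (fun _ => false) (fun n => Nat.beq m n) y) x

lemma beqZ_iff : ∀ {x y : ℤ}, beqZ x y = true ↔ x = y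
  | Int.ofNat _, Int.ofNat _ => by simp [beqZ]
  | Int.ofNat _, Int.negSucc _ => by simp [beqZ]
  | Int.negSucc _, Int.ofNat _ => by simp [beqZ]
  | Int.negSucc _, Int.negSucc _ => by simp [beqZ]

/-- Equality of signed literal tables as a plain recursor. -/
noncomputable def eqZs (a : List ℤ) : List ℤ → Bool :=
  @List.rec ℤ (fun _ => List ℤ → Bool)
    (fun b => @List.rec ℤ (fun _ => Bool) true (fun _ _ _ => false) b)
    (fun x _ ih b => @List.rec ℤ (fun _ => Bool) false (fun y t _ => beqZ x y && ih t) b) a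

lemma eqZs_iff : ∀ {a b : List ℤ}, eqZs a b = true ↔ a = b
  | [], [] => by simp [eqZs]
  | [], _ :: _ => by simp [eqZs]
  | _ :: _, [] => by simp [eqZs]
  | x :: a, y :: b => by
    show (beqZ x y && eqZs a b) = true ↔ _
    simp [beqZ_iff, eqZs_iff (a := a) (b := b)]

/-- The cells are those of consecutive nodes. -/
noncomputable def linkOk : List CellCert2.Cell → List NTab → Bool
  | [], [_] => true
  | C :: cs, a :: b :: l =>
    eqNs C.lo a.lo && eqNs C.hi a.hi && eqZs C.dlo a.dlo &&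
      eqZs C.dhi a.dhi && eqNs C.lo' b.lo && eqNs C.hi' b.hi &&
      eqZs C.dlo' b.dlo && eqZs C.dhi' b.dhi && eqZs C.flo a.flo &&
      eqZs C.fhi a.fhi && eqZs C.flo' b.flo && eqZs C.fhi' b.fhi && linkOk cs (b :: l)
  | _, _ => false

/-- Positive parts. -/
def posL (v : List ℤ) : List ℕ := v.map Int.toNat

/-- Negative parts. -/
def negL (v : List ℤ) : List ℕ := v.map fun w => (-w).toNat

/-- The first row of a node for a signed table. -/
def rowS (lo hi : List ℤ) : List ℕ := posL lo ++ negL hi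

/-- The second row of a node for a signed table. -/
def rowT (lo hi : List ℤ) : List ℕ := negL lo ++ posL hi

/-- The packed columns of a chunk of `k` cells. -/
structure Cols where
  k : ℕ
  lo : List ℕ
  hi : List ℕ
  da : List ℕ
  db : List ℕ
  fa : List ℕ
  fb : List ℕ
  e6 : List ℕ

/-- The packed columns are right; `M` bounds the values, `M2` the second derivatives,
`M4` the fourth and sixth derivatives. -/
noncomputable def chunkOk (W K M M2 M4 : ℕ) (cs : List CellCert2.Cell) (N : List NTab) (Q : Cols) : Bool :=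
  linkOk cs N && (N.all fun t => Nat.beq t.dlo.length K && Nat.beq t.dhi.length K &&
      Nat.beq t.flo.length K && Nat.beq t.fhi.length K) &&
    colsOk W K M (Q.k + 1) (N.map (·.lo)) Q.lo && colsOk W K M (Q.k + 1) (N.map (·.hi)) Q.hi &&
    colsOk W (K + K) M2 (Q.k + 1) (N.map fun t => rowS t.dlo t.dhi) Q.da &&
    colsOk W (K + K) M2 (Q.k + 1) (N.map fun t => rowT t.dlo t.dhi) Q.db &&
    colsOk W (K + K) M4 (Q.k + 1) (N.map fun t => rowS t.flo t.fhi) Q.fa &&
    colsOk W (K + K) M4 (Q.k + 1) (N.map fun t => rowT t.flo t.fhi) Q.fb &&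
    colsOk W K M4 Q.k (cs.map (·.e6)) Q.e6

/-- A function fits the slots. -/
def fnFits (W K M M2 M4 : ℕ) (f : Fn) : Bool :=
  Nat.beq f.1.length K && Nat.beq f.2.1.length K && fnSumOk W M f &&
    decide ((f.1.sum + f.2.1.sum) * M2 < 2 ^ W / 2) &&
    decide ((f.1.sum + f.2.1.sum) * M4 < 2 ^ W / 2) && sumOk W M4 f.2.2

/-- A polynomial fits the slots. -/
def polyFits (W K M M2 M4 : ℕ) (p : CellCert.Poly Fn) : Bool :=
  fnFits W K M M2 M4 p.c00 && fnFits W K M M2 M4 p.c10 && fnFits W K M M2 M4 p.c20 &&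
    fnFits W K M M2 M4 p.c30 && fnFits W K M M2 M4 p.c01 && fnFits W K M M2 M4 p.c11 &&
    fnFits W K M M2 M4 p.c02

/-- A family fits the slots. -/
def famFits (W K M M2 M4 : ℕ) (F : VFam) : Bool :=
  polyFits W K M M2 M4 F.a && polyFits W K M M2 M4 F.b && polyFits W K M M2 M4 F.N &&
    polyFits W K M M2 M4 F.d

/-- Absolute bounds of the signed slots. -/
def magL (H : ℕ) : List ℕ → List ℕ → List ℕ
  | a :: l, b :: r => forceN (magI ((a : ℤ) - (H : ℕ), (b : ℤ) - (H : ℕ))) fun g => g :: magL H l r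
  | _, _ => []

/-- The bounds of a signed derivative of a function at all nodes. -/
noncomputable def magsR (W n R : ℕ) (f : Fn) (ca cb : List ℕ) : List ℕ :=
  forceN (fdot (f.1 ++ f.2.1) ca + R - fdot (f.1 ++ f.2.1) cb) fun l =>
  forceN (fdot (f.2.1 ++ f.1) cb + R - fdot (f.2.1 ++ f.1) ca) fun h =>
    forceN (half W) fun H => magL H (digits W n l) (digits W n h)

/-- Pass two intervals on as literals. -/
def forcePP {α : Type} : (ℤ × ℤ) × (ℤ × ℤ) → ((ℤ × ℤ) × (ℤ × ℤ) → α) → α
  | (x, y), k => forceP x fun a => forceP y fun b => k (a, b)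

lemma forcePP_eq {α : Type} (p : (ℤ × ℤ) × (ℤ × ℤ)) (k : (ℤ × ℤ) × (ℤ × ℤ) → α) :
    forcePP p k = k p := by
  obtain ⟨x, y⟩ := p; simp [forcePP, forceP_eq]

/-- The two enclosures on every cell, from values, bounds and sums. -/
def encL : List CellCert2.Cell → List (ℤ × ℤ) → List ℕ → List ℕ → List ℕ → List ((ℤ × ℤ) × (ℤ × ℤ))
  | C :: cs, v :: v' :: V, g :: g' :: G, f :: f' :: F, e :: es =>
    forceN (up43 C.d (max g g' + up43 C.d (max f f' + up43 C.d e))) fun E =>
      forcePP (widen v E, widen v' E) fun r => r :: encL cs (v' :: V) (g' :: G) (f' :: F) es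
  | _, _, _, _, _ => []

/-- All weights of a function vanish. -/
def zeroFn (f : Fn) : Bool :=
  f.1.all (Nat.beq · 0) && f.2.1.all (Nat.beq · 0) && f.2.2.all (Nat.beq · 0)

lemma dot_zero : ∀ {p : List ℕ} (r : List ℕ), p.all (Nat.beq · 0) = true → dot p r = 0
  | [], _, _ => by simp [dot]
  | _ :: _, [], _ => by simp [dot]
  | a :: p, b :: r, h => by
    simp only [List.all_cons, Bool.and_eq_true, Nat.beq_eq] at h
    simp [dot, h.1, dot_zero r h.2]

lemma dotZ_zero : ∀ {p : List ℕ} (r : List ℤ), p.all (Nat.beq · 0) = true → dotZ p r = 0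
  | [], _, _ => by simp [dotZ]
  | _ :: _, [], _ => by simp [dotZ]
  | a :: p, b :: r, h => by
    simp only [List.all_cons, Bool.and_eq_true, Nat.beq_eq] at h
    simp [dotZ, h.1, dotZ_zero r h.2]

lemma encl2_zero {f : Fn} (h : zeroFn f = true) (C : CellCert2.Cell) :
    encl2 f C = ((0, 0), (0, 0)) := by
  simp only [zeroFn, Bool.and_eq_true] at h
  obtain ⟨⟨h1, h2⟩, h3⟩ := h
  have u : ∀ d, up43 d 0 = 0 := fun d => by
    simp only [up43, Nat.mul_zero, Nat.zero_add]
    exact Nat.div_eq_of_lt (by norm_num)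
  simp [encl2, errF, chordErr, derI, valI, widen, magI, dot_zero _ h1, dot_zero _ h2, dot_zero _ h3,
    dotZ_zero _ h1, dotZ_zero _ h2, u]

/-- The enclosures of a function on the cells of a chunk. -/
noncomputable def fnEncl (W R : ℕ) (f : Fn) (cs : List CellCert2.Cell) (Q : Cols) :
    List ((ℤ × ℤ) × (ℤ × ℤ)) :=
  if zeroFn f then cs.map fun _ => ((0, 0), (0, 0))
  else encL cs (nodeValsR W (Q.k + 1) R f Q.lo Q.hi) (magsR W (Q.k + 1) R f Q.da Q.db)
    (magsR W (Q.k + 1) R f Q.fa Q.fb) (digits W Q.k (fdot f.2.2 Q.e6))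

/-- A pair of records from a record of pairs. -/
def unzipP (p : CellCert.Poly ((ℤ × ℤ) × (ℤ × ℤ))) :
    CellCert.Poly (ℤ × ℤ) × CellCert.Poly (ℤ × ℤ) :=
  (⟨p.c00.1, p.c10.1, p.c20.1, p.c30.1, p.c01.1, p.c11.1, p.c02.1⟩,
    ⟨p.c00.2, p.c10.2, p.c20.2, p.c30.2, p.c01.2, p.c11.2, p.c02.2⟩)

/-- Pass a record of pairs on as two records of literals. -/
def forceUnzip {α : Type} : CellCert.Poly ((ℤ × ℤ) × (ℤ × ℤ)) →
    (CellCert.Poly (ℤ × ℤ) × CellCert.Poly (ℤ × ℤ) → α) → α
  | ⟨(a, a'), (b, b'), (c, c'), (d, d'), (e, e'), (f, f'), (g, g')⟩, k =>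
    forcePoly ⟨a, b, c, d, e, f, g⟩ fun x => forcePoly ⟨a', b', c', d', e', f', g'⟩ fun y =>
      k (x, y)

/-- Pass a list of records on as literals. -/
def forceList {α : Type} : List (CellCert.Poly ((ℤ × ℤ) × (ℤ × ℤ))) →
    (List (CellCert.Poly (ℤ × ℤ) × CellCert.Poly (ℤ × ℤ)) → α) → α
  | [], k => k []
  | p :: l, k => forceUnzip p fun q => forceList l fun l => k (q :: l)

lemma forceList_eq {α : Type} : ∀ (l : List (CellCert.Poly ((ℤ × ℤ) × (ℤ × ℤ))))
    (k : List (CellCert.Poly (ℤ × ℤ) × CellCert.Poly (ℤ × ℤ)) → α),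
    forceList l k = k (l.map unzipP)
  | [], k => rfl
  | p :: l, k => by
    obtain ⟨⟨a, a'⟩, ⟨b, b'⟩, ⟨c, c'⟩, ⟨d, d'⟩, ⟨e, e'⟩, ⟨f, f'⟩, ⟨g, g'⟩⟩ := p
    simp [forceList, forceUnzip, unzipP, forcePoly_eq, forceList_eq l]

/-- The enclosures of a polynomial's coefficients on the cells of a chunk. -/
noncomputable def polyEncl (W : ℕ) (p : CellCert.Poly Fn) (cs : List CellCert2.Cell) (Q : Cols) :
    List (CellCert.Poly ((ℤ × ℤ) × (ℤ × ℤ))) :=
  forceN (offC W (Q.k + 1)) fun R =>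
    zip7 (fnEncl W R p.c00 cs Q) (fnEncl W R p.c10 cs Q) (fnEncl W R p.c20 cs Q)
      (fnEncl W R p.c30 cs Q) (fnEncl W R p.c01 cs Q) (fnEncl W R p.c11 cs Q)
      (fnEncl W R p.c02 cs Q)

/-- The segments of one cell from its enclosures. -/
def segG (a b N d : CellCert.Poly (ℤ × ℤ) × CellCert.Poly (ℤ × ℤ)) (x0 x1 : ℤ) :
    ℤ → List ℤ → ℤ → Bool
  | l, [], h => gctrlAll a.1 b.1 N.1 d.1 l h x0 x1 && gctrlAll a.2 b.2 N.2 d.2 l h x0 x1
  | l, c :: cs, h => gctrlAll a.1 b.1 N.1 d.1 l c x0 x1 && gctrlAll a.2 b.2 N.2 d.2 l c x0 x1 &&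
      segG a b N d x0 x1 c cs h

/-- The cells of a chunk from their enclosures. -/
def walkG : List (CellCert.Poly (ℤ × ℤ) × CellCert.Poly (ℤ × ℤ)) →
    List (CellCert.Poly (ℤ × ℤ) × CellCert.Poly (ℤ × ℤ)) →
    List (CellCert.Poly (ℤ × ℤ) × CellCert.Poly (ℤ × ℤ)) →
    List (CellCert.Poly (ℤ × ℤ) × CellCert.Poly (ℤ × ℤ)) → List Rng → Bool
  | a :: la, b :: lb, N :: lN, d :: ld, r :: rs =>
    xsT (fun x0 x1 => segG a b N d x0 x1 r.l r.cuts r.h) r.x0 r.xs r.x1 && walkG la lb lN ld rs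
  | [], [], [], [], [] => true
  | _, _, _, _, _ => false

/-- The test of a family on a chunk of cells from packed columns. -/
noncomputable def pfamTest (W : ℕ) (F : VFam) (cs : List CellCert2.Cell) (Q : Cols) (rs : List Rng) : Bool :=
  forceList (polyEncl W F.a cs Q) fun la => forceList (polyEncl W F.b cs Q) fun lb =>
  forceList (polyEncl W F.N cs Q) fun lN => forceList (polyEncl W F.d cs Q) fun ld =>
    walkG la lb lN ld rs

variable {W K M M2 M4 : ℕ} {cs : List CellCert2.Cell} {N : List NTab} {Q : Cols}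

lemma dotZ_eq : ∀ (p : List ℕ) (v : List ℤ),
    dotZ p v = (dot p (posL v) : ℤ) - (dot p (negL v) : ℕ)
  | [], v => by simp [dotZ, dot]
  | _ :: _, [] => by simp [dotZ, dot, posL, negL]
  | a :: p, w :: v => by
    have h := dotZ_eq p v
    simp only [posL, negL] at h
    simp only [dotZ, dot, posL, negL, List.map_cons, h]
    push_cast
    linear_combination (-(a : ℤ)) * Int.toNat_sub_toNat_neg w

lemma dot_append : ∀ (p q a b : List ℕ), p.length = a.length →
    dot (p ++ q) (a ++ b) = dot p a + dot q b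
  | [], _, [], _, _ => by simp [dot]
  | [], _, _ :: _, _, h => by simp at h
  | _ :: _, _, [], _, h => by simp at h
  | x :: p, q, y :: a, b, h => by
    simp only [List.length_cons, Nat.add_right_cancel_iff] at h
    simp only [List.cons_append, dot, dot_append p q a b h]
    ring

lemma magL_map {β : Type} (H : ℕ) (p q : β → ℕ) : ∀ l : List β,
    magL H (l.map p) (l.map q) = l.map fun x => magI ((p x : ℤ) - (H : ℕ), (q x : ℤ) - (H : ℕ))
  | [] => rfl
  | x :: l => by simp [magL, forceN_eq, magL_map H p q l]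

lemma magsR_eq {M n : ℕ} {dl dh : NTab → List ℤ} {ca cb : List ℕ}
    (hlen : ∀ t ∈ N, (dl t).length = K ∧ (dh t).length = K)
    (ha : colsOk W (K + K) M n (N.map fun t => rowS (dl t) (dh t)) ca = true)
    (hb : colsOk W (K + K) M n (N.map fun t => rowT (dl t) (dh t)) cb = true) {f : Fn}
    (hp : f.1.length = K) (hn : f.2.1.length = K) (h2 : (f.1.sum + f.2.1.sum) * M < half W) :
    magsR W n (offC W n) f ca cb = N.map fun t => magI (derI f (dl t) (dh t)) := by
  have e1 : (f.1 ++ f.2.1).sum * M < half W := by rw [List.sum_append]; exact h2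
  have e2 : (f.2.1 ++ f.1).sum * M < half W := by
    rw [List.sum_append, Nat.add_comm]; exact h2
  simp only [magsR, forceN_eq, fdot_eq, digits_diff ha hb e1 e1, digits_diff hb ha e2 e2, magL_map]
  refine List.map_congr_left fun t ht => ?_
  simp only [colsOk, Bool.and_eq_true, Nat.beq_eq, List.all_eq_true] at ha hb
  have hA := (ha.1.2 _ (List.mem_map.2 ⟨t, ht, rfl⟩)).2
  have hB := (hb.1.2 _ (List.mem_map.2 ⟨t, ht, rfl⟩)).2
  have k1 := lt_of_le_of_lt (dot_le_sum (f.1 ++ f.2.1) _ hB) e1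
  have k2 := lt_of_le_of_lt (dot_le_sum (f.2.1 ++ f.1) _ hA) e2
  have t1 := (hlen t ht).1
  have t2 := (hlen t ht).2
  simp only [rowS, rowT] at k1 k2 ⊢
  have la : (posL (dl t)).length = K := by simp [posL, t1]
  have lb : (negL (dl t)).length = K := by simp [negL, t1]
  rw [dot_append _ _ _ _ (hp.trans lb.symm)] at k1
  rw [dot_append _ _ _ _ (hn.trans la.symm)] at k2
  rw [dot_append _ _ _ _ (hp.trans lb.symm), dot_append _ _ _ _ (hn.trans la.symm),
    dot_append _ _ _ _ (hp.trans la.symm), dot_append _ _ _ _ (hn.trans lb.symm)]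
  congr 1
  simp only [derI, dotZ_eq, Prod.mk.injEq]
  constructor <;> omega

lemma encL_eq {f : Fn} : ∀ {cs : List CellCert2.Cell} {N : List NTab}, linkOk cs N = true →
    encL cs (N.map fun t => valI f t.lo t.hi) (N.map fun t => magI (derI f t.dlo t.dhi))
      (N.map fun t => magI (derI f t.flo t.fhi)) (cs.map fun C => dot f.2.2 C.e6) = cs.map fun C => encl2 f C
  | [], [_], _ => rfl
  | [], [], h => by simp [linkOk] at h
  | [], _ :: _ :: _, h => by simp [linkOk] at h
  | _ :: _, [], h => by simp [linkOk] at h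
  | _ :: _, [_], h => by simp [linkOk] at h
  | C :: cs, a :: b :: l, h => by
    simp only [linkOk, Bool.and_eq_true, eqNs_iff, eqZs_iff] at h
    obtain ⟨⟨⟨⟨⟨⟨⟨⟨⟨⟨⟨⟨e1, e2⟩, e3⟩, e4⟩, e5⟩, e6⟩, e7⟩, e8⟩, g1⟩, g2⟩, g3⟩, g4⟩, h'⟩ := h
    have ih := encL_eq (f := f) h'
    simp only [List.map_cons] at ih ⊢
    simp only [encL, forceN_eq, forcePP_eq, ih, encl2, errF, chordErr, e1, e2, e3, e4, e5, e6,
      e7, e8, g1, g2, g3, g4]

lemma fnEncl_eq (hc : chunkOk W K M M2 M4 cs N Q = true) {f : Fn}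
    (hf : fnFits W K M M2 M4 f = true) :
    fnEncl W (offC W (Q.k + 1)) f cs Q = cs.map fun C => encl2 f C := by
  rcases Bool.eq_false_or_eq_true (zeroFn f) with hz | hz
  · rw [fnEncl, if_pos hz]
    exact List.map_congr_left fun C _ => (encl2_zero hz C).symm
  simp only [chunkOk, Bool.and_eq_true, List.all_eq_true, Nat.beq_eq] at hc
  obtain ⟨⟨⟨⟨⟨⟨⟨⟨hk, hlen⟩, hl⟩, hh⟩, hA⟩, hB⟩, hA4⟩, hB4⟩, he⟩ := hc
  simp only [fnFits, Bool.and_eq_true, Nat.beq_eq, decide_eq_true_eq] at hf
  obtain ⟨⟨⟨⟨⟨hp, hn⟩, hval⟩, h2⟩, h4⟩, hs⟩ := hf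
  have hm := magsR_eq (dl := NTab.dlo) (dh := NTab.dhi) (fun t ht => (hlen t ht).1.1) hA hB hp hn h2
  have hm4 := magsR_eq (dl := NTab.flo) (dh := NTab.fhi)
    (fun t ht => ⟨(hlen t ht).1.2, (hlen t ht).2⟩) hA4 hB4 hp hn h4
  have hv : nodeVals W (Q.k + 1) f Q.lo Q.hi = N.map fun t => valI f t.lo t.hi := by
    have h := nodeVals_eq (tab := N.map fun t => (t.lo, t.hi)) (W := W) (K := K) (M := M)
      (n := Q.k + 1) (clo := Q.lo) (chi := Q.hi) (f := f)
      (by simpa [List.map_map, Function.comp_def] using hl)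
      (by simpa [List.map_map, Function.comp_def] using hh) hval
    rw [h, List.map_map]
    refine List.map_congr_left fun t _ => ?_
    have h0 : dot f.2.2 [] = 0 := by cases f.2.2 <;> rfl
    simp [encl, valI, h0]
  rw [nodeVals] at hv
  rw [fnEncl, if_neg (by simp [hz]), hv, hm, hm4, fdot_eq, digits_dot he hs, List.map_map]
  exact encL_eq hk

lemma polyEncl_eq (hc : chunkOk W K M M2 M4 cs N Q = true) {p : CellCert.Poly Fn}
    (hp : polyFits W K M M2 M4 p = true) :
    (polyEncl W p cs Q).map unzipP = cs.map fun C => enclP2 p C := by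
  simp only [polyFits, Bool.and_eq_true] at hp
  obtain ⟨⟨⟨⟨⟨⟨g0, g1⟩, g2⟩, g3⟩, g4⟩, g5⟩, g6⟩ := hp
  simp only [polyEncl, forceN_eq, fnEncl_eq hc g0, fnEncl_eq hc g1, fnEncl_eq hc g2,
    fnEncl_eq hc g3, fnEncl_eq hc g4, fnEncl_eq hc g5, fnEncl_eq hc g6, zip7_map, List.map_map]
  rfl

lemma segG_eq (F : VFam) (C : CellCert2.Cell) (x0 x1 : ℤ) : ∀ (l : ℤ) (cs : List ℤ) (h : ℤ),
    segG (enclP2 F.a C) (enclP2 F.b C) (enclP2 F.N C) (enclP2 F.d C) x0 x1 l cs h =
      segTest F C x0 x1 l cs h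
  | l, [], h => by
    simp only [segG, segTest, gctrlAll_eq]
    rfl
  | l, c :: cs, h => by
    simp only [segG, segTest, gctrlAll_eq, segG_eq F C x0 x1 c cs h]
    rfl

lemma walkG_eq (F : VFam) : ∀ (cs : List CellCert2.Cell) (rs : List Rng),
    walkG (cs.map fun C => enclP2 F.a C) (cs.map fun C => enclP2 F.b C)
      (cs.map fun C => enclP2 F.N C) (cs.map fun C => enclP2 F.d C) rs = famTest F cs rs
  | [], [] => rfl
  | [], _ :: _ => rfl
  | _ :: _, [] => rfl
  | C :: cs, r :: rs => by simp only [List.map_cons, walkG, famTest, segG_eq, walkG_eq F cs rs]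

/-- **The packed test of a chunk is the test of a family on it.** -/
theorem pfamTest_eq (hc : chunkOk W K M M2 M4 cs N Q = true) {F : VFam}
    (hF : famFits W K M M2 M4 F = true) (rs : List Rng) :
    pfamTest W F cs Q rs = famTest F cs rs := by
  simp only [famFits, Bool.and_eq_true] at hF
  obtain ⟨⟨⟨fa, fb⟩, fN⟩, fd⟩ := hF
  simp only [pfamTest, forceList_eq, polyEncl_eq hc fa, polyEncl_eq hc fb, polyEncl_eq hc fN,
    polyEncl_eq hc fd, walkG_eq]

/-- Chunks join. -/
theorem famTest_append {F : VFam} : ∀ {cs cs' : List CellCert2.Cell} {rs rs' : List Rng},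
    famTest F cs rs = true → famTest F cs' rs' = true → famTest F (cs ++ cs') (rs ++ rs') = true
  | [], _, [], _, _, h => h
  | [], _, _ :: _, _, h, _ => by simp [famTest] at h
  | _ :: _, _, [], _, h, _ => by simp [famTest] at h
  | C :: cs, cs', r :: rs, rs', h, h' => by
    simp only [famTest, Bool.and_eq_true] at h
    simp only [List.cons_append, famTest, Bool.and_eq_true]
    exact ⟨h.1, famTest_append h.2 h'⟩

end Vale.Agent.P237.Cal.PackGlue2
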