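import Vale.Agent.P237.Cal.CellCert

/-!
# P237: decidable equality of dense families

The lists are compared by raw operations on naturals, which the kernel evaluates quickly.
-/

namespace Vale.Agent.P237.Cal.CellCert

deriving instance DecidableEq for Poly

/-- Equality of lists of naturals as a plain recursor. -/
noncomputable def eqL (a : List ℕ) : List ℕ → Bool :=
  @List.rec ℕ (fun _ => List ℕ → Bool)
    (fun b => @List.rec ℕ (fun _ => Bool) true (fun _ _ _ => false) b)
    (fun x _ ih b => @List.rec ℕ (fun _ => Bool) false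
      (fun y t _ => @Bool.rec (fun _ => Bool) false (ih t) (Nat.beq x y)) b) a

lemma eqL_iff : ∀ {a b : List ℕ}, eqL a b = true ↔ a = b
  | [], [] => by simp [eqL]
  | [], _ :: _ => by simp [eqL]
  | _ :: _, [] => by simp [eqL]
  | x :: a, y :: b => by
    show (@Bool.rec (fun _ => Bool) false (eqL a b) (Nat.beq x y)) = true ↔ _
    rcases h : Nat.beq x y with _ | _
    · simp [Nat.ne_of_beq_eq_false h]
    · obtain rfl := Nat.eq_of_beq_eq_true h
      simp [eqL_iff (a := a) (b := b)]

/-- Equality of functions. -/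
noncomputable def eqFn (f g : Fn) : Bool := eqL f.1 g.1 && eqL f.2.1 g.2.1 && eqL f.2.2 g.2.2

lemma eqFn_iff {f g : Fn} : eqFn f g = true ↔ f = g := by
  simp [eqFn, eqL_iff, Prod.ext_iff, and_assoc]

/-- Equality of coefficient records. -/
noncomputable def eqPoly (p q : Poly Fn) : Bool :=
  eqFn p.c00 q.c00 && eqFn p.c10 q.c10 && eqFn p.c20 q.c20 && eqFn p.c30 q.c30 &&
    eqFn p.c01 q.c01 && eqFn p.c11 q.c11 && eqFn p.c02 q.c02

lemma eqPoly_iff {p q : Poly Fn} : eqPoly p q = true ↔ p = q := by
  cases p; cases q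
  simp [eqPoly, eqFn_iff, and_assoc]

/-- Equality of families. -/
noncomputable def eqVFam (F G : VFam) : Bool :=
  eqPoly F.a G.a && eqPoly F.b G.b && eqPoly F.N G.N && eqPoly F.d G.d

lemma eqVFam_iff {F G : VFam} : eqVFam F G = true ↔ F = G := by
  cases F; cases G
  simp [eqVFam, eqPoly_iff, and_assoc]

noncomputable instance : DecidableEq VFam := fun _ _ => decidable_of_iff _ eqVFam_iff

end Vale.Agent.P237.Cal.CellCert
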