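import Vale.Agent.P237.Cal.PackGlue2
import Vale.Agent.P237.Cal.VFamEq

/-!
# P237: the node and cell tables of a chunk, tested once each

Every node table is tested once, not once for each of its two cells, and what depends on the atom
alone (second and fourth derivative lists, keys and Horner coefficients of the sixth derivative) is read from a
literal table checked once per basis.
-/

namespace Vale.Agent.P237.Cal.PackGlue2

open AtomCert CellCert CellCert2 CellGlue2 StateTable


/-- The data of one atom: second and fourth derivative, least keys and coefficients of the sixth. -/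
abbrev AtomTab := List Atom × List Atom × (ℕ × ℕ) × List ℤ

/-- The coefficients of the sixth derivative of an atom. -/
noncomputable def d6Coef (k : ℕ × ℕ) : List ℤ :=
  let m := minKey (d6A k)
  (dense (keys m.1 m.2 7) (d6A k)).getD []

/-- The literal table of a basis is right. -/
noncomputable def atomsOk : List (ℕ × ℕ) → List AtomTab → Bool
  | [], [] => true
  | k :: B, (l, l4, m, v) :: T =>
    decide (d2A k = l) && decide (d4A k = l4) && decide (minKey (d6A k) = m) &&
      decide (d6Coef k = v) && atomsOk B T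
  | _, _ => false

/-- Drop trailing zeros. -/
def trimZ : List ℤ → List ℤ
  | [] => []
  | w :: v => match trimZ v with
    | [] => if w = 0 then [] else [w]
    | a :: r => w :: a :: r

lemma trimZ_length : ∀ v : List ℤ, (trimZ v).length ≤ v.length
  | [] => le_rfl
  | w :: v => by
    have := trimZ_length v
    simp only [trimZ]
    split
    · split_ifs <;> simp
    · rename_i h; rw [h] at this; simpa using this

lemma horI_trim (x0 x1 : ℕ) : ∀ v : List ℤ,
    horI x0 x1 v = (2 ^ (40 * (v.length - (trimZ v).length)) * (horI x0 x1 (trimZ v)).1,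
      2 ^ (40 * (v.length - (trimZ v).length)) * (horI x0 x1 (trimZ v)).2)
  | [] => by simp [horI, trimZ]
  | w :: v => by
    have ih := horI_trim x0 x1 v
    have hl := trimZ_length v
    have hc : ∀ (n : ℕ), (0 : ℤ) ≤ 2 ^ n := fun n => by positivity
    simp only [trimZ]
    split
    · rename_i h
      rw [h] at ih
      simp only [horI] at ih
      simp only [horI, ih]
      split_ifs with hw
      · subst hw; simp [horI]
      · simp [horI, ← pow_add, mul_comm, mul_left_comm]
        ring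
    · rename_i a r h
      rw [h] at ih hl
      simp only [List.length_cons] at hl ⊢
      simp only [horI, List.length_cons] at ih ⊢
      rw [ih]
      have e : v.length + 1 - (r.length + 1 + 1) = v.length - (r.length + 1) := by omega
      have e2 : (2 : ℤ) ^ (40 * (v.length + 1)) = 2 ^ (40 * (v.length - (r.length + 1))) *
          2 ^ (40 * (r.length + 1 + 1)) := by rw [← pow_add]; congr 1; omega
      simp only [e, e2]
      generalize (2 : ℤ) ^ (40 * (r.length + 1 + 1)) = q
      generalize hk : (2 : ℤ) ^ (40 * (v.length - (r.length + 1))) = k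
      have hk0 : 0 ≤ k := hk ▸ hc _
      generalize a * 2 ^ (40 * (r.length + 1)) +
        min ((horI x0 x1 r).1 * (x0 : ℤ)) ((horI x0 x1 r).1 * (x1 : ℤ)) = A
      generalize a * 2 ^ (40 * (r.length + 1)) +
        max ((horI x0 x1 r).2 * (x0 : ℤ)) ((horI x0 x1 r).2 * (x1 : ℤ)) = A'
      simp only [mul_add, mul_min_of_nonneg _ _ hk0, mul_max_of_nonneg _ _ hk0]
      ext <;> ring_nf

/-- Pass a list of natural numbers on as literals. -/
def forceNs {α : Type} : List ℕ → (List ℕ → α) → α
  | [], k => k []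
  | v :: l, k => forceN v fun v => forceNs l fun l => k (v :: l)

/-- Pass a list of integers on as literals. -/
def forceZs {α : Type} : List ℤ → (List ℤ → α) → α
  | [], k => k []
  | v :: l, k => forceI v fun v => forceZs l fun l => k (v :: l)

lemma forceNs_eq {α : Type} : ∀ (l : List ℕ) (k : List ℕ → α), forceNs l k = k l
  | [], _ => rfl
  | v :: l, k => by simp [forceNs, forceN_eq, forceNs_eq l]

lemma forceZs_eq {α : Type} : ∀ (l : List ℤ) (k : List ℤ → α), forceZs l k = k l
  | [], _ => rfl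
  | v :: l, k => by simp [forceZs, forceI_eq, forceZs_eq l]

/-- Adds `x` at place `a`. -/
def addSlot : ℕ → ℕ → List ℕ → List ℕ
  | 0, x, [] => [x]
  | 0, x, v :: l => (v + x) :: l
  | a + 1, x, [] => 0 :: addSlot a x []
  | a + 1, x, v :: l => v :: addSlot a x l

/-- The scaled positive and negative weights of a list supported on the keys `(e + 2a, f + 2a)`. -/
def buildT (e f I J : ℕ) : List Atom → Option (List ℕ × List ℕ)
  | [] => some ([], [])
  | (w, i, j) :: l =>
    if w = 0 then buildT e f I J l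
    else if e ≤ i ∧ f + (i - e) = j ∧ (i - e) % 2 = 0 then
      (buildT e f I J l).map fun r =>
        if 0 ≤ w then (addSlot ((i - e) / 2) (w.natAbs * pad I J i j) r.1, r.2)
        else (r.1, addSlot ((i - e) / 2) (w.natAbs * pad I J i j) r.2)
    else none

/-- Horner's rule as a plain recursor on raw operations. -/
noncomputable def hor2 (y : ℕ) (l : List ℕ) : ℕ :=
  @List.rec ℕ (fun _ => ℕ) 0 (fun v _ ih => Nat.add v (Nat.mul y ih)) l

lemma hor2_addSlot (y : ℕ) : ∀ (a x : ℕ) (l : List ℕ),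
    hor2 y (addSlot a x l) = hor2 y l + x * y ^ a
  | 0, x, [] => by
    show x + y * 0 = 0 + x * y ^ 0
    simp
  | 0, x, v :: l => by
    show v + x + y * hor2 y l = v + y * hor2 y l + x * y ^ 0
    ring
  | a + 1, x, [] => by
    show 0 + y * hor2 y (addSlot a x []) = 0 + x * y ^ (a + 1)
    rw [hor2_addSlot y a x []]
    show 0 + y * (0 + x * y ^ a) = _
    ring
  | a + 1, x, v :: l => by
    show v + y * hor2 y (addSlot a x l) = v + y * hor2 y l + x * y ^ (a + 1)
    rw [hor2_addSlot y a x l]; ring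

/-- The value of a weight table at a node. -/
noncomputable def tv (t c e f : ℕ) (l : List ℕ) : ℕ := t ^ e * c ^ f * hor2 ((t * c) ^ 2) l

lemma buildT_val {e f I J t cl cu : ℕ} : ∀ {l : List Atom} {r : List ℕ × List ℕ},
    buildT e f I J l = some r →
    loV I J t t cl cu l = (tv t cl e f r.1 : ℤ) - tv t cu e f r.2 ∧
      hiV I J t t cl cu l = (tv t cu e f r.1 : ℤ) - tv t cl e f r.2
  | [], r, h => by
    obtain rfl := Option.some.inj h
    simp [loV, hiV, tv, hor2]
  | (w, i, j) :: l, r, h => by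
    simp only [buildT] at h
    by_cases h0 : w = 0
    · rw [if_pos h0] at h
      obtain ⟨h1, h2⟩ := buildT_val h (t := t) (cl := cl) (cu := cu)
      subst h0
      simp [loV, hiV, h1, h2]
    rw [if_neg h0] at h
    by_cases hk : e ≤ i ∧ f + (i - e) = j ∧ (i - e) % 2 = 0
    · rw [if_pos hk] at h
      obtain ⟨u, hu, rfl⟩ := Option.map_eq_some_iff.1 h
      obtain ⟨h1, h2⟩ := buildT_val hu (t := t) (cl := cl) (cu := cu)
      obtain ⟨hi, hj, hm⟩ := hk
      have ei : i = e + 2 * ((i - e) / 2) := by omega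
      have ej : j = f + 2 * ((i - e) / 2) := by omega
      generalize (i - e) / 2 = a at *
      subst ei ej
      have key : ∀ (c p : ℕ) (l : List ℕ), (tv t c e f (addSlot a (w.natAbs * p) l) : ℤ) =
          tv t c e f l + |w| * ((t ^ (e + 2 * a) * c ^ (f + 2 * a) * p : ℕ) : ℤ) := fun c p l => by
        simp only [tv, hor2_addSlot, pow_add, pow_mul, mul_pow, Int.abs_eq_natAbs]
        push_cast; ring
      split_ifs with hw <;>
        simp only [loV, hiV, h1, h2, hw, if_true, if_false, key]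
      · rw [abs_of_nonneg hw]; constructor <;> ring
      · rw [abs_of_neg (not_le.1 hw)]; constructor <;> ring
    · rw [if_neg hk] at h
      exact absurd h (by simp)

/-- The table of one atom at the nodes: the shifted scale, the least keys, the weights. -/
structure DT where
  D : ℕ
  e : ℕ
  f : ℕ
  P : List ℕ
  N : List ℕ

/-- The tables of a basis for one derivative. -/
def prepD (p q P : ℕ) : List (ℕ × ℕ) → List (List Atom) → Option (List DT)
  | [], [] => some []
  | k :: B, l :: T =>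
    if fits (k.1 + p) (k.2 + q) l && decide (P ≤ 20 * (k.1 + p) + 32 * (k.2 + q)) then
      let m := minKey (l.filter fun a => decide (a.1 ≠ 0))
      (buildT m.1 m.2 (k.1 + p) (k.2 + q) l).bind fun r =>
        (prepD p q P B T).map
          (⟨2 ^ (20 * (k.1 + p) + 32 * (k.2 + q) - P), m.1, m.2, r.1, r.2⟩ :: ·)
    else none
  | _, _ => none

/-- Pass tables on as literals. -/
def forceDTs {α : Type} : List DT → (List DT → α) → α
  | [], k => k []
  | ⟨D, e, f, P, N⟩ :: l, k => forceN D fun D => forceN e fun e => forceN f fun f =>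
      forceNs P fun P => forceNs N fun N => forceDTs l fun l => k (⟨D, e, f, P, N⟩ :: l)

lemma forceDTs_eq {α : Type} : ∀ (l : List DT) (k : List DT → α), forceDTs l k = k l
  | [], _ => rfl
  | ⟨D, e, f, P, N⟩ :: l, k => by simp [forceDTs, forceN_eq, forceNs_eq, forceDTs_eq l]

/-- `a ≤ (X - Y) / D`, by natural numbers only. -/
noncomputable def geF (D X Y : ℕ) (a : ℤ) : Bool :=
  @Int.rec (fun _ => Bool) (fun n => Nat.ble Y X && Nat.ble n (Nat.div (Nat.sub X Y) D))
    (fun n => Nat.ble Y X ||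
      Nat.ble (Nat.div (Nat.add (Nat.sub Y X) (Nat.sub D 1)) D) (Nat.add n 1)) a

lemma geF_sound {D X Y : ℕ} {a : ℤ} (hD : 0 < D) (h : geF D X Y a = true) :
    a * (D : ℤ) ≤ (X : ℤ) - Y := by
  cases a with
  | ofNat n =>
    replace h : (Nat.ble Y X && Nat.ble n ((X - Y) / D)) = true := h
    simp only [Bool.and_eq_true, Nat.ble_eq] at h
    obtain ⟨h1, h2⟩ := h
    rw [Nat.le_div_iff_mul_le hD] at h2
    show (n : ℤ) * D ≤ _
    rw [← Nat.cast_mul, ← Nat.cast_sub h1]
    exact_mod_cast h2
  | negSucc n =>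
    replace h : (Nat.ble Y X || Nat.ble ((Y - X + (D - 1)) / D) (n + 1)) = true := h
    simp only [Bool.or_eq_true, Nat.ble_eq] at h
    rw [Int.negSucc_eq, neg_mul]
    rcases h with h | h
    · have : (0 : ℤ) ≤ ((n : ℤ) + 1) * D := by positivity
      have : (Y : ℤ) ≤ X := by exact_mod_cast h
      linarith
    · rw [Nat.div_le_iff_le_mul_add_pred hD] at h
      have h' : Y ≤ X + D * (n + 1) := by omega
      have : (Y : ℤ) ≤ X + D * ((n : ℤ) + 1) := by exact_mod_cast h'
      linarith

/-- `-b`, by raw constructors. -/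
noncomputable def negI (b : ℤ) : ℤ :=
  @Int.rec (fun _ => ℤ) (fun n => @Nat.rec (fun _ => ℤ) (Int.ofNat 0) (fun k _ => Int.negSucc k) n)
    (fun n => Int.ofNat (Nat.add n 1)) b

lemma negI_eq : ∀ b : ℤ, negI b = -b
  | Int.ofNat 0 => rfl
  | Int.ofNat (_ + 1) => rfl
  | Int.negSucc _ => rfl

/-- One signed entry of a node table; `yl`, `yu` are the squares of `t cl`, `t cu`. -/
noncomputable def node1 (t cl cu yl yu : ℕ) (d : DT) (a b : ℤ) : Bool :=
  forceN (Nat.pow t d.e) fun te => forceN (Nat.mul te (Nat.pow cl d.f)) fun L =>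
  forceN (Nat.mul te (Nat.pow cu d.f)) fun U =>
    geF d.D (Nat.mul L (hor2 yl d.P)) (Nat.mul U (hor2 yu d.N)) a &&
      geF d.D (Nat.mul L (hor2 yl d.N)) (Nat.mul U (hor2 yu d.P)) (negI b)

/-- A signed derivative table of a node. -/
noncomputable def nodeD (t cl cu yl yu : ℕ) (T : List DT) : List ℤ → List ℤ → Bool :=
  @List.rec DT (fun _ => List ℤ → List ℤ → Bool)
    (fun lo hi => @List.rec ℤ (fun _ => Bool)
      (@List.rec ℤ (fun _ => Bool) true (fun _ _ _ => false) hi) (fun _ _ _ => false) lo)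
    (fun d _ ih lo hi => @List.rec ℤ (fun _ => Bool) false
      (fun a lo' _ => @List.rec ℤ (fun _ => Bool) false
        (fun b hi' _ => node1 t cl cu yl yu d a b && ih lo' hi') hi) lo) T

lemma dTest_of {g : ℕ × ℕ → List Atom} {p q P : ℕ} {m : Node} (hm : nodeTest m = true) :
    ∀ {B : List (ℕ × ℕ)} {T : List (List Atom)} {D : List DT} {lo hi : List ℤ}, B.map g = T →
    prepD p q P B T = some D →
    nodeD m.1 m.2.1 m.2.2 ((m.1 * m.2.1) ^ 2) ((m.1 * m.2.2) ^ 2) D lo hi = true →
      dTest g p q P m B lo hi = true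
  | [], [], D, lo, hi, _, hp, h => by
    obtain rfl := Option.some.inj hp
    rcases lo with _ | ⟨a, lo⟩ <;> rcases hi with _ | ⟨b, hi⟩ <;> simp [nodeD, dTest, hm] at h ⊢
  | [], _ :: _, _, _, _, h, _, _ => by simp at h
  | _ :: _, [], _, _, _, h, _, _ => by simp at h
  | k :: B, l :: T, D, lo, hi, hT, hp, h => by
    simp only [List.map_cons, List.cons.injEq] at hT
    obtain ⟨h1, hT'⟩ := hT
    simp only [prepD] at hp
    split_ifs at hp with hc
    simp only [Option.bind_eq_some_iff, Option.map_eq_some_iff] at hp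
    obtain ⟨r, hr, D', hD', rfl⟩ := hp
    simp only [Bool.and_eq_true, decide_eq_true_eq] at hc
    obtain ⟨hf, hP⟩ := hc
    rcases lo with _ | ⟨a, lo⟩
    · exact absurd h (by simp [nodeD])
    rcases hi with _ | ⟨b, hi⟩
    · exact absurd h (by simp [nodeD])
    replace h : (node1 m.1 m.2.1 m.2.2 _ _ _ a b &&
      nodeD m.1 m.2.1 m.2.2 _ _ D' lo hi) = true := h
    rw [Bool.and_eq_true] at h
    obtain ⟨hn, hrest⟩ := h
    simp only [node1, forceN_eq, Bool.and_eq_true] at hn
    obtain ⟨ha, hb⟩ := hn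
    generalize eS : 20 * (k.1 + p) + 32 * (k.2 + q) = S at hP ha hb
    have hD := Nat.two_pow_pos (S - P)
    obtain ⟨vlo, vhi⟩ := buildT_val (t := m.1) (cl := m.2.1) (cu := m.2.2) hr
    replace ha := geF_sound hD ha
    replace hb := geF_sound hD hb
    rw [negI_eq] at hb
    have e2 : ((2 ^ S : ℕ) : ℤ) = ((2 ^ (S - P) : ℕ) : ℤ) * ((2 ^ P : ℕ) : ℤ) := by
      rw [← Nat.cast_mul, ← pow_add, Nat.sub_add_cancel hP]
    subst h1
    simp only [dTest, Bool.and_eq_true, decide_eq_true_eq]
    refine ⟨⟨⟨hf, ?_⟩, ?_⟩, dTest_of hm hT' hD' hrest⟩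
    · rw [eS, vlo, e2, ← mul_assoc]
      exact mul_le_mul_of_nonneg_right ha (Nat.cast_nonneg _)
    · rw [eS, vhi, e2, ← mul_assoc]
      refine mul_le_mul_of_nonneg_right ?_ (Nat.cast_nonneg _)
      simp only [tv] at *
      simp only [Nat.mul_eq, Nat.pow_eq] at *
      linarith

/-- The coefficients scaled for Horner's rule. -/
def scal : List ℤ → List ℤ
  | [] => []
  | w :: v => w * ((2 ^ (40 * (v.length + 1)) : ℕ) : ℤ) :: scal v

/-- `min (r x₀) (r x₁)` for `x₀ ≤ x₁`. -/
noncomputable def mulDn (x0 x1 : ℕ) (r : ℤ) : ℤ :=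
  @Int.rec (fun _ => ℤ) (fun n => Int.ofNat (Nat.mul n x0))
    (fun n => Int.negOfNat (Nat.mul (Nat.add n 1) x1)) r

/-- `max (r x₀) (r x₁)` for `x₀ ≤ x₁`. -/
noncomputable def mulUp (x0 x1 : ℕ) (r : ℤ) : ℤ :=
  @Int.rec (fun _ => ℤ) (fun n => Int.ofNat (Nat.mul n x1))
    (fun n => Int.negOfNat (Nat.mul (Nat.add n 1) x0)) r

lemma mulDn_eq {x0 x1 : ℕ} (h : x0 ≤ x1) (r : ℤ) :
    mulDn x0 x1 r = min (r * x0) (r * x1) := by
  have h' : (x0 : ℤ) ≤ x1 := by exact_mod_cast h
  cases r with
  | ofNat n =>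
    show ((n * x0 : ℕ) : ℤ) = _
    rw [Int.ofNat_eq_natCast, min_eq_left (mul_le_mul_of_nonneg_left h' (Int.natCast_nonneg n)), Nat.cast_mul]
  | negSucc n =>
    show Int.negOfNat ((n + 1) * x1) = _
    rw [min_eq_right (mul_le_mul_of_nonpos_left h' (Int.negSucc_lt_zero n).le), Int.negSucc_eq,
      Int.negOfNat_eq, Int.ofNat_eq_natCast]
    push_cast; ring

lemma mulUp_eq {x0 x1 : ℕ} (h : x0 ≤ x1) (r : ℤ) :
    mulUp x0 x1 r = max (r * x0) (r * x1) := by
  have h' : (x0 : ℤ) ≤ x1 := by exact_mod_cast h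
  cases r with
  | ofNat n =>
    show ((n * x1 : ℕ) : ℤ) = _
    rw [Int.ofNat_eq_natCast, max_eq_right (mul_le_mul_of_nonneg_left h' (Int.natCast_nonneg n)), Nat.cast_mul]
  | negSucc n =>
    show Int.negOfNat ((n + 1) * x0) = _
    rw [max_eq_left (mul_le_mul_of_nonpos_left h' (Int.negSucc_lt_zero n).le), Int.negSucc_eq,
      Int.negOfNat_eq, Int.ofNat_eq_natCast]
    push_cast; ring

/-- `horI` on scaled coefficients as a plain recursor with shared values. -/
noncomputable def horK (x0 x1 : ℕ) (s : List ℤ) : (ℤ → ℤ → Bool) → Bool :=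
  @List.rec ℤ (fun _ => (ℤ → ℤ → Bool) → Bool) (fun k => k (Int.ofNat 0) (Int.ofNat 0))
    (fun w _ ih k => ih fun lo hi => forceI (Int.add w (mulDn x0 x1 lo)) fun a =>
      forceI (Int.add w (mulUp x0 x1 hi)) fun b => k a b) s

lemma horK_eq {x0 x1 : ℕ} (h : x0 ≤ x1) : ∀ (v : List ℤ) (k : ℤ → ℤ → Bool),
    horK x0 x1 (scal v) k = k (horI x0 x1 v).1 (horI x0 x1 v).2
  | [], _ => rfl
  | w :: v, k => by
    show horK x0 x1 (scal v) _ = _
    rw [horK_eq h v]
    simp only [forceI_eq, mulDn_eq h, mulUp_eq h, horI, Nat.cast_pow, Nat.cast_ofNat, Int.add_def]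

/-- The table of one atom on the cells: the shifted scale, the least keys, the scaled coefficients. -/
structure ET where
  D : ℕ
  e : ℕ
  f : ℕ
  s : List ℤ

/-- The sixth derivative tables of a basis. -/
def prepE (P : ℕ) : List AtomTab → Option (List ET)
  | [] => some []
  | (_, _, m, v) :: T =>
    if v.length = 7 ∧
        (trimZ v = [] ∨ P + 40 * (7 - (trimZ v).length) ≤ 20 * m.1 + 32 * m.2 + sh7) then
      (prepE P T).map (⟨2 ^ (20 * m.1 + 32 * m.2 + sh7 - (P + 40 * (7 - (trimZ v).length))), m.1,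
        m.2, scal (trimZ v)⟩ :: ·)
    else none

/-- Pass tables on as literals. -/
def forceETs {α : Type} : List ET → (List ET → α) → α
  | [], k => k []
  | ⟨D, e, f, s⟩ :: l, k => forceN D fun D => forceN e fun e => forceN f fun f =>
      forceZs s fun s => forceETs l fun l => k (⟨D, e, f, s⟩ :: l)

lemma forceETs_eq {α : Type} : ∀ (l : List ET) (k : List ET → α), forceETs l k = k l
  | [], _ => rfl
  | ⟨D, e, f, s⟩ :: l, k => by simp [forceETs, forceN_eq, forceZs_eq, forceETs_eq l]

/-- One entry of a cell table. -/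
noncomputable def cell1 (t' c x0 x1 : ℕ) (d : ET) (er : ℕ) : Bool :=
  forceN (Nat.mul (Nat.pow t' d.e) (Nat.pow c d.f)) fun u => horK x0 x1 d.s fun lo hi =>
    Nat.ble (Nat.div (Nat.add (Nat.mul u lo.natAbs) (Nat.sub d.D 1)) d.D) er &&
      Nat.ble (Nat.div (Nat.add (Nat.mul u hi.natAbs) (Nat.sub d.D 1)) d.D) er

/-- The sixth derivative bounds of a cell. -/
noncomputable def cellE (t' c x0 x1 : ℕ) (T : List ET) : List ℕ → Bool :=
  @List.rec ET (fun _ => List ℕ → Bool)
    (fun er => @List.rec ℕ (fun _ => Bool) true (fun _ _ _ => false) er)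
    (fun d _ ih er => @List.rec ℕ (fun _ => Bool) false
      (fun e er' _ => cell1 t' c x0 x1 d e && ih er') er) T

/-- The cells of a chunk from the prepared tables. -/
noncomputable def cellsF (T : List ET) : List Node → List CellCert2.Cell → Bool
  | a :: b :: l, C :: cs =>
    decide (a.1 < b.1) && decide (a.1 + C.d = b.1) &&
      forceN (xLo a.1) (fun x0 => forceN (xHi b.1) fun x1 => forceN b.1 fun t' =>
        forceN a.2.2 fun c => Nat.ble x0 x1 && cellE t' c x0 x1 T C.e6) &&
      cellsF T (b :: l) cs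
  | [_], [] => true
  | _, _ => false

/-- The cell tables along a chunk: sixth derivative bounds and lengths. -/
noncomputable def cellTabs (P : ℕ) (T : List AtomTab) (ns : List Node)
    (cs : List CellCert2.Cell) : Bool :=
  match prepE P T with
  | some E => forceETs E fun E => cellsF E ns cs
  | none => false

/-- The value table of a node by shifted quotients. -/
def fcol (P t cl cu : ℕ) : List (ℕ × ℕ) → List ℕ → List ℕ → Bool
  | [], [], [] => true
  | (i, j) :: B, a :: lo, b :: hi =>
    forceN (20 * i + 32 * j) (fun S =>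
      if P ≤ S then forceN (2 ^ (S - P)) fun D =>
        decide (a ≤ t ^ i * cl ^ j / D) && decide ((t ^ i * cu ^ j + (D - 1)) / D ≤ b)
      else decide (a * 2 ^ S ≤ t ^ i * cl ^ j * 2 ^ P) &&
        decide (t ^ i * cu ^ j * 2 ^ P ≤ b * 2 ^ S)) && fcol P t cl cu B lo hi
  | _, _, _ => false

lemma colTest_of {P : ℕ} {m : Node} (hm : nodeTest m = true) : ∀ {B : List (ℕ × ℕ)}
    {lo hi : List ℕ}, fcol P m.1 m.2.1 m.2.2 B lo hi = true → colTest P m B lo hi = true
  | [], [], [], _ => by simpa [colTest] using hm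
  | [], [], _ :: _, h => by simp [fcol] at h
  | [], _ :: _, _, h => by simp [fcol] at h
  | _ :: _, [], _, h => by simp [fcol] at h
  | _ :: _, _ :: _, [], h => by simp [fcol] at h
  | (i, j) :: B, a :: lo, b :: hi, h => by
    simp only [fcol, forceN_eq, Bool.and_eq_true] at h
    obtain ⟨h0, hr⟩ := h
    simp only [colTest, Bool.and_eq_true, decide_eq_true_eq]
    refine ⟨?_, colTest_of hm hr⟩
    generalize m.1 ^ i * m.2.1 ^ j = u at h0 ⊢
    generalize m.1 ^ i * m.2.2 ^ j = w at h0 ⊢
    generalize 20 * i + 32 * j = S at h0 ⊢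
    split_ifs at h0 with hP
    · simp only [Bool.and_eq_true, decide_eq_true_eq] at h0
      obtain ⟨h1, h2⟩ := h0
      have hD : 0 < 2 ^ (S - P) := Nat.two_pow_pos _
      rw [Nat.le_div_iff_mul_le hD] at h1
      rw [Nat.div_le_iff_le_mul_add_pred hD] at h2
      have h2' : w ≤ 2 ^ (S - P) * b := by omega
      have eS : 2 ^ S = 2 ^ (S - P) * 2 ^ P := by rw [← pow_add, Nat.sub_add_cancel hP]
      rw [eS, ← mul_assoc, ← mul_assoc, mul_comm b]
      exact ⟨Nat.mul_le_mul_right _ h1, Nat.mul_le_mul_right _ h2'⟩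
    · simpa using h0

/-- The nodes of a chunk from the prepared tables. -/
noncomputable def nodesF (P : ℕ) (B : List (ℕ × ℕ)) (T2 T4 : List DT) :
    List Node → List NTab → Bool
  | m :: l, u :: us =>
    nodeTest m &&
      forceN m.1 (fun t => forceN m.2.1 fun cl => forceN m.2.2 fun cu =>
        forceN ((t * cl) ^ 2) fun yl => forceN ((t * cu) ^ 2) fun yu =>
          fcol P t cl cu B u.lo u.hi && nodeD t cl cu yl yu T2 u.dlo u.dhi &&
            nodeD t cl cu yl yu T4 u.flo u.fhi) && nodesF P B T2 T4 l us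
  | [], [] => true
  | _, _ => false

/-- The node tables of a chunk. -/
noncomputable def nodeTabs (P : ℕ) (B : List (ℕ × ℕ)) (T : List AtomTab) (ns : List Node)
    (us : List NTab) : Bool :=
  match prepD 2 4 P B (T.map (·.1)), prepD 4 8 P B (T.map (·.2.1)) with
  | some T2, some T4 => forceDTs T2 fun T2 => forceDTs T4 fun T4 => nodesF P B T2 T4 ns us
  | _, _ => false

lemma atomsOk_maps : ∀ {B : List (ℕ × ℕ)} {T : List AtomTab}, atomsOk B T = true →
    B.map d2A = T.map (·.1) ∧ B.map d4A = T.map (·.2.1)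
  | [], [], _ => ⟨rfl, rfl⟩
  | [], _ :: _, h => by simp [atomsOk] at h
  | _ :: _, [], h => by simp [atomsOk] at h
  | k :: B, (l, l4, m, v) :: T, h => by
    simp only [atomsOk, Bool.and_eq_true, decide_eq_true_eq] at h
    obtain ⟨i1, i2⟩ := atomsOk_maps h.2
    simp only [List.map_cons, i1, i2, h.1.1.1.1, h.1.1.1.2, and_self]

lemma e6Test_of {P : ℕ} {n n' : Node} (hn : nodeTest n = true) (hn' : nodeTest n' = true)
    (hx : xLo n.1 ≤ xHi n'.1) (hlt : n.1 < n'.1) : ∀ {B : List (ℕ × ℕ)} {T : List AtomTab}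
    {E : List ET} {er : List ℕ},
    atomsOk B T = true → prepE P T = some E →
    cellE n'.1 n.2.2 (xLo n.1) (xHi n'.1) E er = true → e6Test P n n' B er = true
  | [], [], E, er, _, hE, h => by
    obtain rfl := Option.some.inj hE
    rcases er with _ | ⟨a, er⟩
    · simp [e6Test, hn, hn', hlt]
    · simp [cellE] at h
  | [], _ :: _, _, _, h, _, _ => by simp [atomsOk] at h
  | _ :: _, [], _, _, h, _, _ => by simp [atomsOk] at h
  | k :: B, (l, l4, e, v) :: T, E, er, hT, hE, h => by
    simp only [atomsOk, Bool.and_eq_true, decide_eq_true_eq] at hT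
    obtain ⟨⟨⟨-, h2⟩, h3⟩, hT'⟩ := hT
    simp only [prepE] at hE
    split_ifs at hE with hc
    simp only [Option.map_eq_some_iff] at hE
    obtain ⟨E', hE', rfl⟩ := hE
    rcases er with _ | ⟨x, er⟩
    · exact absurd h (by simp [cellE])
    replace h : (cell1 n'.1 n.2.2 (xLo n.1) (xHi n'.1) _ x &&
      cellE n'.1 n.2.2 (xLo n.1) (xHi n'.1) E' er) = true := h
    rw [Bool.and_eq_true] at h
    obtain ⟨h1, hrest⟩ := h
    simp only [cell1, forceN_eq, horK_eq hx, Bool.and_eq_true, Nat.ble_eq, Nat.mul_eq, Nat.pow_eq,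
      Nat.add_eq, Nat.sub_eq, Nat.div_eq] at h1
    obtain ⟨hlo, hhi⟩ := h1
    change (_ + (_ - 1)) / _ ≤ x at hlo hhi
    obtain ⟨hv, hP⟩ := hc
    subst h2 h3
    simp only [e6Test, Bool.and_eq_true]
    refine ⟨?_, e6Test_of hn hn' hx hlt hT' hE' hrest⟩
    simp only [e6One]
    rcases hd : dense (keys (minKey (d6A k)).1 (minKey (d6A k)).2 7) (d6A k) with _ | w
    · simp [d6Coef, hd] at hv
    simp only [d6Coef, hd, Option.getD_some] at hv hP hlo hhi
    simp only [Bool.and_eq_true, decide_eq_true_eq]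
    refine ⟨hv, ?_⟩
    rcases hP with ht | hP
    · rw [horI_trim, ht]
      simp [horI]
    rw [horI_trim, hv, Int.natAbs_mul, Int.natAbs_mul, Nat.mul_max_mul_left]
    simp only [Int.natAbs_pow, Int.reduceAbs]
    generalize 40 * (7 - (trimZ w).length) = d at hP hlo hhi ⊢
    generalize 20 * (minKey (d6A k)).1 + 32 * (minKey (d6A k)).2 + sh7 = S at hP hlo hhi ⊢
    generalize n'.1 ^ (minKey (d6A k)).1 * n.2.2 ^ (minKey (d6A k)).2 = u at hlo hhi ⊢
    generalize (horI (xLo n.1) (xHi n'.1) (trimZ w)).1.natAbs = z1 at hlo ⊢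
    generalize (horI (xLo n.1) (xHi n'.1) (trimZ w)).2.natAbs = z2 at hhi ⊢
    have hD : 0 < 2 ^ (S - (P + d)) := Nat.two_pow_pos _
    rw [Nat.div_le_iff_le_mul_add_pred hD] at hlo hhi
    have h1 : u * max z1 z2 ≤ 2 ^ (S - (P + d)) * x := by
      rw [← Nat.mul_max_mul_left]
      exact max_le (by omega) (by omega)
    calc 2 ^ P * u * (2 ^ d * max z1 z2) = 2 ^ (P + d) * (u * max z1 z2) := by rw [pow_add]; ring
      _ ≤ 2 ^ (P + d) * (2 ^ (S - (P + d)) * x) := Nat.mul_le_mul_left _ h1
      _ = x * 2 ^ S := by rw [← mul_assoc, ← pow_add, Nat.add_sub_cancel' hP]; ring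

lemma nodesF_cons {P : ℕ} {B : List (ℕ × ℕ)} {T : List AtomTab} {T2 T4 : List DT} {m : Node}
    {l : List Node} {u : NTab} {us : List NTab} (hT : atomsOk B T = true)
    (e2 : prepD 2 4 P B (T.map (·.1)) = some T2) (e4 : prepD 4 8 P B (T.map (·.2.1)) = some T4)
    (h : nodesF P B T2 T4 (m :: l) (u :: us) = true) :
    nodeTest m = true ∧ colTest P m B u.lo u.hi = true ∧ d2Test P m B u.dlo u.dhi = true ∧
      d4Test P m B u.flo u.fhi = true ∧ nodesF P B T2 T4 l us = true := by
  simp only [nodesF, forceN_eq, Bool.and_eq_true] at h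
  exact ⟨h.1.1, colTest_of h.1.1 h.1.2.1.1, dTest_of h.1.1 (atomsOk_maps hT).1 e2 h.1.2.1.2,
    dTest_of h.1.1 (atomsOk_maps hT).2 e4 h.1.2.2, h.2⟩

lemma tabsTest_core {P : ℕ} {B : List (ℕ × ℕ)} {T : List AtomTab} {T2 T4 : List DT} {E : List ET}
    (hT : atomsOk B T = true) (e2 : prepD 2 4 P B (T.map (·.1)) = some T2)
    (e4 : prepD 4 8 P B (T.map (·.2.1)) = some T4) (eE : prepE P T = some E) :
    ∀ {rows : List Row} {cs : List CellCert2.Cell} {N : List NTab},
      nodesF P B T2 T4 (rows.map (·.n)) N = true → cellsF E (rows.map (·.n)) cs = true →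
      linkOk cs N = true → tabsTest P B rows cs = true
  | [], _, _, _, h, _ => by simp [cellsF] at h
  | [_], [], _, _, _, _ => rfl
  | [_], _ :: _, _, _, h, _ => by simp [cellsF] at h
  | _ :: _ :: _, [], _, _, h, _ => by simp [cellsF] at h
  | _ :: _ :: _, _ :: _, [], _, _, h => by simp [linkOk] at h
  | _ :: _ :: _, _ :: _, [_], _, _, h => by simp [linkOk] at h
  | a :: b :: l, C :: cs, u :: w :: us, hN, hC, hL => by
    simp only [List.map_cons] at hN hC
    obtain ⟨na, ca, da, qa, hN'⟩ := nodesF_cons hT e2 e4 hN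
    obtain ⟨nb, cb, db, qb, -⟩ := nodesF_cons hT e2 e4 hN'
    simp only [cellsF, forceN_eq, Bool.and_eq_true, decide_eq_true_eq, Nat.ble_eq] at hC
    simp only [linkOk, Bool.and_eq_true, decide_eq_true_eq, eqNs_iff, eqZs_iff] at hL
    obtain ⟨⟨⟨⟨⟨⟨⟨⟨⟨⟨⟨⟨e1, e2'⟩, e3⟩, e4'⟩, e5⟩, e6⟩, e7⟩, e8⟩, g1⟩, g2⟩, g3⟩, g4⟩, hL'⟩ := hL
    have ih := tabsTest_core hT e2 e4 eE (rows := b :: l) (by simpa using hN') (by simpa using hC.2) hL'
    simp only [tabsTest, CellCert2.tabTest, Bool.and_eq_true, decide_eq_true_eq, e1, e2', e3, e4',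
      e5, e6, e7, e8, g1, g2, g3, g4]
    exact ⟨⟨⟨⟨⟨⟨⟨⟨ca, cb⟩, da⟩, db⟩, qa⟩, qb⟩,
      e6Test_of na nb hC.1.2.1 hC.1.1.1 hT eE hC.1.2.2⟩, hC.1.1.2⟩, ih⟩

/-- **Node and cell tables give the table test of the chain.** -/
theorem tabsTest_of {P : ℕ} {B : List (ℕ × ℕ)} {T : List AtomTab} (hT : atomsOk B T = true)
    {rows : List Row} {cs : List CellCert2.Cell} {N : List NTab}
    (hN : nodeTabs P B T (rows.map (·.n)) N = true) (hC : cellTabs P T (rows.map (·.n)) cs = true)
    (hL : linkOk cs N = true) : tabsTest P B rows cs = true := by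
  simp only [nodeTabs] at hN
  split at hN
  next T2 T4 e2 e4 =>
    simp only [forceDTs_eq] at hN
    simp only [cellTabs] at hC
    split at hC
    next E eE =>
      rw [forceETs_eq] at hC
      exact tabsTest_core hT e2 e4 eE hN hC hL
    next => exact absurd hC (by simp)
  next => exact absurd hN (by simp)

/-- Chunks of tables join at a shared row. -/
theorem tabsTest_append {P : ℕ} {B : List (ℕ × ℕ)} {b : Row} {l' : List Row}
    {cs' : List CellCert2.Cell} (h' : tabsTest P B (b :: l') cs' = true) :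
    ∀ {l : List Row} {cs : List CellCert2.Cell}, tabsTest P B (l ++ [b]) cs = true →
      tabsTest P B (l ++ b :: l') (cs ++ cs') = true
  | [], [], _ => by simpa using h'
  | [], _ :: _, h => by simp [tabsTest] at h
  | [a], [], h => by simp [tabsTest] at h
  | _ :: _ :: _, [], h => by simp [tabsTest] at h
  | [a], C :: cs, h => by
    simp only [List.singleton_append, List.cons_append, List.nil_append, tabsTest,
      Bool.and_eq_true] at h ⊢
    exact ⟨h.1, tabsTest_append h' (l := []) h.2⟩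
  | a :: a' :: l, C :: cs, h => by
    simp only [List.cons_append, tabsTest, Bool.and_eq_true] at h ⊢
    exact ⟨h.1, tabsTest_append h' (l := a' :: l) h.2⟩

end Vale.Agent.P237.Cal.PackGlue2
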