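import Vale.Agent.P237.Cal.PosMid
import Vale.Agent.P237.Cal.LossDef

/-!
# P237: the side `σ ≥ T` with `ε σ² ≤ 19/20` and `T ≤ 47/100`, for `n ≥ 384`

The field `p` is any number in `[P/pre, -(4/5) ε/√n]`, so the absorbed state part is allowed; the
loss is `cP z G²`, plus `25 E²/(4ε)` for `z ≤ 28/5` where `-E` bounds the linear weight from below.
-/

open Real

namespace Vale.Agent.P237.Cal

variable {m : ℕ}

/-- A scaled vertex after multiplication by `τ`. -/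
lemma lowN_vertex {τ ω d P : ℝ} (hτ : 0 < τ)
    (h : 53 / 5000 * τ * (2 * τ + d - 2 * P) ^ 2 ≤
      (9 / 5 + 1182 / 1000 * τ ^ 2 - 26 / 25 * τ) *
        (48 / 25 - ω - 53 / 5000 * ((τ + d) ^ 2 + τ ^ 2 + 2 * P * d))) :
    0 ≤ vtxN (53 / 5000) τ (9 / (5 * τ) + 1182 / 1000 * τ - 26 / 25) ω (2 / 25) d P := by
  refine nonneg_of_mul_nonneg_right ?_ hτ
  have e : τ * vtxN (53 / 5000) τ (9 / (5 * τ) + 1182 / 1000 * τ - 26 / 25) ω (2 / 25) d P =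
      (9 / 5 + 1182 / 1000 * τ ^ 2 - 26 / 25 * τ) *
        (48 / 25 - ω - 53 / 5000 * ((τ + d) ^ 2 + τ ^ 2 + 2 * P * d)) -
      53 / 5000 * τ * (2 * τ + d - 2 * P) ^ 2 := by
    simp only [vtxN]; field_simp; ring
  rw [e]; linarith

/-- The inequalities of a low row. -/
def LowOK (τ ω S : ℝ) : Prop :=
  ∀ d P, (d = 0 ∨ d = S - τ) → (P = 4 / 5 ∨ P = 33 / 10) →
    53 / 5000 * τ * (2 * τ + d - 2 * P) ^ 2 ≤
      (9 / 5 + 1182 / 1000 * τ ^ 2 - 26 / 25 * τ) *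
        (48 / 25 - ω - 53 / 5000 * ((τ + d) ^ 2 + τ ^ 2 + 2 * P * d))

/-- **A row with the mass bound.** -/
theorem posN_row {ε T σ h l p G E ω S z0 c₀ c₁ : ℝ} (hm : 382 ≤ m) (hε1 : 7 / 2 ≤ ε)
    (hε2 : ε ≤ 203 / 50) (hc₀ : c₀ = 9 / 5 * ε / √((m : ℝ) + 2))
    (hc₁ : c₁ = 6 / 5 * ε * √((m : ℝ) + 2)) (hT : 0 < T) (hh : 0 < h) (hσ : T ≤ σ)
    (hp0 : shP m c₀ c₁ T / pre m T ≤ p) (hp1 : p ≤ -(4 / 5 * ε / √((m : ℝ) + 2)))
    (hG : -(2 / 25) ≤ G) (hl : -(pre m T * E) ≤ l)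
    (hz0 : 0 ≤ z0) (hz : z0 ≤ ((m : ℝ) + 2) * T ^ 2) (hz1 : ((m : ℝ) + 2) * T ^ 2 ≤ 28 / 5)
    (hω : 0 < ω) (hω2 : ω ≤ 48 / 25) (hωc : 1 ≤ ω * cP z0) (hS0 : 0 ≤ S) (hS1 : S ≤ 32 / 5)
    (hS : √((m : ℝ) + 2) * σ ≤ S) (hv : LowOK (√((m : ℝ) + 2) * T) ω S) :
    ∃ L, L ≤ valQ ε T σ h + (2 * p * (σ - T) + G) * (h - 1) ∧
      -(pre m T * (cP (((m : ℝ) + 2) * T ^ 2) * G ^ 2 + 25 * E ^ 2 / (4 * ε))) ≤
        pre m T * L + (σ - T) * l +
          (σ - T) ^ 2 * (shP' m c₀ c₁ T + 2 * muX m T * shS m c₀ c₁ T) := by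
  have hm' : (382 : ℝ) ≤ (m : ℝ) := by exact_mod_cast hm
  set v := √((m : ℝ) + 2) with hvdef
  have hv10 : 10 ≤ v := by
    rw [hvdef, le_sqrt (by norm_num) (by linarith)]; linarith
  have hv2 : v ^ 2 = (m : ℝ) + 2 := sq_sqrt (by linarith)
  have hε : 0 < ε := by linarith
  have hv0 : 0 < v := by linarith
  have hpre : 0 < pre m T := by unfold pre; positivity
  set τ := v * T with hτdef
  have hτ0 : 0 < τ := mul_pos hv0 hT
  have hτS : τ ≤ S := (mul_le_mul_of_nonneg_left hσ hv0.le).trans hS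
  set C := 9 / (5 * τ) + 1182 / 1000 * τ - 26 / 25 with hC
  have hC0 : 0 < C := by
    have : 0 < τ * C := by
      rw [hC, show τ * (9 / (5 * τ) + 1182 / 1000 * τ - 26 / 25) =
        9 / 5 + 1182 / 1000 * τ ^ 2 - 26 / 25 * τ by field_simp]
      nlinarith [sq_nonneg (τ - 1)]
    exact pos_of_mul_pos_right this hτ0.le
  set K := muX m T * (c₀ + c₁ * (T ^ 2 / √(1 + T ^ 2) ^ 2)) with hK
  have hs : T ^ 2 ≤ 15 / 1000 := by
    linarith [mul_le_mul_of_nonneg_right (by linarith : (384 : ℝ) ≤ (m : ℝ) + 2) (sq_nonneg T)]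
  have hKge : pre m T * (ε + ε * C + ε / 25) ≤ K := by
    have hmu : K = pre m T * ((c₀ + c₁ * (T ^ 2 / √(1 + T ^ 2) ^ 2)) / T) := by
      simp only [hK, muX, pre]; field_simp
    rw [hmu]
    refine mul_le_mul_of_nonneg_left ?_ hpre.le
    rw [w_sq, hc₀, hc₁]
    have e : (9 / 5 * ε / v + 6 / 5 * ε * v * (T ^ 2 / (1 + T ^ 2))) / T =
        ε * (9 / (5 * (v * T)) + 6 / 5 / (1 + T ^ 2) * (v * T)) := by field_simp
    rw [e, hC, ← hτdef]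
    have h3 : (1182 : ℝ) / 1000 ≤ 6 / 5 / (1 + T ^ 2) := by
      rw [le_div_iff₀ (by positivity)]
      linarith
    have h4 := mul_le_mul_of_nonneg_right h3 hτ0.le
    have h5 := mul_le_mul_of_nonneg_left h4 hε.le
    linarith
  have hp2 := zone0_P (T := T) hε.le hv10 hv2 hc₀ hc₁ hpre
  rw [show 33 / 10 * ε / v = ε * (33 / 10) / v by ring] at hp2
  rw [show 4 / 5 * ε / v = ε * (4 / 5) / v by ring] at hp1
  have hv' : ∀ d P, (d = 0 ∨ d = S - τ) → (P = 4 / 5 ∨ P = 33 / 10) →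
      0 ≤ vtxN (53 / 5000) τ C ω (2 / 25) d P := fun d P hd hP =>
    lowN_vertex hτ0 (hv d P hd hP)
  obtain ⟨L, hL, hle⟩ := posX_row (π' := pre m T) (l := 0) (Cw := K - pre m T * (ε / 25))
    (v := v) (C := C) (E := 53 / 5000) (S := S) (PL := 4 / 5) (PH := 33 / 10) (ω := ω)
    (gl := 2 / 25) le_rfl
    (by
      rw [zero_add]
      refine mul_nonneg ?_ (by linarith)
      rw [sub_nonneg, le_div_iff₀ hv0, mul_comm, ← hτdef]; exact hτS)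
    hh hε hv0 hC0 hω hT.le hσ hS hp1 (hp2.trans hp0) (by norm_num) hG (by linarith)
    (by rw [div_le_iff₀ (by positivity), hv2]; linarith)
    (by
      have := pow_le_pow_left₀ hS0 hS1 2
      linarith)
    (by
      rw [← hτdef]
      have h1 : τ ^ 2 ≤ 28 / 5 := by rw [hτdef, mul_pow, hv2]; exact hz1
      linarith)
    (by rw [← hτdef]; exact hv' 0 _ (.inl rfl) (.inl rfl))
    (by rw [← hτdef]; exact hv' 0 _ (.inl rfl) (.inr rfl))
    (by rw [← hτdef]; exact hv' _ _ (.inr rfl) (.inl rfl))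
    (by rw [← hτdef]; exact hv' _ _ (.inr rfl) (.inr rfl))
  refine ⟨L, hL, ?_⟩
  rw [shP'_add, ← hK]
  have hD0 : 0 ≤ σ - T := sub_nonneg.2 hσ
  have h1 := mul_le_mul_of_nonneg_left hl hD0
  have h2 : (σ - T) * E ≤ ε / 25 * (σ - T) ^ 2 + 25 * E ^ 2 / (4 * ε) := by
    have e : ε / 25 * (σ - T) ^ 2 + 25 * E ^ 2 / (4 * ε) - (σ - T) * E =
        (2 * ε * (σ - T) - 25 * E) ^ 2 / (100 * ε) := by field_simp; ring
    have : 0 ≤ (2 * ε * (σ - T) - 25 * E) ^ 2 / (100 * ε) := by positivity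
    linarith
  have h3 := mul_le_mul_of_nonneg_left h2 hpre.le
  have h6 : G ^ 2 / ω ≤ cP (((m : ℝ) + 2) * T ^ 2) * G ^ 2 := by
    rw [div_le_iff₀ hω]
    have hc : cP z0 ≤ cP (((m : ℝ) + 2) * T ^ 2) := by
      unfold cP; linarith [pow_le_pow_left₀ hz0 hz 2]
    have := mul_le_mul_of_nonneg_right
      (hωc.trans (mul_le_mul_of_nonneg_left hc hω.le)) (sq_nonneg G)
    linarith
  have h7 := mul_le_mul_of_nonneg_left h6 hpre.le
  linarith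

lemma lowN1 {τ : ℝ} (h0 : 0 ≤ τ) (h1 : τ ≤ 3 / 2) : LowOK τ (10 / 7) (3502 / 1000) := by
  intro d P hd hP
  rcases hd with rfl | rfl <;> rcases hP with rfl | rfl <;>
    nlinarith [mul_nonneg h0 (sub_nonneg.2 h1), sq_nonneg (τ - 1), sq_nonneg τ,
      mul_nonneg (mul_nonneg h0 (sub_nonneg.2 h1)) h0]

lemma lowN2 {τ : ℝ} (h0 : 3 / 2 ≤ τ) (h1 : τ ≤ 2) : LowOK τ (1315 / 1000) (4935 / 1000) := by
  intro d P hd hP
  rcases hd with rfl | rfl <;> rcases hP with rfl | rfl <;>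
    nlinarith [mul_nonneg (sub_nonneg.2 h0) (sub_nonneg.2 h1), sq_nonneg (τ - 1), sq_nonneg τ]

lemma lowN3 {τ : ℝ} (h0 : 2 ≤ τ) (h1 : τ ≤ 2237 / 1000) :
    LowOK τ (1122 / 1000) (5834 / 1000) := by
  intro d P hd hP
  rcases hd with rfl | rfl <;> rcases hP with rfl | rfl <;>
    nlinarith [mul_nonneg (sub_nonneg.2 h0) (sub_nonneg.2 h1), sq_nonneg (τ - 1), sq_nonneg τ]

lemma lowN4 {τ : ℝ} (h0 : 2236 / 1000 ≤ τ) (h1 : τ ≤ 2367 / 1000) :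
    LowOK τ 1 (6392 / 1000) := by
  intro d P hd hP
  rcases hd with rfl | rfl <;> rcases hP with rfl | rfl <;>
    nlinarith [mul_nonneg (sub_nonneg.2 h0) (sub_nonneg.2 h1), sq_nonneg (τ - 1), sq_nonneg τ]

/-- **The part `z ≤ 28/5`.** -/
theorem posN_low {ε T σ h l p G E c₀ c₁ : ℝ} (hm : 382 ≤ m) (hε1 : 7 / 2 ≤ ε)
    (hε2 : ε ≤ 203 / 50) (hc₀ : c₀ = 9 / 5 * ε / √((m : ℝ) + 2))
    (hc₁ : c₁ = 6 / 5 * ε * √((m : ℝ) + 2)) (hT : 0 < T) (hh : 0 < h) (hσ : T ≤ σ)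
    (hp0 : shP m c₀ c₁ T / pre m T ≤ p) (hp1 : p ≤ -(4 / 5 * ε / √((m : ℝ) + 2)))
    (hG : -(2 / 25) ≤ G) (hl : -(pre m T * E) ≤ l)
    (hz : ((m : ℝ) + 2) * T ^ 2 ≤ 28 / 5)
    (hS : √((m : ℝ) + 2) * σ ≤
      20667 / 10000 * ((1 + T ^ 2 / 2) * phiR (((m : ℝ) + 2) * T ^ 2))) :
    ∃ L, L ≤ valQ ε T σ h + (2 * p * (σ - T) + G) * (h - 1) ∧
      -(pre m T * (cP (((m : ℝ) + 2) * T ^ 2) * G ^ 2 + 25 * E ^ 2 / (4 * ε))) ≤
        pre m T * L + (σ - T) * l +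
          (σ - T) ^ 2 * (shP' m c₀ c₁ T + 2 * muX m T * shS m c₀ c₁ T) := by
  have hm' : (382 : ℝ) ≤ (m : ℝ) := by exact_mod_cast hm
  set z := ((m : ℝ) + 2) * T ^ 2 with hzdef
  set τ := √((m : ℝ) + 2) * T with hτ
  have hτ0 : 0 < τ := by positivity
  have hτ2 : τ ^ 2 = z := by rw [hτ, mul_pow, sq_sqrt (by linarith)]
  have hsz : T ^ 2 / 2 ≤ z / 768 := by
    rw [hzdef]; linarith [mul_le_mul_of_nonneg_right (by linarith : (384 : ℝ) ≤ (m : ℝ) + 2) (sq_nonneg T)]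
  have hup : ∀ z1 S : ℝ, z ≤ z1 → 20667 / 10000 * ((1 + z1 / 768) * phiR z1) ≤ S →
      √((m : ℝ) + 2) * σ ≤ S := fun z1 S h1 h2 => by
    refine hS.trans (le_trans (mul_le_mul_of_nonneg_left ?_ (by norm_num)) h2)
    have hp : 0 ≤ phiR z := by rw [← hτ2]; unfold phiR; positivity
    exact mul_le_mul (by linarith) (phiR_mono (by rw [← hτ2]; positivity) h1) hp
      (by linarith [sq_nonneg τ])
  have hlo : ∀ a : ℝ, 0 ≤ a → a ^ 2 ≤ z → a ≤ τ := fun a ha h => by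
    rw [← hτ2] at h
    exact le_of_pow_le_pow_left₀ two_ne_zero hτ0.le h
  have hhi : ∀ b : ℝ, 0 ≤ b → z ≤ b ^ 2 → τ ≤ b := fun b hb h => by
    rw [← hτ2] at h
    exact le_of_pow_le_pow_left₀ two_ne_zero hb h
  rcases le_or_gt z (9 / 4) with h1 | h1
  · exact posN_row (z0 := 0) (ω := 10 / 7) (S := 3502 / 1000) hm hε1 hε2 hc₀ hc₁ hT hh hσ hp0 hp1
      hG hl le_rfl (by rw [← hzdef, ← hτ2]; positivity) hz (by norm_num) (by norm_num)
      (by norm_num [cP]) (by norm_num) (by norm_num) (hup (9 / 4) _ h1 (by norm_num [phiR]))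
      (lowN1 hτ0.le (hhi (3 / 2) (by norm_num) (by linarith)))
  rcases le_or_gt z 4 with h2 | h2
  · exact posN_row (z0 := 9 / 4) (ω := 1315 / 1000) (S := 4935 / 1000) hm hε1 hε2 hc₀ hc₁ hT hh hσ
      hp0 hp1 hG hl (by norm_num) h1.le hz (by norm_num) (by norm_num) (by norm_num [cP])
      (by norm_num) (by norm_num) (hup 4 _ h2 (by norm_num [phiR]))
      (lowN2 (hlo (3 / 2) (by norm_num) (by linarith)) (hhi 2 (by norm_num) (by linarith)))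
  rcases le_or_gt z 5 with h3 | h3
  · exact posN_row (z0 := 4) (ω := 1122 / 1000) (S := 5834 / 1000) hm hε1 hε2 hc₀ hc₁ hT hh hσ
      hp0 hp1 hG hl (by norm_num) h2.le hz (by norm_num) (by norm_num) (by norm_num [cP])
      (by norm_num) (by norm_num) (hup 5 _ h3 (by norm_num [phiR]))
      (lowN3 (hlo 2 (by norm_num) (by linarith)) (hhi (2237 / 1000) (by norm_num) (by linarith)))
  · exact posN_row (z0 := 5) (ω := 1) (S := 6392 / 1000) hm hε1 hε2 hc₀ hc₁ hT hh hσ hp0 hp1 hG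
      hl (by norm_num) h3.le hz (by norm_num) (by norm_num) (by norm_num [cP]) (by norm_num)
      (by norm_num) (hup (28 / 5) _ hz (by norm_num [phiR]))
      (lowN4 (hlo (2236 / 1000) (by norm_num) (by linarith))
        (hhi (2367 / 1000) (by norm_num) (by linarith)))

end Vale.Agent.P237.Cal
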