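import Vale.Agent.P237.Cal.PosLow

/-!
# P237: the side `σ ≥ T` for `5/2 ≤ n T²` and `ε σ² ≤ 19/20`, `n ≥ 100`

The linear weight is at least `(3/10) ε (z - 101/100)²/(n T)` times the prefactor. Two rows use the
mass bound, the others only `ε σ² ≤ 19/20`; the loss is `5 G₂²/(1 - ε T²)`.
-/

open Real

namespace Vale.Agent.P237.Cal

variable {m : ℕ}

/-- The vertex expression in `a = √ε σ`, `b = √ε T`, `k = 2 P/(ε T)`. -/
noncomputable def vtxB (a b k C ω gl : ℝ) : ℝ :=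
  C * (2 - gl - ω - a ^ 2 - b ^ 2 - k * b * (a - b)) - (a + b - k * b) ^ 2

lemma vtx_cap {ε T a k C ω gl : ℝ} (hε : 0 < ε) :
    vtx ε T (ε * C) ω gl (a / √ε - T) (ε * k * T / 2) =
      ε * vtxB a (√ε * T) k C ω gl := by
  obtain ⟨q, hq, rfl⟩ : ∃ q, 0 < q ∧ ε = q ^ 2 :=
    ⟨√ε, sqrt_pos.2 hε, (sq_sqrt hε.le).symm⟩
  rw [sqrt_sq hq.le]
  simp only [vtx, vtxB]
  field_simp
  ring

/-- **A capped row**: only `√ε σ ≤ a` bounds `σ`; four inequalities in `b = √ε T`. -/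
theorem posX_cap {π' l Cw ε T σ h p G₂ C ω gl a kl kh : ℝ} (hl : 0 ≤ l)
    (hend : 0 ≤ l + (a / √ε - T) * (Cw - π' * (ε + ε * C))) (hh : 0 < h) (hε : 0 < ε)
    (hC : 0 < C) (hω : 0 < ω) (hT : 0 ≤ T) (hσ : T ≤ σ) (ha : √ε * σ ≤ a) (ha1 : a ≤ 1)
    (hp1 : p ≤ -(ε * kl * T / 2)) (hp2 : -(ε * kh * T / 2) ≤ p) (hg : -gl ≤ G₂)
    (hB0 : ε * T ^ 2 + gl ≤ 1)
    (hB : (√ε * T) ^ 2 + kh * (√ε * T) * (a - √ε * T) + gl ≤ 1)
    (h00 : 0 ≤ vtxB (√ε * T) (√ε * T) kl C ω gl) (h01 : 0 ≤ vtxB (√ε * T) (√ε * T) kh C ω gl)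
    (h10 : 0 ≤ vtxB a (√ε * T) kl C ω gl) (h11 : 0 ≤ vtxB a (√ε * T) kh C ω gl) :
    ∃ L, L ≤ valQ ε T σ h + (2 * p * (σ - T) + G₂) * (h - 1) ∧
      -(π' * (G₂ ^ 2 / ω)) ≤ π' * L + (σ - T) * l + (σ - T) ^ 2 * Cw := by
  have hq : 0 < √ε := sqrt_pos.2 hε
  have hq2 : √ε ^ 2 = ε := sq_sqrt hε.le
  have hD : σ - T ≤ a / √ε - T := by
    rw [sub_le_sub_iff_right, le_div_iff₀ hq, mul_comm]; exact ha
  have key : ∀ x k, 0 ≤ vtxB x (√ε * T) k C ω gl →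
      0 ≤ vtx ε T (ε * C) ω gl (x / √ε - T) (ε * k * T / 2) := fun x k h => by
    rw [vtx_cap hε]; exact mul_nonneg hε.le h
  have ez : √ε * T / √ε - T = 0 := by field_simp; ring
  have eA : ε * (T + (a / √ε - T)) ^ 2 = a ^ 2 := by
    rw [add_sub_cancel, div_pow, hq2]; field_simp
  have ha0 : 0 ≤ a := (mul_nonneg hq.le (hT.trans hσ)).trans ha
  refine posX_vertex hl hend hh hε.le (mul_pos hε hC) hω hT hσ hD hp1 hp2 hg
    (by rw [eA]; exact pow_le_one₀ ha0 ha1) (by linarith) ?_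
    (by simpa only [ez] using key _ kl h00) (by simpa only [ez] using key _ kh h01) (key a kl h10) (key a kh h11)
  have e : ε * T ^ 2 + 2 * (ε * kh * T / 2) * (a / √ε - T) =
      (√ε * T) ^ 2 + kh * (√ε * T) * (a - √ε * T) := by
    obtain ⟨q, hq', rfl⟩ : ∃ q, 0 < q ∧ ε = q ^ 2 := ⟨√ε, hq, hq2.symm⟩
    rw [sqrt_sq hq'.le]; field_simp
  linarith

/-- The quadratic field from below away from the origin. -/
lemma mid_P {ε v T z0 c₀ c₁ : ℝ} (hε : 0 ≤ ε) (hv : 10 ≤ v) (hv2 : v ^ 2 = (m : ℝ) + 2)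
    (hc₀ : c₀ = 9 / 5 * ε / v) (hc₁ : c₁ = 6 / 5 * ε * v) (hpre : 0 < pre m T) (hT : 0 < T)
    (hz0 : 0 < z0) (hz : z0 ≤ v ^ 2 * T ^ 2) :
    -(ε * (6 / 5 + 21 / 5 * (1 / z0 + 1 / 100)) / v) ≤ shP m c₀ c₁ T / pre m T := by
  have hv0 : 0 < v := by linarith
  have h0 : 0 ≤ c₀ := by rw [hc₀]; positivity
  have h1 : 0 ≤ c₁ := by rw [hc₁]; positivity
  have hn : c₁ / ((m : ℝ) + 4) ≤ 6 / 5 * (ε / v) := by
    rw [hc₁, show (m : ℝ) + 4 = v ^ 2 + 2 by rw [hv2]; ring, div_le_iff₀ (by positivity)]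
    have e : 6 / 5 * (ε / v) * (v ^ 2 + 2) = 6 / 5 * ε * v + 12 / 5 * (ε / v) := by
      field_simp; ring
    rw [e]
    linarith [div_nonneg hε hv0.le]
  have hU : shUM m c₀ c₁ ≤ 21 / 5 * (ε / v) := by
    have e : shUM m c₀ c₁ = c₀ + 2 * (c₁ / ((m : ℝ) + 4)) := by rw [shUM, mul_div_assoc]
    have : c₀ = 9 / 5 * (ε / v) := by rw [hc₀]; ring
    linarith
  have hW : (1 + T ^ 2) / (((m : ℝ) + 2) * T ^ 2) ≤ 1 / z0 + 1 / 100 := by
    rw [← hv2, add_div]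
    refine add_le_add (one_div_le_one_div_of_le hz0 hz) ?_
    rw [show T ^ 2 / (v ^ 2 * T ^ 2) = 1 / v ^ 2 by field_simp]
    exact one_div_le_one_div_of_le (by norm_num) (by nlinarith)
  have hU0 : 0 ≤ shUM m c₀ c₁ := by unfold shUM; positivity
  have h2 : shUM m c₀ c₁ * (1 + T ^ 2) / (((m : ℝ) + 2) * T ^ 2) ≤
      21 / 5 * (ε / v) * (1 / z0 + 1 / 100) := by
    rw [mul_div_assoc]
    exact mul_le_mul hU hW (by positivity) (by positivity)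
  have h3 := mul_le_mul_of_nonneg_right (add_le_add hn h2) hpre.le
  have h4 := neg_shP_le' (m := m) h0 h1 hT
  rw [le_div_iff₀ hpre]
  have e : ε * (6 / 5 + 21 / 5 * (1 / z0 + 1 / 100)) / v =
      6 / 5 * (ε / v) + 21 / 5 * (ε / v) * (1 / z0 + 1 / 100) := by field_simp
  rw [e]
  linarith

lemma capV {ε v T : ℝ} (hv : 0 < v) (k P : ℝ) (h : k * (v * T) / 2 ≤ P) (hε : 0 ≤ ε) :
    ε * k * T / 2 ≤ ε * P / v := by
  rw [le_div_iff₀ hv]
  nlinarith [mul_le_mul_of_nonneg_left h hε]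

lemma capV' {ε v T : ℝ} (hv : 0 < v) (k P : ℝ) (h : P ≤ k * (v * T) / 2) (hε : 0 ≤ ε) :
    ε * P / v ≤ ε * k * T / 2 := by
  rw [div_le_iff₀ hv]
  nlinarith [mul_le_mul_of_nonneg_left h hε]

/-- The vertices of a capped row after multiplication by `a - b`. -/
lemma cap_vertices {b C0 K ω : ℝ} (hb : b < 39 / 40) (x k : ℝ)
    (h : (39 / 40 - b) * (x + b - k * b) ^ 2 ≤
      (C0 * (39 / 40 - b) + K * b) * (49 / 25 - ω - x ^ 2 - b ^ 2 - k * b * (x - b))) :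
    0 ≤ vtxB x b k (C0 + K * b / (39 / 40 - b)) ω (1 / 25) := by
  have hd : 0 < 39 / 40 - b := sub_pos.2 hb
  refine nonneg_of_mul_nonneg_right ?_ hd
  have eC : (39 / 40 - b) * (C0 + K * b / (39 / 40 - b)) = C0 * (39 / 40 - b) + K * b := by
    rw [mul_add, mul_div_cancel₀ _ hd.ne']; ring
  have e : (39 / 40 - b) * vtxB x b k (C0 + K * b / (39 / 40 - b)) ω (1 / 25) =
      (C0 * (39 / 40 - b) + K * b) * (49 / 25 - ω - x ^ 2 - b ^ 2 - k * b * (x - b)) -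
        (39 / 40 - b) * (x + b - k * b) ^ 2 := by
    rw [← eC]; simp only [vtxB]; ring
  rw [e]; linarith

/-- The quadratic bound of the linear weight gives a multiple of `z` from `z0` on. -/
lemma linK {K z0 z : ℝ} (hz0 : 101 / 100 ≤ z0) (hz : z0 ≤ z)
    (hK : K * z0 ≤ 3 / 10 * (z0 - 101 / 100) ^ 2) : K * z ≤ 3 / 10 * (z - 101 / 100) ^ 2 := by
  have h0 : 0 ≤ z * z0 - (101 / 100) ^ 2 := by
    have := mul_le_mul (hz0.trans hz) hz0 (by norm_num) (by linarith)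
    linarith
  have h1 := mul_nonneg (sub_nonneg.2 hz) h0
  have h2 := mul_le_mul_of_nonneg_right hK (by linarith : (0 : ℝ) ≤ z)
  refine le_of_mul_le_mul_right ?_ (by linarith : (0 : ℝ) < z0)
  linarith

/-- The endpoint inequality of a capped row. -/
lemma cap_end {π' l W ε T q C0 K : ℝ} (hq : 0 < q) (hb : q * T < 39 / 40)
    (hW : π' * (ε + ε * C0) ≤ W) (hl : π' * (ε * (K * T)) ≤ l) :
    0 ≤ l + (39 / 40 / q - T) * (W - π' * (ε + ε * (C0 + K * (q * T) / (39 / 40 - q * T)))) := by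
  have hd : 0 < 39 / 40 - q * T := sub_pos.2 hb
  have e1 : 39 / 40 / q - T = (39 / 40 - q * T) / q := by field_simp
  have e : (39 / 40 / q - T) * (K * (q * T) / (39 / 40 - q * T)) = K * T := by
    rw [e1, div_mul_div_comm, div_eq_iff (mul_pos hq hd).ne']
    ring
  have h1 : 0 ≤ 39 / 40 / q - T := by rw [e1]; positivity
  have h2 := mul_le_mul_of_nonneg_left hW h1
  have h3 : (39 / 40 / q - T) * (W - π' * (ε + ε * (C0 + K * (q * T) / (39 / 40 - q * T)))) =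
      (39 / 40 / q - T) * W - (39 / 40 / q - T) * (π' * (ε + ε * C0)) -
        π' * ε * ((39 / 40 / q - T) * (K * (q * T) / (39 / 40 - q * T))) := by ring
  rw [h3, e]
  linarith

/-- A capped row for the shapes: `kl`, `kh`, `C0`, `K` are numbers of the row. -/
theorem cap_row {ε T σ h l G₂ c₀ c₁ z0 kl kh C0 K : ℝ} (hm : 98 ≤ m) (hε1 : 7 / 2 ≤ ε)
    (hc₀ : c₀ = 9 / 5 * ε / √((m : ℝ) + 2))
    (hc₁ : c₁ = 6 / 5 * ε * √((m : ℝ) + 2)) (hT : 0 < T) (hh : 0 < h) (hσ : T ≤ σ)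
    (hθ : ε * σ ^ 2 ≤ 19 / 20) (hG : -(1 / 25) ≤ G₂) (hz0 : 101 / 100 ≤ z0)
    (hz : z0 ≤ ((m : ℝ) + 2) * T ^ 2)
    (hl : pre m T * ε * (3 / 10) * (((m : ℝ) + 2) * T ^ 2 - 101 / 100) ^ 2 /
      (((m : ℝ) + 2) * T) ≤ l)
    (hkl : kl * (√((m : ℝ) + 2) * T) / 2 ≤ 20 / 17 + 415 / 100 / (2 + ((m : ℝ) + 2) * T ^ 2))
    (hkh : 6 / 5 + 21 / 5 * (1 / z0 + 1 / 100) ≤ kh * (√((m : ℝ) + 2) * T) / 2)
    (hK : K * z0 ≤ 3 / 10 * (z0 - 101 / 100) ^ 2) (hK0 : 0 ≤ K) (hC00 : 0 < C0)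
    (hC : C0 + 1 ≤ 9 / (5 * (√((m : ℝ) + 2) * T)) +
      6 / 5 / (1 + T ^ 2) * (√((m : ℝ) + 2) * T))
    (hB : (√ε * T) ^ 2 + kh * (√ε * T) * (39 / 40 - √ε * T) ≤ 24 / 25)
    (hv : ∀ x k, x = √ε * T ∨ x = 39 / 40 → k = kl ∨ k = kh →
      (39 / 40 - √ε * T) * (x + √ε * T - k * (√ε * T)) ^ 2 ≤
        (C0 * (39 / 40 - √ε * T) + K * (√ε * T)) * (49 / 25 - 1 / 5 * (1 - (√ε * T) ^ 2) -
          x ^ 2 - (√ε * T) ^ 2 - k * (√ε * T) * (x - √ε * T))) :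
    ∃ L, L ≤ valQ ε T σ h + (2 * (shP m c₀ c₁ T / pre m T) * (σ - T) + G₂) * (h - 1) ∧
      -(pre m T * (5 * G₂ ^ 2 / (1 - ε * T ^ 2))) ≤ pre m T * L + (σ - T) * l +
        (σ - T) ^ 2 * (shP' m c₀ c₁ T + 2 * muX m T * shS m c₀ c₁ T) := by
  have hm' : (98 : ℝ) ≤ (m : ℝ) := by exact_mod_cast hm
  set v := √((m : ℝ) + 2) with hvdef
  have hv10 : 10 ≤ v := by
    rw [hvdef, le_sqrt (by norm_num) (by linarith)]; norm_num; linarith
  have hv2 : v ^ 2 = (m : ℝ) + 2 := sq_sqrt (by linarith)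
  have hε : 0 < ε := by linarith
  have hv0 : 0 < v := by linarith
  have hpre : 0 < pre m T := by unfold pre; positivity
  have hq : 0 < √ε := sqrt_pos.2 hε
  have hb2 : (√ε * T) ^ 2 = ε * T ^ 2 := by rw [mul_pow, sq_sqrt hε.le]
  have hTσ : ε * T ^ 2 ≤ 19 / 20 :=
    (mul_le_mul_of_nonneg_left (pow_le_pow_left₀ hT.le hσ 2) hε.le).trans hθ
  have hσa : √ε * σ ≤ 39 / 40 := by
    refine abs_le_of_sq_le_sq' ?_ (by norm_num) |>.2
    rw [mul_pow, sq_sqrt hε.le]; linarith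
  have hb : √ε * T < 39 / 40 := by
    refine lt_of_pow_lt_pow_left₀ 2 (by norm_num) ?_
    rw [hb2]; linarith
  set b := √ε * T with hbdef
  set C := C0 + K * b / (39 / 40 - b) with hCdef
  have hd : 0 < 39 / 40 - b := sub_pos.2 hb
  have hb0 : 0 ≤ b := by positivity
  have hC0' : 0 < C := by rw [hCdef]; positivity
  set W := muX m T * (c₀ + c₁ * (T ^ 2 / √(1 + T ^ 2) ^ 2)) with hW
  have hWge : pre m T * (ε + ε * C0) ≤ W := by
    have hmu : W = pre m T * ((c₀ + c₁ * (T ^ 2 / √(1 + T ^ 2) ^ 2)) / T) := by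
      simp only [hW, muX, pre]; field_simp
    rw [hmu, w_sq, hc₀, hc₁]
    refine mul_le_mul_of_nonneg_left ?_ hpre.le
    have e : (9 / 5 * ε / v + 6 / 5 * ε * v * (T ^ 2 / (1 + T ^ 2))) / T =
        ε * (9 / (5 * (v * T)) + 6 / 5 / (1 + T ^ 2) * (v * T)) := by field_simp
    rw [e]
    have := mul_le_mul_of_nonneg_left hC hε.le
    linarith
  have hl2 : pre m T * (ε * (K * T)) ≤ l := by
    refine le_trans ?_ hl
    rw [le_div_iff₀ (by positivity)]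
    set z := ((m : ℝ) + 2) * T ^ 2 with hzdef
    have h1 := linK hz0 hz hK
    calc pre m T * (ε * (K * T)) * (((m : ℝ) + 2) * T) = pre m T * ε * (K * z) := by
          rw [hzdef]; ring
      _ ≤ pre m T * ε * (3 / 10 * (z - 101 / 100) ^ 2) :=
          mul_le_mul_of_nonneg_left h1 (by positivity)
      _ = _ := by ring
  have hl0 : 0 ≤ l := le_trans (by positivity) hl2
  have hend : 0 ≤ l + (39 / 40 / √ε - T) * (W - pre m T * (ε + ε * C)) := cap_end hq hb hWge hl2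
  have hp1 := low_P (T := T) hε.le hv10 hv2 hc₀ hc₁ hpre (z1 := ((m : ℝ) + 2) * T ^ 2)
    (by rw [hv2])
  have hp2 := mid_P (T := T) hε.le hv10 hv2 hc₀ hc₁ hpre hT (by linarith : 0 < z0)
    (by rw [hv2]; exact hz)
  obtain ⟨L, hL, hle⟩ := posX_cap (π' := pre m T) (Cw := W) (C := C)
    (ω := 1 / 5 * (1 - b ^ 2)) (gl := 1 / 25) (a := 39 / 40) (kl := kl) (kh := kh) hl0 hend hh hε
    hC0' (by rw [hb2]; linarith) hT.le hσ hσa (by norm_num)
    (hp1.trans (neg_le_neg (capV hv0 kl _ hkl hε.le)))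
    ((neg_le_neg (capV' hv0 kh _ hkh hε.le)).trans hp2) hG (by linarith)
    (by linarith)
    (cap_vertices hb b kl (hv b kl (Or.inl rfl) (Or.inl rfl)))
    (cap_vertices hb b kh (hv b kh (Or.inl rfl) (Or.inr rfl)))
    (cap_vertices hb (39 / 40) kl (hv _ kl (Or.inr rfl) (Or.inl rfl)))
    (cap_vertices hb (39 / 40) kh (hv _ kh (Or.inr rfl) (Or.inr rfl)))
  refine ⟨L, hL, ?_⟩
  rw [shP'_add, ← hW]
  have : G₂ ^ 2 / (1 / 5 * (1 - b ^ 2)) = 5 * G₂ ^ 2 / (1 - ε * T ^ 2) := by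
    rw [hb2]; field_simp
  rw [this] at hle
  exact hle

/-- The four vertices of the capped row A. -/
lemma capRowA {b : ℝ} (h0 : 0 ≤ b) (h1 : b ≤ (503 / 1000)) (x k : ℝ) (hx : x = b ∨ x = 39 / 40)
    (hk : k = (1383 / 1000) ∨ k = (2052 / 1000)) :
    (39 / 40 - b) * (x + b - k * b) ^ 2 ≤
      ((2135 / 1000) * (39 / 40 - b) + (812 / 1000) * b) *
        (49 / 25 - 1 / 5 * (1 - b ^ 2) - x ^ 2 - b ^ 2 - k * b * (x - b)) := by
  have h2 := mul_nonneg (sub_nonneg.2 h0) (sub_nonneg.2 h1)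
  rcases hx with hx | hx <;> rcases hk with hk | hk <;> rw [hx, hk] <;>
    nlinarith [h2, mul_nonneg h2 (sub_nonneg.2 h0), mul_nonneg h2 (sub_nonneg.2 h1), sq_nonneg b]

/-- The four vertices of the capped row B. -/
lemma capRowB {b : ℝ} (h0 : 0 ≤ b) (h1 : b ≤ (649 / 1000)) (x k : ℝ) (hx : x = b ∨ x = 39 / 40)
    (hk : k = (962 / 1000) ∨ k = (1586 / 1000)) :
    (39 / 40 - b) * (x + b - k * b) ^ 2 ≤
      ((2240 / 1000) * (39 / 40 - b) + (1245 / 1000) * b) *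
        (49 / 25 - 1 / 5 * (1 - b ^ 2) - x ^ 2 - b ^ 2 - k * b * (x - b)) := by
  have h2 := mul_nonneg (sub_nonneg.2 h0) (sub_nonneg.2 h1)
  rcases hx with hx | hx <;> rcases hk with hk | hk <;> rw [hx, hk] <;>
    nlinarith [h2, mul_nonneg h2 (sub_nonneg.2 h0), mul_nonneg h2 (sub_nonneg.2 h1), sq_nonneg b]

/-- The four vertices of the capped row C. -/
lemma capRowC {b : ℝ} (h0 : 0 ≤ b) (h1 : b ≤ (39 / 40)) (x k : ℝ) (hx : x = b ∨ x = 39 / 40)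
    (hk : k = 0 ∨ k = (1052 / 1000)) :
    (39 / 40 - b) * (x + b - k * b) ^ 2 ≤
      ((1980 / 1000) * (39 / 40 - b) + (2424 / 1000) * b) *
        (49 / 25 - 1 / 5 * (1 - b ^ 2) - x ^ 2 - b ^ 2 - k * b * (x - b)) := by
  have h2 := mul_nonneg (sub_nonneg.2 h0) (sub_nonneg.2 h1)
  rcases hx with hx | hx <;> rcases hk with hk | hk <;> rw [hx, hk] <;>
    nlinarith [h2, mul_nonneg h2 (sub_nonneg.2 h0), mul_nonneg h2 (sub_nonneg.2 h1), sq_nonneg b]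

/-- The four vertices of the capped row M. -/
lemma capRowM {b : ℝ} (h0 : (333 / 1000) ≤ b) (h1 : b ≤ (435 / 1000)) (x k : ℝ) (hx : x = b ∨ x = 39 / 40)
    (hk : k = (1710 / 1000) ∨ k = (2612 / 1000)) :
    (39 / 40 - b) * (x + b - k * b) ^ 2 ≤
      ((1995 / 1000) * (39 / 40 - b) + (531 / 1000) * b) *
        (49 / 25 - 1 / 5 * (1 - b ^ 2) - x ^ 2 - b ^ 2 - k * b * (x - b)) := by
  have h2 := mul_nonneg (sub_nonneg.2 h0) (sub_nonneg.2 h1)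
  rcases hx with hx | hx <;> rcases hk with hk | hk <;> rw [hx, hk] <;>
    nlinarith [h2, mul_nonneg h2 (sub_nonneg.2 h0), mul_nonneg h2 (sub_nonneg.2 h1), sq_nonneg b]

/-- The four vertices of the row 1 with the mass bound, times `S - τ`. -/
lemma massRow1 {τ : ℝ} (h0 : (158 / 100) ≤ τ) (h1 : τ ≤ (1871 / 1000)) (d P : ℝ) (hd : d = 0 ∨ d = (4563 / 1000) - τ)
    (hP : P = (1930 / 1000) ∨ P = (2923 / 1000)) :
    (21 / 500) * ((4563 / 1000) - τ) * (2 * τ + d - 2 * P) ^ 2 ≤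
      ((1793 / 1000) * ((4563 / 1000) - τ) + (354 / 1000)) * (44 / 25 - (21 / 500) * ((τ + d) ^ 2 + τ ^ 2 + 2 * P * d)) := by
  have h2 := mul_nonneg (sub_nonneg.2 h0) (sub_nonneg.2 h1)
  rcases hd with hd | hd <;> rcases hP with hP | hP <;> rw [hd, hP] <;>
    nlinarith [h2, mul_nonneg h2 (sub_nonneg.2 h0), mul_nonneg h2 (sub_nonneg.2 h1)]

/-- The four vertices of the row 2 with the mass bound, times `S - τ`. -/
lemma massRow2 {τ : ℝ} (h0 : (187 / 100) ≤ τ) (h1 : τ ≤ (2122 / 1000)) (d P : ℝ) (hd : d = 0 ∨ d = (5468 / 1000) - τ)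
    (hP : P = (1813 / 1000) ∨ P = (2443 / 1000)) :
    (318 / 10000) * ((5468 / 1000) - τ) * (2 * τ + d - 2 * P) ^ 2 ≤
      ((1995 / 1000) * ((5468 / 1000) - τ) + (875 / 1000)) * (44 / 25 - (318 / 10000) * ((τ + d) ^ 2 + τ ^ 2 + 2 * P * d)) := by
  have h2 := mul_nonneg (sub_nonneg.2 h0) (sub_nonneg.2 h1)
  rcases hd with hd | hd <;> rcases hP with hP | hP <;> rw [hd, hP] <;>
    nlinarith [h2, mul_nonneg h2 (sub_nonneg.2 h0), mul_nonneg h2 (sub_nonneg.2 h1)]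

/-- A row with the mass bound for the shapes. -/
theorem mass_row {ε T σ h l G₂ c₀ c₁ z0 z1 S PL PH C0 lam E τ : ℝ} (hm : 98 ≤ m)
    (hε1 : 7 / 2 ≤ ε) (hc₀ : c₀ = 9 / 5 * ε / √((m : ℝ) + 2))
    (hc₁ : c₁ = 6 / 5 * ε * √((m : ℝ) + 2)) (hT : 0 < T) (hh : 0 < h) (hσ : T ≤ σ)
    (hG : -(1 / 25) ≤ G₂) (hz0 : 101 / 100 ≤ z0) (hz : z0 ≤ ((m : ℝ) + 2) * T ^ 2)
    (hz' : ((m : ℝ) + 2) * T ^ 2 ≤ z1)
    (hl : pre m T * ε * (3 / 10) * (((m : ℝ) + 2) * T ^ 2 - 101 / 100) ^ 2 /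
      (((m : ℝ) + 2) * T) ≤ l)
    (hτdef : τ = √((m : ℝ) + 2) * T) (hS : √((m : ℝ) + 2) * σ ≤ S) (hτS : τ < S)
    (hE : ε / ((m : ℝ) + 2) ≤ E) (hA : E * S ^ 2 ≤ 1)
    (hB : E * (τ ^ 2 + 2 * PH * (S - τ)) + 1 / 25 ≤ 1)
    (hPL : PL ≤ 20 / 17 + 415 / 100 / (2 + z1))
    (hPH : 6 / 5 + 21 / 5 * (1 / z0 + 1 / 100) ≤ PH) (hlam : lam * τ ≤ 3 / 10 * (z0 - 101 / 100) ^ 2)
    (hlam0 : 0 ≤ lam) (hC00 : 0 < C0)
    (hC : C0 + 1 ≤ 9 / (5 * τ) + 6 / 5 / (1 + T ^ 2) * τ)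
    (hv : ∀ d P, d = 0 ∨ d = S - τ → P = PL ∨ P = PH →
      E * (S - τ) * (2 * τ + d - 2 * P) ^ 2 ≤
        (C0 * (S - τ) + lam) * (44 / 25 - E * ((τ + d) ^ 2 + τ ^ 2 + 2 * P * d))) :
    ∃ L, L ≤ valQ ε T σ h + (2 * (shP m c₀ c₁ T / pre m T) * (σ - T) + G₂) * (h - 1) ∧
      -(pre m T * (5 * G₂ ^ 2)) ≤ pre m T * L + (σ - T) * l +
        (σ - T) ^ 2 * (shP' m c₀ c₁ T + 2 * muX m T * shS m c₀ c₁ T) := by
  have hm' : (98 : ℝ) ≤ (m : ℝ) := by exact_mod_cast hm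
  set v := √((m : ℝ) + 2) with hvdef
  have hv10 : 10 ≤ v := by
    rw [hvdef, le_sqrt (by norm_num) (by linarith)]; norm_num; linarith
  have hv2 : v ^ 2 = (m : ℝ) + 2 := sq_sqrt (by linarith)
  have hε : 0 < ε := by linarith
  have hv0 : 0 < v := by linarith
  have hpre : 0 < pre m T := by unfold pre; positivity
  have hd : 0 < S - τ := sub_pos.2 hτS
  have hτ0 : 0 < τ := by rw [hτdef]; exact mul_pos hv0 hT
  set C := C0 + lam / (S - τ) with hCdef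
  have hC0' : 0 < C := by rw [hCdef]; positivity
  set W := muX m T * (c₀ + c₁ * (T ^ 2 / √(1 + T ^ 2) ^ 2)) with hW
  have hWge : pre m T * (ε + ε * C0) ≤ W := by
    have hmu : W = pre m T * ((c₀ + c₁ * (T ^ 2 / √(1 + T ^ 2) ^ 2)) / T) := by
      simp only [hW, muX, pre]; field_simp
    rw [hmu, w_sq, hc₀, hc₁]
    refine mul_le_mul_of_nonneg_left ?_ hpre.le
    have e : (9 / 5 * ε / v + 6 / 5 * ε * v * (T ^ 2 / (1 + T ^ 2))) / T =
        ε * (9 / (5 * (v * T)) + 6 / 5 / (1 + T ^ 2) * (v * T)) := by field_simp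
    rw [e, ← hτdef]
    have := mul_le_mul_of_nonneg_left hC hε.le
    linarith
  have hl2 : pre m T * ε * lam / v ≤ l := by
    refine le_trans ?_ hl
    rw [div_le_div_iff₀ hv0 (by positivity)]
    have h1 : lam * τ ≤ 3 / 10 * (((m : ℝ) + 2) * T ^ 2 - 101 / 100) ^ 2 :=
      hlam.trans (mul_le_mul_of_nonneg_left
        (pow_le_pow_left₀ (by linarith) (by linarith) 2) (by norm_num))
    have := mul_le_mul_of_nonneg_left h1 (mul_nonneg (mul_nonneg hpre.le hε.le) hv0.le)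
    have e : pre m T * ε * v * (lam * τ) = pre m T * ε * lam * (v ^ 2 * T) := by
      rw [hτdef]; ring
    rw [e, hv2] at this
    linarith
  have hend : 0 ≤ l + (S / v - T) * (W - pre m T * (ε + ε * C)) := by
    have e1 : S / v - T = (S - τ) / v := by rw [hτdef]; field_simp
    have h1 : 0 ≤ S / v - T := by rw [e1]; positivity
    have h2 := mul_le_mul_of_nonneg_left hWge h1
    have e : (S / v - T) * (lam / (S - τ)) = lam / v := by rw [e1]; field_simp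
    have e2 : (S / v - T) * (W - pre m T * (ε + ε * C)) =
        (S / v - T) * W - (S / v - T) * (pre m T * (ε + ε * C0)) -
          pre m T * ε * ((S / v - T) * (lam / (S - τ))) := by rw [hCdef]; ring
    have e3 : pre m T * ε * (lam / v) = pre m T * ε * lam / v := by ring
    rw [e2, e, e3]
    linarith
  have hp1 := low_P (T := T) hε.le hv10 hv2 hc₀ hc₁ hpre (z1 := z1) (by rw [hv2]; exact hz')
  have hp2 := mid_P (T := T) hε.le hv10 hv2 hc₀ hc₁ hpre hT (by linarith : 0 < z0)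
    (by rw [hv2]; exact hz)
  have key : ∀ d P, d = 0 ∨ d = S - τ → P = PL ∨ P = PH →
      0 ≤ vtxN E τ C (1 / 5) (1 / 25) d P := fun d P h1 h2 => by
    refine nonneg_of_mul_nonneg_right ?_ hd
    have eC : (S - τ) * C = C0 * (S - τ) + lam := by
      rw [hCdef, mul_add, mul_div_cancel₀ _ hd.ne']; ring
    have e : (S - τ) * vtxN E τ C (1 / 5) (1 / 25) d P =
        (S - τ) * C * (44 / 25 - E * ((τ + d) ^ 2 + τ ^ 2 + 2 * P * d)) -
          E * (S - τ) * (2 * τ + d - 2 * P) ^ 2 := by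
      simp only [vtxN]; ring
    rw [e, eC]
    linarith [hv d P h1 h2]
  obtain ⟨L, hL, hle⟩ := posX_row (π' := pre m T) (Cw := W) (v := v) (C := C) (ω := 1 / 5)
    (gl := 1 / 25) (E := E) (S := S) (PL := PL) (PH := PH)
    (le_trans (by positivity) hl2) hend hh hε hv0 hC0' (by norm_num) hT.le hσ hS
    (hp1.trans (neg_le_neg (div_le_div_of_nonneg_right
      (mul_le_mul_of_nonneg_left hPL hε.le) hv0.le)))
    ((neg_le_neg (div_le_div_of_nonneg_right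
      (mul_le_mul_of_nonneg_left hPH hε.le) hv0.le)).trans hp2)
    (le_trans (by positivity) hPH) hG (by norm_num) (by rw [hv2]; exact hE) hA
    (by rw [← hτdef]; exact hB)
    (by rw [← hτdef]; exact key 0 PL (Or.inl rfl) (Or.inl rfl))
    (by rw [← hτdef]; exact key 0 PH (Or.inl rfl) (Or.inr rfl))
    (by rw [← hτdef]; exact key _ PL (Or.inr rfl) (Or.inl rfl))
    (by rw [← hτdef]; exact key _ PH (Or.inr rfl) (Or.inr rfl))
  refine ⟨L, hL, ?_⟩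
  rw [shP'_add, ← hW]
  have e : G₂ ^ 2 / (1 / 5) = 5 * G₂ ^ 2 := by ring
  rw [e] at hle
  exact hle

lemma capBM {b : ℝ} (h0 : 0 ≤ b) (h1 : b ≤ (435 / 1000)) :
    b ^ 2 + (2612 / 1000) * b * (39 / 40 - b) ≤ 24 / 25 := by
  nlinarith [mul_nonneg h0 (sub_nonneg.2 h1), sq_nonneg (b - 39 / 40)]

lemma capBA {b : ℝ} (h0 : 0 ≤ b) (h1 : b ≤ (503 / 1000)) :
    b ^ 2 + (2052 / 1000) * b * (39 / 40 - b) ≤ 24 / 25 := by
  nlinarith [mul_nonneg h0 (sub_nonneg.2 h1), sq_nonneg (b - 39 / 40)]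

lemma capBB {b : ℝ} (h0 : 0 ≤ b) (h1 : b ≤ (649 / 1000)) :
    b ^ 2 + (1586 / 1000) * b * (39 / 40 - b) ≤ 24 / 25 := by
  nlinarith [mul_nonneg h0 (sub_nonneg.2 h1), sq_nonneg (b - 39 / 40)]

lemma capBC {b : ℝ} (h0 : 0 ≤ b) (h1 : b ≤ (39 / 40)) :
    b ^ 2 + (1052 / 1000) * b * (39 / 40 - b) ≤ 24 / 25 := by
  nlinarith [mul_nonneg h0 (sub_nonneg.2 h1), sq_nonneg (b - 39 / 40)]

lemma massB1 {τ : ℝ} (h0 : (158 / 100) ≤ τ) (h1 : τ ≤ (1871 / 1000)) :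
    (21 / 500) * (τ ^ 2 + 2 * (2923 / 1000) * ((4563 / 1000) - τ)) + 1 / 25 ≤ (1 : ℝ) := by
  nlinarith [mul_nonneg (sub_nonneg.2 h0) (sub_nonneg.2 h1)]

lemma massB2 {τ : ℝ} (h0 : (187 / 100) ≤ τ) (h1 : τ ≤ (2122 / 1000)) :
    (318 / 10000) * (τ ^ 2 + 2 * (2443 / 1000) * ((5468 / 1000) - τ)) + 1 / 25 ≤ (1 : ℝ) := by
  nlinarith [mul_nonneg (sub_nonneg.2 h0) (sub_nonneg.2 h1)]

/-- The quadratic coefficient over `ε` from below, `τ` in a range. -/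
lemma mid_C {τ T t0 t1 w1 C0 : ℝ} (ht : 0 < t0) (h0 : t0 ≤ τ) (h1 : τ ≤ t1)
    (hw : 1 + T ^ 2 ≤ w1) (h : C0 + 1 ≤ 9 / (5 * t1) + 6 / 5 / w1 * t0) :
    C0 + 1 ≤ 9 / (5 * τ) + 6 / 5 / (1 + T ^ 2) * τ := by
  have hτ : 0 < τ := ht.trans_le h0
  refine h.trans (add_le_add ?_ ?_)
  · exact div_le_div_of_nonneg_left (by norm_num) (by positivity) (by linarith)
  · exact mul_le_mul (div_le_div_of_nonneg_left (by norm_num) (by positivity) hw) h0 ht.le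
      (by positivity)

/-- The part `n T² ≤ 9/2` of `posX_mid`. -/
theorem posX_midLow {ε T σ h l G₂ c₀ c₁ : ℝ} (hm : 98 ≤ m) (hε1 : 7 / 2 ≤ ε) (hε2 : ε ≤ 21 / 5)
    (hc₀ : c₀ = 9 / 5 * ε / √((m : ℝ) + 2)) (hc₁ : c₁ = 6 / 5 * ε * √((m : ℝ) + 2))
    (hT : 0 < T) (hh : 0 < h) (hσ : T ≤ σ) (hθ : ε * σ ^ 2 ≤ 19 / 20) (hG : -(1 / 25) ≤ G₂)
    (hz : 5 / 2 ≤ ((m : ℝ) + 2) * T ^ 2) (hz' : ((m : ℝ) + 2) * T ^ 2 ≤ 9 / 2)
    (hl : pre m T * ε * (3 / 10) * (((m : ℝ) + 2) * T ^ 2 - 101 / 100) ^ 2 /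
      (((m : ℝ) + 2) * T) ≤ l)
    (hS : ((m : ℝ) + 2) * T ^ 2 ≤ 9 / 2 → √((m : ℝ) + 2) * σ ≤
      20667 / 10000 * ((1 + T ^ 2 / 2) * phiR (((m : ℝ) + 2) * T ^ 2))) :
    ∃ L, L ≤ valQ ε T σ h + (2 * (shP m c₀ c₁ T / pre m T) * (σ - T) + G₂) * (h - 1) ∧
      -(pre m T * (5 * G₂ ^ 2 / (1 - ε * T ^ 2))) ≤ pre m T * L + (σ - T) * l +
        (σ - T) ^ 2 * (shP' m c₀ c₁ T + 2 * muX m T * shS m c₀ c₁ T) := by
  have hm' : (98 : ℝ) ≤ (m : ℝ) := by exact_mod_cast hm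
  have hε : 0 < ε := by linarith
  set z := ((m : ℝ) + 2) * T ^ 2 with hzdef
  set v := √((m : ℝ) + 2) with hvdef
  have hv2 : v ^ 2 = (m : ℝ) + 2 := sq_sqrt (by linarith)
  set τ := v * T with hτdef
  have hτ0 : 0 < τ := by positivity
  have hτ2 : τ ^ 2 = z := by rw [hτdef, mul_pow, hv2]
  have hlo : ∀ a : ℝ, a ^ 2 ≤ z → a ≤ τ := fun a h => by
    rw [← hτ2] at h
    exact (abs_le_of_sq_le_sq' h hτ0.le).2
  have hhi : ∀ b : ℝ, 0 ≤ b → z ≤ b ^ 2 → τ ≤ b := fun b hb h => by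
    rw [← hτ2] at h
    exact le_of_pow_le_pow_left₀ two_ne_zero hb h
  set b := √ε * T with hbdef
  have hb0 : 0 ≤ b := by positivity
  have hb2 : b ^ 2 = ε * T ^ 2 := by rw [hbdef, mul_pow, sq_sqrt hε.le]
  have hTσ : b ^ 2 ≤ 19 / 20 := by
    rw [hb2]
    exact (mul_le_mul_of_nonneg_left (pow_le_pow_left₀ hT.le hσ 2) hε.le).trans hθ
  have hbz : 100 * b ^ 2 ≤ 21 / 5 * z := by
    rw [hb2, hzdef]
    have h1 := mul_le_mul (by linarith : (100 : ℝ) ≤ (m : ℝ) + 2) (le_refl (ε * T ^ 2))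
      (by positivity) (by linarith)
    have h2 := mul_le_mul_of_nonneg_right hε2 (by positivity : 0 ≤ ((m : ℝ) + 2) * T ^ 2)
    linarith
  have hbhi : ∀ B : ℝ, 0 ≤ B → 21 / 5 * z ≤ 100 * B ^ 2 → b ≤ B := fun B hB h =>
    le_of_pow_le_pow_left₀ two_ne_zero hB (by linarith)
  have hsz : 100 * T ^ 2 ≤ z := by
    rw [hzdef]
    exact mul_le_mul_of_nonneg_right (by linarith) (sq_nonneg T)
  have hε' : ε / ((m : ℝ) + 2) ≤ 21 / 500 := by
    rw [div_le_iff₀ (by linarith)]; linarith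
  have weaken : ∀ L : ℝ, -(pre m T * (5 * G₂ ^ 2)) ≤ L →
      -(pre m T * (5 * G₂ ^ 2 / (1 - ε * T ^ 2))) ≤ L := fun L h => by
    refine le_trans (neg_le_neg (mul_le_mul_of_nonneg_left ?_ (by unfold pre; positivity))) h
    rw [le_div_iff₀ (by rw [← hb2]; linarith)]
    have : 0 ≤ 5 * G₂ ^ 2 * (ε * T ^ 2) := by positivity
    linarith
  have hup : ∀ z1 S : ℝ, z ≤ z1 → z1 ≤ 9 / 2 →
      20667 / 10000 * ((1 + z1 / 200) * phiR z1) ≤ S → v * σ ≤ S := fun z1 S h1 h2 h3 => by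
    refine (hS (h1.trans h2)).trans (le_trans (mul_le_mul_of_nonneg_left ?_ (by norm_num)) h3)
    have hp : 0 ≤ phiR z := by rw [← hτ2]; unfold phiR; positivity
    exact mul_le_mul (by linarith) (phiR_mono (by linarith) h1) hp (by linarith)
  rcases le_or_gt z (7 / 2) with h1 | h1
  · have ha := hlo (158 / 100) (by linarith)
    have hb := hhi (1871 / 1000) (by norm_num) (by linarith)
    obtain ⟨L, hL, hle⟩ := mass_row (z0 := 5 / 2) (z1 := 7 / 2) (S := 4563 / 1000)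
      (PL := 1930 / 1000) (PH := 2923 / 1000) (C0 := 1793 / 1000) (lam := 354 / 1000)
      (E := 21 / 500) (τ := τ) hm hε1 hc₀ hc₁ hT hh hσ hG (by norm_num) hz h1 hl hτdef
      (hup (7 / 2) _ h1 (by norm_num) (by norm_num [phiR])) (by linarith) hε' (by norm_num)
      (massB1 ha hb) (by norm_num) (by norm_num) (by linarith) (by norm_num) (by norm_num)
      (mid_C (t0 := 158 / 100) (t1 := 1871 / 1000) (w1 := 1 + 7 / 200) (by norm_num) ha hb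
        (by linarith) (by norm_num))
      (fun d P hd hP => massRow1 ha hb d P hd hP)
    exact ⟨L, hL, weaken _ hle⟩
  have h2 : z ≤ 9 / 2 := hz'
  have ha := hlo (187 / 100) (by linarith)
  have hb := hhi (2122 / 1000) (by norm_num) (by linarith)
  have hC := mid_C (T := T) (C0 := 1995 / 1000) (t0 := 187 / 100) (t1 := 2122 / 1000)
    (w1 := 1 + 9 / 200) (by norm_num) ha hb (by linarith) (by norm_num)
  rcases le_or_gt (ε / ((m : ℝ) + 2)) (318 / 10000) with he | he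
  · obtain ⟨L, hL, hle⟩ := mass_row (z0 := 7 / 2) (z1 := 9 / 2) (S := 5468 / 1000)
      (PL := 1813 / 1000) (PH := 2443 / 1000) (C0 := 1995 / 1000) (lam := 875 / 1000)
      (E := 318 / 10000) (τ := τ) hm hε1 hc₀ hc₁ hT hh hσ hG (by norm_num) h1.le h2 hl hτdef
      (hup (9 / 2) _ h2 le_rfl (by norm_num [phiR])) (by linarith) he (by norm_num)
      (massB2 ha hb) (by norm_num) (by norm_num) (by linarith) (by norm_num) (by norm_num) hC
      (fun d P hd hP => massRow2 ha hb d P hd hP)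
    exact ⟨L, hL, weaken _ hle⟩
  · have hblo : 333 / 1000 ≤ b := by
      refine le_of_pow_le_pow_left₀ two_ne_zero hb0 ?_
      have e : b ^ 2 = ε / ((m : ℝ) + 2) * z := by rw [hb2, hzdef]; field_simp
      rw [e]
      refine le_trans ?_ (mul_le_mul he.le h1.le (by norm_num) (by positivity))
      norm_num
    have hbh := hbhi (435 / 1000) (by norm_num) (by linarith)
    exact cap_row (z0 := 7 / 2) (kl := 1710 / 1000) (kh := 2612 / 1000) (C0 := 1995 / 1000)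
      (K := 531 / 1000) hm hε1 hc₀ hc₁ hT hh hσ hθ hG (by norm_num) h1.le hl
      (by
        refine le_trans ?_ (add_le_add_right (div_le_div_of_nonneg_left (by norm_num)
          (by linarith) (by linarith : 2 + z ≤ 2 + 9 / 2)) _)
        rw [← hτdef]; norm_num; linarith)
      (by rw [← hτdef]; norm_num; linarith) (by norm_num) (by norm_num) (by norm_num) hC
      (capBM hb0 hbh) (fun x k hx hk => capRowM hblo hbh x k hx hk)

/-- The part `9/2 < n T²` of `posX_mid`. -/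
theorem posX_midHigh {ε T σ h l G₂ c₀ c₁ : ℝ} (hm : 98 ≤ m) (hε1 : 7 / 2 ≤ ε) (hε2 : ε ≤ 21 / 5)
    (hc₀ : c₀ = 9 / 5 * ε / √((m : ℝ) + 2)) (hc₁ : c₁ = 6 / 5 * ε * √((m : ℝ) + 2))
    (hT : 0 < T) (hh : 0 < h) (hσ : T ≤ σ) (hθ : ε * σ ^ 2 ≤ 19 / 20) (hG : -(1 / 25) ≤ G₂)
    (h2 : 9 / 2 < ((m : ℝ) + 2) * T ^ 2)
    (hl : pre m T * ε * (3 / 10) * (((m : ℝ) + 2) * T ^ 2 - 101 / 100) ^ 2 /
      (((m : ℝ) + 2) * T) ≤ l) :
    ∃ L, L ≤ valQ ε T σ h + (2 * (shP m c₀ c₁ T / pre m T) * (σ - T) + G₂) * (h - 1) ∧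
      -(pre m T * (5 * G₂ ^ 2 / (1 - ε * T ^ 2))) ≤ pre m T * L + (σ - T) * l +
        (σ - T) ^ 2 * (shP' m c₀ c₁ T + 2 * muX m T * shS m c₀ c₁ T) := by
  have hm' : (98 : ℝ) ≤ (m : ℝ) := by exact_mod_cast hm
  have hε : 0 < ε := by linarith
  set z := ((m : ℝ) + 2) * T ^ 2 with hzdef
  set v := √((m : ℝ) + 2) with hvdef
  have hv2 : v ^ 2 = (m : ℝ) + 2 := sq_sqrt (by linarith)
  set τ := v * T with hτdef
  have hτ0 : 0 < τ := by positivity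
  have hτ2 : τ ^ 2 = z := by rw [hτdef, mul_pow, hv2]
  have hlo : ∀ a : ℝ, a ^ 2 ≤ z → a ≤ τ := fun a h => by
    rw [← hτ2] at h
    exact (abs_le_of_sq_le_sq' h hτ0.le).2
  have hhi : ∀ b : ℝ, 0 ≤ b → z ≤ b ^ 2 → τ ≤ b := fun b hb h => by
    rw [← hτ2] at h
    exact le_of_pow_le_pow_left₀ two_ne_zero hb h
  set b := √ε * T with hbdef
  have hb0 : 0 ≤ b := by positivity
  have hb2 : b ^ 2 = ε * T ^ 2 := by rw [hbdef, mul_pow, sq_sqrt hε.le]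
  have hTσ : b ^ 2 ≤ 19 / 20 := by
    rw [hb2]
    exact (mul_le_mul_of_nonneg_left (pow_le_pow_left₀ hT.le hσ 2) hε.le).trans hθ
  have hbz : 100 * b ^ 2 ≤ 21 / 5 * z := by
    rw [hb2, hzdef]
    have h1 := mul_le_mul (by linarith : (100 : ℝ) ≤ (m : ℝ) + 2) (le_refl (ε * T ^ 2))
      (by positivity) (by linarith)
    have h2 := mul_le_mul_of_nonneg_right hε2 (by positivity : 0 ≤ ((m : ℝ) + 2) * T ^ 2)
    linarith
  have hbhi : ∀ B : ℝ, 0 ≤ B → 21 / 5 * z ≤ 100 * B ^ 2 → b ≤ B := fun B hB h =>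
    le_of_pow_le_pow_left₀ two_ne_zero hB (by linarith)
  have hsz : 100 * T ^ 2 ≤ z := by
    rw [hzdef]
    exact mul_le_mul_of_nonneg_right (by linarith) (sq_nonneg T)
  rcases le_or_gt z 6 with h3 | h3
  · have ha := hlo (2121 / 1000) (by linarith)
    have hb := hhi (2450 / 1000) (by norm_num) (by linarith)
    exact cap_row (z0 := 9 / 2) (kl := 1383 / 1000) (kh := 2052 / 1000) (C0 := 2135 / 1000) (K := 812 / 1000) hm hε1 hc₀ hc₁
      hT hh hσ hθ hG (by norm_num) h2.le hl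
      (by
        refine le_trans ?_ (add_le_add_right (div_le_div_of_nonneg_left (by norm_num)
          (by linarith) (by linarith : 2 + z ≤ 2 + 6)) _)
        rw [← hτdef]; norm_num; linarith)
      (by rw [← hτdef]; norm_num; linarith) (by norm_num) (by norm_num) (by norm_num)
      (mid_C (t0 := 2121 / 1000) (t1 := 2450 / 1000) (w1 := 1 + 3 / 50) (by norm_num) ha hb (by linarith) (by norm_num))
      (capBA hb0 (hbhi (503 / 1000) (by norm_num) (by linarith)))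
      (fun x k hx hk => capRowA hb0 (hbhi (503 / 1000) (by norm_num) (by linarith)) x k hx hk)
  rcases le_or_gt z 10 with h4 | h4
  · have ha := hlo (2449 / 1000) (by linarith)
    have hb := hhi (3163 / 1000) (by norm_num) (by linarith)
    exact cap_row (z0 := 6) (kl := 962 / 1000) (kh := 1586 / 1000) (C0 := 2240 / 1000) (K := 1245 / 1000) hm hε1 hc₀ hc₁
      hT hh hσ hθ hG (by norm_num) h3.le hl
      (by
        refine le_trans ?_ (add_le_add_right (div_le_div_of_nonneg_left (by norm_num)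
          (by linarith) (by linarith : 2 + z ≤ 2 + 10)) _)
        rw [← hτdef]; norm_num; linarith)
      (by rw [← hτdef]; norm_num; linarith) (by norm_num) (by norm_num) (by norm_num)
      (mid_C (t0 := 2449 / 1000) (t1 := 3163 / 1000) (w1 := 1 + 1 / 10) (by norm_num) ha hb (by linarith) (by norm_num))
      (capBB hb0 (hbhi (649 / 1000) (by norm_num) (by linarith)))
      (fun x k hx hk => capRowB hb0 (hbhi (649 / 1000) (by norm_num) (by linarith)) x k hx hk)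
  · have ha := hlo (3162 / 1000) (by linarith)
    have hbh : b ≤ 39 / 40 := le_of_pow_le_pow_left₀ two_ne_zero (by norm_num) (by linarith)
    have hw : 1 + T ^ 2 ≤ 12716 / 10000 := by
      have := mul_le_mul_of_nonneg_right hε1 (sq_nonneg T)
      linarith
    exact cap_row (z0 := 10) (kl := 0) (kh := 1052 / 1000) (C0 := 1980 / 1000) (K := 2424 / 1000)
      hm hε1 hc₀ hc₁ hT hh hσ hθ hG (by norm_num) h4.le hl
      (by rw [zero_mul, zero_div]; positivity)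
      (by rw [← hτdef]; norm_num; linarith) (by norm_num) (by norm_num) (by norm_num)
      (by
        rw [← hτdef]
        have h5 : (6 : ℝ) / 5 / (12716 / 10000) * (3162 / 1000) ≤ 6 / 5 / (1 + T ^ 2) * τ :=
          mul_le_mul (div_le_div_of_nonneg_left (by norm_num) (by positivity) hw) ha
            (by norm_num) (by positivity)
        have h6 : 0 ≤ 9 / (5 * τ) := by positivity
        norm_num at h5 ⊢
        linarith)
      (capBC hb0 hbh)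
      (fun x k hx hk => capRowC hb0 hbh x k hx hk)

/-- **The side `σ ≥ T` for `5/2 ≤ n T²` and `ε σ² ≤ 19/20`**. The mass bound is only needed up to
`n T² = 9/2`. -/
theorem posX_mid {ε T σ h l G₂ c₀ c₁ : ℝ} (hm : 98 ≤ m) (hε1 : 7 / 2 ≤ ε) (hε2 : ε ≤ 21 / 5)
    (hc₀ : c₀ = 9 / 5 * ε / √((m : ℝ) + 2)) (hc₁ : c₁ = 6 / 5 * ε * √((m : ℝ) + 2))
    (hT : 0 < T) (hh : 0 < h) (hσ : T ≤ σ) (hθ : ε * σ ^ 2 ≤ 19 / 20) (hG : -(1 / 25) ≤ G₂)
    (hz : 5 / 2 ≤ ((m : ℝ) + 2) * T ^ 2)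
    (hl : pre m T * ε * (3 / 10) * (((m : ℝ) + 2) * T ^ 2 - 101 / 100) ^ 2 /
      (((m : ℝ) + 2) * T) ≤ l)
    (hS : ((m : ℝ) + 2) * T ^ 2 ≤ 9 / 2 → √((m : ℝ) + 2) * σ ≤
      20667 / 10000 * ((1 + T ^ 2 / 2) * phiR (((m : ℝ) + 2) * T ^ 2))) :
    ∃ L, L ≤ valQ ε T σ h + (2 * (shP m c₀ c₁ T / pre m T) * (σ - T) + G₂) * (h - 1) ∧
      -(pre m T * (5 * G₂ ^ 2 / (1 - ε * T ^ 2))) ≤ pre m T * L + (σ - T) * l +
        (σ - T) ^ 2 * (shP' m c₀ c₁ T + 2 * muX m T * shS m c₀ c₁ T) := by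
  rcases le_or_gt (((m : ℝ) + 2) * T ^ 2) (9 / 2) with h | h
  · exact posX_midLow hm hε1 hε2 hc₀ hc₁ hT hh hσ hθ hG hz h hl hS
  · exact posX_midHigh hm hε1 hε2 hc₀ hc₁ hT hh hσ hθ hG h hl

end Vale.Agent.P237.Cal
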