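import Mathlib

/-!
# P237: kernel-checkable positivity of a polynomial in two variables on a rectangle

The coefficients are integers for the variables `S = 2^P s` and `Z = 2^P z`. Both variables are
shifted exactly to a corner; a negative shifted coefficient is charged at the far end.
-/

open Set

namespace Vale.Agent.P237.Cal.PosRect

/-- Value of a coefficient list. -/
def ev1 : List ℤ → ℝ → ℝ
  | [], _ => 0
  | c :: l, x => (c : ℝ) + x * ev1 l x

/-- Value of a list of rows: powers of the first variable outside. -/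
def ev2 : List (List ℤ) → ℝ → ℝ → ℝ
  | [], _, _ => 0
  | r :: l, x, y => ev1 r y + x * ev2 l x y

/-- Entrywise sum. -/
def add1 : List ℤ → List ℤ → List ℤ
  | a :: l, b :: r => (a + b) :: add1 l r
  | [], r => r
  | l, [] => l

/-- Entrywise sum of rows. -/
def add2 : List (List ℤ) → List (List ℤ) → List (List ℤ)
  | a :: l, b :: r => add1 a b :: add2 l r
  | [], r => r
  | l, [] => l

lemma ev1_add : ∀ (l r : List ℤ) (x : ℝ), ev1 (add1 l r) x = ev1 l x + ev1 r x
  | [], r, x => by simp [add1, ev1]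
  | a :: l, [], x => by simp [add1, ev1]
  | a :: l, b :: r, x => by simp only [add1, ev1, ev1_add l r x]; push_cast; ring

lemma ev2_add : ∀ (l r : List (List ℤ)) (x y : ℝ), ev2 (add2 l r) x y = ev2 l x y + ev2 r x y
  | [], r, x, y => by simp [add2, ev2]
  | a :: l, [], x, y => by simp [add2, ev2]
  | a :: l, b :: r, x, y => by simp only [add2, ev2, ev1_add, ev2_add l r x y]; ring

lemma ev1_map (c : ℤ) : ∀ (l : List ℤ) (x : ℝ), ev1 (l.map (c * ·)) x = c * ev1 l x
  | [], x => by simp [ev1]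
  | a :: l, x => by simp only [List.map_cons, ev1, ev1_map c l x]; push_cast; ring

lemma ev2_map (c : ℤ) : ∀ (l : List (List ℤ)) (x y : ℝ),
    ev2 (l.map fun r => r.map (c * ·)) x y = c * ev2 l x y
  | [], x, y => by simp [ev2]
  | a :: l, x, y => by simp only [List.map_cons, ev2, ev1_map, ev2_map c l x y]; ring

/-- `p(a + u)` in powers of `u`. -/
def shift1 (a : ℤ) : List ℤ → List ℤ
  | [] => []
  | c :: l => let q := shift1 a l; add1 (c :: q) (q.map (a * ·))

/-- `p(a + u, b + v)` in powers of `u` and `v`. -/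
def shift2 (a b : ℤ) : List (List ℤ) → List (List ℤ)
  | [] => []
  | r :: l => let q := shift2 a b l; add2 (shift1 b r :: q) (q.map fun t => t.map (a * ·))

lemma ev1_shift (a : ℤ) : ∀ (l : List ℤ) (u : ℝ), ev1 (shift1 a l) u = ev1 l ((a : ℝ) + u)
  | [], u => by simp [shift1, ev1]
  | c :: l, u => by simp only [shift1, ev1_add, ev1, ev1_map, ev1_shift a l u]; ring

lemma ev2_shift (a b : ℤ) : ∀ (l : List (List ℤ)) (u v : ℝ),
    ev2 (shift2 a b l) u v = ev2 l ((a : ℝ) + u) ((b : ℝ) + v)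
  | [], u, v => by simp [shift2, ev2]
  | r :: l, u, v => by
    simp only [shift2, ev2_add, ev2, ev1_shift, ev2_map, ev2_shift a b l u v]; ring

/-- Lower bound of a list on `[0, g]`: the constant plus the negative parts of the rest. -/
def low1 (g : ℕ) : List ℤ → ℤ
  | [] => 0
  | c :: l => c + g * min 0 (low1 g l)

/-- Lower bound of rows on `[0, h] × [0, g]`. -/
def low2 (h g : ℕ) : List (List ℤ) → ℤ
  | [] => 0
  | r :: l => low1 g r + h * min 0 (low2 h g l)

lemma low1_le {g : ℕ} : ∀ {l : List ℤ} {v : ℝ}, v ∈ Icc 0 (g : ℝ) → (low1 g l : ℝ) ≤ ev1 l v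
  | [], v, _ => by simp [low1, ev1]
  | c :: l, v, hv => by
    have h1 := low1_le (l := l) hv
    simp only [low1, ev1]
    push_cast
    have h2 : (g : ℝ) * min 0 (low1 g l : ℝ) ≤ v * min 0 (low1 g l : ℝ) :=
      mul_le_mul_of_nonpos_right hv.2 (min_le_left _ _)
    have h3 : v * min 0 (low1 g l : ℝ) ≤ v * ev1 l v :=
      mul_le_mul_of_nonneg_left ((min_le_right _ _).trans h1) hv.1
    linarith

lemma low2_le {h g : ℕ} : ∀ {l : List (List ℤ)} {u v : ℝ}, u ∈ Icc 0 (h : ℝ) → v ∈ Icc 0 (g : ℝ) →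
    (low2 h g l : ℝ) ≤ ev2 l u v
  | [], u, v, _, _ => by simp [low2, ev2]
  | r :: l, u, v, hu, hv => by
    have h0 := low1_le (l := r) hv
    have h1 := low2_le (l := l) hu hv
    simp only [low2, ev2]
    push_cast
    have h2 : (h : ℝ) * min 0 (low2 h g l : ℝ) ≤ u * min 0 (low2 h g l : ℝ) :=
      mul_le_mul_of_nonpos_right hu.2 (min_le_left _ _)
    have h3 : u * min 0 (low2 h g l : ℝ) ≤ u * ev2 l u v :=
      mul_le_mul_of_nonneg_left ((min_le_right _ _).trans h1) hu.1
    linarith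

/-- A cell: the corner and the two widths. -/
abbrev Rect := ℤ × ℤ × ℕ × ℕ

/-- The test of one cell. -/
def rectTest (p : List (List ℤ)) (c : Rect) : Bool :=
  decide (0 < low2 c.2.2.1 c.2.2.2 (shift2 c.1 c.2.1 p))

/-- **A tested cell.** -/
theorem rectTest_sound {p : List (List ℤ)} {c : Rect} (h : rectTest p c = true) {x y : ℝ}
    (hx : x ∈ Icc (c.1 : ℝ) ((c.1 : ℝ) + (c.2.2.1 : ℕ)))
    (hy : y ∈ Icc (c.2.1 : ℝ) ((c.2.1 : ℝ) + (c.2.2.2 : ℕ))) : 0 < ev2 p x y := by
  simp only [rectTest, decide_eq_true_eq] at h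
  have h2 := low2_le (l := shift2 c.1 c.2.1 p) (h := c.2.2.1) (g := c.2.2.2)
    (u := x - (c.1 : ℝ)) (v := y - (c.2.1 : ℝ)) ⟨by linarith [hx.1], by linarith [hx.2]⟩
    ⟨by linarith [hy.1], by linarith [hy.2]⟩
  rw [ev2_shift, add_sub_cancel, add_sub_cancel] at h2
  exact (Int.cast_pos.2 h).trans_le h2

/-- A grid of `na × nb` equal cells from `(a, b)`. -/
def gridTest (p : List (List ℤ)) (a b : ℤ) (h g na nb : ℕ) : Bool :=
  (List.range na).all fun i => (List.range nb).all fun j =>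
    rectTest p (a + i * h, b + j * g, h, g)

/-- **A tested grid.** -/
theorem gridTest_sound {p : List (List ℤ)} {a b : ℤ} {h g na nb : ℕ}
    (ht : gridTest p a b h g na nb = true) (hna : 0 < na) (hnb : 0 < nb) {x y : ℝ}
    (hx : x ∈ Icc (a : ℝ) ((a : ℝ) + (na * h : ℕ))) (hy : y ∈ Icc (b : ℝ) ((b : ℝ) + (nb * g : ℕ))) :
    0 < ev2 p x y := by
  have pick : ∀ (N : ℕ) (s : ℕ) (c z : ℝ), 0 < N → c ≤ z → z ≤ c + (N * s : ℕ) →
      ∃ i < N, z ∈ Icc (c + (i * s : ℕ)) (c + (i * s : ℕ) + (s : ℕ)) := by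
    intro N s c z hN h1 h2
    induction N with
    | zero => omega
    | succ N ih =>
      rcases le_or_gt z (c + (N * s : ℕ)) with hle | hgt
      · rcases Nat.eq_zero_or_pos N with h0 | h0
        · subst h0
          exact ⟨0, by omega, by simpa using h1, by simp at hle ⊢; linarith [Nat.cast_nonneg (α := ℝ) s]⟩
        · obtain ⟨i, hi, hz⟩ := ih h0 hle
          exact ⟨i, by omega, hz⟩
      · refine ⟨N, by omega, hgt.le, ?_⟩
        push_cast at h2 ⊢
        linarith
  obtain ⟨i, hi, hxi⟩ := pick na h a x hna hx.1 hx.2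
  obtain ⟨j, hj, hyj⟩ := pick nb g b y hnb hy.1 hy.2
  simp only [gridTest, List.all_eq_true, List.mem_range] at ht
  refine rectTest_sound (ht i hi j hj) ?_ ?_ <;> push_cast <;> push_cast at hxi hyj <;> assumption

end Vale.Agent.P237.Cal.PosRect
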