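import Vale.Agent.P237.Cal.PosVertex

/-!
# P237: a row of the side `σ ≥ T` in the variables `τ = v T`, `v = √n`

With `D = d/v`, `P = ε P'/v` and `C = ε C'` the vertex expression is `ε` times an expression that
is affine in `e = ε/v²` and nonnegative at `e = 0`; so a row is checked at the largest `e` only.
-/

open Real

namespace Vale.Agent.P237.Cal

/-- The vertex expression over `ε` in the scaled variables. -/
noncomputable def vtxN (e τ C ω gl d P : ℝ) : ℝ :=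
  C * (2 - gl - ω - e * ((τ + d) ^ 2 + τ ^ 2 + 2 * P * d)) - e * (2 * τ + d - 2 * P) ^ 2

lemma vtx_scale {ε v T C ω gl d P : ℝ} (hv : v ≠ 0) :
    vtx ε T (ε * C) ω gl (d / v) (ε * P / v) = ε * vtxN (ε / v ^ 2) (v * T) C ω gl d P := by
  simp only [vtx, vtxN]
  field_simp
  ring

lemma vtxN_mono {e E τ C ω gl d P : ℝ} (he : 0 ≤ e) (heE : e ≤ E) (h0 : 0 ≤ C * (2 - gl - ω))
    (hE : 0 ≤ vtxN E τ C ω gl d P) : 0 ≤ vtxN e τ C ω gl d P := by
  rcases eq_or_lt_of_le (he.trans heE) with h | h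
  · rw [← le_antisymm he (heE.trans h.ge)]
    simpa [vtxN] using h0
  · refine nonneg_of_mul_nonneg_right ?_ h
    have e1 : E * vtxN e τ C ω gl d P =
        (E - e) * (C * (2 - gl - ω)) + e * vtxN E τ C ω gl d P := by
      simp only [vtxN]; ring
    rw [e1]
    exact add_nonneg (mul_nonneg (sub_nonneg.2 heE) h0) (mul_nonneg he hE)

/-- **A row**: `v σ ≤ S`, the field in `[-ε PH/v, -ε PL/v]`, `e = ε/v²` at most `E`; four
inequalities in `τ = v T`. -/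
theorem posX_row {π' l Cw ε v T σ h p G₂ C ω gl E S PL PH : ℝ} (hl : 0 ≤ l)
    (hend : 0 ≤ l + (S / v - T) * (Cw - π' * (ε + ε * C))) (hh : 0 < h) (hε : 0 < ε) (hv : 0 < v)
    (hC : 0 < C) (hω : 0 < ω) (hT : 0 ≤ T) (hσ : T ≤ σ) (hS : v * σ ≤ S)
    (hp1 : p ≤ -(ε * PL / v)) (hp2 : -(ε * PH / v) ≤ p) (hPH : 0 ≤ PH) (hg : -gl ≤ G₂)
    (hgω : gl + ω ≤ 2) (he : ε / v ^ 2 ≤ E) (hA : E * S ^ 2 ≤ 1)
    (hB : E * ((v * T) ^ 2 + 2 * PH * (S - v * T)) + gl ≤ 1)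
    (h00 : 0 ≤ vtxN E (v * T) C ω gl 0 PL) (h01 : 0 ≤ vtxN E (v * T) C ω gl 0 PH)
    (h10 : 0 ≤ vtxN E (v * T) C ω gl (S - v * T) PL)
    (h11 : 0 ≤ vtxN E (v * T) C ω gl (S - v * T) PH) :
    ∃ L, L ≤ valQ ε T σ h + (2 * p * (σ - T) + G₂) * (h - 1) ∧
      -(π' * (G₂ ^ 2 / ω)) ≤ π' * L + (σ - T) * l + (σ - T) ^ 2 * Cw := by
  have he0 : 0 ≤ ε / v ^ 2 := by positivity
  have hS0 : 0 ≤ S := (mul_nonneg hv.le (hT.trans hσ)).trans hS
  have hd : 0 ≤ S - v * T := by nlinarith [mul_le_mul_of_nonneg_left hσ hv.le]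
  have eD : S / v - T = (S - v * T) / v := by field_simp
  have key : ∀ d P, 0 ≤ vtxN E (v * T) C ω gl d P →
      0 ≤ vtx ε T (ε * C) ω gl (d / v) (ε * P / v) := fun d P h => by
    rw [vtx_scale hv.ne']
    exact mul_nonneg hε.le (vtxN_mono he0 he (mul_nonneg hC.le (by linarith)) h)
  have eA : ε * (T + (S / v - T)) ^ 2 = ε / v ^ 2 * S ^ 2 := by field_simp; ring_nf
  have eB : ε * T ^ 2 + 2 * (ε * PH / v) * (S / v - T) =
      ε / v ^ 2 * ((v * T) ^ 2 + 2 * PH * (S - v * T)) := by field_simp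
  have hB1 := mul_le_mul_of_nonneg_right he
    (by positivity : 0 ≤ (v * T) ^ 2 + 2 * PH * (S - v * T))
  have hB2 : 0 ≤ ε * PH / v * (S / v - T) := by
    rw [eD]; positivity
  exact posX_vertex hl hend hh hε.le (mul_pos hε hC) hω hT hσ
    (by rw [sub_le_sub_iff_right, le_div_iff₀ hv, mul_comm]; exact hS) hp1 hp2 hg
    (by rw [eA]; exact (mul_le_mul_of_nonneg_right he (sq_nonneg S)).trans hA)
    (by linarith) (by linarith)
    (by simpa using key 0 PL h00) (by simpa using key 0 PH h01)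
    (by rw [eD]; exact key _ _ h10) (by rw [eD]; exact key _ _ h11)

end Vale.Agent.P237.Cal
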