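import Vale.Agent.P237.Cal.PosX

/-!
# P237: the exact split of the state on the side `σ ≥ T`, four vertices

`(a D + G)²/N ≤ C D² + G²/ω` as soon as `a² ≤ C (N - ω)`. The difference `C (N - ω) - a²` is
concave in `D` and in the field `p`, so only the four vertices of the rectangle are checked.
-/

open Real

namespace Vale.Agent.P237.Cal

/-- The vertex expression: `N - ω` is `2 - ε σ² - ε T² - 2 P D - gl - ω`, `a = ε(σ+T) - 2P`. -/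
noncomputable def vtx (ε T C ω gl D P : ℝ) : ℝ :=
  C * (2 - ε * (T + D) ^ 2 - ε * T ^ 2 - 2 * P * D - gl - ω) - (ε * (2 * T + D) - 2 * P) ^ 2

/-- The vertex expression is concave in `P`. -/
lemma vtx_ge_P {ε T C ω gl D P Pl Ph r : ℝ} (hl : Pl ≤ P) (hh : P ≤ Ph)
    (h1 : r ≤ vtx ε T C ω gl D Pl) (h2 : r ≤ vtx ε T C ω gl D Ph) :
    r ≤ vtx ε T C ω gl D P := by
  rcases eq_or_lt_of_le (hl.trans hh) with e | hlt
  · rwa [le_antisymm (hh.trans e.ge) hl]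
  · have hd : 0 < Ph - Pl := sub_pos.2 hlt
    have e : (Ph - Pl) * vtx ε T C ω gl D P = (Ph - P) * vtx ε T C ω gl D Pl +
        (P - Pl) * vtx ε T C ω gl D Ph + 4 * ((Ph - Pl) * ((Ph - P) * (P - Pl))) := by
      simp only [vtx]; ring
    refine le_of_mul_le_mul_left ?_ hd
    rw [e]
    nlinarith [mul_nonneg (sub_nonneg.2 hh) (sub_nonneg.2 h1),
      mul_nonneg (sub_nonneg.2 hl) (sub_nonneg.2 h2),
      mul_nonneg hd.le (mul_nonneg (sub_nonneg.2 hh) (sub_nonneg.2 hl))]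

/-- The vertex expression is concave in `D`. -/
lemma vtx_ge_D {ε T C ω gl D Dm P r : ℝ} (hε : 0 ≤ ε) (hC : 0 ≤ C) (hl : 0 ≤ D) (hh : D ≤ Dm)
    (h1 : r ≤ vtx ε T C ω gl 0 P) (h2 : r ≤ vtx ε T C ω gl Dm P) :
    r ≤ vtx ε T C ω gl D P := by
  rcases eq_or_lt_of_le (hl.trans hh) with e | hlt
  · rwa [le_antisymm (hh.trans e.ge) hl]
  · have e : Dm * vtx ε T C ω gl D P = (Dm - D) * vtx ε T C ω gl 0 P +
        D * vtx ε T C ω gl Dm P + (C * ε + ε ^ 2) * (Dm * ((Dm - D) * D)) := by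
      simp only [vtx]; ring
    refine le_of_mul_le_mul_left ?_ hlt
    rw [e]
    nlinarith [mul_nonneg (sub_nonneg.2 hh) (sub_nonneg.2 h1),
      mul_nonneg hl (sub_nonneg.2 h2),
      mul_nonneg (add_nonneg (mul_nonneg hC hε) (sq_nonneg ε))
        (mul_nonneg hlt.le (mul_nonneg (sub_nonneg.2 hh) hl))]

/-- `(a D + G)²/S ≤ C D² + G²/ω` if `a² ≤ C (S - ω)`. -/
lemma engel_split {a D G C S ω : ℝ} (hC : 0 ≤ C) (hω : 0 < ω) (hS : ω ≤ S) (h : a ^ 2 ≤ C * (S - ω)) :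
    (a * D + G) ^ 2 / S ≤ C * D ^ 2 + G ^ 2 / ω := by
  have hS0 : 0 < S := hω.trans_le hS
  rw [add_div' _ _ _ hω.ne', div_le_div_iff₀ hS0 hω]
  rcases eq_or_lt_of_le hS with heq | hlt
  · rw [← heq, sub_self, mul_zero] at h
    have ha : a = 0 := pow_eq_zero_iff two_ne_zero |>.1 (le_antisymm h (sq_nonneg a))
    rw [ha, zero_mul, zero_add, ← heq]
    exact mul_le_mul_of_nonneg_right (le_add_of_nonneg_left (by positivity)) hω.le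
  · refine le_of_mul_le_mul_left ?_ (sub_pos.2 hlt)
    have e : (S - ω) * ((C * D ^ 2 * ω + G ^ 2) * S) - (S - ω) * ((a * D + G) ^ 2 * ω) =
        ω * S * D ^ 2 * (C * (S - ω) - a ^ 2) + (ω * a * D - (S - ω) * G) ^ 2 := by ring
    have := mul_nonneg (mul_nonneg (mul_nonneg hω.le hS0.le) (sq_nonneg D)) (sub_nonneg.2 h)
    have := sq_nonneg (ω * a * D - (S - ω) * G)
    linarith

/-- **Slope-free bound with the exact split.** -/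
theorem valQ_ge_vertex {T σ h ε p G₂ C ω gl Dm Pl Ph : ℝ} (hh : 0 < h) (hε : 0 ≤ ε) (hC : 0 < C)
    (hω : 0 < ω) (hT : 0 ≤ T) (hσ : T ≤ σ) (hD : σ - T ≤ Dm) (hp1 : p ≤ -Pl) (hp2 : -Ph ≤ p)
    (hg : -gl ≤ G₂) (hA : ε * (T + Dm) ^ 2 ≤ 1) (hB0 : 0 ≤ 1 - ε * T ^ 2 - gl)
    (hB : 0 ≤ 1 - ε * T ^ 2 - 2 * Ph * Dm - gl)
    (h00 : 0 ≤ vtx ε T C ω gl 0 Pl) (h01 : 0 ≤ vtx ε T C ω gl 0 Ph)
    (h10 : 0 ≤ vtx ε T C ω gl Dm Pl) (h11 : 0 ≤ vtx ε T C ω gl Dm Ph) :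
    -((ε + C) * (σ - T) ^ 2) - G₂ ^ 2 / ω ≤
      valQ ε T σ h + (2 * p * (σ - T) + G₂) * (h - 1) := by
  obtain ⟨D, rfl⟩ : ∃ D, σ = T + D := ⟨σ - T, by ring⟩
  rw [add_sub_cancel_left] at hD ⊢
  have hD0 : 0 ≤ D := by linarith
  have hpD : -(1 - ε * T ^ 2 - gl) ≤ 2 * p * D := by
    rcases le_total 0 Ph with hP | hP
    · linarith [mul_le_mul_of_nonneg_right hp2 hD0, mul_le_mul_of_nonneg_left hD hP]
    · linarith [mul_le_mul_of_nonneg_right hp2 hD0,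
        mul_nonpos_of_nonpos_of_nonneg hP hD0]
  have hA' : 0 ≤ 1 - ε * (T + D) ^ 2 := by
    have h1 := mul_le_mul_of_nonneg_left
      (pow_le_pow_left₀ (hT.trans hσ) (add_le_add_right hD T : T + D ≤ T + Dm) 2) hε
    linarith
  have hv : 0 ≤ vtx ε T C ω gl D (-p) :=
    vtx_ge_P (le_neg.1 hp1) (neg_le.1 hp2) (vtx_ge_D hε hC.le hD0 hD h00 h10)
      (vtx_ge_D hε hC.le hD0 hD h01 h11)
  have e : vtx ε T C ω gl D (-p) = C * ((1 - ε * (T + D) ^ 2) +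
      (1 - ε * T ^ 2 + (2 * p * D + G₂)) - ω) - C * (G₂ + gl) -
      (ε * (T + D + T) + 2 * p) ^ 2 := by
    simp only [vtx]; ring
  have hv' : (ε * (T + D + T) + 2 * p) ^ 2 ≤ C * ((1 - ε * (T + D) ^ 2) +
      (1 - ε * T ^ 2 + (2 * p * D + G₂)) - ω) := by
    linarith [mul_nonneg hC.le (by linarith : 0 ≤ G₂ + gl)]
  have hS0 := nonneg_of_mul_nonneg_right ((sq_nonneg _).trans hv') hC
  refine le_trans ?_ (valQ_sharp hh hA' (by linarith) (by linarith))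
  rw [add_sub_cancel_left, show ε * D * (T + D + T) + (2 * p * D + G₂) =
    (ε * (T + D + T) + 2 * p) * D + G₂ by ring]
  have key := engel_split (D := D) (G := G₂) hC.le hω (by linarith) hv'
  linarith

/-- **One point of the side `σ ≥ T`**: the four vertices and one linear inequality at the largest
`D`; the conclusion feeds `core_of_boundX`. -/
theorem posX_vertex {π' l Cw T σ h ε p G₂ C ω gl Dm Pl Ph : ℝ} (hl : 0 ≤ l)
    (hend : 0 ≤ l + Dm * (Cw - π' * (ε + C))) (hh : 0 < h) (hε : 0 ≤ ε) (hC : 0 < C)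
    (hω : 0 < ω) (hT : 0 ≤ T) (hσ : T ≤ σ) (hD : σ - T ≤ Dm) (hp1 : p ≤ -Pl) (hp2 : -Ph ≤ p)
    (hg : -gl ≤ G₂) (hA : ε * (T + Dm) ^ 2 ≤ 1) (hB0 : 0 ≤ 1 - ε * T ^ 2 - gl)
    (hB : 0 ≤ 1 - ε * T ^ 2 - 2 * Ph * Dm - gl)
    (h00 : 0 ≤ vtx ε T C ω gl 0 Pl) (h01 : 0 ≤ vtx ε T C ω gl 0 Ph)
    (h10 : 0 ≤ vtx ε T C ω gl Dm Pl) (h11 : 0 ≤ vtx ε T C ω gl Dm Ph) :
    ∃ L, L ≤ valQ ε T σ h + (2 * p * (σ - T) + G₂) * (h - 1) ∧
      -(π' * (G₂ ^ 2 / ω)) ≤ π' * L + (σ - T) * l + (σ - T) ^ 2 * Cw := by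
  refine ⟨_, valQ_ge_vertex hh hε hC hω hT hσ hD hp1 hp2 hg hA hB0 hB h00 h01 h10 h11, ?_⟩
  linarith [endpoint_nonneg hl (sub_nonneg.2 hσ) hD hend]

end Vale.Agent.P237.Cal
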