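import Vale.Agent.P237.Cal.EllFlatBound

/-!
# P237: the quadratic lower bound of the flattened weight for `z = n T² ≥ 5/2`, `T² ≤ 2716/10000`
-/

open Real

namespace Vale.Agent.P237.Cal

variable {m : ℕ}

/-- `n flatB ≥ (1 + s) (2423/10000) (z - 101/100)²` in real variables, `N = n`, `W² = 1 + s`. -/
lemma flat_quad {N W r s kap : ℝ} (hN : 100 ≤ N) (hs : W ^ 2 = 1 + s) (hW : 1 ≤ W)
    (hs1 : s ≤ 2716 / 10000) (hz : 5 / 2 ≤ N * s) (hr1 : 1 ≤ r) (hr2 : r ≤ 1006 / 1000)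
    (hr3 : |N * (r ^ 2 - 1) - 1| ≤ 1 / N) (hk0 : 0 ≤ kap) (hk : kap ≤ 1 / 2) :
    2424 / 10000 * (1 + s) * (N * s - 101 / 100) ^ 2 ≤
      N * ((N + 2) * ((W - r) ^ 2 * (2 * W + r) / r ^ 3) +
        kap / N * (-(3 / 4) * (N * s - 1) ^ 2 + s * (3 / 2 * (N * s) - 15 / 4))) := by
  have hN0 : 0 < N := by linarith
  have hr0 : 0 < r := by linarith
  have hWM : W ≤ 113 / 100 := by
    refine le_of_pow_le_pow_left₀ two_ne_zero (by norm_num) ?_
    rw [hs]; linarith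
  have hb : N * (r ^ 2 - 1) ≤ 101 / 100 := by
    have h6 : 1 / N ≤ 1 / 100 := one_div_le_one_div_of_le (by norm_num) hN
    linarith [(abs_le.1 hr3).2]
  set z := N * s with hzdef
  have h1 : 703 / 1000 * (z - 101 / 100) ^ 2 ≤
      N * ((N + 2) * ((W - r) ^ 2 * (2 * W + r) / r ^ 3)) := by
    have hc : 703 / 1000 ≤ (2 * W + r) / ((W + r) ^ 2 * r ^ 3) := by
      rw [le_div_iff₀ (by positivity)]
      have hr3' : r ^ 3 ≤ (1006 / 1000) ^ 3 := pow_le_pow_left₀ hr0.le hr2 3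
      have h2 : (W + r) ^ 2 * r ^ 3 ≤ (W + r) ^ 2 * (1006 / 1000) ^ 3 :=
        mul_le_mul_of_nonneg_left hr3' (sq_nonneg _)
      nlinarith [mul_nonneg (sub_nonneg.2 hWM) (sub_nonneg.2 hr2), mul_nonneg (sub_nonneg.2 hWM) (sub_nonneg.2 hW), mul_nonneg (sub_nonneg.2 hr1) (sub_nonneg.2 hr2)]
    have h3 : (z - 101 / 100) ^ 2 ≤ (N * (W ^ 2 - r ^ 2)) ^ 2 := by
      refine pow_le_pow_left₀ (by linarith) ?_ 2
      have e : N * (W ^ 2 - r ^ 2) = z - N * (r ^ 2 - 1) := by rw [hs, hzdef]; ring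
      linarith
    have e : N * ((N + 2) * ((W - r) ^ 2 * (2 * W + r) / r ^ 3)) =
        (1 + 2 / N) * ((N * (W ^ 2 - r ^ 2)) ^ 2 * ((2 * W + r) / ((W + r) ^ 2 * r ^ 3))) := by
      field_simp
      ring
    rw [e]
    refine le_trans ?_ (le_mul_of_one_le_left (by positivity) (by
      have : 0 ≤ 2 / N := by positivity
      linarith))
    rw [mul_comm (703 / 1000)]
    exact mul_le_mul h3 hc (by norm_num) (sq_nonneg _)
  have h4 : -(3 / 8 * (z - 1) ^ 2) - 15 / 8 * (s : ℝ) ≤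
      kap * (-(3 / 4) * (z - 1) ^ 2 + s * (3 / 2 * z - 15 / 4)) := by
    have hs0 : 0 ≤ s := by nlinarith
    have hz0 : 0 ≤ kap * (s * z) := mul_nonneg hk0 (mul_nonneg hs0 (by linarith))
    have h5 := mul_le_mul_of_nonneg_right hk (by positivity : 0 ≤ 3 / 4 * (z - 1) ^ 2 + 15 / 4 * s)
    linarith
  have e : N * (kap / N * (-(3 / 4) * (z - 1) ^ 2 + s * (3 / 2 * z - 15 / 4))) =
      kap * (-(3 / 4) * (z - 1) ^ 2 + s * (3 / 2 * z - 15 / 4)) := by field_simp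
  rw [mul_add N, e]
  have hs0 : 0 ≤ s := by nlinarith
  have hsz : 100 * s ≤ z := by
    rw [hzdef]; exact mul_le_mul_of_nonneg_right hN hs0
  have key : 2424 / 10000 * (1 + s) * (z - 101 / 100) ^ 2 + 3 / 8 * (z - 1) ^ 2 + 15 / 8 * s ≤
      703 / 1000 * (z - 101 / 100) ^ 2 := by
    have h2 : 0 ≤ (z - 101 / 100) ^ 2 := sq_nonneg _
    rcases le_or_gt z 10 with h | h
    · nlinarith [mul_le_mul_of_nonneg_right (by linarith : s ≤ 1 / 10) h2, sq_nonneg (z - 5 / 2)]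
    · nlinarith [mul_le_mul_of_nonneg_right hs1 h2]
  linarith

/-- **The linear weight of the rows**: the flattened weight is at least
`(3/10) ε (z - 101/100)²/(n T)` times the prefactor. -/
theorem ellFlat_quad {ε kap T : ℝ} (hm : 98 ≤ m) (hε : 0 < ε) (hε2 : ε ≤ 21 / 5) (hk0 : 0 ≤ kap)
    (hk : kap ≤ 1 / 2) (hT : 0 < T) (hz : 5 / 2 ≤ ((m : ℝ) + 2) * T ^ 2)
    (hs : T ^ 2 ≤ 2716 / 10000) :
    pre m T * ε * (3 / 10) * (((m : ℝ) + 2) * T ^ 2 - 101 / 100) ^ 2 / (((m : ℝ) + 2) * T) ≤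
      ellFlat m ε kap (rr (m + 1)) T := by
  have hm' : (98 : ℝ) ≤ (m : ℝ) := by exact_mod_cast hm
  have hr1 := (one_lt_rr (k := m + 1) (by omega)).le
  have hr0 : 0 < rr (m + 1) := one_pos.trans_le hr1
  have hr2 : rr (m + 1) ≤ 1006 / 1000 := by
    have h := rr_le (k := m + 1) (by omega)
    push_cast at h
    have h199 : (199 : ℝ) ≤ 2 * ((m : ℝ) + 1) + 1 := by linarith
    have := one_div_le_one_div_of_le (by norm_num : (0 : ℝ) < 199) h199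
    linarith
  have h := flat_quad (N := (m : ℝ) + 2) (kap := kap) (by linarith) (w_sq T) (one_le_w T) hs hz hr1
    hr2 (rr_sq_near hm) hk0 hk
  rw [show (m : ℝ) + 2 + 2 = (m : ℝ) + 4 by ring] at h
  rw [ellFlat_eq hr0.ne' T, div_le_iff₀ (by positivity)]
  have e : ((m : ℝ) + 1) * (1 + ε) * (T / √(1 + T ^ 2) ^ (m + 6)) * flatB m kap (rr (m + 1)) T *
      (((m : ℝ) + 2) * T) =
      ((m : ℝ) + 1) * T ^ 2 / √(1 + T ^ 2) ^ (m + 6) *
        ((1 + ε) * (((m : ℝ) + 2) * flatB m kap (rr (m + 1)) T)) := by ring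
  have e2 : pre m T * ε * (3 / 10) * (((m : ℝ) + 2) * T ^ 2 - 101 / 100) ^ 2 =
      ((m : ℝ) + 1) * T ^ 2 / √(1 + T ^ 2) ^ (m + 6) *
        (ε * (3 / 10) * (1 + T ^ 2) * (((m : ℝ) + 2) * T ^ 2 - 101 / 100) ^ 2) := by
    simp only [pre]
    rw [show √(1 + T ^ 2) ^ (m + 6) = √(1 + T ^ 2) ^ (m + 4) * √(1 + T ^ 2) ^ 2 from pow_add _ _ 2,
      w_sq]
    field_simp
  rw [e, e2]
  refine mul_le_mul_of_nonneg_left ?_ (by positivity)
  have h1 := mul_le_mul_of_nonneg_left h (by linarith : (0 : ℝ) ≤ 1 + ε)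
  have h2 : ε * (3 / 10) ≤ (1 + ε) * (2424 / 10000) := by linarith
  have h3 := mul_le_mul_of_nonneg_right h2
    (by positivity : 0 ≤ (1 + T ^ 2) * (((m : ℝ) + 2) * T ^ 2 - 101 / 100) ^ 2)
  simp only [flatB] at h1 ⊢
  linarith

end Vale.Agent.P237.Cal
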