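import Vale.Agent.P237.Cal.ShapeX
import Vale.Agent.P237.Cal.BoxFrame
import Vale.Agent.P237.Cal.Fields

/-!
# P237: the side `σ ≥ T` of the pointwise inequality for the fields in the centred state

After the slope is eliminated and the state is split off with a factor `κ > 1`, the bound is
`D (ell + D·(coefficient))` with a coefficient that decreases in `D = σ - T`; so only the largest
`D` allowed by the mass bound has to be checked.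
-/

open Real

namespace Vale.Agent.P237.Cal

variable {m : ℕ}

/-- The square of a sum, split with a factor `κ > 1`. -/
lemma add_sq_le_split {x y κ : ℝ} (hκ : 1 < κ) :
    (x + y) ^ 2 ≤ κ * x ^ 2 + κ / (κ - 1) * y ^ 2 := by
  have h : 0 < κ - 1 := by linarith
  have e : κ * x ^ 2 + κ / (κ - 1) * y ^ 2 - (x + y) ^ 2 = ((κ - 1) * x - y) ^ 2 / (κ - 1) := by
    field_simp
    ring
  nlinarith [div_nonneg (sq_nonneg ((κ - 1) * x - y)) h.le]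

/-- A function `D ↦ D (l + D c)` with `l ≥ 0` is nonnegative on `[0, Dm]` if it is at `Dm`. -/
lemma endpoint_nonneg {l c D Dm : ℝ} (hl : 0 ≤ l) (h0 : 0 ≤ D) (hD : D ≤ Dm)
    (hend : 0 ≤ l + Dm * c) : 0 ≤ D * l + D ^ 2 * c := by
  have h : 0 ≤ l + D * c := by
    rcases le_total 0 c with hc | hc
    · nlinarith [mul_nonneg h0 hc]
    · nlinarith [mul_le_mul_of_nonpos_right hD hc]
  nlinarith [mul_nonneg h0 h]

/-- The slope-free bound: `p` is the quadratic field and `G₂` the state part, both over the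
prefactor of the second order part. -/
theorem valQ_ge_split {T σ h ε p G₂ M N κ : ℝ} (hh : 0 < h) (hκ : 1 < κ)
    (hA : 0 ≤ 1 - ε * σ ^ 2) (hB : 0 ≤ 1 - ε * T ^ 2 + (2 * p * (σ - T) + G₂))
    (hN0 : 0 < N)
    (hN : N ≤ (1 - ε * σ ^ 2) + (1 - ε * T ^ 2 + (2 * p * (σ - T) + G₂)))
    (hM : |ε * (σ + T) + 2 * p| ≤ M) :
    -((ε + κ * M ^ 2 / N) * (σ - T) ^ 2) - κ / (κ - 1) * G₂ ^ 2 / N ≤
      valQ ε T σ h + (2 * p * (σ - T) + G₂) * (h - 1) := by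
  refine le_trans ?_ (valQ_sharp hh hA hB (hN0.trans_le hN))
  set S := (1 - ε * σ ^ 2) + (1 - ε * T ^ 2 + (2 * p * (σ - T) + G₂))
  have hκ0 : 0 ≤ κ / (κ - 1) := div_nonneg (by linarith) (by linarith)
  have h1 : (ε * (σ - T) * (σ + T) + (2 * p * (σ - T) + G₂)) ^ 2 ≤
      κ * M ^ 2 * (σ - T) ^ 2 + κ / (κ - 1) * G₂ ^ 2 := by
    rw [show ε * (σ - T) * (σ + T) + (2 * p * (σ - T) + G₂) =
      (ε * (σ + T) + 2 * p) * (σ - T) + G₂ by ring]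
    refine (add_sq_le_split hκ).trans (add_le_add_left ?_ _)
    rw [mul_pow, mul_assoc]
    refine mul_le_mul_of_nonneg_left (mul_le_mul_of_nonneg_right ?_ (sq_nonneg _)) (by linarith)
    exact sq_le_sq' (abs_le.1 hM).1 (abs_le.1 hM).2
  have h2 : (ε * (σ - T) * (σ + T) + (2 * p * (σ - T) + G₂)) ^ 2 / S ≤
      (κ * M ^ 2 * (σ - T) ^ 2 + κ / (κ - 1) * G₂ ^ 2) / N :=
    div_le_div₀ (add_nonneg (mul_nonneg (mul_nonneg (by linarith) (sq_nonneg _)) (sq_nonneg _))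
      (mul_nonneg hκ0 (sq_nonneg _))) h1 hN0 hN
  have e : (κ * M ^ 2 * (σ - T) ^ 2 + κ / (κ - 1) * G₂ ^ 2) / N =
      κ * M ^ 2 / N * (σ - T) ^ 2 + κ / (κ - 1) * G₂ ^ 2 / N := by
    field_simp
  linarith

/-- `1 + n s/2 ≤ W^n` for `n ≥ 2`. -/
lemma one_add_le_w_pow (j : ℕ) (T : ℝ) :
    1 + ((j : ℝ) + 2) * T ^ 2 / 2 ≤ √(1 + T ^ 2) ^ (j + 2) := by
  have hw : 0 < √(1 + T ^ 2) := w_pos T
  have hs : √(1 + T ^ 2) ^ 2 = 1 + T ^ 2 := w_sq T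
  induction j using Nat.twoStepInduction with
  | zero => rw [zero_add, hs]; norm_num
  | one =>
    have h : 0 ≤ (√(1 + T ^ 2) - 1) ^ 2 * (2 * √(1 + T ^ 2) + 1) := by positivity
    norm_num
    nlinarith
  | more j ih _ =>
    rw [show j.succ.succ + 2 = j + 2 + 2 from rfl, pow_add, hs]
    have h2 := mul_le_mul_of_nonneg_right ih (by positivity : (0 : ℝ) ≤ 1 + T ^ 2)
    push_cast at *
    nlinarith [mul_nonneg (mul_nonneg (by positivity : (0 : ℝ) ≤ (j : ℝ) + 2) (sq_nonneg T)) (sq_nonneg T)]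

/-- The bracket `1 - W^(-n)` from below: `(n s/2)/(1 + n s/2)`. -/
lemma one_sub_w_pow_ge (j : ℕ) (T : ℝ) :
    (((j : ℝ) + 2) * T ^ 2 / 2) / (1 + ((j : ℝ) + 2) * T ^ 2 / 2) ≤
      1 - 1 / √(1 + T ^ 2) ^ (j + 2) := by
  have hd : 0 < 1 + ((j : ℝ) + 2) * T ^ 2 / 2 := by positivity
  have h := one_div_le_one_div_of_le hd (one_add_le_w_pow j T)
  have e : 1 - (((j : ℝ) + 2) * T ^ 2 / 2) / (1 + ((j : ℝ) + 2) * T ^ 2 / 2) =
      1 / (1 + ((j : ℝ) + 2) * T ^ 2 / 2) := by field_simp; ring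
  linarith

/-- `-P` from below against the prefactor, with `z = n T²`. -/
lemma neg_shP_ge {c₀ c₁ : ℝ} (h0 : 0 ≤ c₀) (h1 : 0 ≤ c₁) (T : ℝ) :
    (c₁ / ((m : ℝ) + 4) +
        shUM m c₀ c₁ * (1 + T ^ 2) / (2 + ((m : ℝ) + 2) * T ^ 2)) * pre m T ≤
      -shP m c₀ c₁ T := by
  have hw := w_pos T
  have hU : 0 ≤ shUM m c₀ c₁ := by unfold shUM; positivity
  have hb := one_sub_w_pow_ge m T
  have e : 1 - 1 / √(1 + T ^ 2) ^ 2 = T ^ 2 / √(1 + T ^ 2) ^ 2 := by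
    field_simp
    rw [w_sq]; ring
  simp only [shP, neg_neg]
  calc (c₁ / ((m : ℝ) + 4) + shUM m c₀ c₁ * (1 + T ^ 2) / (2 + ((m : ℝ) + 2) * T ^ 2)) * pre m T
      = ((m : ℝ) + 1) / √(1 + T ^ 2) ^ (m + 2) *
          (shUM m c₀ c₁ / ((m : ℝ) + 2) *
              ((((m : ℝ) + 2) * T ^ 2 / 2) / (1 + ((m : ℝ) + 2) * T ^ 2 / 2)) +
            c₁ / ((m : ℝ) + 4) * (T ^ 2 / √(1 + T ^ 2) ^ 2)) := by
        simp only [pre, show m + 4 = m + 2 + 2 from rfl, pow_add]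
        rw [w_sq]
        field_simp
        ring
    _ ≤ _ := by rw [e]; gcongr

/-- `-P` from above against the prefactor, away from the origin. -/
lemma neg_shP_le' {c₀ c₁ : ℝ} (h0 : 0 ≤ c₀) (h1 : 0 ≤ c₁) {T : ℝ} (hT : 0 < T) :
    -shP m c₀ c₁ T ≤
      (c₁ / ((m : ℝ) + 4) + shUM m c₀ c₁ * (1 + T ^ 2) / (((m : ℝ) + 2) * T ^ 2)) * pre m T := by
  have hw := w_pos T
  have hU : 0 ≤ shUM m c₀ c₁ := by unfold shUM; positivity
  have e : 1 - 1 / √(1 + T ^ 2) ^ 2 = T ^ 2 / √(1 + T ^ 2) ^ 2 := by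
    field_simp
    rw [w_sq]; ring
  have h2 : (0 : ℝ) < 1 / √(1 + T ^ 2) ^ (m + 2) := by positivity
  simp only [shP, neg_neg]
  calc ((m : ℝ) + 1) / √(1 + T ^ 2) ^ (m + 2) *
      (shUM m c₀ c₁ / ((m : ℝ) + 2) * (1 - 1 / √(1 + T ^ 2) ^ (m + 2)) +
        c₁ / ((m : ℝ) + 4) * (1 - 1 / √(1 + T ^ 2) ^ 2))
      ≤ ((m : ℝ) + 1) / √(1 + T ^ 2) ^ (m + 2) *
          (shUM m c₀ c₁ / ((m : ℝ) + 2) * 1 + c₁ / ((m : ℝ) + 4) * (T ^ 2 / √(1 + T ^ 2) ^ 2)) := by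
        rw [e]
        refine mul_le_mul_of_nonneg_left (add_le_add_left ?_ _) (by positivity)
        exact mul_le_mul_of_nonneg_left (by linarith) (by positivity)
    _ = _ := by
        simp only [pre, show m + 4 = m + 2 + 2 from rfl, pow_add]
        rw [w_sq]
        field_simp
        ring

/-- **Zone `ε σ² ≤ 1` of the side `σ ≥ T`.** Here `π` is the prefactor, `l` the linear weight,
`C` the weight of `D²`, `p` the quadratic field and `G₂` the rest of the coefficient of `h - 1`,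
both over `π`. One inequality at the largest `D` suffices; the conclusion feeds `core_of_boundX`. -/
theorem posX_zone {π' l C ε T σ h p G₂ κ Dm Pl Ph g₂ M N : ℝ}
    (hπ : 0 ≤ π') (hh : 0 < h) (hε : 0 ≤ ε) (hκ : 1 < κ) (hT : 0 ≤ T) (hσ : T ≤ σ)
    (hD : σ - T ≤ Dm) (hp1 : p ≤ -Pl) (hp2 : -Ph ≤ p) (hPh0 : 0 ≤ Ph) (hg : |G₂| ≤ g₂)
    (hM1 : ε * (2 * T + Dm) - 2 * Pl ≤ M) (hM2 : 2 * Ph - 2 * ε * T ≤ M)
    (hA : ε * (T + Dm) ^ 2 ≤ 1) (hB : 0 ≤ 1 - ε * T ^ 2 - 2 * Ph * Dm - g₂)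
    (hN0 : 0 < N) (hN : N ≤ 2 - ε * (T + Dm) ^ 2 - ε * T ^ 2 - 2 * Ph * Dm - g₂)
    (hl : 0 ≤ l) (hend : 0 ≤ l + Dm * (C - π' * (ε + κ * M ^ 2 / N))) :
    ∃ L, L ≤ valQ ε T σ h + (2 * p * (σ - T) + G₂) * (h - 1) ∧
      -(π' * (κ / (κ - 1) * g₂ ^ 2 / N)) ≤ π' * L + (σ - T) * l + (σ - T) ^ 2 * C := by
  have hD0 : 0 ≤ σ - T := sub_nonneg.2 hσ
  have hσD : σ ≤ T + Dm := by linarith
  have hσ2 : ε * σ ^ 2 ≤ ε * (T + Dm) ^ 2 :=
    mul_le_mul_of_nonneg_left (pow_le_pow_left₀ (by linarith) hσD 2) hε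
  have hpD : -(2 * Ph * Dm) ≤ 2 * p * (σ - T) := by
    nlinarith [mul_le_mul_of_nonneg_right hp2 hD0, mul_le_mul_of_nonneg_left hD hPh0]
  have hB' : 0 ≤ 1 - ε * T ^ 2 + (2 * p * (σ - T) + G₂) := by linarith [(abs_le.1 hg).1]
  have hM : |ε * (σ + T) + 2 * p| ≤ M := by
    rw [abs_le]
    have h1 := mul_le_mul_of_nonneg_left hσD hε
    have h2 := mul_le_mul_of_nonneg_left hσ hε
    constructor <;> linarith
  have hL := valQ_ge_split (κ := κ) hh hκ (by linarith : (0 : ℝ) ≤ 1 - ε * σ ^ 2) hB' hN0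
    (by linarith [(abs_le.1 hg).1]) hM
  refine ⟨_, hL, ?_⟩
  have he := endpoint_nonneg hl hD0 hD hend
  have hsq : G₂ ^ 2 ≤ g₂ ^ 2 := sq_le_sq' (abs_le.1 hg).1 (abs_le.1 hg).2
  have hs : π' * (κ / (κ - 1) * G₂ ^ 2 / N) ≤ π' * (κ / (κ - 1) * g₂ ^ 2 / N) := by
    refine mul_le_mul_of_nonneg_left ?_ hπ
    exact div_le_div_of_nonneg_right
      (mul_le_mul_of_nonneg_left hsq (div_nonneg (by linarith) (by linarith))) hN0.le
  linarith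

/-- The tangent multiplier on the closed region. -/
theorem valQ_tangentC {Y T σ h ε a : ℝ} (ha : 0 ≤ a) (hR : RegC Y T σ h) :
    (1 + a) * valQ ((ε - a) / (1 + a)) T σ h - 2 * a * (σ - T) / T -
        a * (Y ^ 2 - 1) * ((1 + T ^ 2) * h - T ^ 2 / h) / T ^ 2 ≤ valQ ε T σ h := by
  have hT := hR.T_pos
  have hh := hR.h_pos
  have h1 : 0 < 1 + a := by linarith
  have hc : 0 ≤ ((1 + T ^ 2) * (Y ^ 2 - (1 + T ^ 2)) * h - T ^ 2 * (Y ^ 2 + σ ^ 2) / h +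
      2 * (1 + T ^ 2) * σ * T) * h := by
    rw [add_mul, sub_mul, div_mul_cancel₀ _ hh.ne']
    linarith [hR.circle, show ((1 + T ^ 2) * h - σ * T) ^ 2 =
      (1 + T ^ 2) ^ 2 * h ^ 2 - 2 * (1 + T ^ 2) * h * (σ * T) + σ ^ 2 * T ^ 2 by ring]
  have key := mul_nonneg (div_nonneg ha (sq_nonneg T)) (nonneg_of_mul_nonneg_left hc hh)
  have e : valQ ε T σ h - ((1 + a) * valQ ((ε - a) / (1 + a)) T σ h - 2 * a * (σ - T) / T -
      a * (Y ^ 2 - 1) * ((1 + T ^ 2) * h - T ^ 2 / h) / T ^ 2) =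
      a / T ^ 2 * ((1 + T ^ 2) * (Y ^ 2 - (1 + T ^ 2)) * h - T ^ 2 * (Y ^ 2 + σ ^ 2) / h +
        2 * (1 + T ^ 2) * σ * T) := by
    unfold valQ
    field_simp
    ring
  linarith

/-- **Zone `ε σ² ≥ θ`.** With the multiplier `b = (ε σ² - θ)/(σ² + θ)` the effective `ε` is `θ/σ²`,
so the coefficient of `1/h` is the constant `1 - θ`. -/
theorem posX_tangent {ε θ Y T σ h p G₂ b κ M N : ℝ} (hθ0 : 0 ≤ θ) (hθ : θ ≤ 1) (hκ : 1 < κ)
    (hR : RegC Y T σ h) (hY : 1 ≤ Y) (hb : b = (ε * σ ^ 2 - θ) / (σ ^ 2 + θ)) (hb0 : 0 ≤ b)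
    (hB : 0 ≤ 1 - θ * T ^ 2 / σ ^ 2 +
      (2 * p * (σ - T) + G₂ - b * (Y ^ 2 - 1) * (2 + 1 / T ^ 2)) / (1 + b))
    (hN0 : 0 < N) (hN : N ≤ (1 - θ) + (1 - θ * T ^ 2 / σ ^ 2 +
      (2 * p * (σ - T) + G₂ - b * (Y ^ 2 - 1) * (2 + 1 / T ^ 2)) / (1 + b)))
    (hM : |θ * (σ + T) / σ ^ 2 + 2 * p / (1 + b)| ≤ M) :
    -((1 + b) * ((θ / σ ^ 2 + κ * M ^ 2 / N) * (σ - T) ^ 2)) -
        κ / (κ - 1) * (G₂ - b * (Y ^ 2 - 1) * (2 + 1 / T ^ 2)) ^ 2 / ((1 + b) * N) -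
        2 * b * (σ - T) / T - b * (Y ^ 2 - 1) / T ^ 2 ≤
      valQ ε T σ h + (2 * p * (σ - T) + G₂) * (h - 1) := by
  have hσ : 0 < σ := hR.σ_pos
  have hb1 : 0 < 1 + b := by linarith
  have hs : 0 < σ ^ 2 + θ := by positivity
  have he : θ / σ ^ 2 = (ε - b) / (1 + b) := by
    rw [div_eq_div_iff (by positivity) hb1.ne']
    have : b * (σ ^ 2 + θ) = ε * σ ^ 2 - θ := by rw [hb, div_mul_cancel₀ _ hs.ne']
    linarith
  set η := b * (Y ^ 2 - 1) * (2 + 1 / T ^ 2)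
  have eA : θ / σ ^ 2 * σ ^ 2 = θ := by field_simp
  have eB : θ / σ ^ 2 * T ^ 2 = θ * T ^ 2 / σ ^ 2 := by ring
  have hG : (2 * p * (σ - T) + G₂ - η) / (1 + b) =
      2 * (p / (1 + b)) * (σ - T) + (G₂ - η) / (1 + b) := by ring
  have h1 := valQ_tangentC (ε := ε) hb0 hR
  rw [← he] at h1
  have h2 := mul_le_mul_of_nonneg_left (valQ_ge_split (T := T) (σ := σ) (ε := θ / σ ^ 2)
    (p := p / (1 + b)) (G₂ := (G₂ - η) / (1 + b)) (M := M) (N := N) (κ := κ) hR.h_pos hκ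
    (by rw [eA]; linarith) (by rw [eB, ← hG]; exact hB) hN0 (by rw [eA, eB, ← hG]; exact hN)
    (by refine le_of_eq_of_le ?_ hM; congr 1; ring)) hb1.le
  have hη : 0 ≤ b * (Y ^ 2 - 1) := mul_nonneg hb0 (by nlinarith)
  have h3 : 0 ≤ b * (Y ^ 2 - 1) * ((h - 1) ^ 2 / h) := mul_nonneg hη (by
    have := hR.h_pos
    positivity)
  have e1 : (1 + b) * (valQ (θ / σ ^ 2) T σ h +
      (2 * (p / (1 + b)) * (σ - T) + (G₂ - η) / (1 + b)) * (h - 1)) =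
      (1 + b) * valQ (θ / σ ^ 2) T σ h + (2 * p * (σ - T) + G₂) * (h - 1) - η * (h - 1) := by
    field_simp
    ring
  have e2 : b * (Y ^ 2 - 1) * ((1 + T ^ 2) * h - T ^ 2 / h) / T ^ 2 =
      η * (h - 1) + b * (Y ^ 2 - 1) / T ^ 2 - b * (Y ^ 2 - 1) * ((h - 1) ^ 2 / h) := by
    have := hR.h_pos
    have := hR.T_pos
    simp only [η]
    field_simp; ring
  have e3 : (1 + b) * (κ / (κ - 1) * ((G₂ - η) / (1 + b)) ^ 2 / N) =
      κ / (κ - 1) * (G₂ - η) ^ 2 / ((1 + b) * N) := by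
    field_simp
  linarith

end Vale.Agent.P237.Cal
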