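import Vale.Agent.P237.Cal.Relax

/-!
# P237: calibrations depending on the central value

`ProfileCal m`: for every moment `V` above the semicircle's there is a weight `w` and, for each
central value `Y = F 0`, a calibration on `{y ≤ Y}`. The height where the profile leaves `Y` is
handled by `flat`. Definitions only: nothing here says that such calibrations exist.
-/

open MeasureTheory Set Real intervalIntegral

namespace Vale.Agent.P237.Cal

open Exact Full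

/-- What a profile with moment `V` and central value `Y` satisfies where it is below `Y`. -/
structure AdmY (m : ℕ) (V Y t y d A : ℝ) : Prop where
  adm : Adm m V t y d A
  one_le : 1 ≤ Y
  lt_top : y < Y
  top_le : Y ≤ y - t * d
  chord0 : ∫ x in (0 : ℝ)..t, max (√(1 - x ^ 2)) (Y + (y - Y) * x / t) ^ (m + 1) ≤ A
  mass_top : A ≤ t * Y ^ (m + 1)
  chordC : ∀ a ∈ Ico (0 : ℝ) t, semiMom m a + ∫ x in a..t,
    max (√(1 - x ^ 2)) (√(1 - a ^ 2) + (y - √(1 - a ^ 2)) * (x - a) / (t - a)) ^ (m + 1) ≤ A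

/-- The domain of a calibration with central value `Y`. -/
def Region (Y : ℝ) : Set (ℝ × ℝ × ℝ) := Icc 0 1 ×ˢ Icc 0 Y ×ˢ univ

/-- The moment of the least profile through `(0, Y)` and `(1, z)`. -/
noncomputable def hullMom (m : ℕ) (Y z : ℝ) : ℝ :=
  ∫ x in (0 : ℝ)..1, max (√(1 - x ^ 2)) (Y + (z - Y) * x) ^ (m + 1)

/-- The abscissa where the tangent from `(0, Y)` touches the circle. -/
noncomputable def tanPt (Y : ℝ) : ℝ := √(1 - 1 / Y ^ 2)

/-- The moment of the least concave profile through `(0, Y)` above the semicircle. -/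
noncomputable def hullTan (m : ℕ) (Y : ℝ) : ℝ :=
  (∫ x in (0 : ℝ)..tanPt Y, (Y + (1 / Y - Y) * x / tanPt Y) ^ (m + 1)) +
    ∫ x in (tanPt Y)..1, √(1 - x ^ 2) ^ (m + 1)

/-- A calibration for the moment `V`, the weight `w` and the central value `Y`. -/
structure IsCalY (m : ℕ) (V ρ w Y lam : ℝ) (Φ : ℝ × ℝ × ℝ → ℝ)
    (dΦ : ℝ × ℝ × ℝ → (ℝ × ℝ × ℝ →L[ℝ] ℝ)) : Prop where
  lam_nonneg : 0 ≤ lam
  cont : ContinuousOn Φ (Region Y ∩ {p | √(1 - p.1 ^ 2) ≤ p.2.1})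
  deriv : ∀ t y A, t ∈ Ioo (0 : ℝ) 1 → 0 < y → y < Y → √(1 - t ^ 2) ≤ y →
    HasFDerivAt Φ (dΦ (t, y, A)) (t, y, A)
  low : ∀ t y d A, AdmY m V Y t y d A →
    dΦ (t, y, A) (1, d, y ^ (m + 1)) ≤ cost m w ρ lam t y d
  flat : ∀ b, 0 < b → b ≤ 1 → b * Y ^ (m + 1) ≤ V →
    ∫ x in b..1, max (√(1 - x ^ 2)) (Y * (1 - x) / (1 - b)) ^ (m + 1) ≤ V - b * Y ^ (m + 1) →
    Φ (b, Y, b * Y ^ (m + 1)) - Φ (0, Y, 0) ≤ b * cost m w ρ lam 0 Y 0
  bdry : ∀ z, 0 ≤ z → z ≤ Y → z ^ (m + 1) ≤ V → hullMom m Y z ≤ V →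
    V ≤ Y ^ (m + 1) →
    V - w * ((m : ℝ) + 1) * V + lam * projBound m V < Φ (1, z, V) - Φ (0, Y, 0) + z ^ (m + 1)

/-- Calibrations for every admissible moment above the semicircle's and every central value. -/
def ProfileCal (m : ℕ) : Prop :=
  ∀ V ρ : ℝ, semiMom m 1 < V → 0 < ρ →
    Statement.ballVol (m + 2) * ρ ^ (m + 2) = 2 * Statement.ballVol (m + 1) * V →
    2 * Statement.ballVol (m + 1) * V ≤ profileConst m ^ (m + 2) →
    ∃ w : ℝ, 0 ≤ w ∧ ∀ Y : ℝ, 1 ≤ Y → hullMom m Y 0 ≤ V →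
      hullTan m Y ≤ V →
      ∃ (lam : ℝ) (Φ : ℝ × ℝ × ℝ → ℝ) (dΦ : ℝ × ℝ × ℝ → (ℝ × ℝ × ℝ →L[ℝ] ℝ)),
        IsCalY m V ρ w Y lam Φ dΦ

end Vale.Agent.P237.Cal
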