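import Vale.Agent.P237.Cal.ProfileCal

/-!
# P237: a calibration depending on the central value bounds the profile functional
-/

open MeasureTheory Set Filter Topology Real intervalIntegral

namespace Vale.Agent.P237.Cal

open Exact Vale.Agent.P237.Uniform Full

variable {m : ℕ} {f F D : ℝ → ℝ}

lemma chord_le (h : CShape f F D) {b x : ℝ} (hb : b ≤ 1) (hb0 : 0 < b) (hx : x ∈ Icc 0 b) :
    F 0 + (F b - F 0) * x / b ≤ F x := by
  have key : ∀ c, 0 < c → c < 1 → ∀ z ∈ Icc 0 c, F 0 + (F c - F 0) * z / c ≤ F z := by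
    intro c hc hc1 z hz
    have hcv := h.conc.2 (x := 0) ⟨by norm_num, zero_le_one⟩ (y := c) ⟨by linarith, hc1.le⟩
      (sub_nonneg.2 ((div_le_one hc).2 hz.2)) (div_nonneg hz.1 hc.le) (by ring)
    simp only [smul_eq_mul, mul_zero, zero_add, div_mul_cancel₀ _ hc.ne'] at hcv
    rw [h.agree 0 zero_lt_one, h.agree c hc1, h.agree z (hz.2.trans_lt hc1)]
    calc f 0 + (f c - f 0) * z / c = (1 - z / c) * f 0 + z / c * f c := by ring
      _ ≤ _ := hcv
  rcases hb.eq_or_lt with rfl | hb1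
  · rcases hx.2.eq_or_lt with rfl | hx1
    · simp
    have hl : Tendsto (fun c => F 0 + (F c - F 0) * x / c) (𝓝[<] (1 : ℝ))
        (𝓝 (F 0 + (F 1 - F 0) * x / 1)) := by
      have hF : Tendsto F (𝓝[<] (1 : ℝ)) (𝓝 (F 1)) := by
        rw [← nhdsWithin_Ioo_eq_nhdsLT (zero_lt_one (α := ℝ))]
        exact (h.shape.cont 1 ⟨zero_le_one, le_rfl⟩).mono_left
          (nhdsWithin_mono _ Ioo_subset_Icc_self)
      exact tendsto_const_nhds.add (((hF.sub tendsto_const_nhds).mul tendsto_const_nhds).div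
        (tendsto_nhdsWithin_of_tendsto_nhds tendsto_id) one_ne_zero)
    refine le_of_tendsto hl ?_
    filter_upwards [Ioo_mem_nhdsLT hx1] with c hc
    exact key c (hx.1.trans_lt hc.1) hc.2 x ⟨hx.1, hc.1.le⟩
  · exact key b hb0 hb1 x hx

/-- Concavity between two points left of `1`. -/
lemma chord_between (h : CShape f F D) {a b x c : ℝ} (ha : 0 ≤ a) (hab : a < b) (hb : b < 1)
    (hx : x ∈ Icc a b) (hc : c ≤ F a) : c + (F b - c) * (x - a) / (b - a) ≤ F x := by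
  have hd : 0 < b - a := sub_pos.2 hab
  have hu : 0 ≤ (x - a) / (b - a) := div_nonneg (sub_nonneg.2 hx.1) hd.le
  have hu1 : (x - a) / (b - a) ≤ 1 := (div_le_one hd).2 (by linarith [hx.2])
  have hcv := h.conc.2 (x := a) ⟨by linarith, by linarith⟩ (y := b) ⟨by linarith, hb.le⟩
    (sub_nonneg.2 hu1) hu (by ring)
  simp only [smul_eq_mul] at hcv
  have e : (1 - (x - a) / (b - a)) * a + (x - a) / (b - a) * b = x := by field_simp; ring
  rw [e] at hcv
  rw [h.agree a (hab.trans hb)] at hc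
  rw [h.agree b hb, h.agree x (hx.2.trans_lt hb), mul_div_assoc]
  have := mul_le_mul_of_nonneg_left hc (sub_nonneg.2 hu1)
  linarith

lemma hullMom_le (h : CShape f F D) (hs : ∀ t ∈ Icc (-1 : ℝ) 1, √(1 - t ^ 2) ≤ f t) {z : ℝ}
    (hz : 0 ≤ z) (hz1 : z ≤ F 1) :
    hullMom m (F 0) z ≤ ∫ x in (0 : ℝ)..1, F x ^ (m + 1) := by
  refine integral_mono_on_of_le_Ioo zero_le_one (Continuous.intervalIntegrable (by fun_prop) _ _)
    (moment_int h ⟨le_rfl, zero_le_one⟩ ⟨zero_le_one, le_rfl⟩) fun x hx => ?_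
  refine pow_le_pow_left₀ (le_max_of_le_left (sqrt_nonneg _))
    (max_le (semi_le_shape h hs (Ioo_subset_Icc_self hx)) ?_) _
  have h1 := chord_le h le_rfl one_pos (x := x) (Ioo_subset_Icc_self hx)
  rw [div_one] at h1
  nlinarith [hx.1]

/-- Concavity through the tangent point. -/
lemma hullTan_le (h : CShape f F D) (hs : ∀ t ∈ Icc (-1 : ℝ) 1, √(1 - t ^ 2) ≤ f t) :
    hullTan m (F 0) ≤ ∫ x in (0 : ℝ)..1, F x ^ (m + 1) := by
  set Y := F 0
  set a := tanPt Y with ha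
  have hY : 1 ≤ Y := by simpa using semi_le_shape h hs (t := 0) ⟨le_rfl, zero_le_one⟩
  have hY0 : 0 < Y := lt_of_lt_of_le one_pos hY
  have hu : 1 / Y ^ 2 ≤ 1 := by rw [div_le_one (by positivity)]; exact one_le_pow₀ hY
  have ha0 : 0 ≤ a := sqrt_nonneg _
  have ha1 : a ≤ 1 := by
    rw [ha, tanPt, sqrt_le_one, sub_le_self_iff]
    positivity
  have hab := moment_int (m := m) h (a := 0) (b := a) ⟨le_rfl, zero_le_one⟩ ⟨ha0, ha1⟩
  have hbc := moment_int (m := m) h (a := a) (b := 1) ⟨ha0, ha1⟩ ⟨zero_le_one, le_rfl⟩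
  rw [hullTan, ← ha, ← integral_add_adjacent_intervals hab hbc]
  refine add_le_add ?_ (integral_mono_on ha1 (semi_int a 1) hbc fun x hx =>
    pow_le_pow_left₀ (sqrt_nonneg _) (semi_le_shape h hs ⟨ha0.trans hx.1, hx.2⟩) _)
  rcases ha0.eq_or_lt with h0 | h0
  · simp [← h0]
  refine integral_mono_on ha0 (Continuous.intervalIntegrable (by fun_prop) _ _) hab fun x hx => ?_
  have hFa : 1 / Y ≤ F a := by
    refine le_trans (le_of_eq ?_) (semi_le_shape h hs ⟨ha0, ha1⟩)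
    rw [ha, tanPt, sq_sqrt (by linarith), sub_sub_cancel, ← one_div_pow, sqrt_sq (by positivity)]
  have hx01 : x / a ≤ 1 := (div_le_one h0).2 hx.2
  have hxa : 0 ≤ x / a := div_nonneg hx.1 h0.le
  have e : Y + (1 / Y - Y) * x / a = (1 - x / a) * Y + x / a * (1 / Y) := by ring
  refine pow_le_pow_left₀ (e ▸ add_nonneg (mul_nonneg (by linarith) hY0.le)
    (mul_nonneg hxa (by positivity))) ?_ _
  refine le_trans ?_ (chord_le h ha1 h0 hx)
  have := mul_le_mul_of_nonneg_left hFa hxa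
  have e2 : F 0 + (F a - F 0) * x / a = (1 - x / a) * Y + x / a * F a := by ring
  rw [e, e2]
  linarith

lemma admY (h : CShape f F D) (hs : ∀ t ∈ Icc (-1 : ℝ) 1, √(1 - t ^ 2) ≤ f t) {t : ℝ}
    (ht : t ∈ Ioo (0 : ℝ) 1) (hlt : F t < F 0) :
    AdmY m (∫ x in (0 : ℝ)..1, F x ^ (m + 1)) (F 0) t (F t) (D t)
      (∫ x in (0 : ℝ)..t, F x ^ (m + 1)) := by
  refine ⟨adm h hs ht, by simpa using semi_le_shape h hs (t := 0) ⟨le_rfl, zero_le_one⟩, hlt, ?_, ?_,
    ?_, ?_⟩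
  · have hx : t / 2 ∈ Ioo (0 : ℝ) 1 := ⟨by linarith [ht.1], by linarith [ht.1, ht.2]⟩
    have h1 := h.le_slope hx (by linarith [ht.1]) ht.2
    have h2 := chord_le h ht.2.le ht.1 (x := t / 2) ⟨hx.1.le, by linarith [ht.1]⟩
    rw [slope_def_field, le_div_iff₀ (by linarith [ht.1]), ← h.agree t ht.2,
      ← h.agree _ hx.2] at h1
    rw [show (F t - F 0) * (t / 2) / t = (F t - F 0) / 2 by
      have := ht.1.ne'; field_simp] at h2
    linarith
  · refine integral_mono_on_of_le_Ioo ht.1.le (Continuous.intervalIntegrable (by fun_prop) _ _)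
      (moment_int h ⟨le_rfl, zero_le_one⟩ (Ioo_subset_Icc_self ht)) fun x hx => ?_
    exact pow_le_pow_left₀ (le_max_of_le_left (sqrt_nonneg _))
      (max_le (semi_le_shape h hs ⟨hx.1.le, (hx.2.trans ht.2).le⟩)
        (chord_le h ht.2.le ht.1 (Ioo_subset_Icc_self hx))) _
  · calc ∫ x in (0 : ℝ)..t, F x ^ (m + 1) ≤ ∫ _x in (0 : ℝ)..t, F 0 ^ (m + 1) := by
          refine integral_mono_on ht.1.le (moment_int h ⟨le_rfl, zero_le_one⟩
            (Ioo_subset_Icc_self ht)) intervalIntegrable_const fun x hx => ?_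
          have hx' : x ∈ Icc (0 : ℝ) 1 := ⟨hx.1, hx.2.trans ht.2.le⟩
          exact pow_le_pow_left₀ (h.shape.nonneg hx')
            (h.shape.anti ⟨le_rfl, zero_le_one⟩ hx' hx.1) _
      _ = _ := by simp
  · intro a ha
    have ha1 : a ∈ Icc (0 : ℝ) 1 := ⟨ha.1, (ha.2.trans ht.2).le⟩
    have i1 := moment_int (m := m) h (a := 0) (b := a) ⟨le_rfl, zero_le_one⟩ ha1
    have i2 := moment_int (m := m) h (a := a) (b := t) ha1 (Ioo_subset_Icc_self ht)
    rw [← integral_add_adjacent_intervals i1 i2]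
    simp only [semiMom]
    refine add_le_add (integral_mono_on ha.1 (semi_int 0 a) i1 fun x hx =>
      pow_le_pow_left₀ (sqrt_nonneg _) (semi_le_shape h hs ⟨hx.1, hx.2.trans ha1.2⟩) _)
      (integral_mono_on ha.2.le (Continuous.intervalIntegrable (by fun_prop) _ _) i2 fun x hx =>
        pow_le_pow_left₀ (le_max_of_le_left (sqrt_nonneg _)) (max_le
          (semi_le_shape h hs ⟨ha.1.trans hx.1, hx.2.trans ht.2.le⟩) ?_) _)
    exact chord_between h ha.1 ha.2 ht.2 hx (semi_le_shape h hs ha1)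

/-- **A calibration for the central value of the profile bounds the profile functional strictly.** -/
theorem profileY (hm : 1 ≤ m) {V ρ w lam : ℝ} (h : CShape f F D)
    (hs : ∀ t ∈ Icc (-1 : ℝ) 1, √(1 - t ^ 2) ≤ f t)
    (hVdef : ∫ t in (0 : ℝ)..1, F t ^ (m + 1) = V)
    (hN : (2 * ∫ t in (0 : ℝ)..1, F t ^ m) ^ (m + 1) ≤
      profileConst m * (2 * ∫ t in (0 : ℝ)..1, F t ^ (m + 1)) ^ m)
    {Φ : ℝ × ℝ × ℝ → ℝ} {dΦ : ℝ × ℝ × ℝ → (ℝ × ℝ × ℝ →L[ℝ] ℝ)}
    (hcal : IsCalY m V ρ w (F 0) lam Φ dΦ) :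
    w * ((m : ℝ) + 1) * (ρ ^ 2 * bnum m F D - V) + V - anum m F D < 0 := by
  subst hVdef
  set V := ∫ t in (0 : ℝ)..1, F t ^ (m + 1) with hV
  have h0 : (0 : ℝ) ∈ Icc (0 : ℝ) 1 := ⟨le_rfl, zero_le_one⟩
  have h1 : (1 : ℝ) ∈ Icc (0 : ℝ) 1 := ⟨zero_le_one, le_rfl⟩
  set A : ℝ → ℝ := fun t => ∫ x in (0 : ℝ)..t, F x ^ (m + 1) with hA
  have hanti : ∀ x ∈ Icc (0 : ℝ) 1, F x ≤ F 0 := fun x hx => h.shape.anti h0 hx hx.1
  -- the end of the plateau
  set S := Icc (0 : ℝ) 1 ∩ F ⁻¹' {F 0} with hS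
  have hScl : IsClosed S := h.shape.cont.preimage_isClosed_of_isClosed isClosed_Icc isClosed_singleton
  have hSne : S.Nonempty := ⟨0, h0, rfl⟩
  have hSbdd : BddAbove S := ⟨1, fun x hx => hx.1.2⟩
  set b := sSup S with hb
  have hbS : b ∈ S := hScl.csSup_mem hSne hSbdd
  have hb1 : b ∈ Icc (0 : ℝ) 1 := hbS.1
  have hFb : F b = F 0 := hbS.2
  have hflat : ∀ t ∈ Icc 0 b, F t = F 0 := fun t ht =>
    le_antisymm (hanti t ⟨ht.1, ht.2.trans hb1.2⟩)
      (hFb ▸ h.shape.anti ⟨ht.1, ht.2.trans hb1.2⟩ hb1 ht.2)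
  have hlt : ∀ t ∈ Icc (0 : ℝ) 1, b < t → F t < F 0 := fun t ht hbt =>
    (hanti t ht).lt_of_ne fun he => absurd (le_csSup hSbdd ⟨ht, he⟩) (not_le.2 hbt)
  have hAb : A b = b * F 0 ^ (m + 1) := by
    simp only [hA]
    rw [integral_congr (g := fun _ => F 0 ^ (m + 1)) fun x hx => by
      rw [uIcc_of_le hb1.1] at hx; simp only [hflat x hx]]
    simp
  have hbV : b * F 0 ^ (m + 1) ≤ V := by
    rw [← hAb, hV, ← integral_add_adjacent_intervals (moment_int (m := m) h h0 hb1)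
      (moment_int h hb1 h1)]
    refine le_add_of_nonneg_right (integral_nonneg hb1.2 fun x hx => pow_nonneg
      (h.shape.nonneg ⟨hb1.1.trans hx.1, hx.2⟩) _)
  -- integrability
  have iA := (intA (m := m) h).const_mul ((m : ℝ) + 1)
  have iB := (intB hm h).const_mul (w * ((m : ℝ) + 1) * ρ ^ 2)
  have iC : IntegrableOn (fun t => lam * F t ^ m) (Ioo 0 1) :=
    ((((h.shape.cont.pow m).integrableOn_Icc).mono_set Ioo_subset_Icc_self).const_mul lam)
  have hint : IntegrableOn (fun t => cost m w ρ lam t (F t) (D t)) (Icc 0 1) := by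
    rw [integrableOn_Icc_iff_integrableOn_Ioo]
    exact (iA.sub iB).add iC
  have hii : ∀ a c : ℝ, a ∈ Icc (0 : ℝ) 1 → c ∈ Icc (0 : ℝ) 1 → a ≤ c →
      IntervalIntegrable (fun t => cost m w ρ lam t (F t) (D t)) volume a c := fun a c ha hc hac =>
    (intervalIntegrable_iff_integrableOn_Icc_of_le hac).2 (hint.mono_set (Icc_subset_Icc ha.1 hc.2))
  -- the plateau
  have hD0 : ∀ t ∈ Ioo 0 b, D t = 0 := fun t ht => by
    have ht1 : t ∈ Ioo (0 : ℝ) 1 := ⟨ht.1, ht.2.trans_le hb1.2⟩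
    have hc : HasDerivWithinAt F 0 (Ioi t) t := by
      refine (hasDerivWithinAt_const t (Ioi t) (F 0)).congr_of_eventuallyEq ?_
        (hflat t ⟨ht.1.le, ht.2.le⟩)
      filter_upwards [Ioo_mem_nhdsGT ht.2] with x hx using hflat x ⟨(ht.1.trans hx.1).le, hx.2.le⟩
    exact (uniqueDiffWithinAt_Ioi t).eq_deriv _ (h.shape.deriv t ht1) hc
  have p1 : Φ (b, F 0, A b) - Φ (0, F 0, 0) ≤
      ∫ t in (0 : ℝ)..b, cost m w ρ lam t (F t) (D t) := by
    rcases hb1.1.eq_or_lt with hb0 | hb0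
    · rw [← hb0]; simp [hA]
    have e : ∫ t in (0 : ℝ)..b, cost m w ρ lam t (F t) (D t) = b * cost m w ρ lam 0 (F 0) 0 := by
      rw [intervalIntegral.integral_congr_ae (g := fun _ => cost m w ρ lam 0 (F 0) 0) ?_]
      · simp
      filter_upwards [Measure.ae_ne volume b] with x hxb hx
      rw [uIoc_of_le hb1.1] at hx
      have hx' : x ∈ Ioo 0 b := ⟨hx.1, lt_of_le_of_ne hx.2 hxb⟩
      rw [hflat x ⟨hx.1.le, hx.2⟩, hD0 x hx']
      simp [cost]
    rw [e, hAb]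
    refine hcal.flat b hb0 hb1.2 hbV ?_
    rcases hb1.2.eq_or_lt with h1b | h1b
    · rw [h1b, intervalIntegral.integral_same]
      rw [h1b] at hbV
      linarith
    · have h2 := (adm (m := m) h hs ⟨hb0, h1b⟩).chord
      rw [show (∫ x in (0 : ℝ)..b, F x ^ (m + 1)) = b * F 0 ^ (m + 1) from hAb, hFb] at h2
      exact h2
  -- after the plateau
  have hAc : ContinuousOn A (Icc 0 1) :=
    (continuousOn_primitive_interval (a := (0 : ℝ)) (b := 1) (μ := volume)
      (by rw [uIcc_of_le zero_le_one]; exact ((h.shape.cont.pow _).integrableOn_Icc))).mono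
      (by rw [uIcc_of_le zero_le_one])
  have hsub : Icc b 1 ⊆ Icc (0 : ℝ) 1 := Icc_subset_Icc hb1.1 le_rfl
  have hPc : ContinuousOn (fun t => Φ (t, F t, A t)) (Icc b 1) :=
    (hcal.cont.comp (continuousOn_id.prodMk (h.shape.cont.prodMk hAc))
      fun t ht => ⟨⟨ht, ⟨h.shape.nonneg ht, hanti t ht⟩, trivial⟩,
        semi_le_shape h hs ht⟩).mono hsub
  have hP : ∀ t ∈ Ioo b 1, HasDerivWithinAt (fun t => Φ (t, F t, A t))
      (dΦ (t, F t, A t) (1, D t, F t ^ (m + 1))) (Ioi t) t := by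
    intro t ht
    have ht' : t ∈ Ioo (0 : ℝ) 1 := ⟨hb1.1.trans_lt ht.1, ht.2⟩
    have hA' : HasDerivAt A (F t ^ (m + 1)) t :=
      integral_hasDerivAt_right (moment_int h h0 (Ioo_subset_Icc_self ht'))
        (((h.shape.cont.mono Ioo_subset_Icc_self).pow _).stronglyMeasurableAtFilter isOpen_Ioo t ht')
        ((h.shape.cont.continuousAt (Icc_mem_nhds ht'.1 ht'.2)).pow _)
    exact (hcal.deriv t (F t) (A t) ht' (h.shape.pos t ⟨ht'.1.le, ht'.2⟩)
      (hlt t (Ioo_subset_Icc_self ht') ht.1)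
      (semi_le_shape h hs (Ioo_subset_Icc_self ht'))).comp_hasDerivWithinAt t
      ((hasDerivWithinAt_id t _).prodMk ((h.shape.deriv t ht').prodMk hA'.hasDerivWithinAt))
  have p2 := sub_le_integral_of_hasDeriv_right_of_le hb1.2 hPc hP (hint.mono_set hsub)
    fun t ht => hcal.low t (F t) (D t) (A t) (admY h hs ⟨hb1.1.trans_lt ht.1, ht.2⟩
      (hlt t ⟨(hb1.1.trans_lt ht.1).le, ht.2.le⟩ ht.1))
  have hadd := integral_add_adjacent_intervals (hii 0 b h0 hb1 hb1.1) (hii b 1 hb1 h1 hb1.2)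
  rw [hFb] at p2
  have e : ∫ t in (0 : ℝ)..1, cost m w ρ lam t (F t) (D t) =
      anum m F D - F 1 ^ (m + 1) - w * ((m : ℝ) + 1) * ρ ^ 2 * bnum m F D +
        lam * ∫ t in (0 : ℝ)..1, F t ^ m := by
    have ci := (intervalIntegrable_iff_integrableOn_Ioo_of_le (μ := volume) zero_le_one).2 iA
    have cb := (intervalIntegrable_iff_integrableOn_Ioo_of_le (μ := volume) zero_le_one).2 iB
    have cc := (intervalIntegrable_iff_integrableOn_Ioo_of_le (μ := volume) zero_le_one).2 iC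
    simp only [cost]
    rw [intervalIntegral.integral_add (ci.sub cb) cc, intervalIntegral.integral_sub ci cb]
    simp only [intervalIntegral.integral_const_mul, anum, bnum]
    ring
  have hy1 : F 1 ^ (m + 1) ≤ V := by
    calc F 1 ^ (m + 1) = ∫ _t in (0 : ℝ)..1, F 1 ^ (m + 1) := by simp
      _ ≤ V := integral_mono_on zero_le_one intervalIntegrable_const (moment_int h h0 h1)
          fun x hx => pow_le_pow_left₀ h.shape.one_nonneg (h.shape.anti hx h1 hx.2) _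
  have hbd := hcal.bdry (F 1) h.shape.one_nonneg (hanti 1 h1) hy1
    (hullMom_le h hs h.shape.one_nonneg le_rfl) (by
      calc V ≤ ∫ _t in (0 : ℝ)..1, F 0 ^ (m + 1) := integral_mono_on zero_le_one
            (moment_int h h0 h1) intervalIntegrable_const
            fun x hx => pow_le_pow_left₀ (h.shape.nonneg hx) (hanti x hx) _
        _ = _ := by simp)
  have hp := mul_le_mul_of_nonneg_left (proj_le h.shape hN) hcal.lam_nonneg
  simp only [hA] at p1 p2
  rw [← hV] at hp p2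
  linarith

end Vale.Agent.P237.Cal
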