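import Vale.Agent.P237.Cal.PackGlue2

/-!
# P237: control quadruples in units of `2 ^ 96`

Every term of a control value is divided by its share of `2 ^ 96` with rounding to the safe side, so
no intermediate literal has a long run of low zero bits (which the kernel hashes badly). The test
implies `ctrlAll`, as `quadTest` holds for every integer quadruple with `Quad`.
-/

namespace Vale.Agent.P237.Cal.QuickCtrl

open AtomCert CellCert CellCert2 CellGlue2 PackGlue2

/-- Lower end of a scaled interval over `D`, rounded down. -/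
def loQ (w : ℤ) (x : ℤ × ℤ) (D : ℤ) : ℤ := mulLo w x / D

/-- Upper end of a scaled interval over `D`, rounded up. -/
def hiQ (w : ℤ) (x : ℤ × ℤ) (D : ℤ) : ℤ := -((-mulHi w x) / D)

/-- The `D`-part of a triple in units of `2 ^ 96`. -/
def qdPart (a b N d : CellCert.Poly (ℤ × ℤ)) (d1 d2 d3 : ℤ) : V5 :=
  forceI (2 * (d1 + d2 + d3)) fun w1 => forceI (2 * (d1 * d2 + d1 * d3 + d2 * d3)) fun w2 =>
  forceI (6 * (d1 * d2 * d3)) fun w3 =>
  mk5 a b N d
    (fun p => mulLo 6 p.c00 + loQ w1 p.c10 4294967296 + loQ w2 p.c20 18446744073709551616 +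
      loQ w3 p.c30 79228162514264337593543950336)
    (fun p => mulHi 6 p.c00 + hiQ w1 p.c10 4294967296 + hiQ w2 p.c20 18446744073709551616 +
      hiQ w3 p.c30 79228162514264337593543950336)

/-- The `X`-part of a pair in units of `2 ^ 96`. -/
def qxPart (a b N d : CellCert.Poly (ℤ × ℤ)) (x1 x2 : ℤ) : V5 :=
  forceI (3 * (x1 + x2)) fun w1 => forceI (6 * (x1 * x2)) fun w2 =>
  mk5 a b N d (fun p => loQ w1 p.c01 4294967296 + loQ w2 p.c02 18446744073709551616)
    (fun p => hiQ w1 p.c01 4294967296 + hiQ w2 p.c02 18446744073709551616)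

/-- The test of one quadruple from its parts; `q` is the weight of `D X` over `2 ^ 32`. -/
def qTest (a b N d : CellCert.Poly (ℤ × ℤ)) (t s : V5) (q : ℤ) : Bool :=
  forceI q fun q => forceI (t.a + s.a + loQ q a.c11 18446744073709551616) fun va =>
  forceI (t.b + s.b + loQ q b.c11 18446744073709551616) fun vb =>
  forceI (t.N + s.N + loQ q N.c11 18446744073709551616) fun vN =>
  forceI (t.dl + s.dl + loQ q d.c11 18446744073709551616) fun e1 =>
  forceI (t.dh + s.dh + hiQ q d.c11 18446744073709551616) fun e2 =>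
  forceI (max e2 (-e1)) fun vd => quadTest va vb vN vd

/-- The tests of one triple. -/
def qRow (a b N d : CellCert.Poly (ℤ × ℤ)) (x0 x1 : ℤ) (s00 s01 s11 : V5) (d1 d2 d3 : ℤ) : Bool :=
  forceV (qdPart a b N d d1 d2 d3) fun t => forceI (d1 + d2 + d3) fun q =>
    qTest a b N d t s00 (q * (x0 + x0)) && qTest a b N d t s01 (q * (x0 + x1)) &&
      qTest a b N d t s11 (q * (x1 + x1))

/-- The enclosures are intervals. -/
def ordTest (p : CellCert.Poly (ℤ × ℤ)) : Bool :=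
  decide (p.c00.1 ≤ p.c00.2) && decide (p.c10.1 ≤ p.c10.2) && decide (p.c20.1 ≤ p.c20.2) &&
    decide (p.c30.1 ≤ p.c30.2) && decide (p.c01.1 ≤ p.c01.2) && decide (p.c11.1 ≤ p.c11.2) &&
    decide (p.c02.1 ≤ p.c02.2)

/-- The tests of all twelve quadruples. -/
def qctrlAll (a b N d : CellCert.Poly (ℤ × ℤ)) (l h x0 x1 : ℤ) : Bool :=
  forceI l fun l => forceI h fun h => forceI x0 fun x0 => forceI x1 fun x1 =>
  forceV (qxPart a b N d x0 x0) fun s00 => forceV (qxPart a b N d x0 x1) fun s01 =>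
  forceV (qxPart a b N d x1 x1) fun s11 =>
  ordTest d && qRow a b N d x0 x1 s00 s01 s11 l l l && qRow a b N d x0 x1 s00 s01 s11 l l h &&
    qRow a b N d x0 x1 s00 s01 s11 l h h && qRow a b N d x0 x1 s00 s01 s11 h h h

open Real in
lemma quadTest_of_quad {a b N d : ℤ} (h : Quad (a : ℝ) b N d) : quadTest a b N d = true := by
  obtain ⟨ha, hb, hN, hd⟩ := h
  simp only [quadTest, Bool.and_eq_true, Bool.or_eq_true, decide_eq_true_eq]
  refine ⟨⟨⟨by exact_mod_cast ha, by exact_mod_cast hb⟩, by exact_mod_cast hN⟩, ?_⟩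
  rcases le_or_gt (d * d) (N * (a + b)) with h1 | h1
  · exact Or.inl h1
  · refine Or.inr ?_
    have h1' : (N : ℝ) * (a + b) < d * d := by exact_mod_cast h1
    have h2 := pow_le_pow_left₀ (abs_nonneg _) hd 2
    rw [sq_abs, mul_pow, sq_sqrt hN, add_sq, sq_sqrt ha, sq_sqrt hb] at h2
    have e : (2 * √(a : ℝ) * √(b : ℝ)) ^ 2 = 4 * (a * b) := by
      rw [mul_pow, mul_pow, sq_sqrt ha, sq_sqrt hb]; ring
    have h3 : (d : ℝ) * d - N * (a + b) ≤ N * (2 * √(a : ℝ) * √(b : ℝ)) := by nlinarith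
    have h4 := pow_le_pow_left₀ (sub_nonneg.2 h1'.le) h3 2
    rw [mul_pow (N : ℝ), e] at h4
    have h5 : ((d : ℝ) * d - N * (a + b)) * (d * d - N * (a + b)) ≤ 4 * N * N * (a * b) := by
      nlinarith
    exact_mod_cast h5

lemma iscale_ord {w : ℤ} {x : ℤ × ℤ} (h : x.1 ≤ x.2) : (iscale w x).1 ≤ (iscale w x).2 := by
  unfold iscale
  split_ifs with hw
  · exact mul_le_mul_of_nonneg_left h hw
  · exact mul_le_mul_of_nonpos_left h (not_le.1 hw).le

lemma pairI_ord {w : CellCert.Poly ℤ} {p : CellCert.Poly (ℤ × ℤ)} (h : ordTest p = true) :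
    (pairI w p).1 ≤ (pairI w p).2 := by
  simp only [ordTest, Bool.and_eq_true, decide_eq_true_eq] at h
  obtain ⟨⟨⟨⟨⟨⟨g0, g1⟩, g2⟩, g3⟩, g4⟩, g5⟩, g6⟩ := h
  simp only [pairI]
  linarith [iscale_ord (w := w.c00) g0, iscale_ord (w := w.c10) g1, iscale_ord (w := w.c20) g2,
    iscale_ord (w := w.c30) g3, iscale_ord (w := w.c01) g4, iscale_ord (w := w.c11) g5,
    iscale_ord (w := w.c02) g6]

lemma loQ_le {w s D : ℤ} (hD : 0 < D) (hs : 0 ≤ s) (x : ℤ × ℤ) :
    s * D * loQ w x D ≤ (iscale (s * w) x).1 := by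
  have h := Int.ediv_mul_le (mulLo w x) hD.ne'
  have e : (iscale (s * w) x).1 = s * mulLo w x := by
    rw [mulLo_eq]
    rcases eq_or_lt_of_le hs with rfl | hs'
    · simp [iscale]
    unfold iscale
    by_cases hw : 0 ≤ w
    · simp [hw, mul_nonneg hs hw, mul_assoc]
    · have : ¬ 0 ≤ s * w := not_le.2 (mul_neg_of_pos_of_neg hs' (not_le.1 hw))
      simp [hw, this, mul_assoc]
  rw [e, loQ, mul_assoc, mul_comm D]
  exact mul_le_mul_of_nonneg_left h hs

lemma le_hiQ {w s D : ℤ} (hD : 0 < D) (hs : 0 ≤ s) (x : ℤ × ℤ) :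
    (iscale (s * w) x).2 ≤ s * D * hiQ w x D := by
  have h := Int.ediv_mul_le (-mulHi w x) hD.ne'
  have e : (iscale (s * w) x).2 = s * mulHi w x := by
    rw [mulHi_eq]
    rcases eq_or_lt_of_le hs with rfl | hs'
    · simp [iscale]
    unfold iscale
    by_cases hw : 0 ≤ w
    · simp [hw, mul_nonneg hs hw, mul_assoc]
    · have : ¬ 0 ≤ s * w := not_le.2 (mul_neg_of_pos_of_neg hs' (not_le.1 hw))
      simp [hw, this, mul_assoc]
  rw [e, hiQ, mul_assoc]
  refine mul_le_mul_of_nonneg_left ?_ hs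
  linarith

lemma qTest_imp {a b N d : CellCert.Poly (ℤ × ℤ)} (hd : ordTest d = true) {d1 d2 d3 x1 x2 : ℤ}
    (h : qTest a b N d (qdPart a b N d d1 d2 d3) (qxPart a b N d x1 x2)
      ((d1 + d2 + d3) * (x1 + x2)) = true) :
    ctrlTest a b N d (wts (2 ^ 32) d1 d2 d3 x1 x2) = true := by
  simp only [qTest, qdPart, qxPart, mk5, forceI_eq] at h
  set w1 := 2 * (d1 + d2 + d3)
  set w2 := 2 * (d1 * d2 + d1 * d3 + d2 * d3)
  set w3 := 6 * (d1 * d2 * d3)
  set v1 := 3 * (x1 + x2)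
  set v2 := 6 * (x1 * x2)
  set q := (d1 + d2 + d3) * (x1 + x2)
  have ew : wts (2 ^ 32) d1 d2 d3 x1 x2 = (⟨2 ^ 96 * 6, 2 ^ 64 * w1, 2 ^ 32 * w2, 1 * w3,
      2 ^ 64 * v1, 2 ^ 32 * q, 2 ^ 32 * v2⟩ : CellCert.Poly ℤ) := by
    simp only [wts, w1, w2, w3, v1, v2, q, CellCert.Poly.mk.injEq]
    refine ⟨?_, ?_, ?_, ?_, ?_, ?_, ?_⟩ <;> ring
  have hl : ∀ p : CellCert.Poly (ℤ × ℤ), 2 ^ 96 * ((mulLo 6 p.c00 + loQ w1 p.c10 4294967296 +
      loQ w2 p.c20 18446744073709551616 + loQ w3 p.c30 79228162514264337593543950336) +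
      (loQ v1 p.c01 4294967296 + loQ v2 p.c02 18446744073709551616) +
      loQ q p.c11 18446744073709551616) ≤ (pairI (wts (2 ^ 32) d1 d2 d3 x1 x2) p).1 := fun p => by
    rw [ew]
    simp only [pairI]
    have k0 : (2 : ℤ) ^ 96 * mulLo 6 p.c00 = (iscale (2 ^ 96 * 6) p.c00).1 := by
      rw [mulLo_eq]; simp [iscale]; ring
    have k1 := loQ_le (w := w1) (s := 2 ^ 64) (D := 4294967296) (by norm_num) (by norm_num) p.c10
    have k2 := loQ_le (w := w2) (s := 2 ^ 32) (D := 18446744073709551616) (by norm_num)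
      (by norm_num) p.c20
    have k3 := loQ_le (w := w3) (s := 1) (D := 79228162514264337593543950336) (by norm_num)
      (by norm_num) p.c30
    have k4 := loQ_le (w := v1) (s := 2 ^ 64) (D := 4294967296) (by norm_num) (by norm_num) p.c01
    have k5 := loQ_le (w := v2) (s := 2 ^ 32) (D := 18446744073709551616) (by norm_num)
      (by norm_num) p.c02
    have k6 := loQ_le (w := q) (s := 2 ^ 32) (D := 18446744073709551616) (by norm_num)
      (by norm_num) p.c11
    norm_num at k0 k1 k2 k3 k4 k5 k6 ⊢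
    linarith
  have hh : ∀ p : CellCert.Poly (ℤ × ℤ), (pairI (wts (2 ^ 32) d1 d2 d3 x1 x2) p).2 ≤
      2 ^ 96 * ((mulHi 6 p.c00 + hiQ w1 p.c10 4294967296 +
      hiQ w2 p.c20 18446744073709551616 + hiQ w3 p.c30 79228162514264337593543950336) +
      (hiQ v1 p.c01 4294967296 + hiQ v2 p.c02 18446744073709551616) +
      hiQ q p.c11 18446744073709551616) := fun p => by
    rw [ew]
    simp only [pairI]
    have k0 : (2 : ℤ) ^ 96 * mulHi 6 p.c00 = (iscale (2 ^ 96 * 6) p.c00).2 := by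
      rw [mulHi_eq]; simp [iscale]; ring
    have k1 := le_hiQ (w := w1) (s := 2 ^ 64) (D := 4294967296) (by norm_num) (by norm_num) p.c10
    have k2 := le_hiQ (w := w2) (s := 2 ^ 32) (D := 18446744073709551616) (by norm_num)
      (by norm_num) p.c20
    have k3 := le_hiQ (w := w3) (s := 1) (D := 79228162514264337593543950336) (by norm_num)
      (by norm_num) p.c30
    have k4 := le_hiQ (w := v1) (s := 2 ^ 64) (D := 4294967296) (by norm_num) (by norm_num) p.c01
    have k5 := le_hiQ (w := v2) (s := 2 ^ 32) (D := 18446744073709551616) (by norm_num)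
      (by norm_num) p.c02
    have k6 := le_hiQ (w := q) (s := 2 ^ 32) (D := 18446744073709551616) (by norm_num)
      (by norm_num) p.c11
    norm_num at k0 k1 k2 k3 k4 k5 k6 ⊢
    linarith
  have o := pairI_ord (w := wts (2 ^ 32) d1 d2 d3 x1 x2) hd
  have hlA := hl a
  have hlB := hl b
  have hlN := hl N
  have hlD := hl d
  have hhD := hh d
  simp only [ctrlTest]
  generalize (pairI (wts (2 ^ 32) d1 d2 d3 x1 x2) d).1 = e1 at o hlD ⊢
  generalize (pairI (wts (2 ^ 32) d1 d2 d3 x1 x2) d).2 = e2 at o hhD ⊢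
  refine quadTest_of_quad (((quad_of_test h).smul (s := 2 ^ 96) (by positivity)).mono ?_ ?_ ?_ ?_)
  · exact_mod_cast hlA
  · exact_mod_cast hlB
  · exact_mod_cast hlN
  · have k := max_le_max hhD (neg_le_neg hlD)
    rw [← mul_neg, ← mul_max_of_nonneg _ _ (by norm_num : (0 : ℤ) ≤ 2 ^ 96)] at k
    have h0 : 0 ≤ max e2 (-e1) := by
      rcases le_total 0 e2 with h | h
      · exact h.trans (le_max_left _ _)
      · exact le_trans (by linarith) (le_max_right _ _)
    have k' := abs_le_abs_of_nonneg h0 k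
    exact_mod_cast k'

lemma qctrlAll_imp {a b N d : CellCert.Poly (ℤ × ℤ)} {l h x0 x1 : ℤ}
    (ht : qctrlAll a b N d l h x0 x1 = true) : ctrlAll a b N d l h x0 x1 = true := by
  simp only [qctrlAll, qRow, forceI_eq, forceV_eq, Bool.and_eq_true] at ht
  obtain ⟨⟨⟨⟨hd, ⟨⟨h00, h01⟩, h02⟩⟩, ⟨⟨h10, h11⟩, h12⟩⟩, ⟨⟨h20, h21⟩, h22⟩⟩, ⟨⟨h30, h31⟩, h32⟩⟩ := ht
  simp only [ctrlAll, Bool.and_eq_true]
  exact ⟨⟨⟨⟨⟨qTest_imp hd h00, qTest_imp hd h01⟩, qTest_imp hd h02⟩,
    ⟨⟨qTest_imp hd h10, qTest_imp hd h11⟩, qTest_imp hd h12⟩⟩,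
    ⟨⟨qTest_imp hd h20, qTest_imp hd h21⟩, qTest_imp hd h22⟩⟩,
    ⟨⟨qTest_imp hd h30, qTest_imp hd h31⟩, qTest_imp hd h32⟩⟩

/-- The segments of one cell from its enclosures. -/
def segQ (a b N d : CellCert.Poly (ℤ × ℤ) × CellCert.Poly (ℤ × ℤ)) (x0 x1 : ℤ) : ℤ → List ℤ → ℤ → Bool
  | l, [], h => qctrlAll a.1 b.1 N.1 d.1 l h x0 x1 && qctrlAll a.2 b.2 N.2 d.2 l h x0 x1
  | l, c :: cs, h => qctrlAll a.1 b.1 N.1 d.1 l c x0 x1 && qctrlAll a.2 b.2 N.2 d.2 l c x0 x1 &&
      segQ a b N d x0 x1 c cs h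

/-- The cells of a chunk from their enclosures. -/
def walkQ : List (CellCert.Poly (ℤ × ℤ) × CellCert.Poly (ℤ × ℤ)) → List (CellCert.Poly (ℤ × ℤ) × CellCert.Poly (ℤ × ℤ)) →
    List (CellCert.Poly (ℤ × ℤ) × CellCert.Poly (ℤ × ℤ)) → List (CellCert.Poly (ℤ × ℤ) × CellCert.Poly (ℤ × ℤ)) → List Rng → Bool
  | a :: la, b :: lb, N :: lN, d :: ld, r :: rs =>
    xsT (fun x0 x1 => segQ a b N d x0 x1 r.l r.cuts r.h) r.x0 r.xs r.x1 && walkQ la lb lN ld rs
  | [], [], [], [], [] => true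
  | _, _, _, _, _ => false

/-- The quick test of a family on a chunk of cells from packed columns. -/
noncomputable def qfamTest (W : ℕ) (F : VFam) (cs : List CellCert2.Cell) (Q : Cols)
    (rs : List Rng) : Bool :=
  forceList (polyEncl W F.a cs Q) fun la => forceList (polyEncl W F.b cs Q) fun lb =>
  forceList (polyEncl W F.N cs Q) fun lN => forceList (polyEncl W F.d cs Q) fun ld =>
    walkQ la lb lN ld rs

lemma segQ_imp {F : VFam} {C : CellCert2.Cell} {x0 x1 : ℤ} : ∀ {l : ℤ} {cs : List ℤ} {h : ℤ},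
    segQ (enclP2 F.a C) (enclP2 F.b C) (enclP2 F.N C) (enclP2 F.d C) x0 x1 l cs h = true →
      segTest F C x0 x1 l cs h = true
  | l, [], h, ht => by
    simp only [segQ, Bool.and_eq_true] at ht
    simp only [segTest, CellCert2.cellTest, Bool.and_eq_true]
    exact ⟨qctrlAll_imp ht.1, qctrlAll_imp ht.2⟩
  | l, c :: cs, h, ht => by
    simp only [segQ, Bool.and_eq_true] at ht
    simp only [segTest, CellCert2.cellTest, Bool.and_eq_true]
    exact ⟨⟨qctrlAll_imp ht.1.1, qctrlAll_imp ht.1.2⟩, segQ_imp ht.2⟩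

lemma xsT_imp {t t' : ℤ → ℤ → Bool} (ht : ∀ x y, t x y = true → t' x y = true) :
    ∀ {x0 : ℤ} {cs : List ℤ} {x1 : ℤ}, xsT t x0 cs x1 = true → xsT t' x0 cs x1 = true
  | x0, [], x1, h => ht _ _ h
  | x0, c :: cs, x1, h => by
    simp only [xsT, Bool.and_eq_true] at h ⊢
    exact ⟨ht _ _ h.1, xsT_imp ht h.2⟩

lemma walkQ_imp (F : VFam) : ∀ (cs : List CellCert2.Cell) (rs : List Rng),
    walkQ (cs.map fun C => enclP2 F.a C) (cs.map fun C => enclP2 F.b C)
      (cs.map fun C => enclP2 F.N C) (cs.map fun C => enclP2 F.d C) rs = true →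
      famTest F cs rs = true
  | [], [], _ => rfl
  | [], _ :: _, h => by simp [walkQ] at h
  | _ :: _, [], h => by simp [walkQ] at h
  | C :: cs, r :: rs, h => by
    simp only [List.map_cons, walkQ, Bool.and_eq_true] at h
    simp only [famTest, Bool.and_eq_true]
    exact ⟨xsT_imp (fun _ _ => segQ_imp) h.1, walkQ_imp F cs rs h.2⟩

/-- **The quick packed test of a chunk gives the test of a family on it.** -/
theorem famTest_of_qfam {W K M M2 M4 : ℕ} {cs : List CellCert2.Cell} {N : List NTab} {Q : Cols}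
    (hc : chunkOk W K M M2 M4 cs N Q = true) {F : VFam} (hF : famFits W K M M2 M4 F = true)
    {rs : List Rng} (h : qfamTest W F cs Q rs = true) : famTest F cs rs = true := by
  simp only [famFits, Bool.and_eq_true] at hF
  obtain ⟨⟨⟨fa, fb⟩, fN⟩, fd⟩ := hF
  simp only [qfamTest, forceList_eq, polyEncl_eq hc fa, polyEncl_eq hc fb, polyEncl_eq hc fN,
    polyEncl_eq hc fd] at h
  exact walkQ_imp F cs rs h

end Vale.Agent.P237.Cal.QuickCtrl
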