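import Vale.Agent.P237.Cal.Final
import Vale.Agent.P237.Cal.LargeCal

/-!
# P237: the shape of the final theorem, from the ranges of `n`

`petty_of_parts` splits the dimensions at `N`; `petty_of_large_leaf` takes the range above `N` from
the leaf of `LargeN`.
-/

open Set Metric

namespace Vale.Agent.P237.Cal

/-- Petty's conjecture in every dimension from the calibrations below and above `N`. -/
theorem petty_of_parts (N : ℕ) (small : ∀ m, 3 ≤ m → m + 2 < N → ProfileCal m)
    (large : ∀ m, 3 ≤ m → N ≤ m + 2 → ProfileCal m) :
    ∀ n : ℕ, 3 ≤ n → ∀ K : Set (Statement.Space n), Statement.IsConvexBody K →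
      Statement.pettyConst n * Statement.vol K ^ (n - 1) ≤
          Statement.vol (Statement.projectionBody K) ∧
        (Statement.vol (Statement.projectionBody K) =
            Statement.pettyConst n * Statement.vol K ^ (n - 1) ↔
          ∃ (a : Statement.Space n) (T : Statement.Space n →ₗ[ℝ] Statement.Space n),
            Function.Injective T ∧ K = (fun x => a + T x) '' Metric.closedBall 0 1) :=
  fun _ hn K hK => petty_all (fun m hm => (lt_or_ge (m + 2) N).elim (small m hm) (large m hm)) hn K hK

/-- The same with the leaf of the large range. -/
theorem petty_of_large_leaf (N : ℕ) (hN : 100 ≤ N)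
    (small : ∀ m, 3 ≤ m → m + 2 < N → ProfileCal m) (leaf : ∀ m, N ≤ m + 2 → LargeN.Leaf m) :
    ∀ n : ℕ, 3 ≤ n → ∀ K : Set (Statement.Space n), Statement.IsConvexBody K →
      Statement.pettyConst n * Statement.vol K ^ (n - 1) ≤
          Statement.vol (Statement.projectionBody K) ∧
        (Statement.vol (Statement.projectionBody K) =
            Statement.pettyConst n * Statement.vol K ^ (n - 1) ↔
          ∃ (a : Statement.Space n) (T : Statement.Space n →ₗ[ℝ] Statement.Space n),
            Function.Injective T ∧ K = (fun x => a + T x) '' Metric.closedBall 0 1) :=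
  petty_of_parts N small fun m _ hm => LargeN.profileCal_of_leaf (by omega) (leaf m hm)

/-- Only the calibrations for `5 ≤ n < 384` are left. -/
theorem petty_of_small (small : ∀ m, 3 ≤ m → m + 2 < 384 → ProfileCal m) :
    ∀ n : ℕ, 3 ≤ n → ∀ K : Set (Statement.Space n), Statement.IsConvexBody K →
      Statement.pettyConst n * Statement.vol K ^ (n - 1) ≤
          Statement.vol (Statement.projectionBody K) ∧
        (Statement.vol (Statement.projectionBody K) =
            Statement.pettyConst n * Statement.vol K ^ (n - 1) ↔
          ∃ (a : Statement.Space n) (T : Statement.Space n →ₗ[ℝ] Statement.Space n),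
            Function.Injective T ∧ K = (fun x => a + T x) '' Metric.closedBall 0 1) :=
  petty_of_parts 384 small fun _ _ h => profileCal_large (by omega)

end Vale.Agent.P237.Cal
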