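import Vale.Agent.P237.Cal.Windows
import Vale.Agent.P237.Cal.Small.All
import Vale.Agent.P237.Cal.Skeleton

/-!
# P237: the range `5 ≤ n < 384` from its windows

The window next to `q = 1` is `Small.All.smallJ`; what a table has to give is the windows above
`q₀ = 1 + 1/10000`.
-/

open Set Real

namespace Vale.Agent.P237.Cal

open Windows

/-- The first end of the windows. -/
def qSmall : ℚ := 10001 / 10000

/-- The range next to `q = 1`. -/
theorem smallCal_range {m : ℕ} (h3 : 3 ≤ m) (hm : m ≤ 381) : SmallCal m qSmall := by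
  intro V ρ hV hρ hb hq
  have hv := V0_pos m
  have hw : 0 ≤ Small.omS m := by
    simp only [Small.omS]; split_ifs <;> norm_num
  refine ⟨Small.omS m, hw, fun Y hY _ hH _ => ?_⟩
  set q := V / semiMom m 1 with hqd
  have hVq : q * semiMom m 1 = V := by rw [hqd]; field_simp
  have hq1 : 1 < q := by rw [hqd, one_lt_div hv]; exact hV
  have hY0 : Y ≠ 0 := by positivity
  have hq' : q ≤ 1 + 1 / 10000 := hq.trans_eq (by norm_num [qSmall])
  rw [← hVq] at hH ⊢
  refine Small.smallJ h3 hm hq1 hq' hY hH rfl
    (ε := Small.omS m * q ^ (2 / ((m : ℝ) + 2)) / Y ^ 2) rfl ?_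
  rw [rho_sq hρ hb, ← hqd]
  field_simp

/-- One dimension of the range from its windows. -/
theorem profileCal_range {m : ℕ} (h3 : 3 ≤ m) (hm : m ≤ 381) {ws : List Win}
    (ht : winsTest m qSmall ws = true) (hc : WinsCal m qSmall ws) : ProfileCal m :=
  profileCal_of_windows ht (smallCal_range h3 hm) hc

/-- The range next to `q = 1` up to the end `Small.qS m` of its dimension. -/
theorem smallCal_rangeS {m : ℕ} (h3 : 3 ≤ m) (hm : m ≤ 381) : SmallCal m (Small.qS m) := by
  intro V ρ hV hρ hb hq
  have hv := V0_pos m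
  refine ⟨Small.omS m, Small.omS_nonneg m, fun Y hY _ hH _ => ?_⟩
  set q := V / semiMom m 1 with hqd
  have hVq : q * semiMom m 1 = V := by rw [hqd]; field_simp
  have hq1 : 1 < q := by rw [hqd, one_lt_div hv]; exact hV
  have hY0 : Y ≠ 0 := by positivity
  rw [← hVq] at hH ⊢
  refine Small.smallJS h3 hm hq1 hq hY hH rfl
    (ε := Small.omS m * q ^ (2 / ((m : ℝ) + 2)) / Y ^ 2) rfl ?_
  rw [rho_sq hρ hb, ← hqd]
  field_simp

/-- One dimension of the range from its windows above `Small.qS m`. -/
theorem profileCal_rangeS {m : ℕ} (h3 : 3 ≤ m) (hm : m ≤ 381) {ws : List Win}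
    (ht : winsTest m (Small.qS m) ws = true) (hc : WinsCal m (Small.qS m) ws) : ProfileCal m :=
  profileCal_of_windows ht (smallCal_rangeS h3 hm) hc

/-- **Petty's conjecture from the windows above `q₀` of the dimensions `5 ≤ n < 384`.** -/
theorem petty_of_windows (ws : ℕ → List Win)
    (ht : ∀ m, 3 ≤ m → m + 2 < 384 → winsTest m qSmall (ws m) = true)
    (hc : ∀ m, 3 ≤ m → m + 2 < 384 → WinsCal m qSmall (ws m)) :
    ∀ n : ℕ, 3 ≤ n → ∀ K : Set (Statement.Space n), Statement.IsConvexBody K →
      Statement.pettyConst n * Statement.vol K ^ (n - 1) ≤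
          Statement.vol (Statement.projectionBody K) ∧
        (Statement.vol (Statement.projectionBody K) =
            Statement.pettyConst n * Statement.vol K ^ (n - 1) ↔
          ∃ (a : Statement.Space n) (T : Statement.Space n →ₗ[ℝ] Statement.Space n),
            Function.Injective T ∧ K = (fun x => a + T x) '' Metric.closedBall 0 1) :=
  petty_of_small fun m h1 h2 => profileCal_range h1 (by omega) (ht m h1 h2) (hc m h1 h2)

/-- **Petty's conjecture for `3 ≤ n ≤ N` from the windows of the dimensions `5 ≤ n ≤ N`.** -/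
theorem petty_upto_windows {N : ℕ} (hN : N ≤ 383) (ws : ℕ → List Win)
    (h : ∀ m, 3 ≤ m → m + 2 ≤ N → winsTest m qSmall (ws m) = true ∧ WinsCal m qSmall (ws m)) :
    ∀ n : ℕ, 3 ≤ n → n ≤ N → ∀ K : Set (Statement.Space n), Statement.IsConvexBody K →
      Statement.pettyConst n * Statement.vol K ^ (n - 1) ≤
          Statement.vol (Statement.projectionBody K) ∧
        (Statement.vol (Statement.projectionBody K) =
            Statement.pettyConst n * Statement.vol K ^ (n - 1) ↔
          ∃ (a : Statement.Space n) (T : Statement.Space n →ₗ[ℝ] Statement.Space n),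
            Function.Injective T ∧ K = (fun x => a + T x) '' Metric.closedBall 0 1) :=
  fun _ h3 hn K hK => petty_upto (fun m h1 h2 =>
    profileCal_range h1 (by omega) (h m h1 (by omega)).1 (h m h1 (by omega)).2) h3 K hK

end Vale.Agent.P237.Cal
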