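import Vale.Agent.P237.Cal.FamAtoms
import Vale.Agent.P237.Cal.CellCert2

/-!
# P237: atom families with weights polynomial in the dimension

An atom of a range family has an integer polynomial weight in `m`; the based fields carry the
common factor `W^(-m)`. The four polynomials of `VxOk` are then `W^(-m)` times lists with weights
of degree at most three in `m`, so the four Bernstein control lists on `[m0, m1]` certify every
`m` in the range by one cell table.
-/

open MeasureTheory Set Filter Topology Real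

namespace Vale.Agent.P237.Cal.RangeAtoms

open AtomCert CellCert FamAtoms

/-- An integer polynomial by its coefficients. -/
def pv : List ℤ → ℤ → ℤ
  | [], _ => 0
  | c :: l, x => c + x * pv l x

/-- The real value of an integer polynomial. -/
noncomputable def pR : List ℤ → ℝ → ℝ
  | [], _ => 0
  | c :: l, x => (c : ℝ) + x * pR l x

/-- Scalar multiple of a polynomial. -/
def pscale (a : ℤ) (l : List ℤ) : List ℤ := l.map (a * ·)

/-- Sum of two polynomials. -/
def padd : List ℤ → List ℤ → List ℤ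
  | a :: l, b :: r => (a + b) :: padd l r
  | l, [] => l
  | [], r => r

/-- Product of two polynomials. -/
def pmul : List ℤ → List ℤ → List ℤ
  | [], _ => []
  | a :: l, r => padd (pscale a r) (match pmul l r with | [] => [] | q => 0 :: q)

lemma pR_scale (a : ℤ) (l : List ℤ) (x : ℝ) : pR (pscale a l) x = a * pR l x := by
  induction l with
  | nil => simp [pscale, pR]
  | cons c l ih =>
    simp only [pscale, List.map_cons, pR] at ih ⊢
    rw [ih]; push_cast; ring

lemma pR_add : ∀ (l r : List ℤ) (x : ℝ), pR (padd l r) x = pR l x + pR r x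
  | a :: l, b :: r, x => by simp only [padd, pR, pR_add l r x]; push_cast; ring
  | [], [], _ => by simp [padd, pR]
  | a :: l, [], x => by simp [padd, pR]
  | [], b :: r, x => by simp [padd, pR]

lemma pR_mul : ∀ (l r : List ℤ) (x : ℝ), pR (pmul l r) x = pR l x * pR r x
  | [], r, x => by simp [pmul, pR]
  | a :: l, r, x => by
    have e : ∀ q : List ℤ, pR (match q with | [] => [] | q => 0 :: q) x = x * pR q x := fun q => by
      cases q <;> simp [pR]
    simp only [pmul, pR_add, pR_scale, e, pR_mul l r x, pR]; ring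

lemma pR_cast : ∀ (l : List ℤ) (x : ℤ), (pv l x : ℝ) = pR l x
  | [], _ => by simp [pv, pR]
  | c :: l, x => by simp only [pv, pR, ← pR_cast l x]; push_cast; ring

lemma pR_nat (l : List ℤ) (m : ℕ) : (pv l (m : ℤ) : ℝ) = pR l (m : ℝ) := by
  rw [pR_cast, Int.cast_natCast]

/-- An atom `w(m) T^i W^(-o)`. -/
abbrev RAtom := List ℤ × ℕ × ℕ

/-- The value of a list. -/
noncomputable def evalR : List RAtom → ℝ → ℝ → ℝ
  | [], _, _ => 0
  | (w, i, o) :: l, x, T => pR w x * (T ^ i * cW T ^ o) + evalR l x T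

/-- Product with a polynomial. -/
def rscale (p : List ℤ) (l : List RAtom) : List RAtom := l.map fun a => (pmul p a.1, a.2)

/-- Product with `T^i W^(-j)`. -/
def rshift (i j : ℕ) (l : List RAtom) : List RAtom := l.map fun a => (a.1, a.2.1 + i, a.2.2 + j)

/-- The derivative of a based list, divided by `W^(-m)`. -/
def rderiv : List RAtom → List RAtom
  | [] => []
  | (w, i, o) :: l =>
    (pscale (i : ℤ) w, i - 1, o) :: (pmul [-(o : ℤ), -1] w, i + 1, o + 2) :: rderiv l

/-- The list at one `m` without base. -/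
def instU (m : ℕ) (l : List RAtom) : List Atom := l.map fun a => (pv a.1 m, a.2.1, a.2.2)

/-- The list at one `m` with base `W^(-m)`. -/
def instB (m : ℕ) (l : List RAtom) : List Atom := l.map fun a => (pv a.1 m, a.2.1, a.2.2 + m)

variable {m : ℕ} {T : ℝ}

lemma eval_instU (m : ℕ) (l : List RAtom) (T : ℝ) : eval (instU m l) T = evalR l m T := by
  induction l with
  | nil => simp [instU, eval, evalR]
  | cons a l ih =>
    simp only [instU, List.map_cons, eval, evalR] at ih ⊢
    rw [ih, pR_nat]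

lemma eval_instB (m : ℕ) (l : List RAtom) (T : ℝ) :
    eval (instB m l) T = cW T ^ m * evalR l m T := by
  induction l with
  | nil => simp [instB, eval, evalR]
  | cons a l ih =>
    simp only [instB, List.map_cons, eval, evalR] at ih ⊢
    rw [ih, pR_nat, pow_add]; ring

lemma evalR_append (l r : List RAtom) (x T : ℝ) :
    evalR (l ++ r) x T = evalR l x T + evalR r x T := by
  induction l with
  | nil => simp [evalR]
  | cons a l ih => simp only [List.cons_append, evalR, ih, add_assoc]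

lemma evalR_scale (p : List ℤ) (l : List RAtom) (x T : ℝ) :
    evalR (rscale p l) x T = pR p x * evalR l x T := by
  induction l with
  | nil => simp [rscale, evalR]
  | cons a l ih =>
    simp only [rscale, List.map_cons, evalR] at ih ⊢
    rw [ih, pR_mul]; ring

lemma evalR_shift (i j : ℕ) (l : List RAtom) (x T : ℝ) :
    evalR (rshift i j l) x T = T ^ i * cW T ^ j * evalR l x T := by
  induction l with
  | nil => simp [rshift, evalR]
  | cons a l ih =>
    simp only [rshift, List.map_cons, evalR] at ih ⊢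
    rw [ih, pow_add, pow_add]; ring

lemma eval_deriv_instB (m : ℕ) (l : List RAtom) (T : ℝ) :
    eval (deriv1 (instB m l)) T = cW T ^ m * evalR (rderiv l) m T := by
  induction l with
  | nil => simp [instB, deriv1, rderiv, eval, evalR]
  | cons a l ih =>
    obtain ⟨w, i, o⟩ := a
    simp only [instB, List.map_cons, deriv1, rderiv, eval, evalR] at ih ⊢
    rw [ih, pR_mul, pR_scale]
    push_cast
    rw [pR_nat]
    simp only [pR]
    push_cast
    ring

/-- A family over a range of `m`: `g, P, C, S, LB` are based, `U` is constant, all over `Z`. -/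
structure RPar where
  Z : ℕ
  g : List RAtom
  P : List RAtom
  C : List RAtom
  S : List RAtom
  LB : List RAtom
  U : List ℤ
  eps : List ℤ
  eta : List ℤ
  mu : List ℤ
  a : List ℤ
  K : List ℤ

/-- The multipliers of one side; `nu` is based. -/
structure RSide where
  th : List RAtom
  ph1 : List RAtom
  ph2 : List RAtom
  nu : List RAtom

/-- The family at one `m`. -/
def RPar.inst (p : RPar) (m : ℕ) : APar where
  Z := p.Z
  g := instB m p.g
  P := instB m p.P
  C := instB m p.C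
  S := instB m p.S
  U := [(pv p.U m, 0, 0)]
  LB := instB m p.LB
  eps := pv p.eps m
  eta := pv p.eta m
  mu := pv p.mu m
  a := pv p.a m
  K := pv p.K m

/-- The multipliers at one `m`. -/
def RSide.inst (s : RSide) (m : ℕ) : Side where
  th := instU m s.th
  ph1 := instU m s.ph1
  ph2 := instU m s.ph2
  nu := instB m s.nu

/-- Multiplication by `pre`, based. -/
def rPre (l : List RAtom) : List RAtom := rscale [1, 1] (rshift 2 4 l)

/-- The coefficients of `vxA`. -/
def rA (p : RPar) (s : RSide) : CellCert.Poly (List RAtom) :=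
  let Z : List ℤ := [(p.Z : ℤ)]
  ⟨rPre ([(pmul Z Z, 0, 0), (pscale (-1) (pmul p.eps Z), 2, 0)] ++ rscale (padd Z p.eta) s.th ++
      rscale Z (rshift 2 0 s.th)),
    rPre ([(pscale (-2) (pmul p.eps Z), 1, 0)] ++ rscale (pscale 2 Z) (rshift 1 0 s.th) ++
      rscale Z s.ph1),
    rPre ([(pscale (-1) (pmul p.eps Z), 0, 0)] ++ rscale Z s.th ++ rscale Z s.ph2),
    [], [], [], []⟩

/-- The coefficients of `vxB`. -/
def rB (p : RPar) (s : RSide) : CellCert.Poly (List RAtom) :=
  let Z : List ℤ := [(p.Z : ℤ)]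
  ⟨rPre [(pmul Z Z, 0, 0), (pscale (-1) (pmul p.eps Z), 2, 0)] ++ rscale (pmul [1, 1] Z) s.th ++
      rscale (pscale (-1) (pmul [1, 1] (padd Z p.eta))) (rshift 0 2 s.th) ++ rscale Z p.g,
    rscale (pscale 2 Z) p.P, rscale (pscale 3 Z) p.C, [], rscale (pscale 2 Z) p.S, [], []⟩

/-- The weight `ell`. -/
def rEll (p : RPar) : List RAtom :=
  let Z : List ℤ := [(p.Z : ℤ)]
  [(pmul [1, 1] p.mu, 1, 3),
    (pscale (-1) (padd (pmul [2, 1] p.a) (pmul [1, 1]
      (padd (pmul [2, 1] (padd Z (pscale 2 p.eps))) (pscale (-2) p.eps)))), 1, 4),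
    (pmul [1, 1] (pmul [4, 1] (padd Z p.eps)), 1, 6)]

/-- The coefficients of `vxR`. -/
def rR (p : RPar) (s : RSide) : CellCert.Poly (List RAtom) :=
  let Z : List ℤ := [(p.Z : ℤ)]
  ⟨rPre [(pscale (-2) (pmul Z Z), 0, 0), (pscale 2 (pmul p.eps Z), 2, 0)] ++
      rscale (pscale (-2) (pmul [1, 1] Z)) (rshift 2 2 s.th) ++ rscale (pscale (-1) Z) (p.g ++ p.LB),
    rPre [(pscale 2 (pmul p.eps Z), 1, 0)] ++
      rscale (pscale (-1) (pmul [1, 1] Z)) (rshift 1 3 s.ph1) ++
      rscale (pscale (-2) (pmul [1, 1] Z)) (rshift 1 2 s.th) ++ rscale (pscale (-2) Z) p.P ++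
      rscale Z (rEll p ++ rderiv p.g ++ [(pmul [1, 1] p.K, 1, 4)]) ++
      rscale (pscale (-2) Z) (rshift 1 0 s.nu),
    rscale (pscale (-1) (pmul [1, 1] Z)) (rshift 1 3 s.ph2) ++ rscale (pscale (-3) Z) p.C ++
      rscale Z (rderiv p.P) ++ rscale (pscale (-1) Z) s.nu,
    rscale Z (rderiv p.C), rscale (pscale (-2) Z) p.S,
    rscale (pscale 2 Z) (rderiv p.S ++ [(pmul [1, 1] p.U, 1, 4)]), []⟩

/-- The only term with `W^(-2m)`: it multiplies `D²` in `R`. -/
def rY (p : RPar) : List RAtom :=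
  rscale (pscale 2 (pmul [1, 1] [(p.Z : ℤ)])) (rshift 1 4 p.S)

/-- The four polynomials: `A`, `B`, `A + B + R`, `A - B`. -/
def rLists (p : RPar) (s : RSide) : CellCert.Poly (List RAtom) × CellCert.Poly (List RAtom) ×
    CellCert.Poly (List RAtom) × CellCert.Poly (List RAtom) :=
  let A := rA p s
  let B := rB p s
  let R := rR p s
  (A, B, ⟨A.c00 ++ B.c00 ++ R.c00, A.c10 ++ B.c10 ++ R.c10, A.c20 ++ B.c20 ++ R.c20,
      A.c30 ++ B.c30 ++ R.c30, A.c01 ++ B.c01 ++ R.c01, A.c11 ++ B.c11 ++ R.c11,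
      A.c02 ++ B.c02 ++ R.c02⟩,
    ⟨A.c00 ++ rscale [-1] B.c00, A.c10 ++ rscale [-1] B.c10, A.c20 ++ rscale [-1] B.c20,
      A.c30 ++ rscale [-1] B.c30, A.c01 ++ rscale [-1] B.c01, A.c11 ++ rscale [-1] B.c11,
      A.c02 ++ rscale [-1] B.c02⟩)

/-- The coefficient values. -/
noncomputable def evPR (q : CellCert.Poly (List RAtom)) (x T : ℝ) : CellCert.Poly ℝ :=
  ⟨evalR q.c00 x T, evalR q.c10 x T, evalR q.c20 x T, evalR q.c30 x T, evalR q.c01 x T,
    evalR q.c11 x T, evalR q.c02 x T⟩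

section Semantics

variable {p : RPar} {s : RSide} {D X : ℝ}

lemma valA_inst : (evP (listA m (p.inst m) (s.inst m)) T).val D X =
    cW T ^ m * (evPR (rA p s) m T).val D X := by
  simp only [evP, evPR, listA, rA, rPre, mulPre, RPar.inst, RSide.inst, CellCert.Poly.val,
    eval_append, eval_scale, eval_shift, eval, eval_instU, evalR_append, evalR_scale, evalR_shift,
    evalR, pR_add, pR_scale, pR_mul, pR, Int.cast_mul, Int.cast_neg, Int.cast_add, Int.cast_one,
    Int.cast_ofNat, Int.cast_natCast, pR_nat, pow_add]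
  ring

lemma valB_inst : (evP (listB m (p.inst m) (s.inst m)) T).val D X =
    cW T ^ m * (evPR (rB p s) m T).val D X := by
  simp only [evP, evPR, listB, rB, rPre, mulPre, RPar.inst, RSide.inst, CellCert.Poly.val,
    eval_append, eval_scale, eval_shift, eval, eval_instU, eval_instB, evalR_append, evalR_scale,
    evalR_shift, evalR, pR_add, pR_scale, pR_mul, pR, Int.cast_mul, Int.cast_neg, Int.cast_add,
    Int.cast_one, Int.cast_ofNat, Int.cast_natCast, pR_nat, pow_add]
  ring

lemma valR_inst : (evP (listR m (p.inst m) (s.inst m)) T).val D X =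
    cW T ^ m * ((evPR (rR p s) m T).val D X + cW T ^ m * evalR (rY p) m T * D ^ 2) := by
  simp only [evP, evPR, listR, rR, rY, rPre, rEll, ellL, mulPre, RPar.inst, RSide.inst,
    CellCert.Poly.val, eval_append, eval_scale, eval_shift, eval, deriv1, eval_instU, eval_instB,
    eval_deriv_instB, evalR_append, evalR_scale, evalR_shift, evalR, pR_add, pR_scale, pR_mul, pR,
    Int.cast_mul, Int.cast_neg, Int.cast_add, Int.cast_sub, Int.cast_one, Int.cast_ofNat,
    Int.cast_natCast, pR_nat, pow_add]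
  push_cast
  ring

/-- `Quad` of the range polynomials gives the vertex condition. -/
theorem vxOk_of_quadR {σ : ℝ} (hZ : 0 < p.Z) (hT : 0 < T) (hD : D = σ - T)
    (h : Quad ((evPR (rLists p s).1 m T).val D X) ((evPR (rLists p s).2.1 m T).val D X)
      ((evPR (rLists p s).2.2.1 m T).val D X + cW T ^ m * evalR (rY p) m T * D ^ 2)
      ((evPR (rLists p s).2.2.2 m T).val D X)) :
    VxOk m ((p.inst m).fam.at T) ((pv p.eps m : ℝ) / p.Z) ((pv p.eta m : ℝ) / p.Z)
      (ev p.Z (s.inst m).th T) ((s.inst m).ph p.Z T D) (ev p.Z (s.inst m).nu T) T σ X := by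
  refine vxOk_of_quad (p := p.inst m) (s := s.inst m) hZ hT hD ?_
  have e3 : (evPR (rLists p s).2.2.1 m T).val D X = (evPR (rA p s) m T).val D X +
      (evPR (rB p s) m T).val D X + (evPR (rR p s) m T).val D X := by
    simp only [rLists, evPR, CellCert.Poly.val, evalR_append]; ring
  have e4 : (evPR (rLists p s).2.2.2 m T).val D X =
      (evPR (rA p s) m T).val D X - (evPR (rB p s) m T).val D X := by
    simp only [rLists, evPR, CellCert.Poly.val, evalR_append, evalR_scale, pR]; push_cast; ring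
  rw [e3, e4] at h
  rw [vxd_val, vxN_val]
  simp only [vxLists]
  rw [valA_inst, valB_inst, valR_inst, ← mul_add, ← mul_add, ← mul_sub, ← add_assoc]
  exact h.smul (pow_nonneg (cW_pos T).le m)

end Semantics

/-- Six times the blossom of a cubic at three arguments. -/
def bloom (a b c : ℤ) : List ℤ → ℤ
  | [] => 0
  | [c0] => 6 * c0
  | [c0, c1] => 6 * c0 + 2 * c1 * (a + b + c)
  | [c0, c1, c2] => 6 * c0 + 2 * c1 * (a + b + c) + 2 * c2 * (a * b + a * c + b * c)
  | c0 :: c1 :: c2 :: c3 :: _ =>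
    6 * c0 + 2 * c1 * (a + b + c) + 2 * c2 * (a * b + a * c + b * c) + 6 * c3 * (a * b * c)

/-- A control list. -/
def ctrl (a b c : ℤ) (l : List RAtom) : List Atom :=
  l.map fun x => (bloom a b c x.1, x.2.1, x.2.2)

/-- All weights have degree at most three. -/
def cubic (l : List RAtom) : Bool := l.all fun x => decide (x.1.length ≤ 4)

lemma bloom_bern {w : List ℤ} (h : w.length ≤ 4) (a b : ℤ) (v : ℝ) :
    6 * pR w ((1 - v) * a + v * b) =
      (1 - v) ^ 3 * (bloom a a a w : ℝ) + 3 * v * (1 - v) ^ 2 * (bloom a a b w : ℝ) +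
        3 * v ^ 2 * (1 - v) * (bloom a b b w : ℝ) + v ^ 3 * (bloom b b b w : ℝ) := by
  match w, h with
  | [], _ => simp [pR, bloom]
  | [c0], _ => simp only [pR, bloom]; push_cast; ring
  | [c0, c1], _ => simp only [pR, bloom]; push_cast; ring
  | [c0, c1, c2], _ => simp only [pR, bloom]; push_cast; ring
  | [c0, c1, c2, c3], _ => simp only [pR, bloom]; push_cast; ring
  | _ :: _ :: _ :: _ :: _ :: _, h => simp only [List.length_cons] at h; omega

lemma evalR_bern {l : List RAtom} (h : cubic l = true) (a b : ℤ) (v T : ℝ) :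
    6 * evalR l ((1 - v) * a + v * b) T =
      (1 - v) ^ 3 * eval (ctrl a a a l) T + 3 * v * (1 - v) ^ 2 * eval (ctrl a a b l) T +
        3 * v ^ 2 * (1 - v) * eval (ctrl a b b l) T + v ^ 3 * eval (ctrl b b b l) T := by
  induction l with
  | nil => simp [evalR, ctrl, eval]
  | cons x l ih =>
    simp only [cubic, List.all_cons, Bool.and_eq_true, decide_eq_true_eq] at h
    have h1 := bloom_bern h.1 a b v
    have h2 := ih h.2
    simp only [evalR, ctrl, List.map_cons, eval] at h2 ⊢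
    linear_combination h2 + (T ^ x.2.1 * cW T ^ x.2.2) * h1

/-- A control polynomial. -/
def ctrlP (a b c : ℤ) (q : CellCert.Poly (List RAtom)) : CellCert.Poly (List Atom) :=
  ⟨ctrl a b c q.c00, ctrl a b c q.c10, ctrl a b c q.c20, ctrl a b c q.c30, ctrl a b c q.c01,
    ctrl a b c q.c11, ctrl a b c q.c02⟩

/-- All coefficients are cubic. -/
def cubicP (q : CellCert.Poly (List RAtom)) : Bool :=
  cubic q.c00 && cubic q.c10 && cubic q.c20 && cubic q.c30 && cubic q.c01 && cubic q.c11 &&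
    cubic q.c02

lemma val_bernR {q : CellCert.Poly (List RAtom)} (h : cubicP q = true) (a b : ℤ)
    (v T D X : ℝ) :
    6 * (evPR q ((1 - v) * a + v * b) T).val D X =
      (1 - v) ^ 3 * (evP (ctrlP a a a q) T).val D X +
        3 * v * (1 - v) ^ 2 * (evP (ctrlP a a b q) T).val D X +
        3 * v ^ 2 * (1 - v) * (evP (ctrlP a b b q) T).val D X +
        v ^ 3 * (evP (ctrlP b b b q) T).val D X := by
  simp only [cubicP, Bool.and_eq_true] at h
  obtain ⟨⟨⟨⟨⟨⟨h0, h1⟩, h2⟩, h3⟩, h4⟩, h5⟩, h6⟩ := h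
  simp only [evPR, evP, ctrlP, CellCert.Poly.val]
  linear_combination evalR_bern h0 a b v T + D * evalR_bern h1 a b v T +
    D ^ 2 * evalR_bern h2 a b v T + D ^ 3 * evalR_bern h3 a b v T + X * evalR_bern h4 a b v T +
    (D * X) * evalR_bern h5 a b v T + X ^ 2 * evalR_bern h6 a b v T

/-- One control point, scaled by `2^8`, with `y/2^8` substituted for `W^(-m)` in the `D²` part
of `N`; `w` is the coefficient of `W^(-m)`. -/
structure CFam where
  F : VFam
  w : List ℤ

/-- The lists scaled by `2^8`. -/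
def scaleP (q : CellCert.Poly (List Atom)) : CellCert.Poly (List Atom) :=
  ⟨scale 256 q.c00, scale 256 q.c10, scale 256 q.c20, scale 256 q.c30, scale 256 q.c01,
    scale 256 q.c11, scale 256 q.c02⟩

lemma scaleP_val (q : CellCert.Poly (List Atom)) (T D X : ℝ) :
    (evP (scaleP q) T).val D X = 256 * (evP q T).val D X := by
  simp only [evP, scaleP, CellCert.Poly.val, eval_scale]; push_cast; ring

/-- A dense family of one control point. -/
noncomputable def ctrlFam (B : List (ℕ × ℕ)) (p : RPar) (s : RSide) (y : ℕ) (a b c : ℤ) : Option CFam := do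
  let A ← denseP B (scaleP (ctrlP a b c (rLists p s).1))
  let B' ← denseP B (scaleP (ctrlP a b c (rLists p s).2.1))
  let q := scaleP (ctrlP a b c (rLists p s).2.2.1)
  let N ← denseP B { q with c20 := q.c20 ++ scale y (ctrl a b c (rY p)) }
  let d ← denseP B (scaleP (ctrlP a b c (rLists p s).2.2.2))
  let w ← dense B (ctrl a b c (rY p))
  return ⟨⟨A.fn, B'.fn, N.fn, d.fn⟩, w⟩

/-- The families of the four control points of `[m0, m1]`, for the lower bound `y/2^8` of
`W^(-m)`. -/
noncomputable def rangeFams (B : List (ℕ × ℕ)) (p : RPar) (s : RSide) (y m0 m1 : ℕ) : Option (List CFam) :=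
  let a : ℤ := m0
  let b : ℤ := m1
  if cubicP (rLists p s).1 && cubicP (rLists p s).2.1 && cubicP (rLists p s).2.2.1 &&
      cubicP (rLists p s).2.2.2 && cubic (rY p) then
    [(a, a, a), (a, a, b), (a, b, b), (b, b, b)].mapM fun x => ctrlFam B p s y x.1 x.2.1 x.2.2
  else none

/-- The test of one control point on a cell; `w` must be nonnegative there. -/
def cTest (C : CellCert2.Cell) (c : CFam) : Bool :=
  decide (0 ≤ (CellCert2.encl2 (mkFn c.w) C).1.1) &&
    decide (0 ≤ (CellCert2.encl2 (mkFn c.w) C).2.1) && CellCert2.cellTest c.F C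

/-- The test of one cell for the range `[_, m1]`. -/
noncomputable def rangeTest (P m1 : ℕ) (B : List (ℕ × ℕ)) (Fs : List CFam) (n n' : Node)
    (C : CellCert2.Cell) (y : ℕ) : Bool :=
  CellCert2.tabTest P B n n' C &&
    decide (y * 2 ^ (32 * m1) ≤ n'.2.1 ^ m1 * 2 ^ 8) && Fs.all (cTest C)

lemma quad_ctrl {P : ℕ} {B : List (ℕ × ℕ)} {p : RPar} {s : RSide} {a b c : ℤ} {F : CFam}
    {n n' : Node} {C : CellCert2.Cell} {y : ℕ} {D X : ℝ} (hF : ctrlFam B p s y a b c = some F)
    (ht : cTest C F = true) (htab : CellCert2.tabTest P B n n' C = true)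
    (hT : T ∈ Icc (nodeT n) (nodeT n'))
    (hD : D ∈ Icc ((C.l : ℝ) / 2 ^ 32) ((C.h : ℝ) / 2 ^ 32))
    (hX : X ∈ Icc ((C.x0 : ℝ) / 2 ^ 32) ((C.x1 : ℝ) / 2 ^ 32)) :
    Quad ((evP (ctrlP a b c (rLists p s).1) T).val D X)
        ((evP (ctrlP a b c (rLists p s).2.1) T).val D X)
        ((evP (ctrlP a b c (rLists p s).2.2.1) T).val D X +
          (y : ℝ) / 2 ^ 8 * eval (ctrl a b c (rY p)) T * D ^ 2)
        ((evP (ctrlP a b c (rLists p s).2.2.2) T).val D X) ∧
      0 ≤ eval (ctrl a b c (rY p)) T := by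
  simp only [ctrlFam, Option.bind_eq_bind, Option.pure_def, Option.bind_eq_some_iff,
    Option.some.injEq] at hF
  obtain ⟨w1, h1, w2, h2, w3, h3, w4, h4, w5, h5, rfl⟩ := hF
  simp only [cTest, Bool.and_eq_true, decide_eq_true_eq] at ht
  obtain ⟨⟨t0, t1⟩, t2⟩ := ht
  have hw : 0 ≤ eval (ctrl a b c (rY p)) T := by
    rw [eval_dense h5]
    obtain ⟨l1, -⟩ := CellCert2.encl2_sound (v := w5) htab hT
    obtain ⟨hu0, hu1⟩ : 0 ≤ chordU (nodeT n) (nodeT n') T ∧
        0 ≤ 1 - chordU (nodeT n) (nodeT n') T := by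
      have hlt : nodeT n < nodeT n' := by
        simp only [CellCert2.tabTest, Bool.and_eq_true] at htab
        have := (CellCert2.e6Test_node htab.1.2).2
        simp only [nodeT]; gcongr
      refine ⟨div_nonneg (by linarith [hT.2]) (by linarith), sub_nonneg.2 ?_⟩
      rw [chordU, div_le_one (by linarith)]; linarith [hT.1]
    have h0 : (0 : ℝ) ≤ ((CellCert2.encl2 (mkFn w5) C).1.1 : ℝ) := by exact_mod_cast t0
    have h0' : (0 : ℝ) ≤ ((CellCert2.encl2 (mkFn w5) C).2.1 : ℝ) := by exact_mod_cast t1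
    exact nonneg_of_mul_nonneg_right ((add_nonneg (mul_nonneg hu0 h0) (mul_nonneg hu1 h0')).trans l1)
      (by positivity)
  refine ⟨?_, hw⟩
  have hq := CellCert2.cellTest_sound (pa := w1) (pb := w2) (pN := w3) (pd := w4) t2 htab hT hD hX
  have eN : (evP { scaleP (ctrlP a b c (rLists p s).2.2.1) with
        c20 := (scaleP (ctrlP a b c (rLists p s).2.2.1)).c20 ++ scale y (ctrl a b c (rY p)) } T).val
        D X = (evP (scaleP (ctrlP a b c (rLists p s).2.2.1)) T).val D X +
      (y : ℝ) * eval (ctrl a b c (rY p)) T * D ^ 2 := by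
    simp only [evP, CellCert.Poly.val, eval_append, eval_scale]; push_cast; ring
  rw [denseP_at h1, denseP_at h2, denseP_at h3, denseP_at h4, eN, scaleP_val,
    scaleP_val, scaleP_val, scaleP_val] at hq
  have hq' := hq.smul (by norm_num : (0 : ℝ) ≤ 1 / 256)
  convert hq' using 1 <;> ring

/-- **A tested cell gives the vertex condition for every `m` in the range.** -/
theorem rangeCell_sound {P : ℕ} {B : List (ℕ × ℕ)} {p : RPar} {s : RSide} {m0 m1 : ℕ}
    {Fs : List CFam} {n n' : Node} {C : CellCert2.Cell} {y : ℕ} {σ X : ℝ}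
    (hF : rangeFams B p s y m0 m1 = some Fs) (ht : rangeTest P m1 B Fs n n' C y = true)
    (hZ : 0 < p.Z) (hm : m ∈ Finset.Icc m0 m1) (hT0 : 0 < T) (hT : T ∈ Icc (nodeT n) (nodeT n'))
    (hD : σ - T ∈ Icc ((C.l : ℝ) / 2 ^ 32) ((C.h : ℝ) / 2 ^ 32))
    (hX : X ∈ Icc ((C.x0 : ℝ) / 2 ^ 32) ((C.x1 : ℝ) / 2 ^ 32)) :
    VxOk m ((p.inst m).fam.at T) ((pv p.eps m : ℝ) / p.Z) ((pv p.eta m : ℝ) / p.Z)
      (ev p.Z (s.inst m).th T) ((s.inst m).ph p.Z T (σ - T)) (ev p.Z (s.inst m).nu T) T σ X := by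
  simp only [rangeFams] at hF
  split_ifs at hF with hcub
  simp only [Bool.and_eq_true] at hcub
  obtain ⟨⟨⟨⟨k1, k2⟩, k3⟩, k4⟩, k5⟩ := hcub
  simp only [List.mapM_cons, List.mapM_nil, Option.bind_eq_bind, Option.pure_def,
    Option.bind_eq_some_iff, Option.some.injEq] at hF
  obtain ⟨F1, f1, _, ⟨F2, f2, _, ⟨F3, f3, _, ⟨F4, f4, _, rfl, rfl⟩, rfl⟩, rfl⟩, rfl⟩ := hF
  simp only [rangeTest, List.all_cons, List.all_nil, Bool.and_true, Bool.and_eq_true,
    decide_eq_true_eq] at ht
  obtain ⟨⟨htab, hy⟩, t1, t2, t3, t4⟩ := ht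
  have hc' : colTest P n' B C.lo' C.hi' = true := by
    simp only [CellCert2.tabTest, Bool.and_eq_true] at htab
    exact htab.1.1.1.1.1.1.2
  obtain ⟨hm0, hm1⟩ := Finset.mem_Icc.1 hm
  obtain ⟨v, hv, hmv⟩ := CellCert.exists_frac (l := ((m0 : ℤ) : ℝ)) (h := ((m1 : ℤ) : ℝ)) (x := (m : ℝ))
    ⟨by exact_mod_cast hm0, by exact_mod_cast hm1⟩
  have hv1 : 0 ≤ 1 - v := sub_nonneg.2 hv.2
  have c0 : 0 ≤ (1 - v) ^ 3 := pow_nonneg hv1 3
  have c1 : 0 ≤ 3 * v * (1 - v) ^ 2 :=
    mul_nonneg (mul_nonneg (by norm_num) hv.1) (sq_nonneg _)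
  have c2 : 0 ≤ 3 * v ^ 2 * (1 - v) := mul_nonneg (mul_nonneg (by norm_num) (sq_nonneg _)) hv1
  have c3 : 0 ≤ v ^ 3 := pow_nonneg hv.1 3
  obtain ⟨q1, w1⟩ := quad_ctrl f1 t1 htab hT hD hX
  obtain ⟨q2, w2⟩ := quad_ctrl f2 t2 htab hT hD hX
  obtain ⟨q3, w3⟩ := quad_ctrl f3 t3 htab hT hD hX
  obtain ⟨q4, w4⟩ := quad_ctrl f4 t4 htab hT hD hX
  have Q := ((((q1.smul c0).add (q2.smul c1)).add (q3.smul c2)).add (q4.smul c3)).smul
    (by norm_num : (0 : ℝ) ≤ 1 / 6)
  set x := (1 - v) * ((m0 : ℤ) : ℝ) + v * ((m1 : ℤ) : ℝ) with hx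
  have hY := evalR_bern k5 (m0 : ℤ) (m1 : ℤ) v T
  have hY0 : 0 ≤ evalR (rY p) m T := by
    have := add_nonneg (add_nonneg (add_nonneg (mul_nonneg c0 w1) (mul_nonneg c1 w2))
      (mul_nonneg c2 w3)) (mul_nonneg c3 w4)
    rw [← hY, ← hx, ← hmv] at this
    linarith
  -- the lower bound of the base
  have hyT : (y : ℝ) / 2 ^ 8 ≤ cW T ^ m := by
    have h0 : 0 ≤ nodeT n := by simp only [nodeT]; positivity
    have hn := colTest_node hc'
    have hc1 : (n'.2.1 : ℝ) / 2 ^ 32 ≤ cW T :=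
      (nodeTest_sound hn).1.trans (cW_anti (h0.trans hT.1) hT.2)
    have hle : cW T ≤ 1 := by
      rw [cW, inv_le_one_iff₀]; right; exact one_le_sqrt.2 (by nlinarith)
    refine le_trans ?_ ((pow_le_pow_left₀ (by positivity) hc1 m1).trans
      (pow_le_pow_of_le_one (cW_pos T).le hle hm1))
    rw [div_pow, ← pow_mul, div_le_div_iff₀ (by positivity) (by positivity)]
    exact_mod_cast hy
  refine vxOk_of_quadR hZ hT0 rfl (Q.mono (le_of_eq ?_) (le_of_eq ?_) ?_ (le_of_eq ?_))
  · rw [hmv]; linear_combination (-(1 : ℝ) / 6) * val_bernR k1 (m0 : ℤ) (m1 : ℤ) v T (σ - T) X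
  · rw [hmv]; linear_combination (-(1 : ℝ) / 6) * val_bernR k2 (m0 : ℤ) (m1 : ℤ) v T (σ - T) X
  · have h3 := val_bernR k3 (m0 : ℤ) (m1 : ℤ) v T (σ - T) X
    rw [← hx, ← hmv] at h3 hY
    have h4 := mul_le_mul_of_nonneg_right (mul_le_mul_of_nonneg_right hyT hY0) (sq_nonneg (σ - T))
    linear_combination h4 - (1 : ℝ) / 6 * h3 - (y : ℝ) / 2 ^ 8 * (σ - T) ^ 2 / 6 * hY
  · rw [hmv]
    congr 1
    linear_combination (1 : ℝ) / 6 * val_bernR k4 (m0 : ℤ) (m1 : ℤ) v T (σ - T) X

end Vale.Agent.P237.Cal.RangeAtoms
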