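import Vale.Agent.P237.Cal.StateTable

/-!
# P237: enclosures of the constants on an interval of dimensions

`V₀ = mom 0 (m+4)`, `r = rr (m+1)`, the powers of `1/W` at a node, and the state tables, checked by
integer arithmetic for every `m` of a range at once.
-/

open MeasureTheory Set Real intervalIntegral

namespace Vale.Agent.P237.Cal.RangeBounds

open AtomCert StateTable

/-- `mom 0 (j+2) = num / den` (odd `j`) and `num / den * π / 2` (even `j`). -/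
def wallisQ : ℕ → ℕ × ℕ
  | 0 => (1, 1)
  | 1 => (1, 1)
  | j + 2 => ((j + 1) * (wallisQ j).1, (j + 2) * (wallisQ j).2)

/-- The factor of the parity. -/
noncomputable def parFactor (j : ℕ) : ℝ := if j % 2 = 0 then π / 2 else 1

lemma wallisQ_den_pos : ∀ j, 0 < (wallisQ j).2
  | 0 => by simp [wallisQ]
  | 1 => by simp [wallisQ]
  | j + 2 => by
    have := wallisQ_den_pos j
    simp only [wallisQ]
    positivity

lemma mom_wallisQ : ∀ j : ℕ,
    mom 0 (j + 2) = ((wallisQ j).1 : ℝ) / ((wallisQ j).2 : ℝ) * parFactor j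
  | 0 => by simp [wallisQ, parFactor, mom_zero_two]
  | 1 => by simp [wallisQ, parFactor, mom_zero_three]
  | j + 2 => by
    have h := mom_exp (a := 0) (m := j + 2) (by omega)
    rw [mom_wallisQ j] at h
    have hd : (0 : ℝ) < ((wallisQ j).2 : ℝ) := Nat.cast_pos.2 (wallisQ_den_pos j)
    have hp : parFactor (j + 2) = parFactor j := by simp [parFactor, Nat.add_mod_right]
    rw [hp]
    simp only [wallisQ]
    push_cast at h ⊢
    field_simp
    field_simp at h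
    linarith

/-- Lower approximation of `π`, in units `10^(-20)`. -/
def piLo : ℕ := 314159265358979323846

/-- Upper approximation of `π`, in units `10^(-20)`. -/
def piHi : ℕ := 314159265358979323847

/-- `lo ≤ 2^32 mom 0 (j+2) ≤ hi`. -/
def momTest (j lo hi : ℕ) : Bool :=
  if j % 2 = 0 then
    decide (lo * (wallisQ j).2 * (2 * 10 ^ 20) ≤ 2 ^ 32 * (wallisQ j).1 * piLo) &&
      decide (2 ^ 32 * (wallisQ j).1 * piHi ≤ hi * (wallisQ j).2 * (2 * 10 ^ 20))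
  else decide (lo * (wallisQ j).2 ≤ 2 ^ 32 * (wallisQ j).1) &&
    decide (2 ^ 32 * (wallisQ j).1 ≤ hi * (wallisQ j).2)

theorem momTest_sound {j lo hi : ℕ} (h : momTest j lo hi = true) :
    (lo : ℝ) / 2 ^ 32 ≤ mom 0 (j + 2) ∧ mom 0 (j + 2) ≤ (hi : ℝ) / 2 ^ 32 := by
  have hd : (0 : ℝ) < ((wallisQ j).2 : ℝ) := Nat.cast_pos.2 (wallisQ_den_pos j)
  rw [mom_wallisQ]
  unfold momTest at h
  generalize (wallisQ j).1 = a at h
  generalize (wallisQ j).2 = b at h hd ⊢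
  unfold parFactor
  split_ifs at h with hj <;>
    simp only [Bool.and_eq_true, decide_eq_true_eq] at h
  · rw [if_pos hj]
    have hp1 : (piLo : ℝ) / 10 ^ 20 ≤ π :=
      le_of_eq_of_le (by norm_num [piLo]) pi_gt_d20.le
    have hp2 : π ≤ (piHi : ℝ) / 10 ^ 20 :=
      pi_lt_d20.le.trans_eq (by norm_num [piHi])
    have h1 : (lo : ℝ) * b * (2 * 10 ^ 20) ≤ 2 ^ 32 * a * (piLo : ℝ) := by exact_mod_cast h.1
    have h2 : 2 ^ 32 * (a : ℝ) * (piHi : ℝ) ≤ hi * b * (2 * 10 ^ 20) := by exact_mod_cast h.2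
    rw [div_le_iff₀ (by positivity)] at hp1
    rw [le_div_iff₀ (by positivity)] at hp2
    constructor
    · rw [div_le_iff₀ (by positivity), div_mul_eq_mul_div, div_mul_eq_mul_div,
        le_div_iff₀ hd]
      nlinarith [mul_le_mul_of_nonneg_left hp1 (by positivity : (0 : ℝ) ≤ 2 ^ 32 * a)]
    · rw [div_mul_eq_mul_div, div_le_iff₀ hd, div_mul_eq_mul_div, le_div_iff₀ (by positivity)]
      nlinarith [mul_le_mul_of_nonneg_left hp2 (by positivity : (0 : ℝ) ≤ 2 ^ 32 * a)]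
  · rw [if_neg hj, mul_one]
    have h1 : (lo : ℝ) * b ≤ 2 ^ 32 * a := by exact_mod_cast h.1
    have h2 : 2 ^ 32 * (a : ℝ) ≤ hi * b := by exact_mod_cast h.2
    constructor
    · rw [div_le_div_iff₀ (by positivity) hd]; linarith
    · rw [div_le_div_iff₀ hd (by positivity)]; linarith

/-- `mom 0 j` decreases in `j`. -/
lemma mom_zero_anti {i j : ℕ} (h : i ≤ j) : mom 0 (j + 2) ≤ mom 0 (i + 2) := by
  rw [mom_zero_wallis, mom_zero_wallis]
  have hS : Antitone Uniform.S := antitone_nat_of_succ_le Uniform.S_succ_le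
  linarith [hS h]

/-- `V₀` and `r` on a range: `v` bounds `V₀`, `r` bounds `rr (m+1)`, in units `2^(-32)`. -/
def constTest (m0 m1 vlo vhi rlo rhi : ℕ) (rows : List (ℕ × ℕ)) : Bool :=
  decide (rows.length = m1 + 2 - m0) &&
    ((List.range rows.length).zip rows).all (fun p => momTest (m0 + 1 + p.1) p.2.1 p.2.2) &&
    (rows.zip rows.tail).all fun p => decide (vlo ≤ p.2.1) && decide (p.2.2 ≤ vhi) &&
      decide (rlo * p.2.2 ≤ 2 ^ 32 * p.1.1) && decide (2 ^ 32 * p.1.2 ≤ rhi * p.2.1)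

theorem constTest_sound {m0 m1 vlo vhi rlo rhi : ℕ} {rows : List (ℕ × ℕ)}
    (h : constTest m0 m1 vlo vhi rlo rhi rows = true) {m : ℕ} (h0 : m0 ≤ m) (h1 : m ≤ m1) :
    ((vlo : ℝ) / 2 ^ 32 ≤ semiMom m 1 ∧ semiMom m 1 ≤ (vhi : ℝ) / 2 ^ 32) ∧
      ((rlo : ℝ) / 2 ^ 32 ≤ rr (m + 1) ∧ rr (m + 1) ≤ (rhi : ℝ) / 2 ^ 32) := by
  simp only [constTest, Bool.and_eq_true, decide_eq_true_eq, List.all_eq_true] at h
  obtain ⟨⟨hlen, hmom⟩, hpair⟩ := h
  obtain ⟨i, rfl⟩ := Nat.exists_eq_add_of_le h0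
  have hi : i + 1 < rows.length := by omega
  have get : ∀ (l : ℕ) (hl : l < rows.length), momTest (m0 + 1 + l) (rows[l]).1 (rows[l]).2 = true :=
    fun l hl => hmom (l, rows[l]) (List.mem_iff_getElem.2
      ⟨l, by simp [hl], by simp⟩)
  obtain ⟨a1, a2⟩ := momTest_sound (get i (by omega))
  obtain ⟨b1, b2⟩ := momTest_sound (get (i + 1) hi)
  obtain ⟨⟨⟨c1, c2⟩, c3⟩, c4⟩ := hpair (rows[i], rows[i + 1]) (List.mem_iff_getElem.2
    ⟨i, by simp; omega, by simp⟩)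
  have eV : semiMom (m0 + i) 1 = mom 0 (m0 + 1 + (i + 1) + 2) := by
    rw [semiMom_one]; congr 1; omega
  have eP : mom 0 (m0 + i + 1 + 2) = mom 0 (m0 + 1 + i + 2) := by congr 1; omega
  have hV : (0 : ℝ) < mom 0 (m0 + 1 + (i + 1) + 2) := mom_zero_pos _
  have er : rr (m0 + i + 1) = mom 0 (m0 + 1 + i + 2) / mom 0 (m0 + 1 + (i + 1) + 2) := by
    rw [rr, eP]; congr 2; omega
  rw [eV, er]
  refine ⟨⟨le_trans ?_ b1, b2.trans ?_⟩, ?_, ?_⟩
  · exact div_le_div_of_nonneg_right (Nat.cast_le.2 c1) (by positivity)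
  · exact div_le_div_of_nonneg_right (Nat.cast_le.2 c2) (by positivity)
  · rw [le_div_iff₀ hV]
    have c3' : (rlo : ℝ) * (rows[i + 1]).2 ≤ 2 ^ 32 * (rows[i]).1 := by exact_mod_cast c3
    calc (rlo : ℝ) / 2 ^ 32 * mom 0 (m0 + 1 + (i + 1) + 2)
        ≤ (rlo : ℝ) / 2 ^ 32 * (((rows[i + 1]).2 : ℝ) / 2 ^ 32) := by gcongr
      _ = (rlo : ℝ) * (rows[i + 1]).2 / 2 ^ 32 / 2 ^ 32 := by ring
      _ ≤ 2 ^ 32 * (rows[i]).1 / 2 ^ 32 / 2 ^ 32 := by gcongr
      _ = ((rows[i]).1 : ℝ) / 2 ^ 32 := by ring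
      _ ≤ _ := a1
  · rw [div_le_iff₀ hV]
    have c4' : 2 ^ 32 * ((rows[i]).2 : ℝ) ≤ (rhi : ℝ) * (rows[i + 1]).1 := by exact_mod_cast c4
    calc mom 0 (m0 + 1 + i + 2) ≤ ((rows[i]).2 : ℝ) / 2 ^ 32 := a2
      _ = 2 ^ 32 * ((rows[i]).2 : ℝ) / 2 ^ 32 / 2 ^ 32 := by ring
      _ ≤ (rhi : ℝ) * (rows[i + 1]).1 / 2 ^ 32 / 2 ^ 32 := by gcongr
      _ = (rhi : ℝ) / 2 ^ 32 * (((rows[i + 1]).1 : ℝ) / 2 ^ 32) := by ring
      _ ≤ _ := by gcongr

/-- Powers of `1/W` on a cell, for exponents in a range. -/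
theorem cW_pow_range {n n' : Node} (hn : nodeTest n = true) (hn' : nodeTest n' = true) {T : ℝ}
    (hT : T ∈ Icc (nodeT n) (nodeT n')) {j0 j j1 : ℕ} (h0 : j0 ≤ j) (h1 : j ≤ j1) :
    ((n'.2.1 : ℝ) / 2 ^ 32) ^ j1 ≤ cW T ^ j ∧ cW T ^ j ≤ ((n.2.2 : ℝ) / 2 ^ 32) ^ j0 := by
  have hp : 0 ≤ nodeT n := by simp only [nodeT]; positivity
  have hT0 := hp.trans hT.1
  have hc := cW_pos T
  have hc1 : cW T ≤ 1 := inv_le_one_of_one_le₀ (one_le_w T)
  constructor
  · calc ((n'.2.1 : ℝ) / 2 ^ 32) ^ j1 ≤ cW T ^ j1 :=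
          pow_le_pow_left₀ (by positivity) ((nodeTest_sound hn').1.trans (cW_anti hT0 hT.2)) _
      _ ≤ _ := pow_le_pow_of_le_one hc.le hc1 h1
  · calc cW T ^ j ≤ cW T ^ j0 := pow_le_pow_of_le_one hc.le hc1 h0
      _ ≤ _ := pow_le_pow_left₀ hc.le ((cW_anti hp hT.1).trans (nodeTest_sound hn).2) _

/-- `n ↦ n / (1 - c^n)` increases on `[0,1]`: the chord mass bound is worst at the top dimension. -/
theorem chord_factor_mono {c : ℝ} (h0 : 0 ≤ c) (h1 : c ≤ 1) {n0 n1 : ℕ} (h : n0 ≤ n1) :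
    (n0 : ℝ) * (1 - c ^ n1) ≤ (n1 : ℝ) * (1 - c ^ n0) := by
  have e : ∀ n : ℕ, 1 - c ^ n = (1 - c) * ∑ i ∈ Finset.range n, c ^ i := fun n =>
    (mul_neg_geom_sum c n).symm
  obtain ⟨d, rfl⟩ := Nat.exists_eq_add_of_le h
  rw [e, e, Finset.sum_range_add]
  have hA : (n0 : ℝ) * c ^ n0 ≤ ∑ i ∈ Finset.range n0, c ^ i := by
    have := Finset.card_nsmul_le_sum (Finset.range n0) (fun i => c ^ i) (c ^ n0) fun i hi =>
      pow_le_pow_of_le_one h0 h1 (Finset.mem_range.1 hi).le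
    simpa using this
  have hB : ∑ i ∈ Finset.range d, c ^ (n0 + i) ≤ (d : ℝ) * c ^ n0 := by
    have := Finset.sum_le_card_nsmul (Finset.range d) (fun i => c ^ (n0 + i)) (c ^ n0) fun i _ =>
      pow_le_pow_of_le_one h0 h1 (Nat.le_add_right _ _)
    simpa using this
  push_cast
  have hc : 0 ≤ 1 - c := by linarith
  have h2 := mul_le_mul_of_nonneg_left hB (Nat.cast_nonneg n0 : (0 : ℝ) ≤ n0)
  have h3 := mul_le_mul_of_nonneg_left hA (Nat.cast_nonneg d : (0 : ℝ) ≤ d)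
  nlinarith [mul_le_mul_of_nonneg_left (h2.trans (le_of_eq_of_le (by ring) h3)) hc]

/-- A row at a given node from a column entry. -/
def mkRow (a : Row) (c : ℕ × ℕ × ℕ × ℕ × ℕ) : Row := ⟨a.n, c.1, c.2.1, c.2.2.1, c.2.2.2.1, c.2.2.2.2⟩

/-- The entry of `c` is inside the envelope row `a`. -/
def insideOk (a : Row) (c : ℕ × ℕ × ℕ × ℕ × ℕ) : Bool :=
  decide (c.2.2.1 ≤ a.lo) && decide (a.fd ≤ c.2.2.2.1) && decide (c.2.2.2.2 ≤ a.hi)

/-- One envelope of exact tables: a column `(m, E0, E, entries)` for every dimension of the range. -/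
def rangeTableOk (env : List Row) (cols : List (ℕ × ℕ × ℕ × List (ℕ × ℕ × ℕ × ℕ × ℕ))) : Bool :=
  cols.all fun p => decide (p.2.2.2.length = env.length) &&
    (env.zip p.2.2.2).all (fun q => insideOk q.1 q.2) &&
    tableOk p.1 p.2.1 p.2.2.1 (List.zipWith mkRow env p.2.2.2)

lemma cell_mono {m : ℕ} {Y : ℝ} {a b : Row} {c d : ℕ × ℕ × ℕ × ℕ × ℕ} (hc : insideOk a c = true)
    (hd : insideOk b d = true) (h : CellBound m Y (mkRow a c) (mkRow b d)) : CellBound m Y a b := by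
  simp only [insideOk, Bool.and_eq_true, decide_eq_true_eq] at hc hd
  intro T hT
  obtain ⟨h1, h2, h3⟩ := h T hT
  refine ⟨h1.trans ?_, le_trans ?_ h2, h3.trans ?_⟩ <;>
    simp only [mkRow] <;>
    refine div_le_div_of_nonneg_right (Nat.cast_le.2 ?_) (by positivity)
  · exact hd.1.1
  · exact hc.1.2
  · exact hd.2

lemma env_cells {m : ℕ} {Y : ℝ} :
    ∀ (env : List Row) (col : List (ℕ × ℕ × ℕ × ℕ × ℕ)), col.length = env.length →
      ((env.zip col).all fun q => insideOk q.1 q.2) = true →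
      (∀ p ∈ (List.zipWith mkRow env col).zip (List.zipWith mkRow env col).tail,
        CellBound m Y p.1 p.2) →
      ∀ p ∈ env.zip env.tail, CellBound m Y p.1 p.2
  | [], _, _, _, _, p, hp => by simp at hp
  | [_], _, _, _, _, p, hp => by simp at hp
  | a :: b :: env, [], hl, _, _, _, _ => by simp at hl
  | a :: b :: env, [_], hl, _, _, _, _ => by simp at hl
  | a :: b :: env, c :: d :: col, hl, hin, hcell, p, hp => by
    simp only [List.zip_cons_cons, List.all_cons, Bool.and_eq_true] at hin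
    simp only [List.zipWith_cons_cons, List.tail_cons, List.zip_cons_cons, List.mem_cons,
      forall_eq_or_imp] at hcell
    simp only [List.tail_cons, List.zip_cons_cons, List.mem_cons] at hp
    rcases hp with rfl | hp
    · exact cell_mono hin.1 hin.2.1 hcell.1
    · exact env_cells (b :: env) (d :: col) (by simpa using hl)
        (by simpa [List.zip_cons_cons] using hin.2) (by simpa using hcell.2) p hp

/-- Soundness of an envelope for a range. -/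
theorem rangeTable_sound {env : List Row}
    {cols : List (ℕ × ℕ × ℕ × List (ℕ × ℕ × ℕ × ℕ × ℕ))} (h : rangeTableOk env cols = true)
    {m E0 E : ℕ} {col : List (ℕ × ℕ × ℕ × ℕ × ℕ)} (hp : (m, E0, E, col) ∈ cols) {Y : ℝ} (hY : 1 ≤ Y)
    (hE0 : (E0 : ℝ) / 2 ^ 40 ≤ Y ^ 2 - 1) (hE : Y ^ 2 - 1 ≤ (E : ℝ) / 2 ^ 40) :
    ∀ p ∈ env.zip env.tail, CellBound m Y p.1 p.2 := by
  have h' := List.all_eq_true.1 h _ hp
  simp only [Bool.and_eq_true, decide_eq_true_eq] at h'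
  obtain ⟨⟨hl, hin⟩, ht⟩ := h'
  refine env_cells env col hl hin ?_
  cases hz : List.zipWith mkRow env col with
  | nil => intro p hp; simp at hp
  | cons a l =>
    rw [hz] at ht
    simpa using table_sound hY hE0 hE ht

/-- The upper end `Q₁ V₀ - V₀/Y₁^k` from enclosures. -/
theorem cb_le {m : ℕ} {Y₁ Q₁ vhi yk Cb : ℝ} (hY : 0 < Y₁) (hyk : Y₁ ^ (m + 1) ≤ yk)
    (hv : semiMom m 1 ≤ vhi) (hQ : yk⁻¹ ≤ Q₁) (hC : (Q₁ - yk⁻¹) * vhi ≤ Cb) :
    Q₁ * semiMom m 1 - semiMom m 1 / Y₁ ^ (m + 1) ≤ Cb := by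
  have h0 : 0 ≤ semiMom m 1 := integral_nonneg zero_le_one fun x _ => by positivity
  have hp : 0 < Y₁ ^ (m + 1) := pow_pos hY _
  have h1 : semiMom m 1 * yk⁻¹ ≤ semiMom m 1 / Y₁ ^ (m + 1) :=
    mul_le_mul_of_nonneg_left (inv_anti₀ hp hyk) h0
  have h2 := mul_le_mul_of_nonneg_left hv (sub_nonneg.2 hQ)
  linarith

end Vale.Agent.P237.Cal.RangeBounds
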