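import Vale.Agent.P237.Cal.RangeAtoms
import Vale.Agent.P237.Cal.CellGlue2

/-!
# P237: one chain of cells for a range of `m`

The cells of a range are tested once, with the Bernstein controls in `m`: the node tables, the
lower bound `y / 2^8` of the base, and, for each control, the sign of the structural weight and the
family test of `CellGlue2`. For each `m` of the range only the state rows on the common nodes are
checked against the shared ranges.
-/

open Set Real

namespace Vale.Agent.P237.Cal.RangeGlue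

open AtomCert CellCert FamAtoms StateTable RangeAtoms BoxHand CellGlue2

/-- The node tables along the nodes. -/
noncomputable def nodesTab (P : ℕ) (B : List (ℕ × ℕ)) : List Node → List CellCert2.Cell → Bool
  | n :: n' :: l, C :: cs => CellCert2.tabTest P B n n' C && nodesTab P B (n' :: l) cs
  | [_], [] => true
  | _, _ => false

/-- `y / 2^8` is below `W^(-m)` for `m ≤ m1` up to every node after the first. -/
def yTest (m1 y : ℕ) : List Node → Bool
  | _ :: n' :: l => decide (y * 2 ^ (32 * m1) ≤ n'.2.1 ^ m1 * 2 ^ 8) && yTest m1 y (n' :: l)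
  | _ => true

/-- The structural weight of a control is nonnegative on every cell. -/
def wTest (c : CFam) (cs : List CellCert2.Cell) : Bool :=
  cs.all fun C => decide (0 ≤ (CellCert2.encl2 (mkFn c.w) C).1.1) &&
    decide (0 ≤ (CellCert2.encl2 (mkFn c.w) C).2.1)

/-- One side for all controls of a range. -/
def rfamTest (Fs : List CFam) (cs : List CellCert2.Cell) (rs : List Rng) : Bool :=
  Fs.all fun c => wTest c cs && famTest c.F cs rs

variable {m m0 m1 P E0 E y cv bv : ℕ} {cb : ℤ} {B : List (ℕ × ℕ)} {Fs : List CFam} {p : RPar} {s : RSide}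
  {Y₁ V₁ T σ X : ℝ} {Q₁ : ℚ} {pos : Bool}

theorem seg_sound {n n' : Node} {C : CellCert2.Cell} {x0 x1 : ℤ}
    (hF : rangeFams B p s y m0 m1 = some Fs) (htab : CellCert2.tabTest P B n n' C = true)
    (hy : y * 2 ^ (32 * m1) ≤ n'.2.1 ^ m1 * 2 ^ 8)
    (hw : ∀ c ∈ Fs, 0 ≤ (CellCert2.encl2 (mkFn c.w) C).1.1 ∧
      0 ≤ (CellCert2.encl2 (mkFn c.w) C).2.1)
    (hZ : 0 < p.Z) (hm : m ∈ Finset.Icc m0 m1) (hT0 : 0 < T)
    (hT : T ∈ Icc (nodeT n) (nodeT n')) (hX : X ∈ Icc ((x0 : ℝ) / 2 ^ 32) ((x1 : ℝ) / 2 ^ 32)) :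
    ∀ {l : ℤ} {cs : List ℤ} {h : ℤ}, (∀ c ∈ Fs, segTest c.F C x0 x1 l cs h = true) →
      σ - T ∈ Icc ((l : ℝ) / 2 ^ 32) ((h : ℝ) / 2 ^ 32) →
      VxOk m ((p.inst m).fam.at T) ((pv p.eps m : ℝ) / p.Z) ((pv p.eta m : ℝ) / p.Z)
        (ev p.Z (s.inst m).th T) ((s.inst m).ph p.Z T (σ - T)) (ev p.Z (s.inst m).nu T) T σ X := by
  have one : ∀ l h : ℤ, (∀ c ∈ Fs, CellCert2.cellTest c.F (setRange C l h x0 x1) = true) →
      σ - T ∈ Icc ((l : ℝ) / 2 ^ 32) ((h : ℝ) / 2 ^ 32) →
      VxOk m ((p.inst m).fam.at T) ((pv p.eps m : ℝ) / p.Z) ((pv p.eta m : ℝ) / p.Z)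
        (ev p.Z (s.inst m).th T) ((s.inst m).ph p.Z T (σ - T)) (ev p.Z (s.inst m).nu T) T σ X := by
    intro l h ht hD
    refine rangeCell_sound (P := P) (C := setRange C l h x0 x1) hF ?_ hZ hm hT0 hT hD hX
    simp only [rangeTest, Bool.and_eq_true, decide_eq_true_eq, List.all_eq_true, cTest]
    exact ⟨⟨htab, hy⟩, fun c hc => ⟨hw c hc, ht c hc⟩⟩
  intro l cs
  induction cs generalizing l with
  | nil => intro h ht hD; exact one l h (fun c hc => by simpa [segTest] using ht c hc) hD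
  | cons c cs ih =>
    intro h ht hD
    rcases le_or_gt (σ - T) ((c : ℝ) / 2 ^ 32) with hle | hgt
    · exact one l c (fun d hd => (Bool.and_eq_true_iff.1 (ht d hd)).1) ⟨hD.1, hle⟩
    · exact ih (fun d hd => (Bool.and_eq_true_iff.1 (ht d hd)).2) ⟨hgt.le, hD.2⟩

theorem chain_sound (hY : 1 ≤ Y₁) (hE : Y₁ ^ 2 - 1 ≤ (E : ℝ) / 2 ^ 40)
    (hcv : crudeTest m Q₁ cv = true) (hbv : V₁ ≤ (bv : ℝ) / 2 ^ 32)
    (hcb : (Q₁ : ℝ) * semiMom m 1 - semiMom m 1 / Y₁ ^ (m + 1) ≤ (cb : ℝ) / 2 ^ 32)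
    (hF : rangeFams B p s y m0 m1 = some Fs) (hZ : 0 < p.Z) (hm : m ∈ Finset.Icc m0 m1)
    (hP : BoxPt m Y₁ Q₁ V₁ T σ X) (hside : if pos then T ≤ σ else σ ≤ T) :
    ∀ {a : Row} {l : List Row} {cs : List CellCert2.Cell} {rs : List Rng},
      nodesTab P B ((a :: l).map Row.n) cs = true → yTest m1 y ((a :: l).map Row.n) = true →
      rangesTest pos m E cv bv cb (a :: l) rs = true → rfamTest Fs cs rs = true →
      (∀ q ∈ (a :: l).zip l, CellBound m Y₁ q.1 q.2) → a.T < T →
      T ≤ ((a :: l).getLast (by simp)).T →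
      VxOk m ((p.inst m).fam.at T) ((pv p.eps m : ℝ) / p.Z) ((pv p.eta m : ℝ) / p.Z)
        (ev p.Z (s.inst m).th T) ((s.inst m).ph p.Z T (σ - T)) (ev p.Z (s.inst m).nu T) T σ
        (X - X0 m T)
  | a, [], _, _, _, _, _, _, _, h1, h2 => absurd (h2.trans_lt' h1) (lt_irrefl _)
  | a, b :: l, [], _, h, _, _, _, _, _, _ => by simp [nodesTab] at h
  | a, b :: l, C :: cs, [], _, _, h, _, _, _, _ => by simp [rangesTest] at h
  | a, b :: l, C :: cs, r :: rs, ht, hy, hr, hf, hB, h1, h2 => by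
    simp only [List.map_cons, nodesTab, yTest, Bool.and_eq_true, decide_eq_true_eq] at ht hy
    simp only [rangesTest, Bool.and_eq_true, Bool.or_eq_true, decide_eq_true_eq] at hr
    obtain ⟨⟨⟨⟨⟨hn, hs⟩, hd⟩, hx0⟩, hx1⟩, hrs⟩ := hr
    simp only [rfamTest, wTest, famTest, List.all_eq_true, List.forall_mem_cons, Bool.and_eq_true,
      decide_eq_true_eq] at hf
    rcases le_or_gt T b.T with hle | hgt
    · have hT : T ∈ Icc a.T b.T := ⟨h1.le, hle⟩
      obtain ⟨s1, s2, s3⟩ := state_bounds hP (hB (a, b) (by simp)) hT hcb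
      have hD : σ - T ∈ Icc ((r.l : ℝ) / 2 ^ 32) ((r.h : ℝ) / 2 ^ 32) := by
        cases pos
        · simp only [Bool.false_eq_true, if_false, Bool.and_eq_true, decide_eq_true_eq] at hd hside
          have g := gap_upper hY hE hs hT
          have k1 : √(1 + T ^ 2 - Y₁ ^ 2) ≤ σ := by
            rw [sqrt_le_left hP.σ_pos.le]; exact hP.σ_low
          have k2 : ((r.l : ℝ) * 2 ^ 8) ≤ -(gUp E a b : ℝ) := by exact_mod_cast hd.1
          have k3 : (0 : ℝ) ≤ (r.h : ℝ) := by exact_mod_cast hd.2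
          refine ⟨?_, le_trans (by linarith) (div_nonneg k3 (by positivity))⟩
          rw [div_le_iff₀ (by positivity)]
          rw [le_div_iff₀ (by positivity)] at g
          nlinarith
        · simp only [if_true, Bool.and_eq_true, Bool.or_eq_true, decide_eq_true_eq] at hd hside
          have k3 : (r.l : ℝ) ≤ 0 := by exact_mod_cast hd.1
          refine ⟨le_trans (div_nonpos_of_nonpos_of_nonneg k3 (by positivity)) (by linarith), ?_⟩
          rcases hd.2 with (hw | ⟨hbn, hc⟩) | hbump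
          · have g := wu_upper hn hT.1
            have k2 : (gW a : ℝ) ≤ (r.h : ℝ) * 2 ^ 8 := by exact_mod_cast hw
            rw [le_div_iff₀ (by positivity)]
            rw [le_div_iff₀ (by positivity)] at g
            nlinarith [hP.σ_le]
          · have k2 := crude_le hcv hbn hc hP hle
            have k4 : (a.n.1 : ℝ) / 2 ^ 20 ≤ T := hT.1
            push_cast at k2
            rw [le_div_iff₀ (by positivity)] at k2 ⊢
            rw [div_le_iff₀ (by positivity)] at k4
            nlinarith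
          · exact bump_le hcv hbv hbump hP hT
      have hX : X - X0 m T ∈ Icc ((r.x0 : ℝ) / 2 ^ 32) ((r.x1 : ℝ) / 2 ^ 32) := by
        refine ⟨?_, ?_⟩
        · refine le_trans ?_ s1
          rw [← neg_div]
          exact div_le_div_of_nonneg_right (by exact_mod_cast hx0) (by positivity)
        · rcases hx1 with hx1 | hx1
          · have h3 : min ((b.hi : ℕ) : ℝ) ((cb : ℝ) - (a.fd : ℕ)) ≤ (r.x1 : ℝ) := by
              exact_mod_cast hx1
            refine le_trans (le_min s2 s3) ?_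
            rw [← sub_div, min_div_div_right (by positivity)]
            exact div_le_div_of_nonneg_right h3 (by positivity)
          · refine sig_le hx1 hP hT hD.2 ?_
            have := ((hB (a, b) (by simp)) T hT).2.2
            simp only [rise] at this
            simpa using this
      obtain ⟨xa, xb, ht', hX'⟩ := xsT_piece (s := Fs)
        (t := fun c => fun x0 x1 => segTest c.F C x0 x1 r.l r.cuts r.h) (fun c hc => (hf c hc).2.1) hX
      exact seg_sound hF ht.1 hy.1 (fun c hc => (hf c hc).1.1) hZ hm hP.T_pos hT hX' ht' hD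
    · exact chain_sound hY hE hcv hbv hcb hF hZ hm hP hside (a := b) (l := l) (by simpa using ht.2)
        (by simpa using hy.2) hrs
        (by
          simp only [rfamTest, wTest, List.all_eq_true, Bool.and_eq_true, decide_eq_true_eq]
          exact fun c hc => ⟨(hf c hc).1.2, (hf c hc).2.2⟩)
        (fun q hq => hB q (by simp only [List.zip_cons_cons]; exact List.mem_cons_of_mem _ hq))
        hgt (by simpa using h2)

/-- **A stretch of range cells gives the middle range of one box for each `m` of the range.** The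
cells, ranges and families do not depend on `m`; the rows and the bound `cb` do. -/
theorem vxOn_of_range {yn yp : ℕ} {Fn Fp : List CFam} {sn sp : RSide} {a : Row} {l : List Row}
    {ns : List Node} {cs : List CellCert2.Cell} {rn rp : List Rng} (hY : 1 ≤ Y₁)
    (hE0 : (E0 : ℝ) / 2 ^ 40 ≤ Y₁ ^ 2 - 1) (hE : Y₁ ^ 2 - 1 ≤ (E : ℝ) / 2 ^ 40)
    (hFn : rangeFams B p sn yn m0 m1 = some Fn) (hFp : rangeFams B p sp yp m0 m1 = some Fp)
    (hZ : 0 < p.Z) (htab : nodesTab P B ns cs = true) (hyn : yTest m1 yn ns = true)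
    (hyp : yTest m1 yp ns = true) (hn : rfamTest Fn cs rn = true) (hp : rfamTest Fp cs rp = true)
    (hm : m ∈ Finset.Icc m0 m1)
    (hcv : crudeTest m Q₁ cv = true) (hbv : V₁ ≤ (bv : ℝ) / 2 ^ 32)
    (hcb : (Q₁ : ℝ) * semiMom m 1 - semiMom m 1 / Y₁ ^ (m + 1) ≤ (cb : ℝ) / 2 ^ 32)
    (hrows : tableOk m E0 E (a :: l) = true) (hns : (a :: l).map Row.n = ns)
    (hrn : rangesTest false m E cv bv cb (a :: l) rn = true) (hrp : rangesTest true m E cv bv cb (a :: l) rp = true) :
    VxOn m (p.inst m) (sn.inst m) (sp.inst m) Y₁ Q₁ V₁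
      fun T => a.T < T ∧ T ≤ ((a :: l).getLast (by simp)).T := by
  subst hns
  intro T σ X hP hT
  have hB := table_sound hY hE0 hE hrows
  split_ifs with hc
  · exact chain_sound (pos := true) hY hE hcv hbv hcb hFp hZ hm hP (by simpa using hc) htab hyp hrp hp hB
      hT.1 hT.2
  · exact chain_sound (pos := false) hY hE hcv hbv hcb hFn hZ hm hP (by simpa using (not_le.1 hc).le) htab
      hyn hrn hn hB hT.1 hT.2

/-- Two adjacent stretches. -/
theorem vxOn_join {q : APar} {tn tp : Side} {a b c : ℝ}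
    (h1 : VxOn m q tn tp Y₁ Q₁ V₁ fun T => a < T ∧ T ≤ b)
    (h2 : VxOn m q tn tp Y₁ Q₁ V₁ fun T => b < T ∧ T ≤ c) :
    VxOn m q tn tp Y₁ Q₁ V₁ fun T => a < T ∧ T ≤ c :=
  fun T σ X hP hT => (le_or_gt T b).elim (fun h => h1 T σ X hP ⟨hT.1, h⟩)
    fun h => h2 T σ X hP ⟨h, hT.2⟩

end Vale.Agent.P237.Cal.RangeGlue
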