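import Vale.Agent.P237.Cal.RangeGlue
import Vale.Agent.P237.Cal.BoxVertex2

/-!
# P237: one vertex of a box of a range, at one `m`

The middle of the range of `T` is cut into stretches of shared range cells (one `y` per stretch and
side). The table of one `m` is checked once; each stretch uses a piece of its rows. The head and the
tail are tested per `m`.
-/

open Set Real

namespace Vale.Agent.P237.Cal.RangeVertex

open AtomCert CellCert FamAtoms StateTable RangeAtoms CellEnds BoxHand BoxEnds HeadSplit TailRed CellGlue2 RangeGlue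

lemma pairs_prefix {α : Type} {R : α × α → Prop} {post : List α} :
    ∀ {a : α} {l : List α}, (∀ q ∈ (a :: (l ++ post)).zip (l ++ post), R q) →
      ∀ q ∈ (a :: l).zip l, R q
  | a, [], _ => by simp
  | a, b :: l, h => by
    simp only [List.cons_append, List.zip_cons_cons, List.forall_mem_cons] at h ⊢
    exact ⟨h.1, pairs_prefix h.2⟩

/-- The pairs of a piece are pairs of the whole list. -/
lemma pairs_infix {α : Type} {R : α × α → Prop} {a : α} {l post : List α} :
    ∀ {pre : List α}, (∀ q ∈ (pre ++ a :: (l ++ post)).zip (pre ++ a :: (l ++ post)).tail, R q) →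
      ∀ q ∈ (a :: l).zip l, R q
  | [], h => pairs_prefix (by simpa using h)
  | [x], h => pairs_infix (pre := []) (by
      simp only [List.cons_append, List.nil_append, List.tail_cons, List.zip_cons_cons,
        List.forall_mem_cons] at h ⊢
      exact h.2)
  | x :: z :: pre, h => pairs_infix (pre := z :: pre) (by
      simp only [List.cons_append, List.tail_cons, List.zip_cons_cons, List.forall_mem_cons] at h ⊢
      exact h.2)

variable {m m0 m1 P E0 E cv bv : ℕ} {cb : ℤ} {B : List (ℕ × ℕ)} {p : RPar} {Y₁ V₁ : ℝ} {Q₁ : ℚ}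

/-- **A stretch** at one `m`: the rows `a :: l` are a piece of the table `first :: rows`. -/
theorem vxOn_of_stretch {yn yp : ℕ} {Fn Fp : List CFam} {sn sp : RSide} {first a : Row}
    {rows pre l post : List Row} {ns : List Node} {cs : List CellCert2.Cell} {rn rp : List Rng}
    (hY : 1 ≤ Y₁) (hE0 : (E0 : ℝ) / 2 ^ 40 ≤ Y₁ ^ 2 - 1) (hE : Y₁ ^ 2 - 1 ≤ (E : ℝ) / 2 ^ 40)
    (hFn : rangeFams B p sn yn m0 m1 = some Fn) (hFp : rangeFams B p sp yp m0 m1 = some Fp)
    (hZ : 0 < p.Z) (htab : nodesTab P B ns cs = true) (hyn : yTest m1 yn ns = true)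
    (hyp : yTest m1 yp ns = true) (hn : rfamTest Fn cs rn = true) (hp : rfamTest Fp cs rp = true)
    (hm : m ∈ Finset.Icc m0 m1) (hcv : crudeTest m Q₁ cv = true) (hbv : V₁ ≤ (bv : ℝ) / 2 ^ 32)
    (hcb : (Q₁ : ℝ) * semiMom m 1 - semiMom m 1 / Y₁ ^ (m + 1) ≤ (cb : ℝ) / 2 ^ 32)
    (hrows : tableOk m E0 E (first :: rows) = true)
    (hcut : first :: rows = pre ++ a :: (l ++ post)) (hns : (a :: l).map Row.n = ns)
    (hrn : rangesTest false m E cv bv cb (a :: l) rn = true)
    (hrp : rangesTest true m E cv bv cb (a :: l) rp = true) :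
    VxOn m (p.inst m) (sn.inst m) (sp.inst m) Y₁ Q₁ V₁
      fun T => a.T < T ∧ T ≤ ((a :: l).getLast (by simp)).T := by
  subst hns
  intro T σ X hP hT
  have hB : ∀ q ∈ (a :: l).zip l, CellBound m Y₁ q.1 q.2 := by
    have h := table_sound hY hE0 hE hrows
    refine pairs_infix (pre := pre) (post := post) ?_
    rw [← hcut]
    exact h
  split_ifs with hc
  · exact RangeGlue.chain_sound (pos := true) hY hE hcv hbv hcb hFp hZ hm hP (by simpa using hc) htab
      hyp hrp hp hB hT.1 hT.2
  · exact RangeGlue.chain_sound (pos := false) hY hE hcv hbv hcb hFn hZ hm hP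
      (by simpa using (not_le.1 hc).le) htab hyn hrn hn hB hT.1 hT.2

/-- **One vertex**: the middle, and the tested head and tail. -/
theorem vxOn_ends {B' Bt : List (ℕ × ℕ)} {SB : BoxScalar.SBox} {q r s v : APar} {sn sp : Side}
    {yk : ℚ} {z : Node} {first : Row} {rows : List Row} {hn hp tn tp : Flat} {sC : ℕ}
    {Hn Hp Hm Tn Tp : VFam} (hbd : boundsTest m SB q r s E0 E cb Q₁ yk = true)
    (hcv : crudeTest m Q₁ cv = true) (hrows : tableOk m E0 E (first :: rows) = true)
    (hZ : 0 < v.Z)
    (hmid : VxOn m v sn sp (Ytop s) Q₁ (vTop m SB)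
      fun T => first.T < T ∧ T ≤ ((first :: rows).getLast (by simp)).T)
    (eHn : rfam B' (headR false hn) m v sn = some Hn) (eHp : rfamH B' m v sp = some (Hp, Hm))
    (hHn : headTest false P m cv B' Hn z first.n hn = true)
    (hHp : headTestS P m cv B' Hp Hm z first.n hp = true)
    (eTn : rfam2 Bt m v sn = some Tn) (eTp : rfam2 Bt m v sp = some Tp)
    (hTn : tailTest2 sC false P m E cb Bt Tn ((first :: rows).getLast (by simp)) tn = true)
    (hTp : tailTest2 sC true P m E cb Bt Tp ((first :: rows).getLast (by simp)) tp = true) :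
    VxOn m v sn sp (Ytop s) Q₁ (vTop m SB) fun _ => True := by
  obtain ⟨hY, hE0, hE, hcb, -⟩ := boundsTest_sound hbd
  exact vxOn_all (vxOn_headS hcv hY hZ eHn eHp hHn hHp) hmid
    (vxOn_tail2 hY hE hcb (BoxVertex.last_bound hY hE0 hE hrows) hZ eTn eTp hTn hTp)

end Vale.Agent.P237.Cal.RangeVertex
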