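import Vale.Agent.P237.Exact.Lemma25

/-!
# P237: a calibration proves the one-profile inequality

A potential `Φ (t, y, A)` of the height, the profile and the partial moment `A = ∫₀ᵗ F^(m+1)`,
below the cost along every admissible direction, bounds the cost integral by its boundary values.
This turns the one-profile Fisher inequality into pointwise inequalities. Nothing here says that a
calibration exists.
-/

open MeasureTheory Set Filter Topology Real intervalIntegral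

namespace Vale.Agent.P237.Cal

open Exact Vale.Agent.P237.Uniform Full

variable {m : ℕ} {f F D : ℝ → ℝ}

/-- The cost density, with multiplier `lam` for the projection moment. -/
noncomputable def cost (m : ℕ) (w ρ lam t y d : ℝ) : ℝ :=
  ((m : ℝ) + 1) * (y ^ m * (d ^ 2 / (y - t * d))) -
    w * ((m : ℝ) + 1) * ρ ^ 2 * (y ^ m / (y - t * d)) + lam * y ^ m

/-- The partial moment of the semicircle. -/
noncomputable def semiMom (m : ℕ) (t : ℝ) : ℝ := ∫ x in (0 : ℝ)..t, √(1 - x ^ 2) ^ (m + 1)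

/-- What every admissible profile satisfies pointwise: height, value, right slope, partial moment
of a profile with moment `V`. -/
structure Adm (m : ℕ) (V t y d A : ℝ) : Prop where
  mem : t ∈ Ioo (0 : ℝ) 1
  semi : √(1 - t ^ 2) ≤ y
  slope : d ≤ 0
  tangent : ∀ x ∈ Ioo (0 : ℝ) 1, √(1 - x ^ 2) ≤ y + d * (x - t)
  lower : semiMom m t ≤ A
  upper : A ≤ V - (semiMom m 1 - semiMom m t)
  near : t * y ^ (m + 1) ≤ A
  nearSemi : ∀ s ∈ Icc (0 : ℝ) t, semiMom m s + (t - s) * y ^ (m + 1) ≤ A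
  leftTan : A ≤ ∫ x in (0 : ℝ)..t, (y + d * (x - t)) ^ (m + 1)
  rightTan : V - A ≤ ∫ x in t..1, (y + d * (x - t)) ^ (m + 1)
  chord : ∫ x in t..1, max (√(1 - x ^ 2)) (y * (1 - x) / (1 - t)) ^ (m + 1) ≤ V - A

lemma semi_int (a b : ℝ) :
    IntervalIntegrable (fun x : ℝ => √(1 - x ^ 2) ^ (m + 1)) volume a b :=
  (by fun_prop : Continuous fun x : ℝ => √(1 - x ^ 2) ^ (m + 1)).intervalIntegrable a b

lemma semi_le_shape (h : CShape f F D) (hs : ∀ t ∈ Icc (-1 : ℝ) 1, √(1 - t ^ 2) ≤ f t) {t : ℝ}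
    (ht : t ∈ Icc (0 : ℝ) 1) : √(1 - t ^ 2) ≤ F t := by
  rcases ht.2.eq_or_lt with h1 | h1
  · rw [h1]; simpa using h.shape.one_nonneg
  · rw [h.agree t h1]; exact hs t ⟨by linarith [ht.1], ht.2⟩

lemma moment_int (h : CShape f F D) {a b : ℝ} (ha : a ∈ Icc (0 : ℝ) 1) (hb : b ∈ Icc (0 : ℝ) 1) :
    IntervalIntegrable (fun x => F x ^ (m + 1)) volume a b :=
  ((h.shape.cont.mono (uIcc_subset_Icc ha hb)).pow _).intervalIntegrable

lemma semi_le_part (h : CShape f F D) (hs : ∀ t ∈ Icc (-1 : ℝ) 1, √(1 - t ^ 2) ≤ f t) {a b : ℝ}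
    (ha : a ∈ Icc (0 : ℝ) 1) (hb : b ∈ Icc (0 : ℝ) 1) (hab : a ≤ b) :
    ∫ x in a..b, √(1 - x ^ 2) ^ (m + 1) ≤ ∫ x in a..b, F x ^ (m + 1) := by
  refine integral_mono_on hab (semi_int a b) (moment_int h ha hb) fun x hx => ?_
  exact pow_le_pow_left₀ (sqrt_nonneg _)
    (semi_le_shape h hs ⟨ha.1.trans hx.1, hx.2.trans hb.2⟩) _

lemma adm (h : CShape f F D) (hs : ∀ t ∈ Icc (-1 : ℝ) 1, √(1 - t ^ 2) ≤ f t) {t : ℝ}
    (ht : t ∈ Ioo (0 : ℝ) 1) :
    Adm m (∫ x in (0 : ℝ)..1, F x ^ (m + 1)) t (F t) (D t)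
      (∫ x in (0 : ℝ)..t, F x ^ (m + 1)) := by
  have h0 : (0 : ℝ) ∈ Icc (0 : ℝ) 1 := ⟨le_rfl, zero_le_one⟩
  have h1 : (1 : ℝ) ∈ Icc (0 : ℝ) 1 := ⟨zero_le_one, le_rfl⟩
  have ht' := Ioo_subset_Icc_self ht
  refine ⟨ht, semi_le_shape h hs ht', h.shape.dnonpos t ht, fun x hx => ?_,
    semi_le_part h hs h0 ht' ht.1.le, ?_, ?_, ?_, ?_, ?_, ?_⟩
  · have hx' : x ∈ Icc (-1 : ℝ) 1 := ⟨by linarith [hx.1], hx.2.le⟩
    have hsx := hs x hx'
    rcases lt_trichotomy t x with hlt | heq | hgt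
    · have hsl := h.slope_le ht hlt hx.2
      rw [slope_def_field, div_le_iff₀ (by linarith)] at hsl
      rw [h.agree t ht.2]
      linarith
    · subst heq
      rw [sub_self, mul_zero, add_zero, h.agree t ht.2]
      exact hsx
    · have hsl := h.le_slope hx hgt ht.2
      rw [slope_def_field, le_div_iff₀ (by linarith)] at hsl
      rw [h.agree t ht.2]
      linarith
  · have e1 := integral_add_adjacent_intervals (moment_int (m := m) h h0 ht')
      (moment_int h ht' h1)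
    have e2 := integral_add_adjacent_intervals (semi_int (m := m) 0 t) (semi_int t 1)
    have e3 := semi_le_part (m := m) h hs ht' h1 ht.2.le
    simp only [semiMom]
    linarith
  · have e : ∫ _x in (0 : ℝ)..t, F t ^ (m + 1) ≤ ∫ x in (0 : ℝ)..t, F x ^ (m + 1) := by
      refine integral_mono_on ht.1.le intervalIntegrable_const (moment_int h h0 ht') fun x hx => ?_
      exact pow_le_pow_left₀ (h.shape.nonneg ht')
        (h.shape.anti ⟨hx.1, hx.2.trans ht.2.le⟩ ht' hx.2) _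
    simpa using e
  · intro s hs'
    have hs1 : s ∈ Icc (0 : ℝ) 1 := ⟨hs'.1, hs'.2.trans ht.2.le⟩
    rw [← integral_add_adjacent_intervals (moment_int (m := m) h h0 hs1) (moment_int h hs1 ht')]
    refine add_le_add (semi_le_part h hs h0 hs1 hs'.1) ?_
    calc (t - s) * F t ^ (m + 1) = ∫ _x in s..t, F t ^ (m + 1) := by simp
      _ ≤ _ := integral_mono_on hs'.2 intervalIntegrable_const (moment_int h hs1 ht') fun x hx =>
          pow_le_pow_left₀ (h.shape.nonneg ht')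
            (h.shape.anti ⟨hs'.1.trans hx.1, hx.2.trans ht.2.le⟩ ht' hx.2) _
  · refine integral_mono_on_of_le_Ioo ht.1.le (moment_int h h0 ht')
      ((by fun_prop : Continuous fun x => (F t + D t * (x - t)) ^ (m + 1)).intervalIntegrable _ _)
      fun x hx => ?_
    have hsl := h.le_slope ⟨hx.1, hx.2.trans ht.2⟩ hx.2 ht.2
    rw [slope_def_field, le_div_iff₀ (by linarith [hx.2])] at hsl
    refine pow_le_pow_left₀ (h.shape.nonneg ⟨hx.1.le, (hx.2.trans ht.2).le⟩) ?_ _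
    rw [h.agree x (hx.2.trans ht.2), h.agree t ht.2]
    linarith
  · rw [← integral_add_adjacent_intervals (moment_int (m := m) h h0 ht') (moment_int h ht' h1),
      add_sub_cancel_left]
    refine integral_mono_on_of_le_Ioo ht.2.le (moment_int h ht' h1)
      ((by fun_prop : Continuous fun x => (F t + D t * (x - t)) ^ (m + 1)).intervalIntegrable _ _)
      fun x hx => ?_
    have hx' : x ∈ Ioo (0 : ℝ) 1 := ⟨ht.1.trans hx.1, hx.2⟩
    have hsl := h.slope_le ht hx.1 hx.2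
    rw [slope_def_field, div_le_iff₀ (by linarith [hx.1])] at hsl
    refine pow_le_pow_left₀ (h.shape.nonneg (Ioo_subset_Icc_self hx')) ?_ _
    rw [h.agree x hx.2, h.agree t ht.2]
    linarith
  · rw [← integral_add_adjacent_intervals (moment_int (m := m) h h0 ht') (moment_int h ht' h1),
      add_sub_cancel_left]
    refine integral_mono_on_of_le_Ioo ht.2.le
      ((by fun_prop : Continuous fun x =>
        max (√(1 - x ^ 2)) (F t * (1 - x) / (1 - t)) ^ (m + 1)).intervalIntegrable _ _)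
      (moment_int h ht' h1) fun x hx => ?_
    have hx' : x ∈ Icc (0 : ℝ) 1 := ⟨(ht.1.trans hx.1).le, hx.2.le⟩
    refine pow_le_pow_left₀ (le_max_of_le_left (sqrt_nonneg _))
      (max_le (semi_le_shape h hs hx') ?_) _
    have ha : 0 ≤ (1 - x) / (1 - t) := div_nonneg (by linarith [hx.2]) (by linarith [ht.2])
    have hb : 0 ≤ (x - t) / (1 - t) := div_nonneg (by linarith [hx.1]) (by linarith [ht.2])
    have hne : (1 : ℝ) - t ≠ 0 := by linarith [ht.2]
    have hconv := h.conc.2 (x := t) ⟨by linarith [ht.1], ht.2.le⟩ (y := 1) ⟨by norm_num, le_rfl⟩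
      ha hb (by field_simp; ring)
    have ee : ((1 - x) / (1 - t)) • t + ((x - t) / (1 - t)) • (1 : ℝ) = x := by
      simp only [smul_eq_mul]; field_simp; ring
    rw [ee] at hconv
    have hf1 : 0 ≤ f 1 := by simpa using hs 1 ⟨by norm_num, le_rfl⟩
    rw [h.agree x hx.2, h.agree t ht.2]
    simp only [smul_eq_mul] at hconv
    have : 0 ≤ (x - t) / (1 - t) * f 1 := mul_nonneg hb hf1
    rw [mul_div_assoc, mul_comm]
    linarith

lemma den_pos (h : Shape F D) {t : ℝ} (ht : t ∈ Ioo (0 : ℝ) 1) : F t ≤ F t - t * D t := by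
  nlinarith [h.dnonpos t ht, ht.1]

lemma intA (h : CShape f F D) :
    IntegrableOn (fun t => F t ^ m * (D t ^ 2 / (F t - t * D t))) (Ioo 0 1) := by
  have hF0 : 0 < F 0 := h.shape.pos 0 ⟨le_rfl, zero_lt_one⟩
  have hF2 : 0 < F (1 / 2) := h.shape.pos _ ⟨by norm_num, by norm_num⟩
  obtain ⟨B, hB, hDB⟩ := h.D_bound (b := 1 / 2) (by norm_num)
  have hm : AEStronglyMeasurable D (volume.restrict (Ioo 0 1)) :=
    ((intervalIntegrable_iff_integrableOn_Ioo_of_le zero_le_one).1 h.shape.intD).1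
  have hc : AEStronglyMeasurable F (volume.restrict (Ioo 0 1)) :=
    (h.shape.cont.mono Ioo_subset_Icc_self).aestronglyMeasurable measurableSet_Ioo
  have hd : IntegrableOn (fun t => F 0 ^ m * (B ^ 2 / F (1 / 2) + 2 * |D t|)) (Ioo 0 1) :=
    (((integrableOn_const (by simp)).add
      ((((intervalIntegrable_iff_integrableOn_Ioo_of_le zero_le_one).1 h.shape.intD).abs).const_mul
        2)).const_mul _)
  refine hd.mono' ((hc.aemeasurable.pow_const m).mul ((hm.aemeasurable.pow_const 2).div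
    (hc.aemeasurable.sub (aemeasurable_id.mul hm.aemeasurable)))).aestronglyMeasurable ?_
  filter_upwards [self_mem_ae_restrict measurableSet_Ioo] with t ht
  have hFt := h.shape.pos t ⟨ht.1.le, ht.2⟩
  have hden := den_pos h.shape ht
  have hle : F t ≤ F 0 := h.shape.anti ⟨le_rfl, zero_le_one⟩ (Ioo_subset_Icc_self ht) ht.1.le
  have hd0 : 0 < F t - t * D t := hFt.trans_le hden
  rw [Real.norm_eq_abs, abs_of_nonneg (mul_nonneg (pow_nonneg hFt.le _)
    (div_nonneg (sq_nonneg _) hd0.le))]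
  refine mul_le_mul (pow_le_pow_left₀ hFt.le hle _) ?_ (div_nonneg (sq_nonneg _) hd0.le)
    (pow_nonneg hF0.le _)
  have hBF : 0 ≤ B ^ 2 / F (1 / 2) := div_nonneg (sq_nonneg _) hF2.le
  rcases le_or_gt t (1 / 2) with h2 | h2
  · have hq : F (1 / 2) ≤ F t :=
      h.shape.anti (Ioo_subset_Icc_self ht) ⟨by norm_num, by norm_num⟩ h2
    have : D t ^ 2 / (F t - t * D t) ≤ B ^ 2 / F (1 / 2) :=
      div_le_div₀ (sq_nonneg _) (by nlinarith [hDB t ht h2, abs_nonneg (D t), sq_abs (D t)]) hF2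
        (hq.trans hden)
    linarith [abs_nonneg (D t)]
  · have hneg := h.shape.dnonpos t ht
    have : D t ^ 2 / (F t - t * D t) ≤ 2 * |D t| := by
      rw [div_le_iff₀ hd0, abs_of_nonpos hneg]
      nlinarith
    linarith

lemma intB (hm : 1 ≤ m) (h : CShape f F D) :
    IntegrableOn (fun t => F t ^ m / (F t - t * D t)) (Ioo 0 1) := by
  obtain ⟨j, rfl⟩ := Nat.exists_eq_add_of_le hm
  have hmD : AEStronglyMeasurable D (volume.restrict (Ioo 0 1)) :=
    ((intervalIntegrable_iff_integrableOn_Ioo_of_le zero_le_one).1 h.shape.intD).1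
  have hc : AEStronglyMeasurable F (volume.restrict (Ioo 0 1)) :=
    (h.shape.cont.mono Ioo_subset_Icc_self).aestronglyMeasurable measurableSet_Ioo
  refine (integrableOn_const (C := F 0 ^ j) (by simp)).mono'
    ((hc.aemeasurable.pow_const _).div
      (hc.aemeasurable.sub (aemeasurable_id.mul hmD.aemeasurable))).aestronglyMeasurable ?_
  filter_upwards [self_mem_ae_restrict measurableSet_Ioo] with t ht
  have hFt := h.shape.pos t ⟨ht.1.le, ht.2⟩
  have hd0 : 0 < F t - t * D t := hFt.trans_le (den_pos h.shape ht)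
  have hle : F t ≤ F 0 := h.shape.anti ⟨le_rfl, zero_le_one⟩ (Ioo_subset_Icc_self ht) ht.1.le
  rw [Real.norm_eq_abs, abs_of_nonneg (div_nonneg (pow_nonneg hFt.le _) hd0.le),
    add_comm 1 j, pow_succ]
  calc F t ^ j * F t / (F t - t * D t) = F t ^ j * (F t / (F t - t * D t)) := by ring
    _ ≤ F 0 ^ j * 1 := mul_le_mul (pow_le_pow_left₀ hFt.le hle _)
        ((div_le_one hd0).2 (den_pos h.shape ht)) (div_nonneg hFt.le hd0.le)
        (pow_nonneg ((hFt.trans_le hle).le) _)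
    _ = _ := mul_one _

/-- The cost integral of a profile dominates the boundary values of a calibration. -/
theorem calibrated (hm : 1 ≤ m) (h : CShape f F D)
    (hs : ∀ t ∈ Icc (-1 : ℝ) 1, √(1 - t ^ 2) ≤ f t) {w ρ lam : ℝ} (Φ : ℝ × ℝ × ℝ → ℝ)
    (dΦ : ℝ × ℝ × ℝ → (ℝ × ℝ × ℝ →L[ℝ] ℝ))
    (hc : ContinuousOn Φ (Icc 0 1 ×ˢ Ici 0 ×ˢ univ))
    (hd : ∀ t y A, t ∈ Ioo (0 : ℝ) 1 → 0 < y → HasFDerivAt Φ (dΦ (t, y, A)) (t, y, A))
    (hle : ∀ t y d A, Adm m (∫ x in (0 : ℝ)..1, F x ^ (m + 1)) t y d A →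
      dΦ (t, y, A) (1, d, y ^ (m + 1)) ≤ cost m w ρ lam t y d) :
    Φ (1, F 1, ∫ x in (0 : ℝ)..1, F x ^ (m + 1)) - Φ (0, F 0, 0) ≤
      anum m F D - F 1 ^ (m + 1) - w * ((m : ℝ) + 1) * ρ ^ 2 * bnum m F D +
        lam * ∫ t in (0 : ℝ)..1, F t ^ m := by
  set A : ℝ → ℝ := fun t => ∫ x in (0 : ℝ)..t, F x ^ (m + 1) with hA
  have hAc : ContinuousOn A (Icc 0 1) :=
    (continuousOn_primitive_interval (a := (0 : ℝ)) (b := 1) (μ := volume)
      (by rw [uIcc_of_le zero_le_one]; exact ((h.shape.cont.pow _).integrableOn_Icc))).mono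
      (by rw [uIcc_of_le zero_le_one])
  have hPc : ContinuousOn (fun t => Φ (t, F t, A t)) (Icc 0 1) :=
    hc.comp (continuousOn_id.prodMk (h.shape.cont.prodMk hAc))
      fun t ht => ⟨ht, h.shape.nonneg ht, trivial⟩
  have hP : ∀ t ∈ Ioo (0 : ℝ) 1, HasDerivWithinAt (fun t => Φ (t, F t, A t))
      (dΦ (t, F t, A t) (1, D t, F t ^ (m + 1))) (Ioi t) t := by
    intro t ht
    have hcont : ContinuousAt (fun x => F x ^ (m + 1)) t :=
      ((h.shape.cont.continuousAt (Icc_mem_nhds ht.1 ht.2)).pow _)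
    have hA' : HasDerivAt A (F t ^ (m + 1)) t :=
      integral_hasDerivAt_right (moment_int h ⟨le_rfl, zero_le_one⟩ (Ioo_subset_Icc_self ht))
        (((h.shape.cont.mono Ioo_subset_Icc_self).pow _).stronglyMeasurableAtFilter isOpen_Ioo t ht)
        hcont
    exact (hd t (F t) (A t) ht (h.shape.pos t ⟨ht.1.le, ht.2⟩)).comp_hasDerivWithinAt t
      ((hasDerivWithinAt_id t _).prodMk ((h.shape.deriv t ht).prodMk hA'.hasDerivWithinAt))
  have iA := (intA (m := m) h).const_mul ((m : ℝ) + 1)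
  have iB := (intB hm h).const_mul (w * ((m : ℝ) + 1) * ρ ^ 2)
  have iC : IntegrableOn (fun t => lam * F t ^ m) (Ioo 0 1) :=
    ((((h.shape.cont.pow m).integrableOn_Icc).mono_set Ioo_subset_Icc_self).const_mul lam)
  have hint : IntegrableOn (fun t => cost m w ρ lam t (F t) (D t)) (Icc 0 1) := by
    rw [integrableOn_Icc_iff_integrableOn_Ioo]
    exact (iA.sub iB).add iC
  have key := sub_le_integral_of_hasDeriv_right_of_le (a := (0 : ℝ)) (b := 1) zero_le_one hPc hP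
    hint fun t ht => hle t (F t) (D t) (A t) (adm h hs ht)
  have e : ∫ t in (0 : ℝ)..1, cost m w ρ lam t (F t) (D t) =
      anum m F D - F 1 ^ (m + 1) - w * ((m : ℝ) + 1) * ρ ^ 2 * bnum m F D +
        lam * ∫ t in (0 : ℝ)..1, F t ^ m := by
    have ci := (intervalIntegrable_iff_integrableOn_Ioo_of_le (μ := volume) zero_le_one).2 iA
    have cb := (intervalIntegrable_iff_integrableOn_Ioo_of_le (μ := volume) zero_le_one).2 iB
    have cc := (intervalIntegrable_iff_integrableOn_Ioo_of_le (μ := volume) zero_le_one).2 iC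
    simp only [cost]
    rw [intervalIntegral.integral_add (ci.sub cb) cc, intervalIntegral.integral_sub ci cb]
    simp only [intervalIntegral.integral_const_mul, anum, bnum]
    ring
  rw [← e]
  simpa [hA] using key

/-- An upper bound for the projection moment from `N ≤ T`. -/
noncomputable def projBound (m : ℕ) (V : ℝ) : ℝ :=
  (profileConst m * (2 * V) ^ m) ^ (((m : ℝ) + 1)⁻¹) / 2

lemma proj_le (h : Shape F D)
    (hN : (2 * ∫ t in (0 : ℝ)..1, F t ^ m) ^ (m + 1) ≤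
      profileConst m * (2 * ∫ t in (0 : ℝ)..1, F t ^ (m + 1)) ^ m) :
    ∫ t in (0 : ℝ)..1, F t ^ m ≤ projBound m (∫ t in (0 : ℝ)..1, F t ^ (m + 1)) := by
  have h0 : 0 ≤ 2 * ∫ t in (0 : ℝ)..1, F t ^ m :=
    mul_nonneg zero_le_two (integral_nonneg zero_le_one fun t ht => pow_nonneg (h.nonneg ht) _)
  rw [projBound, le_div_iff₀ two_pos, mul_comm]
  calc 2 * ∫ t in (0 : ℝ)..1, F t ^ m
      = ((2 * ∫ t in (0 : ℝ)..1, F t ^ m) ^ (m + 1)) ^ (((m : ℝ) + 1)⁻¹) := by
        rw [← Real.rpow_natCast, ← Real.rpow_mul h0]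
        push_cast
        rw [mul_inv_cancel₀ (by positivity), Real.rpow_one]
    _ ≤ _ := Real.rpow_le_rpow (pow_nonneg h0 _) hN (by positivity)

/-- A calibration implies the one-profile inequality. -/
theorem profile_of_calibration (hm : 1 ≤ m) {V ρ w lam : ℝ} (h : CShape f F D)
    (hev : ∀ t, f (-t) = f t) (hs : ∀ t ∈ Icc (-1 : ℝ) 1, √(1 - t ^ 2) ≤ f t)
    (hVdef : ∫ t in (0 : ℝ)..1, F t ^ (m + 1) = V)
    (hN : (2 * ∫ t in (0 : ℝ)..1, F t ^ m) ^ (m + 1) ≤
      profileConst m * (2 * ∫ t in (0 : ℝ)..1, F t ^ (m + 1)) ^ m)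
    (Φ : ℝ × ℝ × ℝ → ℝ) (dΦ : ℝ × ℝ × ℝ → (ℝ × ℝ × ℝ →L[ℝ] ℝ))
    (hl : 0 ≤ lam) (hc : ContinuousOn Φ (Icc 0 1 ×ˢ Ici 0 ×ˢ univ))
    (hd : ∀ t y A, t ∈ Ioo (0 : ℝ) 1 → 0 < y → HasFDerivAt Φ (dΦ (t, y, A)) (t, y, A))
    (hle : ∀ t y d A, Adm m V t y d A →
      dΦ (t, y, A) (1, d, y ^ (m + 1)) ≤ cost m w ρ lam t y d)
    (hbd : ∀ y₀ y₁ : ℝ, 1 ≤ y₀ → 0 ≤ y₁ → y₁ ≤ y₀ → y₁ ^ (m + 1) ≤ V →
      V - w * ((m : ℝ) + 1) * V + lam * projBound m V ≤
          Φ (1, y₁, V) - Φ (0, y₀, 0) + y₁ ^ (m + 1) ∧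
        (semiMom m 1 < V → V - w * ((m : ℝ) + 1) * V + lam * projBound m V <
          Φ (1, y₁, V) - Φ (0, y₀, 0) + y₁ ^ (m + 1))) :
    w * ((m : ℝ) + 1) * (ρ ^ 2 * bnum m F D - V) + V - anum m F D ≤ 0 ∧
      (w * ((m : ℝ) + 1) * (ρ ^ 2 * bnum m F D - V) + V - anum m F D = 0 →
        ∀ t ∈ Ioo (-1 : ℝ) 1, f t ≤ √(1 - t ^ 2)) := by
  subst hVdef
  set V := ∫ t in (0 : ℝ)..1, F t ^ (m + 1) with hV
  have h0 : (0 : ℝ) ∈ Icc (0 : ℝ) 1 := ⟨le_rfl, zero_le_one⟩
  have h1 : (1 : ℝ) ∈ Icc (0 : ℝ) 1 := ⟨zero_le_one, le_rfl⟩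
  have hVs : semiMom m 1 ≤ V := semi_le_part h hs h0 h1 zero_le_one
  have key := calibrated hm h hs Φ dΦ hc hd hle
  have hp := mul_le_mul_of_nonneg_left (proj_le h.shape hN) hl
  rw [← hV] at hp key
  have hy1 : F 1 ^ (m + 1) ≤ V := by
    calc F 1 ^ (m + 1) = ∫ _t in (0 : ℝ)..1, F 1 ^ (m + 1) := by simp
      _ ≤ V := integral_mono_on zero_le_one intervalIntegrable_const (moment_int h h0 h1)
          fun x hx => pow_le_pow_left₀ h.shape.one_nonneg (h.shape.anti hx h1 hx.2) _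
  obtain ⟨b1, b2⟩ := hbd (F 0) (F 1) (by simpa using semi_le_shape h hs h0) h.shape.one_nonneg
    (h.shape.anti h0 h1 zero_le_one) hy1
  refine ⟨by linarith, fun heq t ht => ?_⟩
  rcases hVs.eq_or_lt with hb | hb
  · have main : ∀ x ∈ Ico (0 : ℝ) 1, f x ≤ √(1 - x ^ 2) := by
      intro x hx
      by_contra hlt
      push Not at hlt
      have hlt' : semiMom m 1 < V := by
        refine integral_lt_integral_of_continuousOn_of_le_of_exists_lt zero_lt_one (by fun_prop)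
          (h.shape.cont.pow _) (fun y hy => pow_le_pow_left₀ (sqrt_nonneg _)
            (semi_le_shape h hs (Ioc_subset_Icc_self hy)) _) ⟨x, Ico_subset_Icc_self hx, ?_⟩
        rw [h.agree x hx.2]
        exact pow_lt_pow_left₀ hlt (sqrt_nonneg _) (Nat.succ_ne_zero m)
      linarith
    rcases le_or_gt 0 t with h2 | h2
    · exact main t ⟨h2, ht.2⟩
    · rw [← hev t, ← neg_sq t]
      exact main (-t) ⟨by linarith, by linarith [ht.1]⟩
  · linarith [b2 hb]

/-- A calibration for every admissible moment `V`, strict off the semicircle. -/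
def Calibrated (m : ℕ) : Prop :=
  ∀ V ρ : ℝ, semiMom m 1 ≤ V → 0 < ρ →
    Statement.ballVol (m + 2) * ρ ^ (m + 2) = 2 * Statement.ballVol (m + 1) * V →
    2 * Statement.ballVol (m + 1) * V ≤ profileConst m ^ (m + 2) →
    ∃ (w lam : ℝ) (Φ : ℝ × ℝ × ℝ → ℝ) (dΦ : ℝ × ℝ × ℝ → (ℝ × ℝ × ℝ →L[ℝ] ℝ)),
      0 ≤ w ∧ 0 ≤ lam ∧ ContinuousOn Φ (Icc 0 1 ×ˢ Ici 0 ×ˢ univ) ∧
      (∀ t y A, t ∈ Ioo (0 : ℝ) 1 → 0 < y → HasFDerivAt Φ (dΦ (t, y, A)) (t, y, A)) ∧
      (∀ t y d A, Adm m V t y d A →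
        dΦ (t, y, A) (1, d, y ^ (m + 1)) ≤ cost m w ρ lam t y d) ∧
      ∀ y₀ y₁ : ℝ, 1 ≤ y₀ → 0 ≤ y₁ → y₁ ≤ y₀ → y₁ ^ (m + 1) ≤ V →
        V - w * ((m : ℝ) + 1) * V + lam * projBound m V ≤
            Φ (1, y₁, V) - Φ (0, y₀, 0) + y₁ ^ (m + 1) ∧
          (semiMom m 1 < V → V - w * ((m : ℝ) + 1) * V + lam * projBound m V <
            Φ (1, y₁, V) - Φ (0, y₀, 0) + y₁ ^ (m + 1))

/-- A calibration implies the step; the weight may depend on the volume. -/
theorem stepProp_of_calibrated (hm : 1 ≤ m) (h : Calibrated m) : StepProp m := by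
  refine stepProp_of_small hm fun P hsmall hP => ?_
  obtain ⟨k₀⟩ := P.exists_index
  have hκ : 0 < Statement.ballVol (m + 2) := ballVol_pos (m + 1)
  obtain ⟨ρ, hρ, hρv⟩ := exists_root (n := m + 2) (by omega)
    (V := (volume P.L).toReal / Statement.ballVol (m + 2)) (div_nonneg P.volume_pos.le hκ.le)
  have hρv' : Statement.ballVol (m + 2) * ρ ^ (m + 2) = (volume P.L).toReal := by
    rw [hρv, mul_div_cancel₀ _ hκ.ne']
  have hρ0 : 0 < ρ := by
    rcases hρ.eq_or_lt with h0 | h0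
    · rw [← h0, zero_pow (by omega : m + 2 ≠ 0), mul_zero] at hρv'
      exact absurd hρv'.symm P.volume_pos.ne'
    · exact h0
  set V := ∫ t in (0 : ℝ)..1, P.shape k₀ t ^ (m + 1) with hV
  have hmom : ∀ k, ∫ t in (0 : ℝ)..1, P.shape k t ^ (m + 1) = V := fun k => by
    have h1 := P.volume_eq k
    rw [P.volume_eq k₀, P.mom_shape, P.mom_shape] at h1
    have := mul_left_cancel₀ (ballVol_pos m).ne' h1
    rw [hV]; linarith
  have hvol : (volume P.L).toReal = 2 * Statement.ballVol (m + 1) * V := by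
    rw [P.volume_eq k₀, P.mom_shape, hV]; ring
  have hs₀ : semiMom m 1 ≤ V :=
    semi_le_part (P.cshape k₀) (fun t ht => P.semi_le_prof k₀ ht) ⟨le_rfl, zero_le_one⟩
      ⟨zero_le_one, le_rfl⟩ zero_le_one
  obtain ⟨w, lam, Φ, dΦ, hw, hl, hc, hd, hle, hbd⟩ :=
    h V ρ hs₀ hρ0 (by rw [hρv', hvol]) (by rw [← hvol]; exact hsmall)
  have key : ∀ k, _ := fun k => profile_of_calibration hm (P.cshape k) (P.prof_even k)
    (fun t ht => P.semi_le_prof k ht) (hmom k)
    (by rw [← P.mom_shape, ← P.mom_shape]; exact hP k) Φ dΦ hl hc hd hle hbd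
  have hA : ∑ k, P.c k * anum m (P.shape k) (P.slopeR k) ≤ ((m : ℝ) + 2) * V := P.anum_sum k₀
  have hB : 0 ≤ ∑ k, P.c k * (ρ ^ 2 * bnum m (P.shape k) (P.slopeR k) - V) :=
    P.bnum_sum hm hρ0 hρv' k₀
  set g : Fin P.M → ℝ := fun k => P.c k *
    (w * ((m : ℝ) + 1) * (ρ ^ 2 * bnum m (P.shape k) (P.slopeR k) - V) + V -
      anum m (P.shape k) (P.slopeR k)) with hg
  have hsum : ∑ k, g k = w * ((m : ℝ) + 1) *
      (∑ k, P.c k * (ρ ^ 2 * bnum m (P.shape k) (P.slopeR k) - V)) + ((m : ℝ) + 2) * V -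
      ∑ k, P.c k * anum m (P.shape k) (P.slopeR k) := by
    rw [Finset.mul_sum, ← P.csum, Finset.sum_mul, ← Finset.sum_add_distrib,
      ← Finset.sum_sub_distrib]
    exact Finset.sum_congr rfl fun k _ => by simp only [hg]; ring
  have hle : ∀ k, g k ≤ 0 := fun k => mul_nonpos_of_nonneg_of_nonpos (P.cpos k).le (key k).1
  have h0 : 0 ≤ ∑ k, g k := by
    rw [hsum]
    have : 0 ≤ w * ((m : ℝ) + 1) * ∑ k, P.c k * (ρ ^ 2 * bnum m (P.shape k) (P.slopeR k) - V) :=
      mul_nonneg (by positivity) hB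
    linarith
  have hz : g k₀ = 0 := (Finset.sum_eq_zero_iff_of_nonpos fun k _ => hle k).1
    (le_antisymm (Finset.sum_nonpos fun k _ => hle k) h0) k₀ (Finset.mem_univ k₀)
  exact ⟨k₀, (key k₀).2 ((mul_eq_zero.1 hz).resolve_left (P.cpos k₀).ne')⟩

/-- Calibrations in every dimension up to `n` give exact Petty with the equality case. -/
theorem petty_exact_of_calibrated (j : ℕ) (h : ∀ m, 2 ≤ m → m ≤ j + 1 → Calibrated m)
    (K : Set (Statement.Space (j + 3))) (hK : Statement.IsConvexBody K) :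
    Statement.pettyConst (j + 3) * Statement.vol K ^ (j + 2) ≤
        Statement.vol (Statement.projectionBody K) ∧
      (Statement.vol (Statement.projectionBody K) =
          Statement.pettyConst (j + 3) * Statement.vol K ^ (j + 2) ↔
        ∃ (a : Statement.Space (j + 3)) (T : Statement.Space (j + 3) →ₗ[ℝ] Statement.Space (j + 3)),
          Function.Injective T ∧ K = (fun x => a + T x) '' Metric.closedBall 0 1) :=
  petty_exact_upto j (fun m h1 h2 => stepProp_of_calibrated (by omega) (h m h1 h2)) K hK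

end Vale.Agent.P237.Cal
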