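import Vale.Agent.P237.Cal.ScalarFlatPoly

/-!
# P237: the scalar at `Q = 1` pays `3 u y/20 + 7 u²/2` and the discriminant, `u = 1 - exp (-y)`
-/

open Real

namespace Vale.Agent.P237.Cal.SF

/-- The slope bound at `Q = 1`, without its constant. -/
noncomputable def slopeB (y Z : ℝ) : ℝ := 8 * y + 97 / 10 * (1 - Z)

/-- The margin at `Q = 1` for `N = 100`, with `Z` in place of `exp (-y)`. -/
noncomputable def psi (y Z : ℝ) : ℝ :=
  phi y Z - y / 3 - 691 / 10000 * y -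
    (2 * (2267 / 10000) * slopeB y Z + slopeB y Z ^ 2) / 372 -
    3 / 20 * ((1 - Z) * y) - 7 / 2 * (1 - Z) ^ 2

lemma psi_mono {y Z L : ℝ} (hy : 0 ≤ y) (hL : 0 ≤ L) (h : L ≤ Z) (hZ : Z ≤ 1) :
    psi y L ≤ psi y Z := by
  have h1 := phi_mono hy hL h
  have hB : slopeB y Z ≤ slopeB y L := by simp only [slopeB]; linarith
  have hB0 : 0 ≤ slopeB y Z := by simp only [slopeB]; linarith
  have h2 := pow_le_pow_left₀ hB0 hB 2
  have h3 := pow_le_pow_left₀ (sub_nonneg.2 hZ) (by linarith : 1 - Z ≤ 1 - L) 2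
  have h4 := mul_le_mul_of_nonneg_right (by linarith : 1 - Z ≤ 1 - L) hy
  simp only [psi]
  linarith

/-- A tangent below `exp (-y)` on one segment. -/
lemma psi_seg {y E m : ℝ} (hE : 0 < E) (hm : exp m ≤ 1 / E) (hy : 0 ≤ y) (hy1 : y ≤ 1 + m)
    (h : 0 ≤ psi y (E * (1 + m - y))) : 0 ≤ psi y (exp (-y)) :=
  h.trans (psi_mono hy (mul_nonneg hE.le (by linarith)) (tangent_le_exp (le_exp_neg hE hm) hy1)
    (exp_le_one_iff.2 (neg_nonpos.2 hy)))

lemma exp_one_add {x b : ℝ} (hx : exp x ≤ b) : exp (1 + x) ≤ 2.7182818286 * b := by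
  rw [exp_add]
  exact mul_le_mul exp_one_lt_d9.le hx (exp_pos _).le (by norm_num)

/-- On `[0, 1]`. -/
lemma psi_small {y : ℝ} (h0 : 0 ≤ y) (h1 : y ≤ 1) : 0 ≤ psi y (exp (-y)) := by
  set L := 1 - y + y ^ 2 / 2 - y ^ 3 / 6 + y ^ 4 / 24 - y ^ 5 / 120 with hL
  have hL0 : 0 ≤ L := by
    have := mul_nonneg (pow_nonneg h0 2) (show (0 : ℝ) ≤ 1 / 2 - y / 6 by linarith)
    have := mul_nonneg (pow_nonneg h0 4) (show (0 : ℝ) ≤ 1 / 24 - y / 120 by linarith)
    rw [hL]; linarith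
  refine le_trans ?_ (psi_mono h0 hL0 (taylor_le_exp_neg h0 h1) (exp_le_one_iff.2 (neg_nonpos.2 h0)))
  have q7 : 0 ≤ 659 / 10000 + 27995 / 10000 * y - 64668 / 10000 * y ^ 2 + 71256 / 10000 * y ^ 3 -
      51124 / 10000 * y ^ 4 + 14971 / 10000 * y ^ 5 + 29 / 100 * y ^ 7 := by
    rcases le_or_gt y (1 / 2) with h | h
    · have := mul_nonneg h0 (mul_nonneg (sq_nonneg y) (show (0 : ℝ) ≤ 1 / 2 - y by linarith))
      have := mul_nonneg h0 (sq_nonneg (y - 7077 / 10000))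
      have := pow_nonneg h0 3
      have := pow_nonneg h0 5
      have := pow_nonneg h0 7
      linarith
    · nlinarith [mul_nonneg (sub_nonneg.2 h.le) (sub_nonneg.2 h1), sq_nonneg (y - 3 / 4),
        mul_nonneg (pow_nonneg h0 3) (sq_nonneg (1 - y)), mul_nonneg (pow_nonneg h0 2) (sq_nonneg (1 - y)),
        mul_nonneg (pow_nonneg h0 5) (sq_nonneg (1 - y))]
  have p6 := mul_nonneg (pow_nonneg h0 6) (show (0 : ℝ) ≤ 119605 / 100000 - 119605 / 100000 * y by linarith)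
  have p8 := mul_nonneg (pow_nonneg h0 8) (show (0 : ℝ) ≤ 11689 / 100000 - 11689 / 100000 * y by linarith)
  have p10 := mul_nonneg (pow_nonneg h0 10) (show (0 : ℝ) ≤ 45 / 10000 - 45 / 10000 * y by linarith)
  have := mul_nonneg h0 q7
  simp only [psi, slopeB, phi, hL]
  linarith [pow_nonneg h0 2, pow_nonneg h0 3, pow_nonneg h0 4, pow_nonneg h0 5, pow_nonneg h0 6,
    pow_nonneg h0 7, pow_nonneg h0 8, pow_nonneg h0 9, pow_nonneg h0 10, pow_nonneg h0 11,
    pow_nonneg h0 12]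

/-- On `[1, 9/2]`. -/
lemma psi_mid {y : ℝ} (h1 : 1 ≤ y) (h9 : y ≤ 9 / 2) : 0 ≤ psi y (exp (-y)) := by
  have e18 := exp_frac (1 / 8) (by norm_num) (by norm_num)
  have e14 := exp_frac (1 / 4) (by norm_num) (by norm_num)
  have e38 := exp_frac (3 / 8) (by norm_num) (by norm_num)
  have e58 := exp_frac (5 / 8) (by norm_num) (by norm_num)
  have e78 := exp_frac (7 / 8) (by norm_num) (by norm_num)
  have e34 := exp_frac (3 / 4) (by norm_num) (by norm_num)
  rcases le_or_gt y (5 / 4) with h | h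
  · refine psi_seg (E := 3246 / 10000) (m := 1 + 1 / 8) (by norm_num)
      ((exp_one_add e18).trans (by norm_num)) (by linarith) (by linarith) ?_
    simp only [psi, slopeB, phi]
    nlinarith [mul_nonneg (sub_nonneg.2 h1) (sub_nonneg.2 h),
      mul_nonneg (mul_nonneg (sub_nonneg.2 h1) (sub_nonneg.2 h)) (sub_nonneg.2 h1)]
  rcases le_or_gt y (3 / 2) with h2 | h2
  · refine psi_seg (E := 2528 / 10000) (m := 1 + 3 / 8) (by norm_num)
      ((exp_one_add e38).trans (by norm_num)) (by linarith) (by linarith) ?_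
    simp only [psi, slopeB, phi]
    nlinarith [mul_nonneg (sub_nonneg.2 h.le) (sub_nonneg.2 h2),
      mul_nonneg (mul_nonneg (sub_nonneg.2 h.le) (sub_nonneg.2 h2)) (sub_nonneg.2 h.le)]
  rcases le_or_gt y (7 / 4) with h3 | h3
  · refine psi_seg (E := 1968 / 10000) (m := 1 + 5 / 8) (by norm_num)
      ((exp_one_add e58).trans (by norm_num)) (by linarith) (by linarith) ?_
    simp only [psi, slopeB, phi]
    nlinarith [mul_nonneg (sub_nonneg.2 h2.le) (sub_nonneg.2 h3),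
      mul_nonneg (mul_nonneg (sub_nonneg.2 h2.le) (sub_nonneg.2 h3)) (sub_nonneg.2 h2.le)]
  rcases le_or_gt y 2 with h4 | h4
  · refine psi_seg (E := 1533 / 10000) (m := 1 + 7 / 8) (by norm_num)
      ((exp_one_add e78).trans (by norm_num)) (by linarith) (by linarith) ?_
    simp only [psi, slopeB, phi]
    nlinarith [mul_nonneg (sub_nonneg.2 h3.le) (sub_nonneg.2 h4),
      mul_nonneg (mul_nonneg (sub_nonneg.2 h3.le) (sub_nonneg.2 h4)) (sub_nonneg.2 h3.le)]
  rcases le_or_gt y (5 / 2) with h5 | h5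
  · refine psi_seg (E := 1053 / 10000) (m := 1 + (1 + 1 / 4)) (by norm_num)
      ((exp_one_add (exp_one_add e14)).trans (by norm_num)) (by linarith) (by linarith) ?_
    simp only [psi, slopeB, phi]
    nlinarith [mul_nonneg (sub_nonneg.2 h4.le) (sub_nonneg.2 h5),
      mul_nonneg (mul_nonneg (sub_nonneg.2 h4.le) (sub_nonneg.2 h5)) (sub_nonneg.2 h4.le)]
  rcases le_or_gt y 3 with h6 | h6
  · refine psi_seg (E := 639 / 10000) (m := 1 + (1 + 3 / 4)) (by norm_num)
      ((exp_one_add (exp_one_add e34)).trans (by norm_num)) (by linarith) (by linarith) ?_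
    simp only [psi, slopeB, phi]
    nlinarith [mul_nonneg (sub_nonneg.2 h5.le) (sub_nonneg.2 h6),
      mul_nonneg (mul_nonneg (sub_nonneg.2 h5.le) (sub_nonneg.2 h6)) (sub_nonneg.2 h5.le)]
  · refine psi_seg (E := 235 / 10000) (m := 1 + (1 + (1 + 3 / 4))) (by norm_num)
      ((exp_one_add (exp_one_add (exp_one_add e34))).trans (by norm_num)) (by linarith) (by linarith) ?_
    simp only [psi, slopeB, phi]
    nlinarith [mul_nonneg (sub_nonneg.2 h6.le) (sub_nonneg.2 h9),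
      mul_nonneg (mul_nonneg (sub_nonneg.2 h6.le) (sub_nonneg.2 h9)) (sub_nonneg.2 h6.le)]

/-- **The margin at `Q = 1` pays the discriminant, for every `N ≥ 100`.** -/
theorem margin_disc {N y : ℝ} (hN : 100 ≤ N) (hy0 : 0 ≤ y) (hs : 1 ≤ 5 * N * y)
    (hy1 : y ≤ 433 / 100 + N / 100) :
    (56 / 100 - 1 / 3 + slopeB y (exp (-y))) ^ 2 ≤ 372 / 100 * N *
      (phi y (exp (-y)) - y / 3 - 3 / 20 * ((1 - exp (-y)) * y) - 7 / 2 * (1 - exp (-y)) ^ 2) := by
  have hZ0 := exp_pos (-y)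
  have hZ1 : exp (-y) ≤ 1 := exp_le_one_iff.2 (neg_nonpos.2 hy0)
  set B := slopeB y (exp (-y)) with hB
  have hB0 : 0 ≤ B := by rw [hB, slopeB]; linarith
  set R := phi y (exp (-y)) - y / 3 - 3 / 20 * ((1 - exp (-y)) * y) -
    7 / 2 * (1 - exp (-y)) ^ 2 with hR
  have hN1 : 0 ≤ 372 / 100 * N := by linarith
  have hb0 : (56 / 100 - 1 / 3 + B) ^ 2 ≤
      (2267 / 10000) ^ 2 + (2 * (2267 / 10000) * B + B ^ 2) := by
    refine (pow_le_pow_left₀ (by linarith) (show 56 / 100 - 1 / 3 + B ≤ 2267 / 10000 + B by linarith) 2).trans_eq ?_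
    ring
  rcases le_or_gt y (9 / 2) with h | h
  · have hp : 0 ≤ psi y (exp (-y)) := by
      rcases le_or_gt y 1 with h1 | h1
      · exact psi_small hy0 h1
      · exact psi_mid h1.le h
    simp only [psi, ← hB] at hp
    have h2 := mul_le_mul_of_nonneg_left (show 691 / 10000 * y +
      (2 * (2267 / 10000) * B + B ^ 2) / 372 ≤ R by rw [hR]; linarith) hN1
    have h3 := mul_le_mul_of_nonneg_right hN (show 0 ≤ (2 * (2267 / 10000) * B + B ^ 2) by positivity)
    linarith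
  · have hR2 : 765 / 100 * y - 249 / 10 - 3 / 20 * y ≤ R := by
      have h1 := phi_mono hy0 le_rfl hZ0.le
      have h2 := mul_le_mul_of_nonneg_right (show 1 - exp (-y) ≤ 1 by linarith) hy0
      have h3 : (1 - exp (-y)) ^ 2 ≤ 1 := pow_le_one₀ (by linarith) (by linarith)
      have h4 : phi y 0 = 799 / 100 * y - 15 / 2 - 65 / 2 + 249 / 100 * (15 / 2) := by
        simp only [phi]; ring
      rw [hR]; linarith
    have hBu : B ≤ 8 * y + 97 / 10 := by rw [hB, slopeB]; linarith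
    have h5 := pow_le_pow_left₀ hB0 hBu 2
    have h6 := mul_le_mul_of_nonneg_left hy1 hy0
    have h7 := mul_le_mul_of_nonneg_left hR2 hN1
    nlinarith [mul_nonneg (sub_nonneg.2 hN) (sub_nonneg.2 h.le), hy1]

end Vale.Agent.P237.Cal.SF
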