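import Vale.Agent.P237.Cal.ScalarFlatCurv
import Vale.Agent.P237.Cal.ScalarFlatBeta

/-!
# P237: the closed scalar of the flattened field is at least `J/(3N)`, `N ≥ 100`

`J = y + log Q`. Expansion at `Q = 1` for `5 N y ≥ 1`, at `Q = exp (-y)` otherwise.
-/

open Real Set

namespace Vale.Agent.P237.Cal.SF

/-- Second order lower bound from the endpoint derivative. -/
lemma taylor_lower {f f' f'' : ℝ → ℝ} {a b c p x : ℝ} (hp : p ∈ Icc a b) (hx : x ∈ Icc a b)
    (h1 : ∀ t ∈ Icc a b, HasDerivAt f (f' t) t) (h2 : ∀ t ∈ Icc a b, HasDerivAt f' (f'' t) t)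
    (hc : ∀ t ∈ Icc a b, c ≤ f'' t) : f p + f' p * (x - p) + c / 2 * (x - p) ^ 2 ≤ f x := by
  have hmono : MonotoneOn (fun t => f' t - c * t) (Icc a b) := by
    refine monotoneOn_of_hasDerivWithinAt_nonneg (f' := fun t => f'' t - c) (convex_Icc a b)
      (fun t ht => ((h2 t ht).continuousAt.sub (by fun_prop)).continuousWithinAt) (fun t ht => ?_)
      (fun t ht => sub_nonneg.2 (hc t (interior_subset ht)))
    simpa using ((h2 t (interior_subset ht)).fun_sub ((hasDerivAt_id t).const_mul c)).hasDerivWithinAt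
  set F : ℝ → ℝ := fun t => f t - f' p * (t - p) - c / 2 * (t - p) ^ 2 with hF
  have hFd : ∀ t ∈ Icc a b, HasDerivAt F (f' t - f' p - c * (t - p)) t := fun t ht => by
    refine (((h1 t ht).fun_sub (((hasDerivAt_id t).sub_const p).const_mul (f' p))).fun_sub
      ((((hasDerivAt_id t).sub_const p).fun_pow 2).const_mul (c / 2))).congr_deriv ?_
    simp only [id_eq]; push_cast; ring
  have key : F p ≤ F x := by
    rcases le_total p x with h | h
    · exact monotoneOn_of_hasDerivWithinAt_nonneg (convex_Icc p b)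
        (fun t ht => (hFd t ⟨hp.1.trans ht.1, ht.2⟩).continuousAt.continuousWithinAt)
        (fun t ht => (hFd t ⟨hp.1.trans (interior_subset ht).1,
          (interior_subset ht).2⟩).hasDerivWithinAt)
        (fun t ht => by
          linarith [hmono hp ⟨hp.1.trans (interior_subset ht).1, (interior_subset ht).2⟩
            (interior_subset ht).1])
        (left_mem_Icc.2 hp.2) ⟨h, hx.2⟩ h
    · exact antitoneOn_of_hasDerivWithinAt_nonpos (convex_Icc a p)
        (fun t ht => (hFd t ⟨ht.1, ht.2.trans hp.2⟩).continuousAt.continuousWithinAt)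
        (fun t ht => (hFd t ⟨(interior_subset ht).1,
          (interior_subset ht).2.trans hp.2⟩).hasDerivWithinAt)
        (fun t ht => by
          linarith [hmono ⟨(interior_subset ht).1, (interior_subset ht).2.trans hp.2⟩ hp
            (interior_subset ht).2])
        ⟨hx.1, h⟩ (right_mem_Icc.2 hp.1) h
  simp only [hF, sub_self, mul_zero, zero_pow two_ne_zero, sub_zero] at key
  linarith

variable {N A y : ℝ}

/-- The gap `4 - ε` at `Q = 1`. -/
lemma eS_one (h : Par N A y) :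
    (4 - eS N y 1) * N * (N - 1) ≤ 8 * y ∧ 799 / 100 * y ≤ (4 - eS N y 1) * N * (N - 1) ∧
      (4 - eS N y 1) * N * 100 ≤ 9 * y ∧ 0 ≤ (4 - eS N y 1) * N ∧
      eS N y 1 ≤ 4 ∧ 399 / 100 ≤ eS N y 1 := by
  have hN := h.hN
  have hN0 : 0 < N := by linarith
  have hy := h.y0
  have hw0 := h.w0
  have hw1 := h.w_le
  set w := y / (N - 1) with hw
  have hwy : (N - 1) * w = y := mul_div_cancel₀ y (show N - 1 ≠ 0 by linarith)
  set e := eS N y 1 with he
  set δ := (4 - e) * N with hδ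
  have he1 : e = 4 * exp (-(2 * w / N)) := by
    simp only [he, eS, log_one, ← hw]; ring_nf
  have hd1 : δ ≤ 8 * w := by
    have := add_one_le_exp (-(2 * w / N))
    have hh : 2 * w / N * N = 2 * w := div_mul_cancel₀ _ hN0.ne'
    have := mul_le_mul_of_nonneg_right this hN0.le
    rw [hδ, he1]; linarith
  have hd2 : 799 / 100 * w ≤ δ := by
    have hh : 2 * w / N * N = 2 * w := div_mul_cancel₀ _ hN0.ne'
    have h1 := add_one_le_exp (2 * w / N)
    have h2 : exp (-(2 * w / N)) * (1 + 2 * w / N) ≤ 1 := by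
      refine (mul_le_mul_of_nonneg_left (by linarith : 1 + 2 * w / N ≤ exp (2 * w / N)) (exp_pos _).le).trans ?_
      rw [← exp_add]; simp
    have h3 : 2 * w / N ≤ 108 / 100000 := by rw [div_le_iff₀ hN0]; linarith
    have h4 := mul_le_mul_of_nonneg_left h2 (by positivity : (0 : ℝ) ≤ 4 * N)
    have h5 := mul_le_mul_of_nonneg_left (show 4 - e ≥ 0 by
      rw [he1]; linarith [exp_le_one_iff.2 (show -(2 * w / N) ≤ 0 by
        rw [neg_nonpos]; positivity)]) hN0.le
    have h6 := mul_le_mul_of_nonneg_right h3 (show 0 ≤ δ by rw [hδ]; linarith)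
    rw [hδ, he1] at h6 ⊢
    linarith
  have hdy : δ * (N - 1) ≤ 8 * y ∧ 799 / 100 * y ≤ δ * (N - 1) := by
    constructor
    · have := mul_le_mul_of_nonneg_right hd1 (show 0 ≤ N - 1 by linarith); linarith
    · have := mul_le_mul_of_nonneg_right hd2 (show 0 ≤ N - 1 by linarith); linarith
  have hδ0 : 0 ≤ δ := le_trans (by positivity) hd2
  have he4 : e ≤ 4 := by
    by_contra hc
    have := mul_neg_of_neg_of_pos (show 4 - e < 0 by linarith [not_le.1 hc]) hN0
    linarith
  have he3 : 399 / 100 ≤ e := by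
    by_contra hc
    have := mul_lt_mul_of_pos_right (show 1 / 100 < 4 - e by linarith [not_le.1 hc]) hN0
    linarith
  refine ⟨hdy.1, hdy.2, ?_, hδ0, he4, he3⟩
  have h9 := mul_le_mul_of_nonneg_right (show 99 ≤ N - 1 by linarith) hw0
  linarith

/-- The terms at `Q = 1`. -/
lemma one_eq (_hN : 100 ≤ N) :
    MS N A y 1 = G N A y - (N - 1) ∧ gS N y 1 = (1 - exp (-y)) / 2 * NI N y / N ∧ qb N 1 = 1 := by
  have hq : qb N 1 = 1 := by simp [qb]
  refine ⟨?_, ?_, hq⟩
  · simp only [MS, G, hq]; ring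
  · simp only [gS]; ring

/-- The value at `Q = 1`. -/
lemma tot_one (h : Par N A y) : phi y (exp (-y)) ≤ N * tot N A y 1 := by
  obtain ⟨hG1, hG2⟩ := G_bounds h
  obtain ⟨hI1, hI2⟩ := NI_bounds h
  have hI0 := NI_nonneg h
  obtain ⟨hM, hg, hq⟩ := one_eq (A := A) (y := y) h.hN
  obtain ⟨hd1, hd2, hd3, hδ0, he4, he3⟩ := eS_one h
  have hN := h.hN
  have hN0 : 0 < N := by linarith
  have hy := h.y0
  have hu0 : 0 ≤ 1 - exp (-y) := by linarith [exp_le_one_iff.2 (neg_nonpos.2 hy)]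
  set e := eS N y 1 with he
  set δ := (4 - e) * N with hδ
  set g := (1 - exp (-y)) / 2 * NI N y with hgd
  have hg0 : 0 ≤ g := mul_nonneg (by linarith) hI0
  have e1 : N * tot N A y 1 = δ * (N - 1) + (1 + e) * (N * G N A y) + (1 + e) * g := by
    simp only [tot, hM, hg, ← he, hδ]; field_simp; ring
  rw [e1]
  have a1 := mul_le_mul_of_nonpos_right (show 1 + e ≤ 5 by linarith)
    (mul_nonpos_of_nonneg_of_nonpos hN0.le hG2)
  have a2 := mul_le_mul_of_nonneg_right (show 499 / 100 ≤ 1 + e by linarith) hg0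
  have a3 := mul_le_mul_of_nonneg_left hI1 (show 0 ≤ 249 / 100 * (1 - exp (-y)) by positivity)
  have a4 := mul_le_mul_of_nonneg_right (show (498 : ℝ) / 100 ≤ 499 / 100 by norm_num) hg0
  simp only [phi]
  linarith [hgd]

lemma totD_one_eq (h : Par N A y) :
    N * totD N A y 1 = 5 * (N * (A - (N + 1))) + 8 +
        (4 - eS N y 1) * N * (N - 1 - (A - (N + 1)) - 2 / N) +
        2 * eS N y 1 * (G N A y + (1 - exp (-y)) / 2 * NI N y / N) +
        (1 + eS N y 1) * ((1 - exp (-y)) / 2 * (15 / 4)) := by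
  obtain ⟨hM, hg, hq⟩ := one_eq (A := A) (y := y) h.hN
  have : N ≠ 0 := by linarith [h.hN]
  simp only [totD, dB, hM, hg, hq]
  field_simp
  ring

/-- The slope at `Q = 1`, from below. -/
lemma totD_one_low (h : Par N A y) : 1 / 2 ≤ N * totD N A y 1 := by
  obtain ⟨hG1, hG2⟩ := G_bounds h
  obtain ⟨hI1, hI2⟩ := NI_bounds h
  have hI0 := NI_nonneg h
  obtain ⟨hM, hg, hq⟩ := one_eq (A := A) (y := y) h.hN
  obtain ⟨hd1, hd2, hd3, hδ0, he4, he3⟩ := eS_one h
  have hN := h.hN
  have hN0 : 0 < N := by linarith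
  have hy := h.y0
  have hu0 : 0 ≤ 1 - exp (-y) := by linarith [exp_le_one_iff.2 (neg_nonpos.2 hy)]
  set e := eS N y 1 with he
  set δ := (4 - e) * N with hδ
  set g := (1 - exp (-y)) / 2 * NI N y with hgd
  have hg0 : 0 ≤ g := mul_nonneg (by linarith) hI0
  rw [totD_one_eq h, ← he, ← hgd]
  have hA1 := h.hA2
  have b0 : N - 1 - 1 / 100 ≤ N - 1 - (A - (N + 1)) - 2 / N := by
    have : 2 / N ≤ 2 / 100 := div_le_div_of_nonneg_left (by norm_num) (by norm_num) hN
    have : A - (N + 1) ≤ -(372 / 250) / N := by rw [le_div_iff₀ hN0]; linarith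
    have : 2 / N + -(372 / 250) / N = 512 / 1000 / N := by ring
    have : 512 / 1000 / N ≤ 1 / 100 := by rw [div_le_iff₀ hN0]; linarith
    linarith
  have b1 := mul_le_mul_of_nonneg_left b0 hδ0
  have b2 : -(8 * (8 * (1 - exp (-y))) / 100) ≤ 2 * e * G N A y := by
    have hP : 2 - exp (-y) * (y ^ 2 + 2 * y + 2) ≤ 2 * (1 - exp (-y)) := by
      have : 0 ≤ exp (-y) * (y ^ 2 + 2 * y) := by positivity
      linarith
    have c1 : -(8 * (1 - exp (-y))) ≤ N * G N A y := by linarith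
    have c2 : -(8 * (1 - exp (-y))) / 100 ≤ G N A y := by
      rw [div_le_iff₀ (by norm_num)]
      nlinarith [mul_nonpos_of_nonneg_of_nonpos (show 0 ≤ N - 100 by linarith) hG2]
    have c3 := mul_le_mul_of_nonpos_right (show 2 * e ≤ 8 by linarith) hG2
    linarith
  have b3 : 1 - exp (-y) ≤ y := by linarith [add_one_le_exp (-y)]
  have b4 : 0 ≤ 2 * e * (g / N) := by positivity
  have b5 : 0 ≤ (1 + e) * ((1 - exp (-y)) / 2 * (15 / 4)) := by positivity
  have := h.hA1
  linarith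

/-- The slope at `Q = 1`, from above. -/
lemma totD_one_up (h : Par N A y) :
    N * totD N A y 1 ≤ 56 / 100 + 8 * y + 97 / 10 * (1 - exp (-y)) := by
  obtain ⟨hG1, hG2⟩ := G_bounds h
  obtain ⟨hI1, hI2⟩ := NI_bounds h
  have hI0 := NI_nonneg h
  obtain ⟨hM, hg, hq⟩ := one_eq (A := A) (y := y) h.hN
  obtain ⟨hd1, hd2, hd3, hδ0, he4, he3⟩ := eS_one h
  have hN := h.hN
  have hN0 : 0 < N := by linarith
  have hy := h.y0
  have hu0 : 0 ≤ 1 - exp (-y) := by linarith [exp_le_one_iff.2 (neg_nonpos.2 hy)]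
  set e := eS N y 1 with he
  set δ := (4 - e) * N with hδ
  set g := (1 - exp (-y)) / 2 * NI N y with hgd
  have hg0 : 0 ≤ g := mul_nonneg (by linarith) hI0
  rw [totD_one_eq h, ← he, ← hgd]
  have hA2 := h.hA2
  have b0 : N - 1 - (A - (N + 1)) - 2 / N ≤ N - 1 := by
    have : -(2 / N) ≤ A - (N + 1) := by
      rw [← neg_div, div_le_iff₀ hN0]; linarith [h.hA1]
    linarith
  have b1 := mul_le_mul_of_nonneg_left b0 hδ0
  have b2 : 2 * e * G N A y ≤ 0 := mul_nonpos_of_nonneg_of_nonpos (by linarith) hG2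
  have b3 : g / N ≤ (1 - exp (-y)) / 2 * (758 / 10000) := by
    rw [div_le_iff₀ hN0, hgd]
    have c1 := mul_le_mul_of_nonneg_left hI2 (show 0 ≤ (1 - exp (-y)) / 2 by linarith)
    have c2 := exp_pos (-y)
    have c3 : (1 - exp (-y)) / 2 * (758 / 100) * (1 - exp (-y)) ≤ (1 - exp (-y)) / 2 * (758 / 100) :=
      mul_le_of_le_one_right (by positivity) (by linarith)
    have c4 := mul_le_mul_of_nonneg_left hN (show 0 ≤ (1 - exp (-y)) / 2 * (758 / 10000) by positivity)
    linarith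
  have b4 := mul_le_mul (show 2 * e ≤ 8 by linarith) b3 (by positivity) (by norm_num)
  have b5 := mul_le_mul_of_nonneg_right (show 1 + e ≤ 5 by linarith)
    (show 0 ≤ (1 - exp (-y)) / 2 * (15 / 4) by positivity)
  linarith


/-- The value at `Q = exp (-y)` for small `y`. -/
lemma tot_low (h : Par N A y) (hs : 5 * N * y ≤ 1) :
    93 / 100 * y ^ 2 ≤ tot N A y (exp (-y)) := by
  obtain ⟨hAl, hAu⟩ := h.A_bounds
  obtain ⟨hI1, -⟩ := NI_bounds h
  have hI0 := NI_nonneg h
  obtain ⟨hY1, hY2, hv1, hv2, -⟩ := exp_two_bounds h.w0 h.w_le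
  have hN := h.hN
  have hN0 : 0 < N := by linarith
  have hy := h.y0
  have hy2 : y ≤ 1 / 500 := by nlinarith
  have hw0 := h.w0
  set w := y / (N - 1) with hw
  have hwy : (N - 1) * w = y := mul_div_cancel₀ y (show N - 1 ≠ 0 by linarith)
  have hw1 : w ≤ 1 / 40000 := by rw [hw, div_le_iff₀ (by linarith)]; linarith
  set Z := exp (-y) with hZ
  have hZ0 : 0 < Z := exp_pos _
  have hZ1 : 1 - y ≤ Z := by linarith [add_one_le_exp (-y)]
  have hZ2 : Z ≤ 1 := exp_le_one_iff.2 (neg_nonpos.2 hy)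
  have hq : qb N Z = Z * exp w := by
    rw [qb, hZ, log_exp, ← exp_add, hw]; congr 1
    field_simp [show N - 1 ≠ 0 by linarith]; ring
  set v := exp (-(2 * w)) with hv
  have he : eS N y Z = 4 * v := by
    rw [eS, hZ, log_exp, hv, ← hw, ← hwy]; congr 2
    field_simp; ring
  have hM : MS N A y Z = -((N - 1) * Z * (2 - v)) := by
    simp only [MS, hq, ← hw, ← hv, ← hZ]; ring
  have hv0 : 0 ≤ v := (exp_pos _).le
  have hv3 : v ≤ 1 := exp_le_one_iff.2 (by linarith)
  set g := (1 - Z) / 2 * (NI N y - 15 / 4 * (1 - Z)) with hgd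
  have hg : gS N y Z = g / N := by rw [hgd]; simp only [gS, ← hZ]; ring
  have hZy : Z * (1 + y + y ^ 2 / 2) ≤ 1 := by
    have h1 := mul_le_mul_of_nonneg_left (quadratic_le_exp_of_nonneg hy) hZ0.le
    rwa [hZ, ← exp_add, neg_add_cancel, exp_zero] at h1
  have hg0 : -(117 / 100 * y ^ 2) ≤ g := by
    have h1 : -(234 / 100 * y) ≤ NI N y - 15 / 4 * (1 - Z) := by
      have h2 := mul_le_mul_of_nonneg_right hy2 hy
      have h3 := mul_le_mul_of_nonneg_right hZ2 hy
      have h4 := mul_le_mul_of_nonneg_right hZ2 (sq_nonneg y)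
      linarith
    have h5 := mul_le_mul_of_nonneg_left h1 (show 0 ≤ (1 - Z) / 2 by linarith)
    have h6 := mul_le_mul_of_nonneg_right (show (1 - Z) / 2 ≤ y / 2 by linarith)
      (show 0 ≤ 234 / 100 * y by positivity)
    rw [hgd]; linarith
  have e1 : tot N A y Z = 4 * Z * (N - 1) * (1 - v) ^ 2 - Z * ((N - 1) * (1 - v)) +
      2 * (1 - Z) + (1 + 4 * v) * (g / N) := by
    simp only [tot, he, hM, hg]; ring
  have a1 : 0 ≤ 4 * Z * (N - 1) * (1 - v) ^ 2 := by
    have : 0 ≤ N - 1 := by linarith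
    positivity
  have a2 : Z * ((N - 1) * (1 - v)) ≤ Z * (2 * y) := by
    refine mul_le_mul_of_nonneg_left ?_ hZ0.le
    have := mul_le_mul_of_nonneg_left (show 1 - v ≤ 2 * w by linarith) (show 0 ≤ N - 1 by linarith)
    linarith
  have a3 : -(117 / 100 * y ^ 2) / 100 * 5 ≤ (1 + 4 * v) * (g / N) := by
    have b1 : -(117 / 100 * y ^ 2) / 100 ≤ g / N :=
      calc -(117 / 100 * y ^ 2) / 100 ≤ -(117 / 100 * y ^ 2) / N := by
            rw [neg_div, neg_div, neg_le_neg_iff]
            exact div_le_div_of_nonneg_left (by positivity) (by norm_num) hN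
        _ ≤ g / N := div_le_div_of_nonneg_right hg0 hN0.le
    have b2 := mul_le_mul_of_nonneg_left b1 (show 0 ≤ 1 + 4 * v by linarith)
    have b3 := mul_le_mul_of_nonneg_right (show 1 + 4 * v ≤ 5 by linarith)
      (show 0 ≤ 117 / 100 * y ^ 2 / 100 by positivity)
    linarith
  have a4 := mul_le_mul_of_nonneg_right hZ1 (sq_nonneg y)
  have a5 := mul_le_mul_of_nonneg_right hy2 (sq_nonneg y)
  rw [e1]
  linarith [sq_nonneg y]

/-- The slope at `Q = exp (-y)` for small `y`. -/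
lemma totD_low (h : Par N A y) (hs : 5 * N * y ≤ 1) :
    1 / 2 - 12 / 5 * (N * y) ≤ N * totD N A y (exp (-y)) := by
  obtain ⟨hAl, hAu⟩ := h.A_bounds
  obtain ⟨hI1, -⟩ := NI_bounds h
  have hI0 := NI_nonneg h
  obtain ⟨hY1, hY2, hv1, hv2, -⟩ := exp_two_bounds h.w0 h.w_le
  have hN := h.hN
  have hN0 : 0 < N := by linarith
  have hy := h.y0
  have hy2 : y ≤ 1 / 500 := by nlinarith
  have hw0 := h.w0
  set w := y / (N - 1) with hw
  have hwy : (N - 1) * w = y := mul_div_cancel₀ y (show N - 1 ≠ 0 by linarith)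
  have hw1 : w ≤ 1 / 40000 := by rw [hw, div_le_iff₀ (by linarith)]; linarith
  set Z := exp (-y) with hZ
  have hZ0 : 0 < Z := exp_pos _
  have hZ1 : 1 - y ≤ Z := by linarith [add_one_le_exp (-y)]
  have hZ2 : Z ≤ 1 := exp_le_one_iff.2 (neg_nonpos.2 hy)
  have hq : qb N Z = Z * exp w := by
    rw [qb, hZ, log_exp, ← exp_add, hw]; congr 1
    field_simp [show N - 1 ≠ 0 by linarith]; ring
  set v := exp (-(2 * w)) with hv
  have he : eS N y Z = 4 * v := by
    rw [eS, hZ, log_exp, hv, ← hw, ← hwy]; congr 2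
    field_simp; ring
  have hM : MS N A y Z = -((N - 1) * Z * (2 - v)) := by
    simp only [MS, hq, ← hw, ← hv, ← hZ]; ring
  have hv0 : 0 ≤ v := (exp_pos _).le
  have hv3 : v ≤ 1 := exp_le_one_iff.2 (by linarith)
  set g := (1 - Z) / 2 * (NI N y - 15 / 4 * (1 - Z)) with hgd
  have hg : gS N y Z = g / N := by rw [hgd]; simp only [gS, ← hZ]; ring
  have hZy : Z * (1 + y + y ^ 2 / 2) ≤ 1 := by
    have h1 := mul_le_mul_of_nonneg_left (quadratic_le_exp_of_nonneg hy) hZ0.le
    rwa [hZ, ← exp_add, neg_add_cancel, exp_zero] at h1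
  have hg0 : -(117 / 100 * y ^ 2) ≤ g := by
    have h1 : -(234 / 100 * y) ≤ NI N y - 15 / 4 * (1 - Z) := by
      have h2 := mul_le_mul_of_nonneg_right hy2 hy
      have h3 := mul_le_mul_of_nonneg_right hZ2 hy
      have h4 := mul_le_mul_of_nonneg_right hZ2 (sq_nonneg y)
      linarith
    have h5 := mul_le_mul_of_nonneg_left h1 (show 0 ≤ (1 - Z) / 2 by linarith)
    have h6 := mul_le_mul_of_nonneg_right (show (1 - Z) / 2 ≤ y / 2 by linarith)
      (show 0 ≤ 234 / 100 * y by positivity)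
    rw [hgd]; linarith
  have hdB : dB N A y Z = A * (3 - 2 * exp w) - 2 * (N - 1) + (1 - Z) / 2 * (15 / 4 / N) := by
    simp only [dB, hq, ← hZ]; field_simp
  have e1 : N * totD N A y Z = 5 * (N * (A - (N + 1))) + 8 + 8 * (N - 1) * (1 - v) ^ 2 +
      4 * (N * (1 - v)) * (N - 3 - (A - (N + 1))) -
      2 * N * A * (1 + 4 * v) * (exp w - 1) + 8 * v * (g / N / Z) +
      (1 + 4 * v) * ((1 - Z) / 2 * (15 / 4)) := by
    simp only [totD, he, hM, hg, hdB]; field_simp; ring
  have a1 : 0 ≤ 8 * (N - 1) * (1 - v) ^ 2 := by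
    have : 0 ≤ N - 1 := by linarith
    positivity
  have a2 : 4 * (N * (2 * w * (1 - 1 / 40000))) * (N - 3) ≤
      4 * (N * (1 - v)) * (N - 3 - (A - (N + 1))) := by
    have : 2 * w * (1 - 1 / 40000) ≤ 1 - v := by
      have := mul_le_mul_of_nonneg_left hw1 hw0
      linarith
    have h1 := mul_le_mul_of_nonneg_left this (show 0 ≤ 4 * N by linarith)
    have h2 : 0 ≤ N - 3 - (A - (N + 1)) - (N - 3) := by linarith
    have h3 := mul_nonneg (show 0 ≤ 4 * (N * (1 - v)) by
      have : 0 ≤ 1 - v := by linarith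
      positivity) h2
    have h4 := mul_le_mul_of_nonneg_right h1 (show 0 ≤ N - 3 by linarith)
    linarith
  have a3 : 2 * N * A * (1 + 4 * v) * (exp w - 1) ≤ 2 * N * (N + 1) * 5 * (w * (1001 / 1000)) := by
    have : exp w - 1 ≤ w * (1001 / 1000) := by
      have := mul_le_mul_of_nonneg_left hw1 hw0
      linarith
    gcongr
    · linarith [add_one_le_exp w]
    · linarith
  have a4 : -(N * y / 1000) ≤ 8 * v * (g / N / Z) := by
    have b1 : -(117 / 100 * y ^ 2) / N / (499 / 500) ≤ g / N / Z := by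
      calc -(117 / 100 * y ^ 2) / N / (499 / 500) ≤ -(117 / 100 * y ^ 2) / N / Z := by
            rw [neg_div, neg_div, neg_div, neg_le_neg_iff]
            exact div_le_div_of_nonneg_left (by positivity) (by norm_num) (by linarith)
        _ ≤ g / N / Z := div_le_div_of_nonneg_right (div_le_div_of_nonneg_right hg0 hN0.le) hZ0.le
    have b2 := mul_le_mul_of_nonneg_left b1 (show 0 ≤ 8 * v by linarith)
    have b3 : 117 / 100 * y ^ 2 / N / (499 / 500) ≤ N * y / 8000 := by
      rw [div_le_iff₀ (by norm_num), div_le_iff₀ hN0]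
      have c1 := mul_le_mul_of_nonneg_right hy2 hy
      have c2 := mul_le_mul_of_nonneg_right (mul_le_mul hN hN (by norm_num) hN0.le) hy
      linarith only [c1, c2, hy]
    have b4 := mul_le_mul (show 8 * v ≤ 8 by linarith) b3 (by positivity) (by norm_num)
    refine le_trans ?_ b2
    rw [neg_div, neg_div, mul_neg, neg_le_neg_iff]
    exact b4.trans_eq (by ring)
  have a5 : 0 ≤ (1 + 4 * v) * ((1 - Z) / 2 * (15 / 4)) := by
    have : 0 ≤ 1 - Z := by linarith
    positivity
  have a6 : 2 * N * (N + 1) * 5 * (w * (1001 / 1000)) - 4 * (N * (2 * w * (1 - 1 / 40000))) * (N - 3) ≤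
      2399 / 1000 * (N * y) := by
    rw [← hwy]
    have : 10 * (1001 / 1000) * (N + 1) - 8 * (1 - 1 / 40000) * (N - 3) ≤ 2399 / 1000 * (N - 1) := by
      linarith
    have := mul_le_mul_of_nonneg_left this (mul_nonneg hN0.le hw0)
    linarith only [this]
  have a7 := h.hA1
  rw [e1]
  linarith only [a1, a2, a3, a4, a5, a6, a7, mul_nonneg hN0.le hy]


/-- The value at `Q = 1` exceeds `(y/3 + 3 u y/20 + 7 u²/2)/N`. -/
lemma phi_margin (hN : 100 ≤ N) (h : Par N A y) :
    y / 3 + 3 / 20 * ((1 - exp (-y)) * y) + 7 / 2 * (1 - exp (-y)) ^ 2 ≤ phi y (exp (-y)) := by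
  have hy := h.y0
  rcases le_or_gt 1 (5 * N * y) with hs | hs
  · have h1 := margin_disc hN hy hs h.y_le
    have h2 : 0 ≤ 372 / 100 * N * (phi y (exp (-y)) - y / 3 - 3 / 20 * ((1 - exp (-y)) * y) -
        7 / 2 * (1 - exp (-y)) ^ 2) := le_trans (sq_nonneg _) h1
    linarith [nonneg_of_mul_nonneg_right h2 (by linarith)]
  · have hy2 : y ≤ 1 / 20 := by nlinarith
    have h1 := (phi_small hy (by linarith)).2 hy2
    have hu : 1 - exp (-y) ≤ y := by linarith [add_one_le_exp (-y)]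
    have hu0 : 0 ≤ 1 - exp (-y) := by linarith [exp_le_one_iff.2 (neg_nonpos.2 hy)]
    have h2 := pow_le_pow_left₀ hu0 hu 2
    have h3 := mul_le_mul_of_nonneg_right hu hy
    linarith [sq_nonneg y]

/-- **The closed scalar of the flattened field**: at least
`log q/(3N) + 22 (Q-1)²/N + 3 u y/(20 N) + 7 u²/(2 N)`, `u = 1 - exp (-y)`, `q = exp y · Q`. -/
theorem tot_ge (h : Par N A y) {Q : ℝ} (hQ : exp (-y) ≤ Q) (hQ1 : Q ≤ 83 / 50) :
    (y + log Q) / (3 * N) + 22 / N * (Q - 1) ^ 2 + 3 / 20 / N * ((1 - exp (-y)) * y) +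
        7 / 2 / N * (1 - exp (-y)) ^ 2 ≤ tot N A y Q := by
  have hN := h.hN
  have hN0 : 0 < N := by linarith
  have hy := h.y0
  set Z := exp (-y) with hZ
  have hZ0 : 0 < Z := exp_pos _
  have hZ1 : Z ≤ 1 := exp_le_one_iff.2 (neg_nonpos.2 hy)
  have hQ0 : 0 < Q := hZ0.trans_le hQ
  have hl := log_le_sub_one_of_pos hQ0
  have f1 := tot_one h
  have d1 := totD_one_low h
  have d2 := totD_one_up h
  have hsl : 0 ≤ (1 - Z) * y := mul_nonneg (by linarith) hy
  have hphi := phi_margin hN h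
  rw [← hZ] at hphi
  rw [show (y + log Q) / (3 * N) + 22 / N * (Q - 1) ^ 2 + 3 / 20 / N * ((1 - Z) * y) +
      7 / 2 / N * (1 - Z) ^ 2 =
    (y + log Q + 66 * (Q - 1) ^ 2 + 9 / 20 * ((1 - Z) * y) + 21 / 2 * (1 - Z) ^ 2) / (3 * N) by
      field_simp; ring,
    div_le_iff₀ (by positivity)]
  rcases le_or_gt 1 Q with h1 | h1
  · have ht := taylor_lower (f := tot N A y) (f' := totD N A y) (f'' := totDD N A y) (c := 44 / 100)
      (left_mem_Icc.2 (by norm_num : (1 : ℝ) ≤ 83 / 50)) ⟨h1, hQ1⟩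
      (fun t ht => hasDerivAt_tot hN (one_pos.trans_le ht.1))
      (fun t ht => hasDerivAt_totD hN (one_pos.trans_le ht.1))
      (fun t ht => by
        have hc := curvature h (hZ1.trans ht.1) ht.2
        have h3 : 44 / 100 * t ^ 2 ≤ t ^ 2 * totDD N A y t := by
          have : 42 / N ^ 2 ≤ 1 / 200 := by rw [div_le_iff₀ (by positivity)]; nlinarith
          nlinarith [ht.1, ht.2]
        exact le_of_mul_le_mul_left (by linarith) (pow_pos (one_pos.trans_le ht.1) 2))
    have h5 := mul_le_mul_of_nonneg_right d1 (sub_nonneg.2 h1)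
    have h6 := mul_le_mul_of_nonneg_left ht (show 0 ≤ 3 * N by linarith)
    have h7 := mul_le_mul_of_nonneg_right hN (sq_nonneg (Q - 1))
    linarith
  have hcur : ∀ t ∈ Icc Z (1 : ℝ), 2 + 30 / N ≤ totDD N A y t := fun t ht =>
    le_of_mul_le_mul_left (by linarith [curvature_low h ht.1 ht.2])
      (pow_pos (hZ0.trans_le ht.1) 2)
  have hd : ∀ t ∈ Icc Z (1 : ℝ), HasDerivAt (tot N A y) (totD N A y t) t :=
    fun t ht => hasDerivAt_tot hN (hZ0.trans_le ht.1)
  have hdd : ∀ t ∈ Icc Z (1 : ℝ), HasDerivAt (totD N A y) (totDD N A y t) t :=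
    fun t ht => hasDerivAt_totD hN (hZ0.trans_le ht.1)
  rcases le_or_gt (5 * N * y) 1 with hs | hs
  · have g1 := tot_low h hs
    have e1 := totD_low h hs
    have ht := taylor_lower (left_mem_Icc.2 hZ1) ⟨hQ, h1.le⟩ hd hdd hcur
    rw [← hZ] at g1 e1
    have hy2 : y ≤ 1 / 500 := by nlinarith
    set u := Q - Z with hu
    have hu0 : 0 ≤ u := sub_nonneg.2 hQ
    have h3 : y + log Q ≤ u * (500 / 499) := by
      have : y + log Q = log (Q / Z) := by rw [log_div hQ0.ne' hZ0.ne', hZ, log_exp]; ring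
      rw [this]
      refine (log_le_sub_one_of_pos (div_pos hQ0 hZ0)).trans ?_
      rw [div_sub_one hZ0.ne', div_le_iff₀ hZ0]
      have := mul_le_mul_of_nonneg_left (show 499 / 500 ≤ Z by linarith [add_one_le_exp (-y)]) hu0
      linarith
    have h4 := mul_le_mul_of_nonneg_right (mul_le_mul_of_nonneg_left e1 (show (0 : ℝ) ≤ 3 by norm_num)) hu0
    have h6 := mul_le_mul_of_nonneg_left ht (show 0 ≤ 3 * N by linarith)
    have h7 := mul_le_mul_of_nonneg_left g1 (show 0 ≤ 3 * N by linarith)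
    have h8 := mul_le_mul_of_nonneg_left hs hu0
    have h9 := sq_nonneg (u - 1117 / 1000 * y)
    have h15 := mul_nonneg (sub_nonneg.2 hN) (sq_nonneg (u - 1082 / 1000 * y))
    have h10 : 0 ≤ N * y ^ 2 := by positivity
    have h11 : (Q - 1) ^ 2 ≤ u ^ 2 - 2 * u * (499 / 500 * y) + y ^ 2 := by
      have b1 : 499 / 500 * y ≤ 1 - Z := by
        have b2 := quadratic_le_exp_of_nonneg hy
        have b3 := mul_le_mul_of_nonneg_left (show 1 + y ≤ exp y by linarith [sq_nonneg y]) hZ0.le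
        have b4 : Z * exp y = 1 := by rw [hZ, ← exp_add]; simp
        have b5 := mul_le_mul_of_nonneg_right (show 499 / 500 ≤ Z by linarith [add_one_le_exp (-y)]) hy
        linarith
      have b6 : (1 - Z) ^ 2 ≤ y ^ 2 :=
        pow_le_pow_left₀ (by linarith) (by linarith [add_one_le_exp (-y)]) 2
      have b7 := mul_le_mul_of_nonneg_left b1 hu0
      rw [show Q - 1 = u - (1 - Z) by rw [hu]; ring]
      linarith
    have h12 := mul_le_mul_of_nonneg_right hN (sq_nonneg u)
    have h13 := mul_le_mul_of_nonneg_right hN (sq_nonneg y)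
    have h14 := mul_le_mul_of_nonneg_right hN (mul_nonneg hu0 hy)
    have h16 := mul_le_mul_of_nonneg_right (show 1 - Z ≤ y by rw [hZ]; linarith [add_one_le_exp (-y)]) hy
    have h17 := pow_le_pow_left₀ (sub_nonneg.2 hZ1) (show 1 - Z ≤ y by rw [hZ]; linarith [add_one_le_exp (-y)]) 2
    have e2 : 3 * N * ((2 + 30 / N) / 2 * u ^ 2) = 3 * (N + 15) * u ^ 2 := by field_simp; ring
    linarith [sq_nonneg u, sq_nonneg y]
  · have ht := taylor_lower (right_mem_Icc.2 hZ1) ⟨hQ, h1.le⟩ hd hdd hcur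
    set x := Q - 1 with hx
    have hx0 : x ≤ 0 := by linarith
    set be := 56 / 100 - 1 / 3 + slopeB y (exp (-y)) with hbe
    have h4 := mul_le_mul_of_nonpos_right d2 hx0
    have h5 := margin_disc hN hy hs.le h.y_le
    rw [← hbe] at h5
    have h6 := mul_le_mul_of_nonneg_left ht (show 0 ≤ 3 * N by linarith)
    set R := phi y (exp (-y)) - y / 3 - 3 / 20 * ((1 - exp (-y)) * y) -
      7 / 2 * (1 - exp (-y)) ^ 2 with hR
    have h7 : 0 ≤ R + be * x + (N - 7) * x ^ 2 := by
      have h8 : 0 ≤ (2 * (N - 7) * x + be) ^ 2 := sq_nonneg _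
      have hR0 : 0 ≤ R := by rw [hR, ← hZ]; linarith
      have h9 := mul_le_mul_of_nonneg_right (show 372 / 100 * N ≤ 4 * (N - 7) by linarith) hR0
      have : 0 ≤ 4 * (N - 7) * (R + be * x + (N - 7) * x ^ 2) := by linarith
      exact nonneg_of_mul_nonneg_right this (by linarith)
    have e1 : 3 * N * (30 / N) = 90 := by field_simp; ring
    have e2 : 3 * N * ((2 + 30 / N) / 2 * x ^ 2) = 3 * (N + 15) * x ^ 2 := by
      field_simp; ring
    rw [hR, hbe, slopeB] at h7
    rw [hZ]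
    linarith

end Vale.Agent.P237.Cal.SF
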