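import Vale.Agent.P237.Cal.ScalarFlatDeriv

/-!
# P237: sharper curvature of the closed scalar

The coefficient of `Q` is at least `2 + 385/(10 N)`; below `Q = 1` the second derivative is at
least `2 + 30/N`.
-/

open Real Set

namespace Vale.Agent.P237.Cal.SF

variable {N A y Q : ℝ}

/-- The coefficient of `Q` in the curvature, sharpened. -/
lemma curv_coef_upper (h : Par N A y) {e : ℝ} (he : 7 / 2 ≤ e) :
    2 + 385 / 10 / N ≤ 2 * A / (N - 1) * (1 + e) + 2 * e / N * (A - 2 * (N - 1)) * (1 + 2 / N) +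
      2 * e / N * (1 - 2 / N) * (2 * A / (N - 2)) := by
  obtain ⟨hAl, hAu⟩ := h.A_bounds
  have hN := h.hN
  have hk : 0 < N - 1 := by linarith
  have hN0 : 0 < N := by linarith
  have e1 : 2 * A / (N - 1) * (1 + e) + 2 * e / N * (A - 2 * (N - 1)) * (1 + 2 / N) +
      2 * e / N * (1 - 2 / N) * (2 * A / (N - 2)) = 2 * (A / (N - 1)) + e / N *
        (2 * A * (N / (N - 1)) + 2 * (A - 2 * (N - 1)) * (1 + 2 / N) + 4 * A / N) := by
    field_simp [show N - 2 ≠ 0 by linarith]
    ring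
  have h1 : 1 + 397 / 200 / N ≤ A / (N - 1) := by
    rw [le_div_iff₀ hk]
    have : 397 / 200 / N * N = 397 / 200 := div_mul_cancel₀ _ hN0.ne'
    have : 0 ≤ 397 / 200 / N := by positivity
    linarith
  have h3 : 1 + 1 / N ≤ N / (N - 1) := by
    rw [le_div_iff₀ hk]
    have : 1 / N * N = 1 := one_div_mul_cancel hN0.ne'
    linarith [one_div_pos.2 hN0]
  have h4 := mul_le_mul_of_nonneg_left h3 (show 0 ≤ 2 * A by linarith)
  have h6 : 2 * A * (1 + 1 / N) + 2 * (A - 2 * (N - 1)) * (1 + 2 / N) + 4 * A / N =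
      4 * (A - (N - 1)) + (10 * A - 8 * (N - 1)) / N := by ring
  have h7 : 2 ≤ (10 * A - 8 * (N - 1)) / N := by rw [le_div_iff₀ hN0]; linarith
  have h8 : 993 / 100 ≤ 2 * A * (N / (N - 1)) + 2 * (A - 2 * (N - 1)) * (1 + 2 / N) + 4 * A / N := by
    linarith
  have h9 := mul_le_mul (div_le_div_of_nonneg_right he hN0.le) h8 (by norm_num) (by positivity)
  rw [e1]
  have : 7 / 2 / N * (993 / 100) = 34755 / 1000 / N := by ring
  have : 397 / 200 / N * 2 + 34755 / 1000 / N = 38725 / 1000 / N := by ring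
  have : 385 / 10 / N ≤ 38725 / 1000 / N := div_le_div_of_nonneg_right (by norm_num) hN0.le
  linarith

/-- `Z` times the part of the curvature from `Y`, `Z`. -/
lemma curv_R_upper (h : Par N A y) :
    exp (-y) * (2 * (N - 1) * A / (N - 2) * exp (y / (N - 1)) - 3 * A +
      (N - 1) * exp (-(2 * (y / (N - 1))))) ≤ 18 / 100 := by
  obtain ⟨hAl, hAu⟩ := h.A_bounds
  have hN := h.hN
  obtain ⟨-, hY2, -, hv2, -⟩ := exp_two_bounds h.w0 h.w_le
  have hw0 := h.w0
  have hw1 := h.w_le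
  have hy := h.y0
  set w := y / (N - 1) with hw
  have hwy : (N - 1) * w = y := mul_div_cancel₀ y (show N - 1 ≠ 0 by linarith)
  set c := 2 * (N - 1) * A / (N - 2) with hc
  have ec : c = 2 * A + 2 * A / (N - 2) := by
    rw [hc]; field_simp [show N - 2 ≠ 0 by linarith]; ring
  have hc3 : 2 * A / (N - 2) ≤ 2 + 63 / 1000 := by rw [div_le_iff₀ (by linarith)]; linarith
  have hc0 : 0 ≤ 2 * A / (N - 2) := div_nonneg (by linarith) (by linarith)
  have r1 := mul_le_mul_of_nonneg_left hY2 (show 0 ≤ c by linarith)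
  have r2 := mul_le_mul_of_nonneg_left hv2 (show 0 ≤ N - 1 by linarith)
  have r4 := mul_le_mul_of_nonneg_right (show c - 2 * (N - 1) ≤ 61 / 10 by linarith) hw0
  have r5 := mul_le_mul_of_nonneg_right (show 13 / 25 * c + 2 * (N - 1) ≤ 31 / 10 * N by linarith)
    (sq_nonneg w)
  have hR : c * exp w - 3 * A + (N - 1) * exp (-(2 * w)) ≤
      8 / 100 + 61 / 10 * w + 31 / 10 * N * w ^ 2 := by linarith
  have hZ0 := exp_pos (-y)
  have hZ1 : exp (-y) ≤ 1 := exp_le_one_iff.2 (neg_nonpos.2 hy)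
  have hy1 : exp (-y) * y ≤ 1 / 2 := by
    have h2 := mul_le_mul_of_nonneg_left (quadratic_le_exp_of_nonneg hy) hZ0.le
    rw [← exp_add, neg_add_cancel, exp_zero] at h2
    linarith [mul_nonneg hZ0.le (sq_nonneg (y - 1))]
  have hy2 : exp (-y) * y ^ 2 ≤ 2 := by
    have h2 := mul_le_mul_of_nonneg_left (quadratic_le_exp_of_nonneg hy) hZ0.le
    rw [← exp_add, neg_add_cancel, exp_zero] at h2
    linarith [mul_nonneg hZ0.le hy]
  have hk1 : 1 / (N - 1) ≤ 1 / 99 := one_div_le_one_div_of_le (by norm_num) (by linarith)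
  have hk2 : N / (N - 1) ^ 2 ≤ 1 / 98 := by rw [div_le_div_iff₀ (pow_pos (by linarith) 2) (by norm_num)]; nlinarith
  have b1 : exp (-y) * w ≤ 1 / 2 / 99 := by
    rw [hw, mul_div_assoc']
    calc exp (-y) * y / (N - 1) ≤ 1 / 2 / (N - 1) := div_le_div_of_nonneg_right hy1 (by linarith)
      _ ≤ 1 / 2 / 99 := div_le_div_of_nonneg_left (by norm_num) (by norm_num) (by linarith)
  have b2 : exp (-y) * (N * w ^ 2) ≤ 2 / 98 := by
    have e : exp (-y) * (N * w ^ 2) = exp (-y) * y ^ 2 * (N / (N - 1) ^ 2) := by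
      rw [hw, div_pow]; ring
    rw [e]
    exact (mul_le_mul hy2 hk2 (div_nonneg (by linarith) (sq_nonneg _)) (by norm_num)).trans (by norm_num)
  have := mul_le_mul_of_nonneg_left hR hZ0.le
  linarith

/-- The curvature for `Q ≤ 1`. -/
lemma curvature_low (h : Par N A y) (hQ : exp (-y) ≤ Q) (hQ1 : Q ≤ 1) :
    (2 + 30 / N) * Q ^ 2 ≤ Q ^ 2 * totDD N A y Q := by
  have hN := h.hN
  have hN0 : 0 < N := by linarith
  have hQ0 : 0 < Q := (exp_pos _).trans_le hQ
  rcases le_or_gt Q (1 / 16) with hs | hs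
  · have hc := curvature h hQ (by linarith)
    have hZN : 1 / (2 * N) ≤ Q := by
      refine le_trans ?_ hQ
      rw [exp_neg, one_div]
      exact inv_anti₀ (exp_pos _) h.hy
    have e1 : 42 / N ^ 2 ≤ 84 / 100 * Q := by
      have : 42 / N ^ 2 = 84 / N * (1 / (2 * N)) := by field_simp; ring
      rw [this]
      exact mul_le_mul (by rw [div_le_iff₀ hN0]; linarith) hZN (by positivity) (by norm_num)
    have e2 : 30 / N ≤ 3 / 10 := by rw [div_le_iff₀ hN0]; linarith
    have e3 := mul_le_mul_of_nonneg_right (show 2 + 30 / N ≤ 23 / 10 by linarith) (sq_nonneg Q)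
    have e4 := mul_le_mul_of_nonneg_left hs hQ0.le
    linarith
  obtain ⟨he, -, he4⟩ := eS_bounds h hQ
  have he' := he4 hQ1
  obtain ⟨-, hd1, hd2⟩ := curv_coef h he (by linarith)
  have hq := curv_coef_upper h he
  have hR := curv_R_upper h
  have hg1 := gS_le h (show Q ≤ 83 / 50 by linarith)
  have hl : -y ≤ log Q := (le_log_iff_exp_le hQ0).2 hQ
  have hl0 : log Q ≤ 0 := log_nonpos hQ0.le hQ1
  have hL : -log Q ≤ 1 / Q - 1 := by
    have := log_le_sub_one_of_pos (show 0 < 1 / Q by positivity)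
    rwa [one_div, log_inv, ← one_div] at this
  set t := -log Q / (N - 1) with ht
  have ht0 : 0 ≤ t := div_nonneg (by linarith) (by linarith)
  have ht1 : t ≤ 27 / 500 := by
    refine le_trans ?_ h.w_le
    exact div_le_div_of_nonneg_right (by linarith) (by linarith)
  obtain ⟨-, ht2, -, -, -⟩ := exp_two_bounds ht0 ht1
  have hD1 : qb N Q - Q ≤ Q * (1029 / 1000 * t) := by
    have e : qb N Q = Q * exp t := by
      rw [qb, ht]
      nth_rw 2 [← exp_log hQ0]
      rw [← exp_add]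
      congr 1
      field_simp [show N - 1 ≠ 0 by linarith]
      ring
    have h1 := mul_le_mul_of_nonneg_left ht1 ht0
    have h2 := mul_le_mul_of_nonneg_left ht2 hQ0.le
    have h3 := mul_le_mul_of_nonneg_left h1 hQ0.le
    have h4 := mul_nonneg hQ0.le ht0
    rw [e]
    linarith only [h2, h3, h4]
  have hD2 := mul_le_mul_of_nonpos_right hD1 hd2
  have hD3 := mul_le_mul_of_nonneg_left hd1 (show (0 : ℝ) ≤ Q * (1029 / 1000 * t) by positivity)
  have hZ1 : exp (-y) ≤ 1 := exp_le_one_iff.2 (neg_nonpos.2 h.y0)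
  have idn : Q ^ 2 * totDD N A y Q =
      Q * (2 * A / (N - 1) * (1 + eS N y Q) + 2 * eS N y Q / N * (A - 2 * (N - 1)) * (1 + 2 / N) +
          2 * eS N y Q / N * (1 - 2 / N) * (2 * A / (N - 2))) +
        (qb N Q - Q) * (A / (N - 1) * (2 - eS N y Q * (2 - 4 / N ^ 2))) -
        2 * eS N y Q / N * (1 - 2 / N) * (exp (-y) * (2 * (N - 1) * A / (N - 2) * exp (y / (N - 1)) -
          3 * A + (N - 1) * exp (-(2 * (y / (N - 1))))) + gS N y Q) +
        4 / N * eS N y Q * Q * ((1 - exp (-y)) / 2 * (15 / 4 / N)) := by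
    simp only [totDD, dB, MS]
    generalize eS N y Q = e
    generalize gS N y Q = g
    generalize qb N Q = b
    generalize exp (-y) = Z
    generalize exp (y / (N - 1)) = Y
    generalize exp (-(2 * (y / (N - 1)))) = v
    have : N - 1 ≠ 0 := by linarith
    have : N - 2 ≠ 0 := by linarith
    field_simp
    ring
  have hpos : 0 ≤ 4 / N * eS N y Q * Q * ((1 - exp (-y)) / 2 * (15 / 4 / N)) := by
    have : 0 ≤ eS N y Q := by linarith
    have : 0 ≤ 1 - exp (-y) := by linarith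
    positivity
  set F := 2 * eS N y Q / N * (1 - 2 / N) with hFd
  have hF0 : 0 ≤ F := by
    have : 0 ≤ eS N y Q := by linarith
    refine mul_nonneg (by positivity) ?_
    rw [sub_nonneg, div_le_one] <;> linarith
  have hF : F ≤ 8 / N := by
    calc F ≤ 2 * eS N y Q / N * 1 :=
          mul_le_mul_of_nonneg_left (by linarith [show 0 ≤ 2 / N by positivity])
            (div_nonneg (by linarith) hN0.le)
      _ ≤ _ := by rw [mul_one]; gcongr; linarith
  have h5 : 51 / 10 / N ≤ 51 / 1000 := by rw [div_le_iff₀ hN0]; linarith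
  have hin := mul_le_mul_of_nonneg_left (show exp (-y) * (2 * (N - 1) * A / (N - 2) * exp (y / (N - 1)) -
      3 * A + (N - 1) * exp (-(2 * (y / (N - 1))))) + gS N y Q ≤ 231 / 1000 by linarith) hF0
  have hin2 := mul_le_mul_of_nonneg_right hF (show (0 : ℝ) ≤ 231 / 1000 by norm_num)
  have hQc := mul_le_mul_of_nonneg_left hq hQ0.le
  have hk : (N - 1) * t = -log Q := mul_div_cancel₀ _ (show N - 1 ≠ 0 by linarith)
  have key : 0 ≤ N * (Q * (2 + 385 / 10 / N) - Q * (63 / 10 * (1029 / 1000) * t) - 1848 / 1000 / N -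
      (2 + 30 / N) * Q ^ 2) := by
    have e : N * (Q * (2 + 385 / 10 / N) - Q * (63 / 10 * (1029 / 1000) * t) - 1848 / 1000 / N -
        (2 + 30 / N) * Q ^ 2) = 2 * N * (Q * (1 - Q)) + 30 * (Q * (1 - Q)) + 85 / 10 * Q -
          648270 / 100000 * (Q * (N * t)) - 1848 / 1000 := by field_simp; ring
    rw [e]
    have b1 : N * t ≤ 100 / 99 * (1 / Q - 1) := by
      have := mul_le_mul_of_nonneg_right hN ht0
      linarith
    have b2 : Q * (N * t) ≤ 100 / 99 * (1 - Q) := by
      refine (mul_le_mul_of_nonneg_left b1 hQ0.le).trans_eq ?_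
      field_simp
    have b3 := mul_le_mul_of_nonneg_right hN (show 0 ≤ Q * (1 - Q) by
      exact mul_nonneg hQ0.le (sub_nonneg.2 hQ1))
    have b4 := mul_le_mul_of_nonneg_right hs.le (sub_nonneg.2 hQ1)
    linarith only [b2, b3, b4, hQ1, hQ0]
  have key' := nonneg_of_mul_nonneg_right key hN0
  rw [idn]
  generalize Q * (2 * A / (N - 1) * (1 + eS N y Q) + _ + _) = a1 at hQc ⊢
  generalize (qb N Q - Q) * (A / (N - 1) * (2 - eS N y Q * (2 - 4 / N ^ 2))) = a2 at hD2 ⊢
  generalize Q * (1029 / 1000 * t) * (A / (N - 1) * (2 - eS N y Q * (2 - 4 / N ^ 2))) = a3 at hD2 hD3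
  generalize F * (exp (-y) * _ + gS N y Q) = a4 at hin ⊢
  generalize 4 / N * eS N y Q * Q * ((1 - exp (-y)) / 2 * (15 / 4 / N)) = a5 at hpos ⊢
  have z1 : Q * (1029 / 1000 * t) * -(63 / 10) = -(Q * (63 / 10 * (1029 / 1000) * t)) := by ring
  have z2 : 8 / N * (231 / 1000) = 1848 / 1000 / N := by ring
  rw [z1] at hD3
  rw [z2] at hin2
  generalize Q * (63 / 10 * (1029 / 1000) * t) = b1 at hD3 key'
  generalize 1848 / 1000 / N = b2 at hin2 key'
  generalize Q * (2 + 385 / 10 / N) = b3 at hQc key'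
  generalize F * (231 / 1000) = b4 at hin hin2
  generalize (2 + 30 / N) * Q ^ 2 = b5 at key' ⊢
  linarith only [key', hQc, hD2, hD3, hin, hin2, hpos]

end Vale.Agent.P237.Cal.SF
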