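import Vale.Agent.P237.Cal.ScalarFlatBounds

/-!
# P237: the closed scalar of the flattened field as a function of `Q`, and its curvature
-/

open Real Set

namespace Vale.Agent.P237.Cal.SF

/-- `Q^(1-1/k)`. -/
noncomputable def qb (N Q : ℝ) : ℝ := exp ((N - 2) / (N - 1) * log Q)

/-- `ε = 4 (Q/Y)^(2/N)`. -/
noncomputable def eS (N y Q : ℝ) : ℝ := 4 * exp (2 / N * (log Q - y / (N - 1)))

/-- The main bracket. -/
noncomputable def MS (N A y Q : ℝ) : ℝ :=
  3 * A * (Q - exp (-y)) -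
    2 * (N - 1) * A / (N - 2) * (qb N Q - exp (-y) * exp (y / (N - 1))) - 2 * (N - 1) * Q +
    (N - 1) * (exp (-y) * exp (-(2 * (y / (N - 1)))))

/-- The flattening part. -/
noncomputable def gS (N y Q : ℝ) : ℝ :=
  (1 - exp (-y)) / 2 * (NI N y / N + 15 / 4 * (Q - 1) / N)

/-- The closed scalar. -/
noncomputable def tot (N A y Q : ℝ) : ℝ :=
  (1 + eS N y Q) * (MS N A y Q + gS N y Q) + (5 * (N - 1) - 2) * Q + 2

/-- Derivative of the bracket. -/
noncomputable def dB (N A y Q : ℝ) : ℝ :=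
  3 * A - 2 * A * (qb N Q / Q) - 2 * (N - 1) + (1 - exp (-y)) / 2 * (15 / 4 / N)

/-- First derivative of `tot`. -/
noncomputable def totD (N A y Q : ℝ) : ℝ :=
  2 / N * eS N y Q / Q * (MS N A y Q + gS N y Q) + (1 + eS N y Q) * dB N A y Q + 5 * (N - 1) - 2

/-- Second derivative of `tot`. -/
noncomputable def totDD (N A y Q : ℝ) : ℝ :=
  2 / N * (2 / N - 1) * eS N y Q / Q ^ 2 * (MS N A y Q + gS N y Q) +
    4 / N * eS N y Q / Q * dB N A y Q + (1 + eS N y Q) * (2 * A / (N - 1) * qb N Q / Q ^ 2)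

variable {N A y Q : ℝ}

lemma hasDerivAt_qb (hQ : 0 < Q) :
    HasDerivAt (qb N) ((N - 2) / (N - 1) * qb N Q / Q) Q :=
  (((hasDerivAt_log hQ.ne').const_mul _).exp).congr_deriv (by simp only [qb]; ring)

lemma hasDerivAt_eS (hQ : 0 < Q) :
    HasDerivAt (eS N y) (2 / N * eS N y Q / Q) Q :=
  ((((hasDerivAt_log hQ.ne').sub_const _).const_mul _).exp.const_mul 4).congr_deriv
    (by simp only [eS]; ring)

lemma hasDerivAt_MS_gS (hN : 100 ≤ N) (hQ : 0 < Q) :
    HasDerivAt (fun t => MS N A y t + gS N y t) (dB N A y Q) Q := by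
  have h := (((((hasDerivAt_id Q).sub_const (exp (-y))).const_mul (3 * A)).fun_sub
    (((hasDerivAt_qb (N := N) hQ).sub_const (exp (-y) * exp (y / (N - 1)))).const_mul
      (2 * (N - 1) * A / (N - 2)))).fun_sub ((hasDerivAt_id Q).const_mul (2 * (N - 1)))).add_const
    ((N - 1) * (exp (-y) * exp (-(2 * (y / (N - 1))))))
  have h2 := (((((hasDerivAt_id Q).sub_const 1).const_mul (15 / 4 : ℝ)).div_const N).const_add
    (NI N y / N)).const_mul ((1 - exp (-y)) / 2)
  refine (h.fun_add h2).congr_deriv ?_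
  have : N - 1 ≠ 0 := by linarith
  have : N - 2 ≠ 0 := by linarith
  have : N ≠ 0 := by linarith
  simp only [dB]
  field_simp

lemma hasDerivAt_tot (hN : 100 ≤ N) (hQ : 0 < Q) :
    HasDerivAt (tot N A y) (totD N A y Q) Q := by
  refine (((((hasDerivAt_eS hQ).const_add 1).fun_mul (hasDerivAt_MS_gS hN hQ)).fun_add
    ((hasDerivAt_id Q).const_mul (5 * (N - 1) - 2))).add_const 2).congr_deriv ?_
  simp only [totD]
  ring

lemma hasDerivAt_totD (hN : 100 ≤ N) (hQ : 0 < Q) :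
    HasDerivAt (totD N A y) (totDD N A y Q) Q := by
  have hdB : HasDerivAt (dB N A y) (2 * A / (N - 1) * qb N Q / Q ^ 2) Q := by
    refine ((((((hasDerivAt_qb hQ).fun_div (hasDerivAt_id Q) hQ.ne').const_mul (2 * A)).const_sub
      (3 * A)).sub_const (2 * (N - 1))).add_const _).congr_deriv ?_
    have : N - 1 ≠ 0 := by linarith
    simp only [id_eq]
    field_simp
    ring
  refine (((((((hasDerivAt_eS hQ).const_mul (2 / N)).fun_div (hasDerivAt_id Q) hQ.ne').fun_mul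
    (hasDerivAt_MS_gS hN hQ)).fun_add (((hasDerivAt_eS hQ).const_add 1).fun_mul hdB)).add_const
      (5 * (N - 1))).sub_const 2).congr_deriv ?_
  simp only [totDD, id_eq]
  have : N ≠ 0 := by linarith
  field_simp
  ring

/-- `D = Q^b - Q` against `Y - 1`. -/
lemma qb_sub_le (hN : 100 ≤ N) (hQ : exp (-y) ≤ Q) :
    qb N Q - Q ≤ Q * (exp (y / (N - 1)) - 1) := by
  have hQ0 : 0 < Q := (exp_pos _).trans_le hQ
  have hl : -y ≤ log Q := (le_log_iff_exp_le hQ0).2 hQ
  have e : qb N Q = Q * exp (-log Q / (N - 1)) := by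
    rw [qb]
    nth_rw 2 [← exp_log hQ0]
    rw [← exp_add]
    congr 1
    field_simp [show N - 1 ≠ 0 by linarith]
    ring
  rw [e, mul_sub, mul_one]
  gcongr
  · linarith
  · linarith

/-- The range of `ε`. -/
lemma eS_bounds (h : Par N A y) (hQ : exp (-y) ≤ Q) :
    7 / 2 ≤ eS N y Q ∧ (Q ≤ 83 / 50 → eS N y Q ≤ 203 / 50) ∧ (Q ≤ 1 → eS N y Q ≤ 4) := by
  have hN := h.hN
  have hQ0 : 0 < Q := (exp_pos _).trans_le hQ
  have hl : -y ≤ log Q := (le_log_iff_exp_le hQ0).2 hQ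
  have hw0 := h.w0
  set w := y / (N - 1) with hw
  have hyw : y = (N - 1) * w := (mul_div_cancel₀ y (show N - 1 ≠ 0 by linarith)).symm
  have hv : 2 / N * (log Q - w) ≥ -(2 * w) := by
    have e : 2 / N * (-y - w) = -(2 * w) := by rw [hyw]; field_simp; ring
    have : 0 ≤ 2 / N := by positivity
    nlinarith
  simp only [eS]
  refine ⟨?_, fun hQ1 => ?_, fun hQ1 => ?_⟩
  · have := h.w_le
    linarith [exp_le_exp.2 hv, add_one_le_exp (-(2 * w))]
  · have h1 : log Q ≤ 66 / 100 := by linarith [log_le_sub_one_of_pos hQ0]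
    have h2 : 2 / N * (log Q - w) ≤ 66 / 5000 := by
      rw [div_mul_eq_mul_div, div_le_iff₀ (by linarith)]; linarith
    have h3 := exp_bound_div_one_sub_of_interval (x := 66 / 5000) (by norm_num) (by norm_num)
    linarith [exp_le_exp.2 h2, h3, show (1 : ℝ) / (1 - 66 / 5000) ≤ 203 / 200 by norm_num]
  · have h1 : log Q ≤ 0 := log_nonpos hQ0.le hQ1
    have : 2 / N * (log Q - w) ≤ 0 :=
      mul_nonpos_of_nonneg_of_nonpos (by positivity) (by linarith)
    linarith [exp_le_one_iff.2 this]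

/-- The coefficients of `Q` and `Q^b - Q` in the curvature. -/
lemma curv_coef (h : Par N A y) {e : ℝ} (he : 7 / 2 ≤ e) (he' : e ≤ 203 / 50) :
    2 ≤ 2 * A / (N - 1) * (1 + e) + 2 * e / N * (A - 2 * (N - 1)) * (1 + 2 / N) +
          2 * e / N * (1 - 2 / N) * (2 * A / (N - 2)) ∧
      -(63 / 10) ≤ A / (N - 1) * (2 - e * (2 - 4 / N ^ 2)) ∧
      A / (N - 1) * (2 - e * (2 - 4 / N ^ 2)) ≤ 0 := by
  obtain ⟨hAl, hAu⟩ := h.A_bounds
  have hN := h.hN
  have hk : 0 < N - 1 := by linarith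
  have hN0 : 0 < N := by linarith
  have h1 : 1 ≤ A / (N - 1) := by rw [le_div_iff₀ hk]; linarith
  have h2 : A / (N - 1) ≤ 51 / 50 + 1 / 1000 := by rw [div_le_iff₀ hk]; linarith
  refine ⟨?_, ?_, ?_⟩
  · have e1 : 2 * A / (N - 1) * (1 + e) + 2 * e / N * (A - 2 * (N - 1)) * (1 + 2 / N) +
        2 * e / N * (1 - 2 / N) * (2 * A / (N - 2)) = 2 * (A / (N - 1)) + e / N *
          (2 * A * (N / (N - 1)) + 2 * (A - 2 * (N - 1)) * (1 + 2 / N) + 4 * A / N) := by
      field_simp [show N - 2 ≠ 0 by linarith]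
      ring
    have h3 : 1 + 1 / N ≤ N / (N - 1) := by
      rw [le_div_iff₀ hk]
      have : 1 / N * N = 1 := one_div_mul_cancel hN0.ne'
      linarith [one_div_pos.2 hN0]
    have h4 := mul_le_mul_of_nonneg_left h3 (show 0 ≤ 2 * A by linarith)
    have h5 : 0 ≤ 4 * (A - (N - 1)) + (10 * A - 8 * (N - 1)) / N :=
      add_nonneg (by linarith) (div_nonneg (by linarith) hN0.le)
    have h6 : 2 * A * (1 + 1 / N) + 2 * (A - 2 * (N - 1)) * (1 + 2 / N) + 4 * A / N =
        4 * (A - (N - 1)) + (10 * A - 8 * (N - 1)) / N := by ring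
    rw [e1]
    have := mul_nonneg (div_nonneg (by linarith : 0 ≤ e) hN0.le)
      (show 0 ≤ 2 * A * (N / (N - 1)) + 2 * (A - 2 * (N - 1)) * (1 + 2 / N) + 4 * A / N by linarith)
    linarith
  · have h3 : 0 ≤ 4 / N ^ 2 := by positivity
    have h4 : -(153 / 25) ≤ 2 - e * (2 - 4 / N ^ 2) := by
      have := mul_nonneg (by linarith : 0 ≤ e) h3
      linarith
    have h5 := mul_le_mul_of_nonneg_left h4 (by linarith : 0 ≤ A / (N - 1))
    have h6 := mul_le_mul_of_nonneg_right h2 (by norm_num : (0 : ℝ) ≤ 153 / 25)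
    linarith
  · have h3 : 4 / N ^ 2 ≤ 1 := by rw [div_le_one (by positivity)]; nlinarith
    have h4 : 2 - e * (2 - 4 / N ^ 2) ≤ 0 := by nlinarith
    exact mul_nonpos_of_nonneg_of_nonpos (by linarith) h4

/-- The part of the curvature from `Y`, `Z`. -/
lemma curv_R (h : Par N A y) :
    2 * (N - 1) * A / (N - 2) * exp (y / (N - 1)) - 3 * A +
      (N - 1) * exp (-(2 * (y / (N - 1)))) ≤ 1 / 74 * N := by
  obtain ⟨hAl, hAu⟩ := h.A_bounds
  have hN := h.hN
  obtain ⟨-, hY2, -, hv2, -⟩ := exp_two_bounds h.w0 h.w_le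
  have hw0 := h.w0
  have hw1 := h.w_le
  set w := y / (N - 1)
  set c := 2 * (N - 1) * A / (N - 2) with hc
  have ec : c = 2 * A + 2 * A / (N - 2) := by
    rw [hc]; field_simp [show N - 2 ≠ 0 by linarith]; ring
  have hc3 : 2 * A / (N - 2) ≤ 2 + 63 / 1000 := by rw [div_le_iff₀ (by linarith)]; linarith
  have hc0 : 0 ≤ 2 * A / (N - 2) := div_nonneg (by linarith) (by linarith)
  have r1 := mul_le_mul_of_nonneg_left hY2 (show 0 ≤ c by linarith)
  have r2 := mul_le_mul_of_nonneg_left hv2 (show 0 ≤ N - 1 by linarith)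
  have r4 := mul_le_mul_of_nonneg_right (show c - 2 * (N - 1) ≤ 61 / 10 by linarith) hw0
  have r5 := mul_le_mul_of_nonneg_right (show 13 / 25 * c + 2 * (N - 1) ≤ 31 / 10 * N by linarith)
    (sq_nonneg w)
  have r6 := mul_le_mul_of_nonneg_left
    (pow_le_pow_left₀ hw0 hw1 2) (show (0 : ℝ) ≤ 31 / 10 * N by linarith)
  linarith

/-- The flattening part, from above. -/
lemma gS_le (h : Par N A y) (hQ1 : Q ≤ 83 / 50) : gS N y Q ≤ 51 / 10 / N := by
  have hN := h.hN
  have h1 := (NI_bounds h).2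
  have hZ0 := exp_pos (-y)
  have hZ1 : exp (-y) ≤ 1 := exp_le_one_iff.2 (neg_nonpos.2 h.y0)
  have h2 : gS N y Q = (1 - exp (-y)) / 2 * (NI N y + 15 / 4 * (Q - 1)) / N := by
    simp only [gS]; ring
  rw [h2]
  gcongr
  calc (1 - exp (-y)) / 2 * (NI N y + 15 / 4 * (Q - 1))
      ≤ (1 - exp (-y)) / 2 * (758 / 100 + 15 / 4 * (66 / 100)) := by
        gcongr
        · linarith
        · linarith
    _ ≤ _ := by linarith

/-- The curvature, times `Q²`. -/
lemma curvature (h : Par N A y) (hQ : exp (-y) ≤ Q) (hQ1 : Q ≤ 83 / 50) :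
    153 / 100 * Q - 42 / N ^ 2 ≤ Q ^ 2 * totDD N A y Q := by
  obtain ⟨he, he', -⟩ := eS_bounds h hQ
  have he' := he' hQ1
  obtain ⟨hq, hd1, hd2⟩ := curv_coef h he he'
  have hR1 := curv_R h
  have hg1 := gS_le h hQ1
  have hN := h.hN
  have hN0 : 0 < N := by linarith
  have hQ0 : 0 < Q := (exp_pos _).trans_le hQ
  obtain ⟨-, hY2, -, -, -⟩ := exp_two_bounds h.w0 h.w_le
  have hD := qb_sub_le hN hQ
  have hY3 : exp (y / (N - 1)) - 1 ≤ 563 / 10000 := by
    have := mul_le_mul_of_nonneg_left h.w_le h.w0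
    have := h.w_le
    linarith
  have hD1 : qb N Q - Q ≤ Q * (563 / 10000) :=
    hD.trans (mul_le_mul_of_nonneg_left hY3 hQ0.le)
  have hD2 := mul_le_mul_of_nonpos_right hD1 hd2
  have hD3 := mul_le_mul_of_nonneg_left hd1 (show (0 : ℝ) ≤ Q * (563 / 10000) by positivity)
  have hZ1 : exp (-y) ≤ 1 := exp_le_one_iff.2 (neg_nonpos.2 h.y0)
  have idn : Q ^ 2 * totDD N A y Q =
      Q * (2 * A / (N - 1) * (1 + eS N y Q) + 2 * eS N y Q / N * (A - 2 * (N - 1)) * (1 + 2 / N) +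
          2 * eS N y Q / N * (1 - 2 / N) * (2 * A / (N - 2))) +
        (qb N Q - Q) * (A / (N - 1) * (2 - eS N y Q * (2 - 4 / N ^ 2))) -
        2 * eS N y Q / N * (1 - 2 / N) * (exp (-y) * (2 * (N - 1) * A / (N - 2) * exp (y / (N - 1)) -
          3 * A + (N - 1) * exp (-(2 * (y / (N - 1))))) + gS N y Q) +
        4 / N * eS N y Q * Q * ((1 - exp (-y)) / 2 * (15 / 4 / N)) := by
    simp only [totDD, dB, MS]
    generalize eS N y Q = e
    generalize gS N y Q = g
    generalize qb N Q = b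
    generalize exp (-y) = Z
    generalize exp (y / (N - 1)) = Y
    generalize exp (-(2 * (y / (N - 1)))) = v
    have : N - 1 ≠ 0 := by linarith
    have : N - 2 ≠ 0 := by linarith
    field_simp
    ring
  have hpos : 0 ≤ 4 / N * eS N y Q * Q * ((1 - exp (-y)) / 2 * (15 / 4 / N)) := by
    have : 0 ≤ eS N y Q := by linarith
    have : 0 ≤ 1 - exp (-y) := by linarith
    positivity
  have hin : exp (-y) * (2 * (N - 1) * A / (N - 2) * exp (y / (N - 1)) -
      3 * A + (N - 1) * exp (-(2 * (y / (N - 1))))) + gS N y Q ≤ Q * (1 / 74 * N) + 51 / 10 / N := by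
    have := mul_le_mul_of_nonneg_left hR1 (exp_pos (-y)).le
    have := mul_le_mul_of_nonneg_right hQ (show (0 : ℝ) ≤ 1 / 74 * N by linarith)
    linarith
  set F := 2 * eS N y Q / N * (1 - 2 / N) with hFd
  have hF0 : 0 ≤ F := by
    have : 0 ≤ eS N y Q := by linarith
    refine mul_nonneg (by positivity) ?_
    rw [sub_nonneg, div_le_one] <;> linarith
  have hF : F ≤ 203 / 25 / N := by
    calc F ≤ 2 * eS N y Q / N * 1 :=
          mul_le_mul_of_nonneg_left (by linarith [show 0 ≤ 2 / N by positivity])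
            (div_nonneg (by linarith) hN0.le)
      _ ≤ _ := by rw [mul_one]; gcongr; linarith
  have hFin : F * (Q * (1 / 74 * N) + 51 / 10 / N) ≤ 203 / 25 * (1 / 74) * Q + 42 / N ^ 2 := by
    refine (mul_le_mul_of_nonneg_right hF (by positivity)).trans ?_
    rw [show 203 / 25 / N * (Q * (1 / 74 * N) + 51 / 10 / N) =
      203 / 25 * (1 / 74) * Q + 203 / 25 * (51 / 10) / N ^ 2 by field_simp]
    gcongr
    norm_num
  have hFin2 := mul_le_mul_of_nonneg_left hin hF0
  have hQc := mul_le_mul_of_nonneg_left hq hQ0.le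
  rw [idn]
  linarith

end Vale.Agent.P237.Cal.SF
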