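import Mathlib

/-!
# P237: lower bound of the scalar at `Q = 1` as a function of `y`
-/

open Real Finset

namespace Vale.Agent.P237.Cal.SF

/-- The lower bound, with `Z` in place of `exp (-y)`. -/
noncomputable def phi (y Z : ℝ) : ℝ :=
  799 / 100 * y - 15 / 2 * (1 - Z) - 65 / 4 * (2 - Z * (y ^ 2 + 2 * y + 2)) +
    249 / 100 * (1 - Z) * (15 / 2 * (1 - Z) - Z * (152 / 25 * y + 79 / 25 * y ^ 2))

lemma phi_mono {y Z L : ℝ} (hy : 0 ≤ y) (hL : 0 ≤ L) (h : L ≤ Z) : phi y L ≤ phi y Z := by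
  have hs : 0 ≤ Z + L := by linarith
  have hW : 0 ≤ 152 / 25 * y + 79 / 25 * y ^ 2 := by positivity
  have key : 0 ≤ 15 / 2 + 65 / 4 * (y ^ 2 + 2 * y + 2) - 249 / 100 * (15 / 2) * (2 - (Z + L)) -
      249 / 100 * (152 / 25 * y + 79 / 25 * y ^ 2) * (1 - (Z + L)) := by
    have := mul_nonneg hW hs
    nlinarith [sq_nonneg y]
  have e : phi y Z - phi y L = (Z - L) * (15 / 2 + 65 / 4 * (y ^ 2 + 2 * y + 2) -
      249 / 100 * (15 / 2) * (2 - (Z + L)) -
      249 / 100 * (152 / 25 * y + 79 / 25 * y ^ 2) * (1 - (Z + L))) := by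
    simp only [phi]; ring
  linarith [mul_nonneg (sub_nonneg.2 h) key]

lemma tangent_le_exp {E m y : ℝ} (hE : E ≤ exp (-m)) (hy : y ≤ 1 + m) :
    E * (1 + m - y) ≤ exp (-y) := by
  refine (mul_le_mul_of_nonneg_right hE (by linarith)).trans ?_
  rw [show exp (-y) = exp (-m) * exp (m - y) by rw [← exp_add]; ring_nf]
  exact mul_le_mul_of_nonneg_left (by linarith [add_one_le_exp (m - y)]) (exp_pos _).le

lemma le_exp_neg {E m : ℝ} (hE : 0 < E) (h : exp m ≤ 1 / E) : E ≤ exp (-m) := by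
  rw [exp_neg, ← one_div, le_div_iff₀ (exp_pos _)]
  calc E * exp m ≤ E * (1 / E) := mul_le_mul_of_nonneg_left h hE.le
    _ = 1 := mul_one_div_cancel hE.ne'

lemma exp_frac (x : ℝ) (h0 : 0 ≤ x) (h1 : x ≤ 1) :
    exp x ≤ 1 + x + x ^ 2 / 2 + x ^ 3 / 6 + x ^ 4 / 24 + x ^ 5 / 100 := by
  have h := Real.exp_bound' h0 h1 (n := 5) (by norm_num)
  simp only [sum_range_succ, sum_range_zero, Nat.factorial] at h
  norm_num at h ⊢
  linarith [pow_nonneg h0 5]

/-- Taylor lower bound of `exp (-y)` on `[0, 1]`. -/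
lemma taylor_le_exp_neg {y : ℝ} (h0 : 0 ≤ y) (h1 : y ≤ 1) :
    1 - y + y ^ 2 / 2 - y ^ 3 / 6 + y ^ 4 / 24 - y ^ 5 / 120 ≤ exp (-y) := by
  have h := Real.exp_bound (x := -y) (by rw [abs_neg, abs_of_nonneg h0]; exact h1)
    (n := 7) (by norm_num)
  simp only [sum_range_succ, sum_range_zero, Nat.factorial] at h
  norm_num [abs_neg, abs_of_nonneg h0] at h
  have := (abs_le.1 h).1
  nlinarith [mul_le_mul_of_nonneg_left h1 (pow_nonneg h0 6), pow_nonneg h0 6]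

/-- On `[0, 1]`. -/
lemma phi_small {y : ℝ} (h0 : 0 ≤ y) (h1 : y ≤ 1) :
    y * (3 / 20 + 8 / 5 * y) ≤ phi y (exp (-y)) - y / 3 ∧
      (y ≤ 1 / 20 → y * (1566 / 10000 + 67 / 10 * y) ≤ phi y (exp (-y)) - y / 3) := by
  set L := 1 - y + y ^ 2 / 2 - y ^ 3 / 6 + y ^ 4 / 24 - y ^ 5 / 120 with hL
  have hL0 : 0 ≤ L := by
    have := mul_nonneg (pow_nonneg h0 2) (show (0 : ℝ) ≤ 1 / 2 - y / 6 by linarith)
    have := mul_nonneg (pow_nonneg h0 4) (show (0 : ℝ) ≤ 1 / 24 - y / 120 by linarith)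
    rw [hL]; linarith
  have hm := sub_le_sub_right (phi_mono h0 hL0 (taylor_le_exp_neg h0 h1)) (y / 3)
  have q5 : 0 ≤ 1 / 150 + (28429 / 5000) * y - (105013 / 10000) * y ^ 2 + (94 / 10) * y ^ 3 -
      (60741 / 10000) * y ^ 4 + (87 / 50) * y ^ 5 := by
    nlinarith [mul_nonneg h0 (sq_nonneg (y - 3 / 4)), mul_nonneg h0 (sub_nonneg.2 h1),
      mul_nonneg (pow_nonneg h0 3) (sub_nonneg.2 h1), mul_nonneg (pow_nonneg h0 2) (sq_nonneg (1 - y)),
      mul_nonneg (pow_nonneg h0 3) (sq_nonneg (1 - y))]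
  have p7 := mul_nonneg (pow_nonneg h0 8) (show (0 : ℝ) ≤ 42542 / 100000 - 11949 / 100000 * y by linarith)
  have p9 := mul_nonneg (pow_nonneg h0 10) (show (0 : ℝ) ≤ 263 / 10000 - 45 / 10000 * y by linarith)
  have p5 := mul_nonneg (pow_nonneg h0 6) (show (0 : ℝ) ≤ 12795 / 10000 - 12795 / 10000 * y by linarith)
  have p12 := pow_nonneg h0 12
  have := mul_nonneg h0 q5
  simp only [phi, hL] at hm ⊢
  constructor
  · linarith [pow_nonneg h0 3, pow_nonneg h0 4, pow_nonneg h0 5, pow_nonneg h0 6, pow_nonneg h0 7,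
      pow_nonneg h0 8, pow_nonneg h0 9, pow_nonneg h0 10, pow_nonneg h0 11]
  · intro h2
    have t1 := mul_nonneg (pow_nonneg h0 2) (show (0 : ℝ) ≤ 5858 / 10000 - 105013 / 10000 * y by linarith)
    have t2 := mul_nonneg (pow_nonneg h0 4) (show (0 : ℝ) ≤ 94 / 10 - 60741 / 10000 * y by linarith)
    linarith [pow_nonneg h0 3, pow_nonneg h0 4, pow_nonneg h0 5, pow_nonneg h0 6, pow_nonneg h0 7,
      pow_nonneg h0 8, pow_nonneg h0 9, pow_nonneg h0 10, pow_nonneg h0 11]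

/-- On `[1, ∞)`. -/
lemma phi_large {y : ℝ} (h1 : 1 ≤ y) :
    (y ≤ 2 → 9 / 5 * y ≤ phi y (exp (-y)) - y / 3) ∧
      (2 ≤ y → y ≤ 3 → 196 / 100 * y ≤ phi y (exp (-y)) - y / 3) ∧
      (3 ≤ y → y ≤ 4 → 5 / 2 * y ≤ phi y (exp (-y)) - y / 3) ∧
      (4 ≤ y → 765 / 100 * y - 214 / 10 ≤ phi y (exp (-y)) - y / 3) := by
  have h4 : 4 ≤ y → 765 / 100 * y - 214 / 10 ≤ phi y (exp (-y)) - y / 3 := fun h => by
    have := phi_mono (by linarith : 0 ≤ y) le_rfl (exp_pos (-y)).le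
    simp only [phi] at this ⊢
    linarith
  have he := Real.exp_one_lt_d9
  have key : ∀ E m : ℝ, 0 < E → exp m ≤ 1 / E → y ≤ 1 + m →
      phi y (E * (1 + m - y)) ≤ phi y (exp (-y)) := fun E m hE hm hy =>
    phi_mono (by linarith) (mul_nonneg hE.le (by linarith)) (tangent_le_exp (le_exp_neg hE hm) hy)
  have a1 := exp_frac (1 / 4) (by norm_num) (by norm_num)
  have a2 := exp_frac (1 / 2) (by norm_num) (by norm_num)
  have a3 := exp_frac (3 / 4) (by norm_num) (by norm_num)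
  have e1 := mul_le_mul he.le le_rfl (exp_pos 1).le (by norm_num : (0 : ℝ) ≤ 2.7182818286)
  have e2 : exp 2 ≤ 2.7182818286 * 2.7182818286 := by
    rw [show (2 : ℝ) = 1 + 1 by norm_num, exp_add]
    exact mul_le_mul he.le he.le (exp_pos _).le (by norm_num)
  refine ⟨fun h3 => ?_, fun h3 h5 => ?_, fun h5 h => ?_, h4⟩
  · rcases le_or_gt y (3 / 2) with h2 | h2
    · have hm : exp (5 / 4) ≤ 1 / (2864 / 10000) := by
        rw [show (5 : ℝ) / 4 = 1 + 1 / 4 by norm_num, exp_add]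
        exact (mul_le_mul he.le a1 (exp_pos _).le (by norm_num)).trans (by norm_num)
      refine le_trans ?_ (sub_le_sub_right (key _ _ (by norm_num) hm (by linarith)) _)
      simp only [phi]
      nlinarith [mul_nonneg (sub_nonneg.2 h1) (sub_nonneg.2 h2),
        mul_nonneg (mul_nonneg (sub_nonneg.2 h1) (sub_nonneg.2 h2)) (sub_nonneg.2 h1)]
    have hm : exp (7 / 4) ≤ 1 / (1736 / 10000) := by
      rw [show (7 : ℝ) / 4 = 1 + 3 / 4 by norm_num, exp_add]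
      exact (mul_le_mul he.le a3 (exp_pos _).le (by norm_num)).trans (by norm_num)
    refine le_trans ?_ (sub_le_sub_right (key _ _ (by norm_num) hm (by linarith)) _)
    simp only [phi]
    nlinarith [mul_nonneg (sub_nonneg.2 h2.le) (sub_nonneg.2 h3),
      mul_nonneg (mul_nonneg (sub_nonneg.2 h2.le) (sub_nonneg.2 h3)) (sub_nonneg.2 h2.le)]
  · have hm : exp (5 / 2) ≤ 1 / (820 / 10000) := by
      rw [show (5 : ℝ) / 2 = 2 + 1 / 2 by norm_num, exp_add]
      exact (mul_le_mul e2 a2 (exp_pos _).le (by norm_num)).trans (by norm_num)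
    refine le_trans ?_ (sub_le_sub_right (key _ _ (by norm_num) hm (by linarith)) _)
    simp only [phi]
    nlinarith [mul_nonneg (sub_nonneg.2 h3) (sub_nonneg.2 h5),
      mul_nonneg (mul_nonneg (sub_nonneg.2 h3) (sub_nonneg.2 h5)) (sub_nonneg.2 h3)]
  · have e3 : exp 3 ≤ 2.7182818286 * 2.7182818286 * 2.7182818286 := by
      rw [show (3 : ℝ) = 2 + 1 by norm_num, exp_add]
      exact mul_le_mul e2 he.le (exp_pos _).le (by norm_num)
    have hm : exp (7 / 2) ≤ 1 / (301 / 10000) := by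
      rw [show (7 : ℝ) / 2 = 3 + 1 / 2 by norm_num, exp_add]
      exact (mul_le_mul e3 a2 (exp_pos _).le (by norm_num)).trans (by norm_num)
    refine le_trans ?_ (sub_le_sub_right (key _ _ (by norm_num) hm (by linarith)) _)
    simp only [phi]
    nlinarith [mul_nonneg (sub_nonneg.2 h5) (sub_nonneg.2 h),
      mul_nonneg (mul_nonneg (sub_nonneg.2 h5) (sub_nonneg.2 h)) (sub_nonneg.2 h5)]

end Vale.Agent.P237.Cal.SF
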