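import Vale.Agent.P237.Cal.Values

/-!
# P237: the power `Q^(m/(m+1))` of the scalar inequality in polynomial terms
-/

open Real

namespace Vale.Agent.P237.Cal

variable {m : ℕ} {Q P : ℝ}

/-- `Q^(m/(m+1)) = P^m` for `Q = P^(m+1)`. -/
lemma rpow_frac_pow (hP : 0 ≤ P) (hQ : Q = P ^ (m + 1)) :
    Q ^ ((m : ℝ) / ((m : ℝ) + 1)) = P ^ m := by
  rw [hQ, ← rpow_natCast P (m + 1), ← rpow_mul hP]
  push_cast
  rw [mul_div_cancel₀ _ (by positivity), rpow_natCast]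

/-- An upper bound is certified by a polynomial inequality. -/
lemma rpow_frac_le {B : ℝ} (hQ : 0 ≤ Q) (hB : 0 ≤ B) (h : Q ^ m ≤ B ^ (m + 1)) :
    Q ^ ((m : ℝ) / ((m : ℝ) + 1)) ≤ B := by
  refine le_of_pow_le_pow_left₀ (Nat.succ_ne_zero m) hB ?_
  rw [← rpow_natCast (Q ^ _) (m + 1), ← rpow_mul hQ]
  push_cast
  rw [div_mul_cancel₀ _ (by positivity), rpow_natCast]
  exact h

/-- A lower bound is certified by a polynomial inequality. -/
lemma le_rpow_frac {B : ℝ} (hQ : 0 ≤ Q) (hB : 0 ≤ B) (h : B ^ (m + 1) ≤ Q ^ m) :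
    B ≤ Q ^ ((m : ℝ) / ((m : ℝ) + 1)) := by
  refine le_of_pow_le_pow_left₀ (Nat.succ_ne_zero m) (rpow_nonneg hQ _) ?_
  rw [← rpow_natCast (Q ^ _) (m + 1), ← rpow_mul hQ]
  push_cast
  rw [div_mul_cancel₀ _ (by positivity), rpow_natCast]
  exact h

/-- The tangent bound `Q^b ≤ 1 + b (Q - 1)`. -/
lemma rpow_frac_le_tangent (hQ : 0 ≤ Q) :
    Q ^ ((m : ℝ) / ((m : ℝ) + 1)) ≤ 1 + (m : ℝ) / ((m : ℝ) + 1) * (Q - 1) := by
  have h := rpow_one_add_le_one_add_mul_self (s := Q - 1) (by linarith)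
    (by positivity : (0 : ℝ) ≤ (m : ℝ) / ((m : ℝ) + 1))
    (by rw [div_le_one (by positivity)]; linarith)
  rwa [add_sub_cancel] at h

end Vale.Agent.P237.Cal
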