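import Vale.Agent.P237.Cal.SmallU

/-!
# P237: an upper step sum for the moment of the unit half ball over `[0, a]`
-/

open MeasureTheory Set Real

namespace Vale.Agent.P237.Cal.SemiUp

variable {m : ℕ}

/-- A rational upper bound of `√(1 - x²)^(m+1)`. -/
def semiF (m : ℕ) (x : ℚ) : ℚ :=
  let u : ℚ := 1 - x ^ 2
  u ^ ((m + 1) / 2) * (if (m + 1) % 2 = 1 then 1 - x ^ 2 / 2 else 1)

/-- The left sum with `16` pieces. -/
def semiUp (m : ℕ) (a : ℚ) : ℚ :=
  ((List.range 16).map fun i : ℕ => a / 16 * semiF m ((i : ℚ) * a / 16)).sum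

lemma pow_sqrt_le {x : ℚ} (h0 : 0 ≤ (x : ℝ)) (h1 : (x : ℝ) ≤ 1) :
    √(1 - (x : ℝ) ^ 2) ^ (m + 1) ≤ (semiF m x : ℝ) := by
  have hu : (0 : ℝ) ≤ 1 - (x : ℝ) ^ 2 := by nlinarith
  have e : √(1 - (x : ℝ) ^ 2) ^ (m + 1) =
      (1 - (x : ℝ) ^ 2) ^ ((m + 1) / 2) * √(1 - (x : ℝ) ^ 2) ^ ((m + 1) % 2) := by
    conv_lhs => rw [← Nat.div_add_mod (m + 1) 2, pow_add, pow_mul, sq_sqrt hu]
  rw [e]
  simp only [semiF]
  push_cast
  rcases Nat.mod_two_eq_zero_or_one (m + 1) with h | h <;> rw [h]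
  · simp
  · simp only [pow_one, if_true]
    push_cast
    refine mul_le_mul_of_nonneg_left ?_ (pow_nonneg hu _)
    rw [sqrt_le_left (by nlinarith)]
    nlinarith [sq_nonneg ((x : ℝ) ^ 2)]

/-- The sum bounds the integral. -/
theorem semiMom_le_semiUp {a : ℚ} (h0 : 0 ≤ (a : ℝ)) (h1 : (a : ℝ) ≤ 1) :
    semiMom m (a : ℝ) ≤ (semiUp m a : ℝ) := by
  set f : ℝ → ℝ := fun x => √(1 - x ^ 2) ^ (m + 1) with hf
  have hi : ∀ u v : ℝ, IntervalIntegrable f volume u v := fun u v =>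
    Continuous.intervalIntegrable (by fun_prop) u v
  set g : ℕ → ℝ := fun i => (i : ℝ) * (a : ℝ) / 16 with hg
  have e : semiMom m (a : ℝ) = ∑ i ∈ Finset.range 16, ∫ x in g i..g (i + 1), f x := by
    rw [intervalIntegral.sum_integral_adjacent_intervals fun k _ => hi _ _]
    simp [hg, semiMom, hf]
  have e2 : ((semiUp m a : ℚ) : ℝ) =
      ∑ i ∈ Finset.range 16, (a : ℝ) / 16 * ((semiF m ((i : ℚ) * a / 16) : ℚ) : ℝ) := by
    rw [semiUp, ← List.sum_toFinset _ (List.nodup_range), List.toFinset_range]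
    push_cast
    rfl
  rw [e, e2]
  refine Finset.sum_le_sum fun i hi' => ?_
  have hi16 : (i : ℝ) ≤ 16 := by exact_mod_cast (Finset.mem_range.1 hi').le
  have hg0 : 0 ≤ g i := by simp only [hg]; positivity
  have hg1 : g i ≤ 1 := by
    simp only [hg]; rw [div_le_one (by norm_num)]
    calc (i : ℝ) * a ≤ 16 * 1 := mul_le_mul hi16 h1 h0 (by norm_num)
      _ = 16 := by norm_num
  have hle : g i ≤ g (i + 1) := by simp only [hg]; push_cast; gcongr; linarith
  have hx : (((i : ℚ) * a / 16 : ℚ) : ℝ) = g i := by simp only [hg]; push_cast; rfl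
  refine (intervalIntegral.integral_mono_on hle (hi _ _) (intervalIntegrable_const (c := f (g i)))
    fun x hx' => ?_).trans (le_of_eq_of_le (by rw [intervalIntegral.integral_const, smul_eq_mul]; congr 1; simp only [hg]; push_cast; ring : (∫ _ in g i..g (i + 1), f (g i)) =
      (a : ℝ) / 16 * f (g i)) ?_)
  · exact pow_le_pow_left₀ (sqrt_nonneg _)
      (sqrt_le_sqrt (sub_le_sub_left (pow_le_pow_left₀ hg0 hx'.1 2) _)) _
  · refine mul_le_mul_of_nonneg_left ?_ (by positivity)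
    rw [← hx]
    exact pow_sqrt_le (hx ▸ hg0) (hx ▸ hg1)

end Vale.Agent.P237.Cal.SemiUp
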