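import Vale.Agent.P237.Cal.SmallU
import Vale.Agent.P237.Cal.LowMoment
import Vale.Agent.P237.Cal.Moments
import Vale.Agent.P237.Cal.Values

/-!
# P237: state bounds on a cell and the integral of the second-order loss
-/

open Real Set MeasureTheory Finset

namespace Vale.Agent.P237.Cal

variable {m : ℕ} {V Y T σ X : ℝ}

/-- `-T lo ≤ η (1/2 + η/(T² + η))`, and the square. -/
theorem loD_env (hY : 1 ≤ Y) {η₀ : ℝ} (hη₀ : 0 < η₀) (hη : Y ^ 2 - 1 ≤ η₀) (hT : 0 < T) :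
    T * -loD Y T ≤ (Y ^ 2 - 1) * (1 / 2 + η₀ / (T ^ 2 + η₀)) ∧
      (T * -loD Y T) ^ 2 ≤ (Y ^ 2 - 1) ^ 2 * (1 / 4 + 3 / 2 * (η₀ / (T ^ 2 + η₀))) := by
  set η := Y ^ 2 - 1 with hηd
  have h0 : 0 ≤ η := by rw [hηd]; nlinarith
  have hmono : η / (T ^ 2 + η) ≤ η₀ / (T ^ 2 + η₀) := by
    rw [div_le_div_iff₀ (by positivity) (by positivity)]
    nlinarith [mul_le_mul_of_nonneg_left hη (sq_nonneg T)]
  suffices key : T * -loD Y T ≤ η * (1 / 2 + η / (T ^ 2 + η)) ∧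
      (T * -loD Y T) ^ 2 ≤ η ^ 2 * (1 / 4 + 3 / 2 * (η / (T ^ 2 + η))) from
    ⟨key.1.trans (mul_le_mul_of_nonneg_left (by linarith) h0),
      key.2.trans (mul_le_mul_of_nonneg_left (by linarith) (sq_nonneg _))⟩
  rcases le_total (T ^ 2) η with hs | hs
  · have hz : T * -loD Y T ≤ T ^ 2 := by
      have := mul_le_mul_of_nonneg_left (neg_le.1 (neg_le_loD Y T)) hT.le
      linarith [sq T]
    have hz0 : 0 ≤ T * -loD Y T := mul_nonneg hT.le (by linarith [loD_nonpos hY hT.le])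
    have hu : 1 / 2 ≤ η / (T ^ 2 + η) := by
      rw [div_le_div_iff₀ two_pos (by positivity)]; linarith
    constructor
    · exact hz.trans (hs.trans (le_mul_of_one_le_right h0 (by linarith)))
    · refine (pow_le_pow_left₀ hz0 (hz.trans hs) 2).trans ?_
      exact le_mul_of_one_le_right (sq_nonneg _) (by linarith)
  · set R := √(T ^ 2 + 1 - Y ^ 2) with hR
    have hR2 : R ^ 2 = T ^ 2 - η := by rw [hR, sq_sqrt (by linarith)]; linarith
    have hR0 : 0 ≤ R := sqrt_nonneg _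
    have hw : R ≤ T := by nlinarith
    set w := R / T with hwd
    have hw0 : 0 ≤ w := by positivity
    have hw1 : w ≤ 1 := (div_le_one hT).2 hw
    have ez : T * -loD Y T = T ^ 2 * (1 - w) := by
      rw [loD, ← hR, hwd]; field_simp; ring
    have eη : η = T ^ 2 * (1 - w ^ 2) := by
      rw [hwd, div_pow, hR2]; field_simp; ring
    have eu : η / (T ^ 2 + η) = (1 - w ^ 2) / (2 - w ^ 2) := by
      rw [eη, show T ^ 2 + T ^ 2 * (1 - w ^ 2) = T ^ 2 * (2 - w ^ 2) by ring,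
        mul_div_mul_left _ _ (pow_ne_zero 2 hT.ne')]
    have hd : 0 < 2 - w ^ 2 := by nlinarith
    rw [ez, eu, eη, mul_pow (T ^ 2), mul_pow (T ^ 2), mul_assoc, mul_assoc]
    constructor
    · refine mul_le_mul_of_nonneg_left ?_ (sq_nonneg T)
      rw [show (1 - w ^ 2) * (1 / 2 + (1 - w ^ 2) / (2 - w ^ 2)) =
        (1 - w) * ((1 + w) * ((2 - w ^ 2) + 2 * (1 - w ^ 2)) / (2 * (2 - w ^ 2))) by
          field_simp; ring]
      refine le_mul_of_one_le_right (by linarith) ?_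
      rw [le_div_iff₀ (by linarith)]
      nlinarith [mul_nonneg hw0 (sq_nonneg w), mul_nonneg hw0 (sub_nonneg.2 hw1),
        mul_nonneg (mul_nonneg hw0 (sub_nonneg.2 hw1)) hw0]
    · refine mul_le_mul_of_nonneg_left ?_ (sq_nonneg _)
      rw [show (1 - w ^ 2) ^ 2 * (1 / 4 + 3 / 2 * ((1 - w ^ 2) / (2 - w ^ 2))) = (1 - w) ^ 2 *
        ((1 + w) ^ 2 * ((2 - w ^ 2) + 6 * (1 - w ^ 2)) / (4 * (2 - w ^ 2))) by field_simp; ring]
      refine le_mul_of_one_le_right (sq_nonneg _) ?_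
      rw [le_div_iff₀ (by linarith)]
      nlinarith [mul_nonneg hw0 (sq_nonneg w), mul_nonneg hw0 (sub_nonneg.2 hw1),
        mul_nonneg (mul_nonneg hw0 (sub_nonneg.2 hw1)) hw0, pow_nonneg hw0 4]

lemma inv_sum_eq {W : ℝ} (hW : 1 < W) (n : ℕ) :
    ∑ i ∈ range n, (W⁻¹) ^ (i + 1) = (1 - (W ^ n)⁻¹) / (W - 1) := by
  have h0 : W ≠ 0 := by positivity
  have h1 : W - 1 ≠ 0 := by linarith
  induction n with
  | zero => simp
  | succ n ih =>
    rw [sum_range_succ, ih]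
    simp only [inv_pow]
    field_simp
    ring

/-- **The crude bound on a cell**, for `σ` and for `σ/W`. -/
theorem crude_cell {h q₁ nv w₁ : ℝ} {n₀ : ℕ} (hR : RegC Y T σ h) (hY : 1 ≤ Y)
    (hE : Exc m V Y T σ) (hV : ((m : ℝ) + 2) * V ≤ q₁ * nv) (hn : n₀ ≤ m + 2)
    (hw : √(1 + T ^ 2) ≤ w₁) (hV0 : 0 ≤ V) :
    σ * ((1 - (w₁ ^ n₀)⁻¹) / (w₁ - 1)) ≤ q₁ * nv ∧
      σ / √(1 + T ^ 2) * (w₁ * ((1 - (w₁ ^ n₀)⁻¹) / (w₁ - 1))) ≤ q₁ * nv := by
  have hT := hR.T_pos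
  have hσ := hR.σ_pos
  set W := √(1 + T ^ 2) with hWd
  have hW : 1 < W := by rw [hWd, lt_sqrt zero_le_one]; nlinarith
  have hc := crude_exc hY hR hE
  rw [← hWd] at hc
  have hk : σ * ((1 - (W ^ (m + 2))⁻¹) / (W - 1)) ≤ q₁ * nv := by
    refine le_trans ?_ hV
    rw [mul_div_assoc', div_le_iff₀ (by linarith)]
    refine hc.trans (le_of_le_of_eq ?_ (mul_right_comm _ _ _))
    refine mul_le_mul_of_nonneg_left ?_ (mul_nonneg (by positivity) (by linarith))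
    exact div_le_self hV0 (one_le_pow₀ hY)
  have hw1 : 1 < w₁ := hW.trans_le hw
  rw [← inv_sum_eq hw1, ← inv_sum_eq hW] at *
  have mono : ∀ i, (w₁⁻¹) ^ i ≤ (W⁻¹) ^ i := fun i =>
    pow_le_pow_left₀ (by positivity) (inv_anti₀ (by linarith) hw) i
  constructor
  · refine le_trans (mul_le_mul_of_nonneg_left ?_ hσ.le) hk
    exact (sum_le_sum fun i _ => mono (i + 1)).trans
      (sum_le_sum_of_subset_of_nonneg (range_subset_range.2 hn) fun i _ _ => by positivity)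
  · refine le_trans ?_ hk
    rw [div_mul_eq_mul_div, mul_div_assoc]
    refine mul_le_mul_of_nonneg_left ?_ hσ.le
    rw [div_le_iff₀ (by linarith), mul_comm _ W]
    calc w₁ * ∑ i ∈ range n₀, (w₁⁻¹) ^ (i + 1) = ∑ i ∈ range n₀, (w₁⁻¹) ^ i := by
          rw [mul_sum]
          exact sum_congr rfl fun i _ => by rw [pow_succ']; field_simp
      _ ≤ ∑ i ∈ range (m + 2), (W⁻¹) ^ i :=
          (sum_le_sum fun i _ => mono i).trans
            (sum_le_sum_of_subset_of_nonneg (range_subset_range.2 hn) fun i _ _ => by positivity)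
      _ = W * ∑ i ∈ range (m + 2), (W⁻¹) ^ (i + 1) := by
          rw [mul_sum]
          exact sum_congr rfl fun i _ => by rw [pow_succ']; field_simp

/-- The bump test on a cell: `β² ≤ 1 - t²`, `qd² ≤ 2 T₀ U + U²`. -/
theorem bump_cell {T₀ w₀ w₁ U σ₁ tt β qd : ℝ} (hB : XBox m V Y T σ X) (hY : 1 ≤ Y)
    (hT : 0 < T) (hT₀ : 0 ≤ T₀) (hT₀T : T₀ ≤ T) (hw₀ : 0 ≤ w₀) (hw₀T : w₀ ≤ √(1 + T ^ 2))
    (hw₁ : √(1 + T ^ 2) ≤ w₁) (hU : 0 ≤ U) (hσ₁ : σ ≤ σ₁) (htt : σ / √(1 + T ^ 2) ≤ tt)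
    (hβ0 : 0 ≤ β) (hβ : β ^ 2 + tt ^ 2 ≤ 1) (hqd : 0 ≤ qd) (hqd2 : qd ^ 2 ≤ 2 * T₀ * U + U ^ 2)
    (hbig : V - semiMom m 1 < ((m : ℝ) + 1) * β ^ m *
      ((qd * ((T₀ + U) * qd + w₀) / (w₁ * (1 + σ₁ ^ 2))) ^ 3 / 6)) :
    σ - T ≤ U := by
  by_contra hc
  push Not at hc
  have hTU : T + U ≤ σ := by linarith
  have hσ : 0 < σ := by linarith
  have hw1 : 0 < w₁ := (w_pos T).trans_le hw₁
  refine absurd (lt_of_lt_of_le hbig ?_) (lt_irrefl _)
  refine le_trans ?_ (bump_tan hB hY hT (by linarith))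
  refine mul_le_mul (mul_le_mul_of_nonneg_left (pow_le_pow_left₀ hβ0 ?_ _) (by positivity))
    (div_le_div_of_nonneg_right (pow_le_pow_left₀ (by positivity) ?_ 3) (by norm_num))
    (by positivity) (by positivity)
  · refine (le_sqrt hβ0 ?_).2 ?_
    · nlinarith [pow_le_pow_left₀ (div_nonneg hσ.le (w_pos T).le) htt 2]
    · linarith [pow_le_pow_left₀ (div_nonneg hσ.le (w_pos T).le) htt 2]
  · refine le_trans ?_ (tanGap_ge hT hTU hU hσ₁)
    have hD : qd ≤ √((T + U) ^ 2 - T ^ 2) := by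
      refine le_sqrt_of_sq_le (hqd2.trans ?_)
      nlinarith [mul_le_mul_of_nonneg_right hT₀T hU]
    gcongr

/-- The weight of the loss. -/
noncomputable def lossW (m : ℕ) (c₀ c₁ E η₀ T : ℝ) : ℝ :=
  ((m : ℝ) + 1) / √(1 + T ^ 2) ^ (m + 4) * (c₀ + c₁ * T ^ 2 + E * (η₀ / (T ^ 2 + η₀)))

lemma continuous_lossW {c₀ c₁ E η₀ : ℝ} (hη₀ : 0 < η₀) : Continuous (lossW m c₀ c₁ E η₀) := by
  unfold lossW
  refine Continuous.mul ?_ ?_
  · exact Continuous.div continuous_const (by fun_prop) fun T => pow_ne_zero _ (w_pos T).ne'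
  · refine Continuous.add (by fun_prop) ?_
    exact continuous_const.mul (Continuous.div continuous_const (by fun_prop) fun T => by positivity)

/-- **The integral of the loss.** -/
theorem integral_lossW {c₀ c₁ E se : ℝ} (hE : 0 ≤ E) (hse : 0 < se) :
    IntegrableOn (lossW m c₀ c₁ E (se ^ 2)) (Ioi 0) ∧
      ∫ T in Ioi (0 : ℝ), lossW m c₀ c₁ E (se ^ 2) T ≤
        semiMom m 1 * (((m : ℝ) + 1) * c₀ + c₁) + ((m : ℝ) + 1) * E * (se * (π / 2)) := by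
  have hs : Integrable (fun T : ℝ => (1 + (se⁻¹ * T) ^ 2)⁻¹) :=
    integrable_inv_one_add_sq.comp_mul_left' (inv_ne_zero hse.ne')
  have i0 := mom_integrable (a := 0) (m := m + 4) (by omega)
  have i2 := mom_integrable (a := 2) (m := m + 4) (by omega)
  have ib : IntegrableOn (fun T : ℝ => ((m : ℝ) + 1) * c₀ * (T ^ 0 / √(1 + T ^ 2) ^ (m + 4)) +
      (((m : ℝ) + 1) * c₁ * (T ^ 2 / √(1 + T ^ 2) ^ (m + 4)) +
        ((m : ℝ) + 1) * E * (1 + (se⁻¹ * T) ^ 2)⁻¹)) (Ioi 0) :=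
    (i0.const_mul _).add ((i2.const_mul _).add (hs.integrableOn.const_mul _))
  have hle : ∀ T : ℝ, lossW m c₀ c₁ E (se ^ 2) T ≤
      ((m : ℝ) + 1) * c₀ * (T ^ 0 / √(1 + T ^ 2) ^ (m + 4)) +
      (((m : ℝ) + 1) * c₁ * (T ^ 2 / √(1 + T ^ 2) ^ (m + 4)) +
        ((m : ℝ) + 1) * E * (1 + (se⁻¹ * T) ^ 2)⁻¹) := fun T => by
    have e : se ^ 2 / (T ^ 2 + se ^ 2) = (1 + (se⁻¹ * T) ^ 2)⁻¹ := by field_simp; ring
    unfold lossW
    rw [← e]
    have h1 : ((m : ℝ) + 1) / √(1 + T ^ 2) ^ (m + 4) * (E * (se ^ 2 / (T ^ 2 + se ^ 2))) ≤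
        ((m : ℝ) + 1) * E * (se ^ 2 / (T ^ 2 + se ^ 2)) := by
      rw [mul_assoc]
      refine mul_le_mul_of_nonneg_right (div_le_self (by positivity) (one_le_pow₀ (one_le_w T)))
        (by positivity)
    generalize se ^ 2 / (T ^ 2 + se ^ 2) = u at h1 ⊢
    generalize √(1 + T ^ 2) ^ (m + 4) = w at h1 ⊢
    have e3 : ((m : ℝ) + 1) / w * (c₀ + c₁ * T ^ 2 + E * u) = ((m : ℝ) + 1) * c₀ * (T ^ 0 / w) +
        (((m : ℝ) + 1) * c₁ * (T ^ 2 / w) + ((m : ℝ) + 1) / w * (E * u)) := by ring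
    linarith
  have hi : IntegrableOn (lossW m c₀ c₁ E (se ^ 2)) (Ioi 0) := by
    refine Integrable.mono' (g := fun T => |c₀| * ((((m : ℝ) + 1)) * (T ^ 0 / √(1 + T ^ 2) ^ (m + 4))) +
      (|c₁| * (((m : ℝ) + 1) * (T ^ 2 / √(1 + T ^ 2) ^ (m + 4))) +
        E * (((m : ℝ) + 1) * (T ^ 0 / √(1 + T ^ 2) ^ (m + 4))))) ?_
      (continuous_lossW (by positivity)).aestronglyMeasurable (ae_of_all _ fun T => ?_)
    · exact (((i0.const_mul _).const_mul _).add (((i2.const_mul _).const_mul _).add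
        ((i0.const_mul _).const_mul _)))
    · have hu : se ^ 2 / (T ^ 2 + se ^ 2) ≤ 1 := by
        rw [div_le_one (by positivity)]; nlinarith
      have hu0 : 0 ≤ se ^ 2 / (T ^ 2 + se ^ 2) := by positivity
      rw [Real.norm_eq_abs]
      unfold lossW
      rw [abs_mul, abs_of_nonneg (by positivity : 0 ≤ ((m : ℝ) + 1) / √(1 + T ^ 2) ^ (m + 4))]
      refine (mul_le_mul_of_nonneg_left (le_trans (abs_add_le _ _) (add_le_add (abs_add_le _ _)
        le_rfl)) (by positivity)).trans ?_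
      rw [abs_mul c₁, abs_of_nonneg (sq_nonneg T),
        abs_of_nonneg (mul_nonneg hE hu0)]
      refine (mul_le_mul_of_nonneg_left (add_le_add le_rfl (mul_le_of_le_one_right hE hu))
        (by positivity)).trans (le_of_eq ?_)
      ring
  refine ⟨hi, (setIntegral_mono hi ib hle).trans (le_of_eq ?_)⟩
  have i23 : IntegrableOn (fun T : ℝ => ((m : ℝ) + 1) * c₁ * (T ^ 2 / √(1 + T ^ 2) ^ (m + 4)) +
      ((m : ℝ) + 1) * E * (1 + (se⁻¹ * T) ^ 2)⁻¹) (Ioi 0) :=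
    (i2.const_mul _).add (hs.integrableOn.const_mul _)
  rw [integral_add (i0.const_mul _) i23,
    integral_add (i2.const_mul _) (hs.integrableOn.const_mul _),
    MeasureTheory.integral_const_mul, MeasureTheory.integral_const_mul,
    MeasureTheory.integral_const_mul,
    integral_comp_mul_left_Ioi (fun x : ℝ => (1 + x ^ 2)⁻¹) 0 (inv_pos.2 hse), mul_zero,
    integral_Ioi_inv_one_add_sq, arctan_zero, sub_zero, inv_inv, smul_eq_mul]
  have e0 : (∫ T in Ioi (0 : ℝ), T ^ 0 / √(1 + T ^ 2) ^ (m + 4)) = semiMom m 1 := by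
    rw [semiMom_one]; rfl
  have e2 : (∫ T in Ioi (0 : ℝ), T ^ 2 / √(1 + T ^ 2) ^ (m + 4)) =
      semiMom m 1 / ((m : ℝ) + 1) := by
    rw [semiMom_one]
    change mom 2 (m + 4) = mom 0 (m + 4) / ((m : ℝ) + 1)
    have hp := mom_step (a := 0) (m := m + 2) (by omega)
    push_cast at hp
    norm_num at hp
    rw [show m + 2 + 2 = m + 4 from rfl] at hp
    field_simp at hp ⊢
    linarith
  rw [e0, e2]
  field_simp
  ring

end Vale.Agent.P237.Cal
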