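import Vale.Agent.P237.Cal.SmallPw
import Vale.Agent.P237.Cal.SmallState

/-!
# P237: the cell test of the pointwise inequality for a small excess

All data of a cell are natural numbers in units `2^(-24)`; the test is rational. `cellOk_sound`
gives `Pw3` on the cell for every dimension of the range and every `ε` of the window; past the last
node `tailOk_sound` uses the full circle multiplier `a = ε`.
-/

open Real Set

namespace Vale.Agent.P237.Cal.Small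

/-- The constants of a range of dimensions and a window. -/
structure Par where
  m0 : ℕ
  m1 : ℕ
  e0 : ℚ
  e1 : ℚ
  L : ℚ
  rlo : ℚ
  rhi : ℚ
  q1 : ℚ
  nv : ℚ
  vhi : ℚ
  se : ℚ
  c0 : ℚ
  c1 : ℚ
  E : ℚ

/-- One cell, ending at `T`; `wl` is below `W` at the left end, `wh` above it at the right end. -/
structure Row where
  T : ℕ
  wl : ℕ
  wh : ℕ
  s1 : ℕ
  U : ℕ
  tt : ℕ
  be : ℕ
  qd : ℕ
  ec : ℕ
  sab : ℕ

/-- The unit. -/
def unit (x : ℕ) : ℚ := (x : ℚ) / 16777216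

/-- The truncated upper end of `σ`. -/
def sigB (r : Row) : ℚ := min (unit r.s1) (unit r.T + unit r.U)

/-- The largest multiplier. -/
def aMax (P : Par) (r : Row) : ℚ := max 0 ((P.e1 - unit r.ec) / (1 + unit r.ec))

/-- The largest reduced coefficient. -/
def eMax (P : Par) (r : Row) : ℚ := min P.e1 (unit r.ec)

/-- The largest price of the multiplier per unit of `Y² - 1`. -/
def gMax (P : Par) (T0 : ℕ) (r : Row) : ℚ :=
  aMax P r / (1 + aMax P r) * (2 + 1 / unit T0 ^ 2)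

/-- The denominator. -/
def ddMin (P : Par) (T0 : ℕ) (r : Row) : ℚ :=
  1 - eMax P r * unit r.T * sigB r - gMax P T0 r * P.se ^ 2 / 2 + unit r.sab

/-- The distance from the point of tangency of the linear weight. -/
def dist (P : Par) (r : Row) : ℚ := max 0 (max (P.rlo - unit r.wh) (unit r.wl - P.rhi))

/-- The nodes and the bound on `σ`. -/
def nodeOk (P : Par) (T0 : ℕ) (r : Row) : Bool :=
  decide (0 < r.wl ∧ unit r.wl ^ 2 ≤ 1 + unit T0 ^ 2 ∧ 1 + unit r.T ^ 2 ≤ unit r.wh ^ 2 ∧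
    T0 ≤ r.T) &&
  (decide (r.wh ≤ r.s1) ||
    decide (1 < unit r.wh ∧ P.q1 * P.nv * (unit r.wh - 1) ≤
      unit r.s1 * (1 - 1 / unit r.wh ^ (P.m0 + 2))))

/-- The bound on `σ - T`. -/
def stateOk (P : Par) (T0 : ℕ) (r : Row) : Bool :=
  decide (unit r.s1 - unit T0 ≤ unit r.U) ||
  (decide (unit r.qd ^ 2 ≤ 2 * unit T0 * unit r.U + unit r.U ^ 2 ∧
      unit r.be ^ 2 + unit r.tt ^ 2 ≤ 1) &&
    (decide (unit r.s1 ≤ unit r.tt * unit r.wl) ||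
      decide (1 < unit r.wh ∧ P.q1 * P.nv * (unit r.wh - 1) ≤
        unit r.tt * (unit r.wh * (1 - 1 / unit r.wh ^ (P.m0 + 2))))) &&
    (List.range (P.m1 + 1 - P.m0)).all fun i => decide ((P.q1 - 1) * P.vhi <
      (((P.m0 + i : ℕ) : ℚ) + 1) * unit r.be ^ (P.m0 + i) *
        ((unit r.qd * ((unit T0 + unit r.U) * unit r.qd + unit r.wl) /
          (unit r.wh * (1 + unit r.s1 ^ 2))) ^ 3 / 6)))

/-- The condition and the loss. -/
def condOk (P : Par) (T0 : ℕ) (r : Row) : Bool :=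
  decide (0 ≤ aMax P r ∧ (aMax P r = 0 ∨ (0 < T0 ∧ P.se ^ 2 ≤ 2 * unit T0 ^ 2)) ∧
    eMax P r * sigB r ^ 2 ≤ 1 ∧
    0 ≤ 1 - eMax P r * unit r.T ^ 2 - gMax P T0 r * P.se ^ 2 ∧
    unit r.sab ^ 2 ≤ (1 - eMax P r * sigB r ^ 2) *
      (1 - eMax P r * unit r.T ^ 2 - gMax P T0 r * P.se ^ 2) ∧
    0 < ddMin P T0 r ∧
    unit r.wh ^ 2 * (2 * aMax P r +
        2 * (P.e1 - aMax P r) * unit r.U * unit r.T / ddMin P T0 r) ≤
      ((P.m0 : ℚ) + 4) * (1 + P.e0) * dist P r ^ 2 * (2 * unit r.wl + P.rlo) / P.rhi ^ 3 +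
        P.L * unit r.wl ^ 2 ∧
    2 / ddMin P T0 r * ((P.e1 - aMax P r) *
        (1 / 4 + 3 / 2 * (P.se ^ 2 / (unit T0 ^ 2 + P.se ^ 2))) +
      (P.e1 - aMax P r) * unit r.T * (unit r.T + unit r.U) *
        (1 / 2 + P.se ^ 2 / (unit T0 ^ 2 + P.se ^ 2)) * gMax P T0 r +
      (1 + aMax P r) * gMax P T0 r ^ 2 * unit r.T ^ 2 / 4) ≤
      P.c0 + P.c1 * unit T0 ^ 2 + P.E * (P.se ^ 2 / (unit r.T ^ 2 + P.se ^ 2)))

/-- The test of a cell. -/
def cellOk (P : Par) (T0 : ℕ) (r : Row) : Bool :=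
  nodeOk P T0 r && stateOk P T0 r && condOk P T0 r

/-- The test past the last node. -/
def tailOk (P : Par) (T0 : ℕ) (wl : ℕ) : Bool :=
  decide (0 < T0 ∧ P.se ^ 2 ≤ 2 * unit T0 ^ 2 ∧ unit wl ^ 2 ≤ 1 + unit T0 ^ 2 ∧
    P.rhi ≤ unit wl ∧
    2 * P.e1 ≤ ((P.m0 : ℚ) + 4) * (1 + P.e0) * (1 - P.rhi / unit wl) ^ 2 *
      (2 * unit wl + P.rlo) / P.rhi ^ 3 + P.L ∧
    P.e1 / (1 + P.e1) * (2 + 1 / unit T0 ^ 2) * P.se ^ 2 ≤ 1 / 2 ∧
    (1 + P.e1) * (P.e1 / (1 + P.e1) * (2 + 1 / unit T0 ^ 2)) ^ 2 / 2 ≤ P.c1)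

/-- The signs of the constants. -/
def parOk (P : Par) : Bool :=
  decide (0 ≤ P.e0 ∧ 0 ≤ P.e1 ∧ 0 ≤ P.L ∧ 0 < P.rlo ∧ 0 < P.rhi ∧ 1 ≤ P.q1 ∧ 0 ≤ P.nv ∧
    0 ≤ P.c0 ∧ 0 ≤ P.c1 ∧ 0 ≤ P.E ∧ 0 < P.se)

/-- What is known of a dimension, of `V`, `Y` and `ε` in the window. -/
structure Hyp (P : Par) (m : ℕ) (V Y ε lam : ℝ) : Prop where
  m_ge : P.m0 ≤ m
  m_le : m ≤ P.m1
  one_le : 1 ≤ Y
  eta_le : Y ^ 2 - 1 ≤ (P.se : ℝ) ^ 2
  e_ge : (P.e0 : ℝ) ≤ ε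
  e_le : ε ≤ (P.e1 : ℝ)
  r_ge : (P.rlo : ℝ) ≤ rr (m + 1)
  r_le : rr (m + 1) ≤ (P.rhi : ℝ)
  nv_ge : ((m : ℝ) + 2) * semiMom m 1 ≤ (P.nv : ℝ)
  vhi_ge : semiMom m 1 ≤ (P.vhi : ℝ)
  V_ge : semiMom m 1 ≤ V
  V_le : V ≤ (P.q1 : ℝ) * semiMom m 1
  lam_ge : (P.L : ℝ) ≤ lam

lemma cast_unit (x : ℕ) : ((unit x : ℚ) : ℝ) = (x : ℝ) / 16777216 := by
  simp [unit]

lemma semiMom_nonneg (m : ℕ) : 0 ≤ semiMom m 1 :=
  intervalIntegral.integral_nonneg zero_le_one fun x _ => by positivity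

/-- The prices of the multiplier. -/
lemma mult_bounds {ε ec e1 : ℝ} (hec : 0 ≤ ec) (he : 0 ≤ ε) (he1 : ε ≤ e1) :
    let a := max 0 ((ε - ec) / (1 + ec))
    let A := max 0 ((e1 - ec) / (1 + ec))
    0 ≤ a ∧ a ≤ ε ∧ a ≤ A ∧ (ε - a) / (1 + a) ≤ min e1 ec ∧ 0 ≤ (ε - a) / (1 + a) ∧
      ε - a ≤ e1 - A ∧ a / (1 + a) ≤ A / (1 + A) := by
  intro a A
  have hd : 0 < 1 + ec := by linarith
  have ha : 0 ≤ a := le_max_left _ _
  have haA : a ≤ A := max_le_max le_rfl (by gcongr)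
  have hae : a ≤ ε := max_le he (by rw [div_le_iff₀ hd]; nlinarith)
  have hmid : (ε - a) / (1 + a) ≤ ec := by
    rw [div_le_iff₀ (by linarith)]
    have : (ε - ec) / (1 + ec) ≤ a := le_max_right _ _
    rw [div_le_iff₀ hd] at this
    nlinarith
  refine ⟨ha, hae, haA, le_min ((div_le_self (by linarith) (by linarith)).trans (by linarith)) hmid,
    div_nonneg (by linarith) (by linarith), ?_, ?_⟩
  · rcases max_choice 0 ((e1 - ec) / (1 + ec)) with h | h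
    · have hA : A = 0 := h
      linarith
    · have hA : A = (e1 - ec) / (1 + ec) := h
      rcases max_choice 0 ((ε - ec) / (1 + ec)) with h' | h'
      · have h0 : a = 0 := h'
        have : (ε - ec) / (1 + ec) ≤ 0 := h0 ▸ le_max_right 0 _
        rw [div_le_iff₀ hd] at this
        rw [h0, hA]
        have : 0 ≤ A := ha.trans haA
        rw [hA, le_div_iff₀ hd] at this
        rw [sub_zero, le_sub_iff_add_le', div_add' _ _ _ hd.ne', div_le_iff₀ hd]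
        nlinarith
      · have h0 : a = (ε - ec) / (1 + ec) := h'
        rw [h0, hA, sub_div' hd.ne', sub_div' hd.ne']
        gcongr ?_ / _
        nlinarith
  · rw [div_le_div_iff₀ (by linarith) (by linarith)]
    nlinarith

variable {P : Par} {m : ℕ} {V Y ε lam T σ h X : ℝ} {T0 : ℕ} {r : Row}

/-- The bound on `σ`. -/
theorem node_sound (hP : parOk P = true) (H : Hyp P m V Y ε lam) (hk : nodeOk P T0 r = true)
    (hT : T ∈ Icc ((unit T0 : ℚ) : ℝ) ((unit r.T : ℚ) : ℝ)) (hR : RegC Y T σ h)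
    (hE : Exc m V Y T σ) :
    (0 < (unit r.wl : ℝ) ∧ (unit r.wl : ℝ) ≤ √(1 + T ^ 2) ∧ √(1 + T ^ 2) ≤ (unit r.wh : ℝ)) ∧
      σ ≤ (unit r.s1 : ℝ) := by
  simp only [parOk, decide_eq_true_eq] at hP
  simp only [nodeOk, Bool.and_eq_true, Bool.or_eq_true, decide_eq_true_eq] at hk
  obtain ⟨⟨h0, h1, h2, -⟩, h3⟩ := hk
  have hu0 : 0 ≤ ((unit T0 : ℚ) : ℝ) := by rw [cast_unit]; positivity
  have hwl : 0 < ((unit r.wl : ℚ) : ℝ) := by
    rw [cast_unit]; exact div_pos (Nat.cast_pos.2 h0) (by norm_num)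
  have q1 := (Rat.cast_le (K := ℝ)).2 h1
  have q2 := (Rat.cast_le (K := ℝ)).2 h2
  push_cast at q1 q2
  have hwh0 : 0 ≤ ((unit r.wh : ℚ) : ℝ) := by rw [cast_unit]; positivity
  have hl : (unit r.wl : ℝ) ≤ √(1 + T ^ 2) :=
    le_sqrt_of_sq_le (by linarith [pow_le_pow_left₀ hu0 hT.1 2])
  have hh : √(1 + T ^ 2) ≤ (unit r.wh : ℝ) :=
    (sqrt_le_left hwh0).2 (by linarith [pow_le_pow_left₀ (hu0.trans hT.1) hT.2 2])
  refine ⟨⟨hwl, hl, hh⟩, ?_⟩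
  rcases h3 with h3 | ⟨h3, h4⟩
  · refine hR.σ_le.trans (hh.trans ?_)
    rw [cast_unit, cast_unit]
    exact div_le_div_of_nonneg_right (Nat.cast_le.2 h3) (by norm_num)
  · have q3 := (Rat.cast_lt (K := ℝ)).2 h3
    have q4 := (Rat.cast_le (K := ℝ)).2 h4
    push_cast at q3 q4
    have hq : 0 ≤ (P.q1 : ℝ) := by exact_mod_cast (zero_le_one.trans hP.2.2.2.2.2.1)
    have hV : ((m : ℝ) + 2) * V ≤ (P.q1 : ℝ) * (P.nv : ℝ) := by
      refine (mul_le_mul_of_nonneg_left H.V_le (by positivity)).trans ?_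
      rw [mul_left_comm]
      exact mul_le_mul_of_nonneg_left H.nv_ge hq
    have hV0 : 0 ≤ V := (semiMom_nonneg m).trans H.V_ge
    have hc := (crude_cell (n₀ := P.m0 + 2) hR H.one_le hE hV (by have := H.m_ge; omega) hh hV0).1
    have hpos : 0 < (1 - ((unit r.wh : ℝ) ^ (P.m0 + 2))⁻¹) / ((unit r.wh : ℝ) - 1) :=
      div_pos (sub_pos.2 (inv_lt_one_of_one_lt₀ (one_lt_pow₀ q3 (by omega)))) (by linarith)
    refine le_of_mul_le_mul_right (hc.trans ?_) hpos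
    rw [mul_div_assoc', le_div_iff₀ (by linarith), inv_eq_one_div]
    exact q4

/-- The bound on `σ - T`. -/
theorem state_sound (hP : parOk P = true) (H : Hyp P m V Y ε lam) (hk : nodeOk P T0 r = true)
    (hs : stateOk P T0 r = true)
    (hT : T ∈ Icc ((unit T0 : ℚ) : ℝ) ((unit r.T : ℚ) : ℝ)) (hR : RegC Y T σ h)
    (hB : XBox m V Y T σ X) (hE : Exc m V Y T σ) :
    σ - T ≤ (unit r.U : ℝ) ∧ σ ≤ (sigB r : ℝ) := by
  obtain ⟨⟨hwl, hl, hh⟩, hσ⟩ := node_sound hP H hk hT hR hE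
  have hu : σ - T ≤ (unit r.U : ℝ) := by
    simp only [parOk, decide_eq_true_eq] at hP
    simp only [stateOk, Bool.and_eq_true, Bool.or_eq_true, decide_eq_true_eq,
      List.all_eq_true] at hs
    rcases hs with h1 | ⟨⟨⟨h1, h2⟩, h3⟩, h4⟩
    · have q1 := (Rat.cast_le (K := ℝ)).2 h1
      push_cast at q1
      linarith [hT.1]
    · have q1 := (Rat.cast_le (K := ℝ)).2 h1
      have q2 := (Rat.cast_le (K := ℝ)).2 h2
      push_cast at q1 q2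
      have htt : σ / √(1 + T ^ 2) ≤ (unit r.tt : ℝ) := by
        have ht0 : 0 ≤ ((unit r.tt : ℚ) : ℝ) := by rw [cast_unit]; positivity
        rcases h3 with h3 | ⟨h3, h5⟩
        · have q3 := (Rat.cast_le (K := ℝ)).2 h3
          push_cast at q3
          rw [div_le_iff₀ (w_pos T)]
          exact hσ.trans (q3.trans (mul_le_mul_of_nonneg_left hl ht0))
        · have q3 := (Rat.cast_lt (K := ℝ)).2 h3
          have q4 := (Rat.cast_le (K := ℝ)).2 h5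
          push_cast at q3 q4
          have hq : 0 ≤ (P.q1 : ℝ) := by exact_mod_cast (zero_le_one.trans hP.2.2.2.2.2.1)
          have hV : ((m : ℝ) + 2) * V ≤ (P.q1 : ℝ) * (P.nv : ℝ) := by
            refine (mul_le_mul_of_nonneg_left H.V_le (by positivity)).trans ?_
            rw [mul_left_comm]
            exact mul_le_mul_of_nonneg_left H.nv_ge hq
          have hV0 : 0 ≤ V := (semiMom_nonneg m).trans H.V_ge
          have hc := (crude_cell (n₀ := P.m0 + 2) hR H.one_le hE hV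
            (by have := H.m_ge; omega) hh hV0).2
          have hpos : 0 < (unit r.wh : ℝ) *
              ((1 - ((unit r.wh : ℝ) ^ (P.m0 + 2))⁻¹) / ((unit r.wh : ℝ) - 1)) :=
            mul_pos (by linarith) (div_pos
              (sub_pos.2 (inv_lt_one_of_one_lt₀ (one_lt_pow₀ q3 (by omega)))) (by linarith))
          refine le_of_mul_le_mul_right (hc.trans ?_) hpos
          rw [mul_div_assoc', mul_div_assoc', le_div_iff₀ (by linarith), inv_eq_one_div]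
          exact q4
      obtain ⟨i, hi⟩ := Nat.exists_eq_add_of_le H.m_ge
      have h6 := h4 i (List.mem_range.2 (by have := H.m_le; omega))
      rw [← hi] at h6
      have q6 := (Rat.cast_lt (K := ℝ)).2 h6
      push_cast at q6
      have hu0 : 0 ≤ ((unit T0 : ℚ) : ℝ) := by rw [cast_unit]; positivity
      refine bump_cell hB H.one_le hR.T_pos hu0 hT.1 hwl.le hl hh (by rw [cast_unit]; positivity)
        hσ htt (by rw [cast_unit]; positivity) q2 (by rw [cast_unit]; positivity) q1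
        (lt_of_le_of_lt ?_ q6)
      have hq : 0 ≤ (P.q1 : ℝ) - 1 := by
        rw [sub_nonneg]; exact_mod_cast hP.2.2.2.2.2.1
      exact le_trans (by linarith [H.V_le]) (mul_le_mul_of_nonneg_left H.vhi_ge hq)
  refine ⟨hu, ?_⟩
  rw [sigB, Rat.cast_min, Rat.cast_add]
  exact le_min hσ (by linarith [hT.2])

/-- The weight of `σ - T` from below. -/
theorem ell_lower (hP : parOk P = true) (H : Hyp P m V Y ε lam) {wl d : ℝ} (hwl : 0 ≤ wl)
    (hW : wl ≤ √(1 + T ^ 2)) (hT : 0 ≤ T) (hd : 0 ≤ d) (hd2 : d ≤ |√(1 + T ^ 2) - rr (m + 1)|) :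
    T * ((m : ℝ) + 1) * (((P.m0 : ℝ) + 4) * (1 + (P.e0 : ℝ)) * d ^ 2 * (2 * wl + (P.rlo : ℝ)) /
        (P.rhi : ℝ) ^ 3 + (P.L : ℝ) * wl ^ 2) / √(1 + T ^ 2) ^ (m + 6) ≤
      ell m ε (muT m ε (rr (m + 1))) (aT m ε (rr (m + 1)) lam) T := by
  simp only [parOk, decide_eq_true_eq] at hP
  obtain ⟨he0, -, hL, hrl, -⟩ := hP
  have he0 : 0 ≤ (P.e0 : ℝ) := Rat.cast_nonneg.2 he0
  have hL : 0 ≤ (P.L : ℝ) := Rat.cast_nonneg.2 hL
  have hrl : 0 < (P.rlo : ℝ) := Rat.cast_pos.2 hrl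
  have hr : 0 < rr (m + 1) := hrl.trans_le H.r_ge
  have he : 0 ≤ ε := he0.trans H.e_ge
  have hm : (P.m0 : ℝ) ≤ m := Nat.cast_le.2 H.m_ge
  rw [ell_tangent hr.ne']
  refine div_le_div_of_nonneg_right (mul_le_mul_of_nonneg_left (add_le_add ?_ ?_) (by positivity))
    (by positivity)
  · rw [mul_div_assoc', mul_assoc]
    refine div_le_div₀ (by positivity) ?_ (pow_pos hr 3) (pow_le_pow_left₀ hr.le H.r_le 3)
    have h2 : d ^ 2 ≤ (√(1 + T ^ 2) - rr (m + 1)) ^ 2 := by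
      rw [← sq_abs (√(1 + T ^ 2) - rr (m + 1))]; exact pow_le_pow_left₀ hd hd2 2
    refine mul_le_mul (mul_le_mul (by linarith) (by linarith [H.e_ge]) (by linarith)
      (by positivity)) ?_ (by positivity) (by positivity)
    exact mul_le_mul h2 (by linarith [H.r_ge]) (by positivity) (sq_nonneg _)
  · exact mul_le_mul H.lam_ge (pow_le_pow_left₀ hwl hW 2) (sq_nonneg _) (hL.trans H.lam_ge)

/-- From the cell quantities to `Pw3`. -/
theorem pw_of_bounds (H : Hyp P m V Y ε lam) (hP : parOk P = true) (hR : RegC Y T σ h)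
    {a A X' g dd U Th Wh S sab ell0 : ℝ} (ha : 0 ≤ a) (hae : a ≤ ε) (hA : a ≤ A)
    (hX : ε - a ≤ X') (hhaT : a = 0 ∨ Y ^ 2 - 1 ≤ 2 * T ^ 2)
    (hU : σ - T ≤ U) (hU0 : 0 ≤ U) (hg : -gCirc Y T a ≤ (Y ^ 2 - 1) * g) (hg0 : 0 ≤ g)
    (hTh : T ≤ Th) (hWh : √(1 + T ^ 2) ≤ Wh) (hdd : 0 < dd)
    (hsab : sab ≤ √((1 - (ε - a) / (1 + a) * σ ^ 2) *
      (1 - (ε - a) / (1 + a) * T ^ 2 + gCirc Y T a)))
    (hden : dd ≤ 1 - (ε - a) / (1 + a) * T * σ + gCirc Y T a / 2 + sab)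
    (hA' : 0 ≤ 1 - (ε - a) / (1 + a) * σ ^ 2)
    (hB' : 0 ≤ 1 - (ε - a) / (1 + a) * T ^ 2 + gCirc Y T a)
    (hcond : Wh ^ 2 * (2 * A + 2 * X' * U * Th / dd) ≤ ell0)
    (hell : T * ((m : ℝ) + 1) * ell0 / √(1 + T ^ 2) ^ (m + 6) ≤
      ell m ε (muT m ε (rr (m + 1))) (aT m ε (rr (m + 1)) lam) T)
    (hS : 2 / dd * (X' * (1 / 4 + 3 / 2 * ((P.se : ℝ) ^ 2 / (T ^ 2 + (P.se : ℝ) ^ 2))) +
      X' * Th * (Th + U) * (1 / 2 + (P.se : ℝ) ^ 2 / (T ^ 2 + (P.se : ℝ) ^ 2)) * g +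
      (1 + A) * g ^ 2 * Th ^ 2 / 4) ≤ S)
    (hS2 : S ≤ (P.c0 : ℝ) + (P.c1 : ℝ) * T ^ 2 +
      (P.E : ℝ) * ((P.se : ℝ) ^ 2 / (T ^ 2 + (P.se : ℝ) ^ 2))) :
    Pw3 m ε (muT m ε (rr (m + 1))) (aT m ε (rr (m + 1)) lam) 0 (fun _ => 0) (fun _ => 0)
      (fun _ => 0) (fun _ => 0) (fun _ => 0) (fun _ => 0) (fun _ => 0) (fun _ => 0) (fun _ => 0)
      (fun _ => 0)
      (fun x => ell m ε (muT m ε (rr (m + 1))) (aT m ε (rr (m + 1)) lam) x * loD Y x -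
        (Y ^ 2 - 1) ^ 2 * lossW m (P.c0 : ℝ) (P.c1 : ℝ) (P.E : ℝ) ((P.se : ℝ) ^ 2) x) T σ h X := by
  simp only [parOk, decide_eq_true_eq] at hP
  have hse : 0 < (P.se : ℝ) := Rat.cast_pos.2 hP.2.2.2.2.2.2.2.2.2.2
  have hY := H.one_le
  have hT := hR.T_pos
  have hW := w_pos T
  have hW2 := w_sq T
  have h1a : 0 < 1 + a := by linarith
  have hη : 0 ≤ Y ^ 2 - 1 := by nlinarith
  have hG : 0 ≤ -gCirc Y T a := by
    rw [gCirc, neg_div, neg_neg]; positivity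
  have hlo : 0 ≤ -loD Y T := neg_nonneg.2 (loD_nonpos hY hT.le)
  have hX0 : 0 ≤ X' := le_trans (by linarith) hX
  have hA0 : 0 ≤ A := ha.trans hA
  refine pw_small hY hR ha hae hhaT hU hU0 hA' hB' hdd (hden.trans (by linarith)) ?_
    (R := (Y ^ 2 - 1) ^ 2 * lossW m (P.c0 : ℝ) (P.c1 : ℝ) (P.E : ℝ) ((P.se : ℝ) ^ 2) T) ?_ X
  · refine le_trans ?_ hell
    have e : ((m : ℝ) + 1) * T ^ 2 / √(1 + T ^ 2) ^ (m + 4) *
        (2 * a / T + (1 + a) * (2 * ((ε - a) / (1 + a)) * U / dd)) =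
        T * ((m : ℝ) + 1) * (√(1 + T ^ 2) ^ 2 * (2 * a + 2 * (ε - a) * U * T / dd)) /
          √(1 + T ^ 2) ^ (m + 6) := by
      rw [show m + 6 = m + 4 + 2 from rfl, pow_add]
      field_simp
      ring
    rw [e]
    refine div_le_div_of_nonneg_right (mul_le_mul_of_nonneg_left (le_trans ?_ hcond)
      (by positivity)) (by positivity)
    have i1 : 2 * (ε - a) * U * T / dd ≤ 2 * X' * U * Th / dd :=
      div_le_div_of_nonneg_right (mul_le_mul (mul_le_mul_of_nonneg_right (by linarith) hU0) hTh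
        hT.le (by positivity)) hdd.le
    have hp : 0 ≤ 2 * (ε - a) * U * T / dd :=
      div_nonneg (mul_nonneg (mul_nonneg (by linarith) hU0) hT.le) hdd.le
    exact mul_le_mul (pow_le_pow_left₀ hW.le hWh 2) (by linarith) (by linarith) (by positivity)
  · obtain ⟨x1, x2⟩ := loD_env hY (pow_pos hse 2) H.eta_le hT
    set z := (P.se : ℝ) ^ 2 / (T ^ 2 + (P.se : ℝ) ^ 2) with hz
    have hz0 : 0 ≤ z := by rw [hz]; positivity
    set G := -gCirc Y T a with hGd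
    set lo := -loD Y T with hlod
    have e : ((m : ℝ) + 1) * T ^ 2 / √(1 + T ^ 2) ^ (m + 4) * ((1 + a) * (2 *
        ((ε - a) / (1 + a) * loD Y T ^ 2 + (ε - a) / (1 + a) * (T + U) * lo * G +
          gCirc Y T a ^ 2 / 4) / dd)) = ((m : ℝ) + 1) / √(1 + T ^ 2) ^ (m + 4) *
        (2 / dd * ((ε - a) * (T * lo) ^ 2 + (ε - a) * T * (T + U) * (T * lo) * G +
          (1 + a) * G ^ 2 * T ^ 2 / 4)) := by
      rw [hGd, hlod]; field_simp
    rw [e, lossW, ← hz, mul_comm ((Y ^ 2 - 1) ^ 2)]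
    rw [mul_assoc (((m : ℝ) + 1) / √(1 + T ^ 2) ^ (m + 4))]
    refine mul_le_mul_of_nonneg_left ?_ (by positivity)
    refine le_trans ?_ (mul_le_mul_of_nonneg_right (hS.trans hS2) (sq_nonneg _))
    rw [mul_assoc (2 / dd)]
    refine mul_le_mul_of_nonneg_left ?_ (by positivity)
    have b1 : (ε - a) * (T * lo) ^ 2 ≤ X' * ((Y ^ 2 - 1) ^ 2 * (1 / 4 + 3 / 2 * z)) :=
      mul_le_mul hX x2 (sq_nonneg _) hX0
    have b2 : (ε - a) * T * (T + U) * (T * lo) * G ≤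
        X' * Th * (Th + U) * ((Y ^ 2 - 1) * (1 / 2 + z)) * ((Y ^ 2 - 1) * g) := by
      refine mul_le_mul (mul_le_mul (mul_le_mul (mul_le_mul hX hTh hT.le hX0) (by linarith)
        (by linarith) (mul_nonneg hX0 (hT.le.trans hTh))) x1 (mul_nonneg hT.le hlo) ?_) hg hG ?_
      · exact mul_nonneg (mul_nonneg hX0 (hT.le.trans hTh)) (by linarith)
      · exact mul_nonneg (mul_nonneg (mul_nonneg hX0 (hT.le.trans hTh)) (by linarith))
          (mul_nonneg hη (by linarith))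
    have b3 : (1 + a) * G ^ 2 * T ^ 2 / 4 ≤ (1 + A) * ((Y ^ 2 - 1) * g) ^ 2 * Th ^ 2 / 4 := by
      gcongr
    linarith

/-- **A cell.** -/
theorem cellOk_sound (hP : parOk P = true) (H : Hyp P m V Y ε lam) (hk : cellOk P T0 r = true)
    (hT : T ∈ Icc ((unit T0 : ℚ) : ℝ) ((unit r.T : ℚ) : ℝ)) (hR : RegC Y T σ h)
    (hB : XBox m V Y T σ X) (hE : Exc m V Y T σ) :
    Pw3 m ε (muT m ε (rr (m + 1))) (aT m ε (rr (m + 1)) lam) 0 (fun _ => 0) (fun _ => 0)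
      (fun _ => 0) (fun _ => 0) (fun _ => 0) (fun _ => 0) (fun _ => 0) (fun _ => 0) (fun _ => 0)
      (fun _ => 0)
      (fun x => ell m ε (muT m ε (rr (m + 1))) (aT m ε (rr (m + 1)) lam) x * loD Y x -
        (Y ^ 2 - 1) ^ 2 * lossW m (P.c0 : ℝ) (P.c1 : ℝ) (P.E : ℝ) ((P.se : ℝ) ^ 2) x) T σ h X := by
  simp only [cellOk, Bool.and_eq_true] at hk
  obtain ⟨⟨hn, hs⟩, hc⟩ := hk
  obtain ⟨hU, hσb⟩ := state_sound hP H hn hs hT hR hB hE
  obtain ⟨⟨hwl, hl, hh⟩, -⟩ := node_sound hP H hn hT hR hE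
  have hPr := hP
  simp only [parOk, decide_eq_true_eq] at hP
  obtain ⟨p0, p1, -, -, -, -, -, -, p8, p9, p10⟩ := hP
  have p0 : 0 ≤ (P.e0 : ℝ) := Rat.cast_nonneg.2 p0
  have p1 : 0 ≤ (P.e1 : ℝ) := Rat.cast_nonneg.2 p1
  have p8 : 0 ≤ (P.c1 : ℝ) := Rat.cast_nonneg.2 p8
  have p9 : 0 ≤ (P.E : ℝ) := Rat.cast_nonneg.2 p9
  have hse : 0 < (P.se : ℝ) := Rat.cast_pos.2 p10
  simp only [condOk, decide_eq_true_eq] at hc
  obtain ⟨-, c2, c3, c4, c5, c6, c7, c8⟩ := hc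
  have d3 := (Rat.cast_le (K := ℝ)).2 c3
  have d4 := (Rat.cast_le (K := ℝ)).2 c4
  have d5 := (Rat.cast_le (K := ℝ)).2 c5
  have d6 := (Rat.cast_lt (K := ℝ)).2 c6
  have d7 := (Rat.cast_le (K := ℝ)).2 c7
  have d8 := (Rat.cast_le (K := ℝ)).2 c8
  have eA : (aMax P r : ℝ) = max 0 (((P.e1 : ℝ) - (unit r.ec : ℝ)) / (1 + (unit r.ec : ℝ))) := by
    simp [aMax]
  have eE : (eMax P r : ℝ) = min (P.e1 : ℝ) (unit r.ec : ℝ) := by simp [eMax]
  have eG : (gMax P T0 r : ℝ) =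
      (aMax P r : ℝ) / (1 + (aMax P r : ℝ)) * (2 + 1 / (unit T0 : ℝ) ^ 2) := by simp [gMax]
  have eD : (dist P r : ℝ) =
      max 0 (max ((P.rlo : ℝ) - (unit r.wh : ℝ)) ((unit r.wl : ℝ) - (P.rhi : ℝ))) := by simp [dist]
  have eDD : (ddMin P T0 r : ℝ) = 1 - (eMax P r : ℝ) * (unit r.T : ℝ) * (sigB r : ℝ) -
      (gMax P T0 r : ℝ) * (P.se : ℝ) ^ 2 / 2 + (unit r.sab : ℝ) := by simp [ddMin]
  push_cast at d3 d4 d5 d6 d7 d8
  have hu0 : 0 ≤ ((unit T0 : ℚ) : ℝ) := by rw [cast_unit]; positivity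
  have hU0 : 0 ≤ ((unit r.U : ℚ) : ℝ) := by rw [cast_unit]; positivity
  have hec : 0 ≤ ((unit r.ec : ℚ) : ℝ) := by rw [cast_unit]; positivity
  have he : 0 ≤ ε := p0.trans H.e_ge
  obtain ⟨ha, hae, haA, hep, hep0, hX, haa⟩ := mult_bounds hec he H.e_le
  rw [← eA] at haA hX haa
  rw [← eE] at hep
  set a := max 0 ((ε - (unit r.ec : ℝ)) / (1 + (unit r.ec : ℝ))) with had
  have hT0 := hR.T_pos
  have hη : 0 ≤ Y ^ 2 - 1 := by exact sub_nonneg.2 (one_le_pow₀ H.one_le)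
  have hAm : 0 ≤ (aMax P r : ℝ) := ha.trans haA
  have hg0 : 0 ≤ (gMax P T0 r : ℝ) := by rw [eG]; positivity
  have hg : -gCirc Y T a ≤ (Y ^ 2 - 1) * (gMax P T0 r : ℝ) := by
    have e : -gCirc Y T a = (Y ^ 2 - 1) * (a / (1 + a) * (2 + 1 / T ^ 2)) := by
      unfold gCirc; field_simp; ring
    rw [e]
    refine mul_le_mul_of_nonneg_left ?_ hη
    rcases c2 with c2 | ⟨c2, -⟩
    · have : (aMax P r : ℝ) = 0 := by rw [c2]; simp
      have : a = 0 := le_antisymm (by linarith) ha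
      rw [this]; simpa using hg0
    · rw [eG]
      have : 0 < ((unit T0 : ℚ) : ℝ) := by
        rw [cast_unit]; exact div_pos (Nat.cast_pos.2 c2) (by norm_num)
      refine mul_le_mul haa (add_le_add le_rfl ?_) (by positivity) (by positivity)
      exact one_div_le_one_div_of_le (by positivity) (pow_le_pow_left₀ hu0 hT.1 2)
  have hhaT : a = 0 ∨ Y ^ 2 - 1 ≤ 2 * T ^ 2 := by
    rcases c2 with c2 | ⟨-, c2⟩
    · left
      have : (aMax P r : ℝ) = 0 := by rw [c2]; simp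
      exact le_antisymm (by linarith) ha
    · right
      have := (Rat.cast_le (K := ℝ)).2 c2
      push_cast at this
      linarith [H.eta_le, pow_le_pow_left₀ hu0 hT.1 2]
  have hgb : -gCirc Y T a ≤ (gMax P T0 r : ℝ) * (P.se : ℝ) ^ 2 :=
    hg.trans ((mul_le_mul_of_nonneg_right H.eta_le hg0).trans_eq (mul_comm _ _))
  have hsb0 : 0 ≤ (sigB r : ℝ) := hR.σ_pos.le.trans hσb
  have hem : 0 ≤ (eMax P r : ℝ) := hep0.trans hep
  set ep := (ε - a) / (1 + a) with hepd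
  have iA : 1 - (eMax P r : ℝ) * (sigB r : ℝ) ^ 2 ≤ 1 - ep * σ ^ 2 :=
    sub_le_sub_left (mul_le_mul hep (pow_le_pow_left₀ hR.σ_pos.le hσb 2) (sq_nonneg _) hem) _
  have iB : 1 - (eMax P r : ℝ) * (unit r.T : ℝ) ^ 2 - (gMax P T0 r : ℝ) * (P.se : ℝ) ^ 2 ≤
      1 - ep * T ^ 2 + gCirc Y T a := by
    have := mul_le_mul hep (pow_le_pow_left₀ hT0.le hT.2 2) (sq_nonneg _) hem
    linarith
  have iM : (eMax P r : ℝ) * (unit r.T : ℝ) * (sigB r : ℝ) ≥ ep * T * σ :=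
    mul_le_mul (mul_le_mul hep hT.2 hT0.le hem) hσb hR.σ_pos.le
      (mul_nonneg hem (hT0.le.trans hT.2))
  refine pw_of_bounds (U := (unit r.U : ℝ)) (Th := (unit r.T : ℝ)) (Wh := (unit r.wh : ℝ))
    (A := (aMax P r : ℝ)) (X' := (P.e1 : ℝ) - (aMax P r : ℝ)) (g := (gMax P T0 r : ℝ))
    (dd := (ddMin P T0 r : ℝ)) (sab := (unit r.sab : ℝ)) H hPr hR ha hae haA hX hhaT hU hU0 hg hg0
    hT.2 hh d6 ?_ ?_ (le_trans (by linarith) iA) (le_trans (by linarith) iB) d7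
    (ell_lower hPr H hwl.le hl hT0.le (d := (dist P r : ℝ)) (by rw [eD]; exact le_max_left _ _) ?_)
    le_rfl ?_
  · refine le_sqrt_of_sq_le (d5.trans ?_)
    exact mul_le_mul iA iB d4 (le_trans (by linarith) iA)
  · rw [eDD]; linarith
  · rw [eD]
    refine max_le (abs_nonneg _) (max_le ?_ ?_)
    · exact le_trans (by linarith [H.r_ge]) (neg_le_abs _)
    · exact le_trans (by linarith [H.r_le]) (le_abs_self _)
  · have hz1 : (P.se : ℝ) ^ 2 / (T ^ 2 + (P.se : ℝ) ^ 2) ≤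
        (P.se : ℝ) ^ 2 / ((unit T0 : ℝ) ^ 2 + (P.se : ℝ) ^ 2) := by
      gcongr
      exact hT.1
    have hz2 : (P.se : ℝ) ^ 2 / ((unit r.T : ℝ) ^ 2 + (P.se : ℝ) ^ 2) ≤
        (P.se : ℝ) ^ 2 / (T ^ 2 + (P.se : ℝ) ^ 2) := by
      gcongr
      exact hT.2
    have hc1 := mul_le_mul_of_nonneg_left (pow_le_pow_left₀ hu0 hT.1 2) p8
    have hE := mul_le_mul_of_nonneg_left hz2 p9
    refine le_trans ?_ (le_trans d8 (by linarith))
    have hX0 : 0 ≤ (P.e1 : ℝ) - (aMax P r : ℝ) := le_trans (by linarith) hX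
    have hTr : 0 ≤ ((unit r.T : ℚ) : ℝ) := hT0.le.trans hT.2
    gcongr

/-- **The tail.** -/
theorem tailOk_sound {wl : ℕ} (hP : parOk P = true) (H : Hyp P m V Y ε lam)
    (hk : tailOk P T0 wl = true) (hT : ((unit T0 : ℚ) : ℝ) ≤ T) (hR : RegC Y T σ h) :
    Pw3 m ε (muT m ε (rr (m + 1))) (aT m ε (rr (m + 1)) lam) 0 (fun _ => 0) (fun _ => 0)
      (fun _ => 0) (fun _ => 0) (fun _ => 0) (fun _ => 0) (fun _ => 0) (fun _ => 0) (fun _ => 0)
      (fun _ => 0)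
      (fun x => ell m ε (muT m ε (rr (m + 1))) (aT m ε (rr (m + 1)) lam) x * loD Y x -
        (Y ^ 2 - 1) ^ 2 * lossW m (P.c0 : ℝ) (P.c1 : ℝ) (P.E : ℝ) ((P.se : ℝ) ^ 2) x) T σ h X := by
  have hPr := hP
  simp only [parOk, decide_eq_true_eq] at hP
  obtain ⟨p0, p1, p2, p3, p4, -, -, p7, -, p9, -⟩ := hP
  have p0 : 0 ≤ (P.e0 : ℝ) := Rat.cast_nonneg.2 p0
  have p1 : 0 ≤ (P.e1 : ℝ) := Rat.cast_nonneg.2 p1
  have p2 : 0 ≤ (P.L : ℝ) := Rat.cast_nonneg.2 p2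
  have p4 : 0 < (P.rhi : ℝ) := Rat.cast_pos.2 p4
  have p7 : 0 ≤ (P.c0 : ℝ) := Rat.cast_nonneg.2 p7
  have p9 : 0 ≤ (P.E : ℝ) := Rat.cast_nonneg.2 p9
  simp only [tailOk, decide_eq_true_eq] at hk
  obtain ⟨k0, k1, k2, k3, k4, k5, k6⟩ := hk
  have q1 := (Rat.cast_le (K := ℝ)).2 k1
  have q2 := (Rat.cast_le (K := ℝ)).2 k2
  have q3 := (Rat.cast_le (K := ℝ)).2 k3
  have q4 := (Rat.cast_le (K := ℝ)).2 k4
  have q5 := (Rat.cast_le (K := ℝ)).2 k5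
  have q6 := (Rat.cast_le (K := ℝ)).2 k6
  push_cast at q1 q2 q3 q4 q5 q6
  have p3 : 0 < (P.rlo : ℝ) := Rat.cast_pos.2 p3
  have hT0 := hR.T_pos
  have hu0 : 0 < ((unit T0 : ℚ) : ℝ) := by
    rw [cast_unit]; exact div_pos (Nat.cast_pos.2 k0) (by norm_num)
  have hs := pow_le_pow_left₀ hu0.le hT 2
  have hW := w_pos T
  set W := √(1 + T ^ 2) with hWd
  set w : ℝ := ((unit wl : ℚ) : ℝ) with hwd
  set g : ℝ := (P.e1 : ℝ) / (1 + (P.e1 : ℝ)) * (2 + 1 / (unit T0 : ℝ) ^ 2) with hgd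
  have hwr : 0 < w := p4.trans_le q3
  have hwW : w ≤ W := le_sqrt_of_sq_le (by linarith)
  have he : 0 ≤ ε := p0.trans H.e_ge
  have hη : 0 ≤ Y ^ 2 - 1 := by exact sub_nonneg.2 (one_le_pow₀ H.one_le)
  have hTW : T ≤ W := le_sqrt_of_sq_le (by linarith)
  have hg0 : 0 ≤ g := by rw [hgd]; positivity
  have hg : -gCirc Y T ε ≤ (Y ^ 2 - 1) * g := by
    have e : -gCirc Y T ε = (Y ^ 2 - 1) * (ε / (1 + ε) * (2 + 1 / T ^ 2)) := by
      unfold gCirc; field_simp; ring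
    rw [e, hgd]
    refine mul_le_mul_of_nonneg_left (mul_le_mul ?_ (add_le_add le_rfl ?_) (by positivity)
      (by positivity)) hη
    · rw [div_le_div_iff₀ (by linarith) (by linarith)]; linarith [H.e_le]
    · exact one_div_le_one_div_of_le (by positivity) hs
  have hgb : -gCirc Y T ε ≤ 1 / 2 :=
    hg.trans ((mul_le_mul_of_nonneg_right H.eta_le hg0).trans (by linarith))
  have hW2 : W ^ 2 = 1 + T ^ 2 := w_sq T
  have hone : 1 / 2 ≤ 1 + gCirc Y T ε / 2 := by linarith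
  have e0 : (ε - ε) / (1 + ε) = 0 := by simp
  refine pw_of_bounds (U := W) (Th := T) (Wh := W) (A := (P.e1 : ℝ)) (X' := 0) (g := g) (dd := 1)
    (sab := √(1 + gCirc Y T ε)) (a := ε) H hPr hR he le_rfl H.e_le (by linarith)
    (Or.inr (by linarith [H.eta_le])) (by linarith [hR.σ_le]) hW.le hg hg0 le_rfl le_rfl one_pos
    ?_ ?_ ?_ ?_ (ell0 := W ^ 2 * (2 * (P.e1 : ℝ))) ?_ ?_ le_rfl ?_
  · simp [e0]
  · rw [e0]
    have h1 : 0 ≤ 1 + gCirc Y T ε := by linarith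
    have h2 : 1 + gCirc Y T ε ≤ √(1 + gCirc Y T ε) := by
      refine le_sqrt_of_sq_le ?_
      have : gCirc Y T ε ≤ 0 := by rw [gCirc, neg_div]; exact neg_nonpos.2 (by positivity)
      nlinarith
    have h3 : gCirc Y T ε / 2 ≥ -1 / 2 := by linarith
    rw [zero_mul, zero_mul, sub_zero]
    linarith
  · simp [e0]
  · rw [e0]; linarith
  · simp
  · refine le_trans (le_of_le_of_eq ?_ rfl) (ell_lower hPr H (hW.le) le_rfl hT0.le (d := W * (1 - (P.rhi : ℝ) / w)) ?_ ?_)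
    · refine div_le_div_of_nonneg_right (mul_le_mul_of_nonneg_left ?_ (by positivity)) (by positivity)
      refine (mul_le_mul_of_nonneg_left q4 (sq_nonneg W)).trans ?_
      rw [mul_add, mul_comm (W ^ 2) (P.L : ℝ), mul_pow W]
      refine add_le_add ?_ le_rfl
      rw [mul_div_assoc']
      refine div_le_div_of_nonneg_right ?_ (by positivity)
      have h := mul_le_mul_of_nonneg_left (add_le_add (mul_le_mul_of_nonneg_left hwW two_pos.le) le_rfl :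
        2 * w + (P.rlo : ℝ) ≤ 2 * W + (P.rlo : ℝ))
        (by positivity : 0 ≤ ((P.m0 : ℝ) + 4) * (1 + (P.e0 : ℝ)) *
          (W ^ 2 * (1 - (P.rhi : ℝ) / w) ^ 2))
      linarith
    · exact mul_nonneg hW.le (sub_nonneg.2 ((div_le_one hwr).2 q3))
    · refine le_trans ?_ (le_abs_self _)
      have h1 : (P.rhi : ℝ) ≤ W * ((P.rhi : ℝ) / w) := by
        rw [mul_div_assoc', le_div_iff₀ hwr]
        exact (mul_le_mul_of_nonneg_left hwW p4.le).trans_eq (mul_comm _ _)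
      linarith [H.r_le]
  · simp only [zero_mul, zero_add, div_one]
    have h1 := mul_le_mul_of_nonneg_right q6 (sq_nonneg T)
    have h2 : 0 ≤ (P.E : ℝ) * ((P.se : ℝ) ^ 2 / (T ^ 2 + (P.se : ℝ) ^ 2)) := by positivity
    linarith

end Vale.Agent.P237.Cal.Small
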