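import Vale.Agent.P237.Cal.BoxFrame
import Vale.Agent.P237.Cal.LowMoment
import Vale.Agent.P237.Cal.Core

/-!
# P237: the pointwise inequality for a small excess, without fields

The circle multiplier `a` has a price linear in `D + η/(2T)` and in `h - 1`. As `lo ≤ -η/(2T)` this is
linear in `D - lo`, so one condition in `T` alone gives `Pw3` with `LB = ell · lo - R`, where `R` has
order `η²`.
-/

open Real

namespace Vale.Agent.P237.Cal

variable {m : ℕ} {Y T σ h X : ℝ}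

lemma loD_le_neg_half (hT : 0 < T) (hη : Y ^ 2 - 1 ≤ 2 * T ^ 2) :
    loD Y T ≤ -((Y ^ 2 - 1) / (2 * T)) := by
  unfold loD
  have h0 : 0 ≤ T - (Y ^ 2 - 1) / (2 * T) := by
    rw [sub_nonneg, div_le_iff₀ (by positivity)]
    nlinarith
  have h1 : √(T ^ 2 + 1 - Y ^ 2) ≤ T - (Y ^ 2 - 1) / (2 * T) := by
    refine (sqrt_le_left h0).2 ?_
    have e : (T - (Y ^ 2 - 1) / (2 * T)) ^ 2 =
        T ^ 2 + 1 - Y ^ 2 + ((Y ^ 2 - 1) / (2 * T)) ^ 2 := by field_simp; ring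
    rw [e]
    exact le_add_of_nonneg_right (sq_nonneg _)
  linarith

lemma RegC.loD_le (hR : RegC Y T σ h) : loD Y T ≤ σ - T := by
  have : √(T ^ 2 + 1 - Y ^ 2) ≤ σ :=
    (sqrt_le_left hR.σ_pos.le).2 (by linarith [hR.σ_low])
  unfold loD
  linarith

lemma RegC.circle_div (hR : RegC Y T σ h) :
    0 ≤ (1 + T ^ 2) * (Y ^ 2 - (1 + T ^ 2)) * h - T ^ 2 * (Y ^ 2 + σ ^ 2) / h +
      2 * (1 + T ^ 2) * σ * T := by
  have hh := hR.h_pos
  have key : 0 ≤ ((1 + T ^ 2) * (Y ^ 2 - (1 + T ^ 2)) * h - T ^ 2 * (Y ^ 2 + σ ^ 2) / h +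
      2 * (1 + T ^ 2) * σ * T) * h := by
    rw [add_mul, sub_mul, div_mul_cancel₀ _ hh.ne']
    linarith [hR.circle, show ((1 + T ^ 2) * h - σ * T) ^ 2 =
      (1 + T ^ 2) ^ 2 * h ^ 2 - 2 * (1 + T ^ 2) * h * (σ * T) + σ ^ 2 * T ^ 2 by ring]
  exact nonneg_of_mul_nonneg_left key hh

/-- The price of the circle multiplier in the coefficient of `h - 1`. -/
noncomputable def gCirc (Y T a : ℝ) : ℝ :=
  -(a * (Y ^ 2 - 1) * (1 + 2 * T ^ 2)) / ((1 + a) * T ^ 2)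

/-- The quadratic numerator of the positive part. -/
lemma quad_num (ε' T σ G : ℝ) :
    (1 - ε' * T * σ + G / 2) ^ 2 - (1 - ε' * σ ^ 2) * (1 - ε' * T ^ 2 + G) =
      G ^ 2 / 4 + ε' * σ * (σ - T) * G + ε' * (σ - T) ^ 2 := by
  ring

/-- Slope elimination without loss: `2√(AB) - 2M = -2(M² - AB)/(M + √(AB))`. -/
lemma valQ_exact {ε' G : ℝ} (hh : 0 < h) (hA : 0 ≤ 1 - ε' * σ ^ 2)
    (hB : 0 ≤ 1 - ε' * T ^ 2 + G)
    (hd : 0 < 1 - ε' * T * σ + G / 2 + √((1 - ε' * σ ^ 2) * (1 - ε' * T ^ 2 + G))) :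
    -(2 * (G ^ 2 / 4 + ε' * σ * (σ - T) * G + ε' * (σ - T) ^ 2) /
        (1 - ε' * T * σ + G / 2 + √((1 - ε' * σ ^ 2) * (1 - ε' * T ^ 2 + G)))) ≤
      valQ ε' T σ h + G * (h - 1) := by
  have e2 : valQ ε' T σ h + G * (h - 1) = (1 - ε' * σ ^ 2) / h + (1 - ε' * T ^ 2 + G) * h -
      2 * (1 - ε' * T * σ + G / 2) := by
    unfold valQ; ring
  rw [e2, ← quad_num]
  generalize 1 - ε' * σ ^ 2 = A at hA hd ⊢
  generalize 1 - ε' * T ^ 2 + G = B at hB hd ⊢
  generalize 1 - ε' * T * σ + G / 2 = M at hd ⊢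
  have h1 : 2 * √(A * B) ≤ A / h + B * h := two_sqrt_mul_le hA hB hh
  have hs := sq_sqrt (mul_nonneg hA hB)
  have e : -(2 * (M ^ 2 - A * B) / (M + √(A * B))) = 2 * √(A * B) - 2 * M := by
    rw [neg_eq_iff_eq_neg, div_eq_iff hd.ne']
    linear_combination (2 : ℝ) * hs
  linarith

/-- **The pointwise inequality.** `a` is the circle multiplier at `T`, `U` an upper bound of
`σ - T`, `dd` a lower bound of the elimination denominator. -/
theorem pw_small {ε a μ₀ a₀ U dd R : ℝ} (hY : 1 ≤ Y) (hR : RegC Y T σ h) (ha : 0 ≤ a)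
    (hae : a ≤ ε) (haT : a = 0 ∨ Y ^ 2 - 1 ≤ 2 * T ^ 2) (hU : σ - T ≤ U) (hU0 : 0 ≤ U)
    (hA : 0 ≤ 1 - (ε - a) / (1 + a) * σ ^ 2)
    (hB : 0 ≤ 1 - (ε - a) / (1 + a) * T ^ 2 + gCirc Y T a)
    (hdd : 0 < dd)
    (hden : dd ≤ 1 - (ε - a) / (1 + a) * T * σ + gCirc Y T a / 2 +
      √((1 - (ε - a) / (1 + a) * σ ^ 2) * (1 - (ε - a) / (1 + a) * T ^ 2 + gCirc Y T a)))
    (hcond : ((m : ℝ) + 1) * T ^ 2 / √(1 + T ^ 2) ^ (m + 4) *
        (2 * a / T + (1 + a) * (2 * ((ε - a) / (1 + a)) * U / dd)) ≤ ell m ε μ₀ a₀ T)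
    (hRb : ((m : ℝ) + 1) * T ^ 2 / √(1 + T ^ 2) ^ (m + 4) * ((1 + a) * (2 *
        ((ε - a) / (1 + a) * loD Y T ^ 2 +
          (ε - a) / (1 + a) * (T + U) * -loD Y T * -gCirc Y T a + gCirc Y T a ^ 2 / 4) / dd)) ≤ R)
    (X : ℝ) :
    Pw3 m ε μ₀ a₀ 0 (fun _ => 0) (fun _ => 0) (fun _ => 0) (fun _ => 0) (fun _ => 0) (fun _ => 0)
      (fun _ => 0) (fun _ => 0) (fun _ => 0) (fun _ => 0)
      (fun _ => ell m ε μ₀ a₀ T * loD Y T - R) T σ h X := by
  have hT := hR.T_pos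
  have hh := hR.h_pos
  have h1a : 0 < 1 + a := by linarith
  have hlo := hR.loD_le
  have hlo0 := loD_nonpos hY hT.le
  have hη : 0 ≤ Y ^ 2 - 1 := by nlinarith
  set ε' := (ε - a) / (1 + a) with hε'
  set G := gCirc Y T a with hG
  set den := 1 - ε' * T * σ + G / 2 + √((1 - ε' * σ ^ 2) * (1 - ε' * T ^ 2 + G)) with hdend
  have hε'0 : 0 ≤ ε' := div_nonneg (by linarith) h1a.le
  have hG0 : G ≤ 0 := by
    rw [hG, gCirc, neg_div]
    exact neg_nonpos.2 (by positivity)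
  -- the price of the multiplier
  have hv : (1 + a) * (valQ ε' T σ h + G * (h - 1)) - 2 * a / T * (σ - T - loD Y T) ≤
      valQ ε T σ h := by
    have key := mul_nonneg (div_nonneg ha (sq_nonneg T)) hR.circle_div
    have e : valQ ε T σ h - ((1 + a) * valQ ε' T σ h - 2 * a * (σ - T) / T -
        a * (Y ^ 2 - 1) * ((1 + T ^ 2) * h - T ^ 2 / h) / T ^ 2) =
        a / T ^ 2 * ((1 + T ^ 2) * (Y ^ 2 - (1 + T ^ 2)) * h - T ^ 2 * (Y ^ 2 + σ ^ 2) / h +
          2 * (1 + T ^ 2) * σ * T) := by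
      rw [hε']; unfold valQ; field_simp; ring
    have h2 : (1 + T ^ 2) * h - T ^ 2 / h ≤ 1 + (1 + 2 * T ^ 2) * (h - 1) := by
      have h3 : 2 - h ≤ 1 / h := by
        rw [le_div_iff₀ hh]; nlinarith [sq_nonneg (h - 1)]
      have := mul_le_mul_of_nonneg_left h3 (sq_nonneg T)
      rw [mul_one_div] at this
      linarith
    have h4 : a * (Y ^ 2 - 1) * ((1 + T ^ 2) * h - T ^ 2 / h) / T ^ 2 ≤
        a * (Y ^ 2 - 1) * (1 + (1 + 2 * T ^ 2) * (h - 1)) / T ^ 2 := by gcongr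
    have h5 : a * (Y ^ 2 - 1) / T ^ 2 + 2 * a / T * (σ - T) ≤
        2 * a / T * (σ - T - loD Y T) := by
      rcases haT with rfl | hs
      · simp
      have h6 := mul_le_mul_of_nonneg_left (loD_le_neg_half hT hs)
        (by positivity : 0 ≤ 2 * a / T)
      have e6 : 2 * a / T * -((Y ^ 2 - 1) / (2 * T)) = -(a * (Y ^ 2 - 1) / T ^ 2) := by
        field_simp
      rw [e6] at h6
      linarith
    have e7 : a * (Y ^ 2 - 1) * (1 + (1 + 2 * T ^ 2) * (h - 1)) / T ^ 2 =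
        a * (Y ^ 2 - 1) / T ^ 2 - (1 + a) * (G * (h - 1)) := by
      rw [hG, gCirc]; field_simp; ring
    have e8 : 2 * a * (σ - T) / T = 2 * a / T * (σ - T) := by ring
    linarith
  -- the elimination
  have hq := valQ_exact hh hA hB (lt_of_lt_of_le hdd hden)
  rw [← hdend] at hq
  have hb : G ^ 2 / 4 + ε' * σ * (σ - T) * G + ε' * (σ - T) ^ 2 ≤
      ε' * U * (σ - T - loD Y T) +
        (ε' * loD Y T ^ 2 + ε' * (T + U) * -loD Y T * -G + G ^ 2 / 4) := by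
    have hsU : σ ≤ T + U := by linarith
    have hp : 0 ≤ σ - T - loD Y T := by linarith
    rcases le_or_gt 0 (σ - T) with hd | hd
    · have a1 : (σ - T) ^ 2 ≤ U * (σ - T - loD Y T) := by
        rw [sq]; exact mul_le_mul hU (by linarith) hd hU0
      have a2 := mul_le_mul_of_nonneg_left a1 hε'0
      have a3 : ε' * σ * (σ - T) * G ≤ 0 :=
        mul_nonpos_of_nonneg_of_nonpos
          (mul_nonneg (mul_nonneg hε'0 hR.σ_pos.le) hd) hG0
      have a4 : 0 ≤ ε' * (T + U) * -loD Y T * -G :=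
        mul_nonneg (mul_nonneg (mul_nonneg hε'0 (by linarith)) (by linarith)) (by linarith)
      have a5 : 0 ≤ ε' * loD Y T ^ 2 := mul_nonneg hε'0 (sq_nonneg _)
      linarith
    · have a1 : (σ - T) ^ 2 ≤ loD Y T ^ 2 := by nlinarith
      have a2 := mul_le_mul_of_nonneg_left a1 hε'0
      have a3 : σ * -(σ - T) ≤ (T + U) * -loD Y T :=
        mul_le_mul hsU (by linarith) (by linarith) (by linarith)
      have a4 := mul_le_mul_of_nonneg_left a3
        (mul_nonneg hε'0 (by linarith : 0 ≤ -G))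
      have a5 : 0 ≤ ε' * U * (σ - T - loD Y T) := mul_nonneg (mul_nonneg hε'0 hU0) hp
      linarith
  set P := ((m : ℝ) + 1) * T ^ 2 / √(1 + T ^ 2) ^ (m + 4) with hP
  have hP0 : 0 ≤ P := by rw [hP]; positivity
  set p := σ - T - loD Y T with hpd
  have hp : 0 ≤ p := by rw [hpd]; linarith
  set N := ε' * loD Y T ^ 2 + ε' * (T + U) * -loD Y T * -G + G ^ 2 / 4 with hN
  have hbd : 2 * (G ^ 2 / 4 + ε' * σ * (σ - T) * G + ε' * (σ - T) ^ 2) / den ≤
      2 * ε' * U / dd * p + 2 * N / dd := by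
    have hN0 : 0 ≤ ε' * U * p + N := by
      rw [hN]
      have := mul_nonneg (mul_nonneg (mul_nonneg hε'0 (by linarith : 0 ≤ T + U))
        (by linarith : 0 ≤ -loD Y T)) (by linarith : 0 ≤ -G)
      have := mul_nonneg (mul_nonneg hε'0 hU0) hp
      have := mul_nonneg hε'0 (sq_nonneg (loD Y T))
      linarith [sq_nonneg G]
    rw [show 2 * ε' * U / dd * p + 2 * N / dd = 2 * (ε' * U * p + N) / dd by ring]
    refine le_trans ?_ (div_le_div_of_nonneg_left (by linarith) hdd hden)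
    exact div_le_div_of_nonneg_right (by linarith) (hdd.trans_le hden).le
  have h9 : P * valQ ε T σ h ≥
      -(P * ((1 + a) * (2 * ε' * U / dd) + 2 * a / T) * p) - P * ((1 + a) * (2 * N / dd)) := by
    have b1 := mul_le_mul_of_nonneg_left hv hP0
    have b2 := mul_le_mul_of_nonneg_left
      (mul_le_mul_of_nonneg_left (le_trans (neg_le_neg hbd) hq) h1a.le) hP0
    linarith
  have h10 := mul_le_mul_of_nonneg_right hcond hp
  simp only [Pw3]
  linarith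

end Vale.Agent.P237.Cal
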