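import Mathlib

/-!
# P237: `rpow`, `exp` and `log` tangent inequalities for the scalar part of the certificate
-/

open Real

namespace Vale.Agent.P237.Cal

variable {Q p δ x : ℝ}

/-- Concave tangent: `Q^p ≤ 1 + p (Q-1)`. -/
lemma rpow_le_tangent (hQ : 0 ≤ Q) (h0 : 0 ≤ p) (h1 : p ≤ 1) : Q ^ p ≤ 1 + p * (Q - 1) := by
  have := rpow_one_add_le_one_add_mul_self (s := Q - 1) (by linarith) h0 h1
  simpa using this

/-- Weighted harmonic mean below the geometric one. -/
lemma harm_le_rpow (hQ : 0 < Q) (h0 : 0 ≤ p) (h1 : p ≤ 1) : Q / (p + (1 - p) * Q) ≤ Q ^ p := by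
  have hu := rpow_le_tangent (inv_nonneg.2 hQ.le) h0 h1
  rw [inv_rpow hQ.le] at hu
  have hq : 0 < Q ^ p := rpow_pos_of_pos hQ p
  have hden : 0 < p + (1 - p) * Q := by
    rcases h0.eq_or_lt with rfl | hp
    · simpa using hQ
    · nlinarith [mul_nonneg (sub_nonneg.2 h1) hQ.le]
  rw [div_le_iff₀ hden]
  have e : (1 + p * (Q⁻¹ - 1)) * Q = p + (1 - p) * Q := by field_simp; ring
  rw [← e]
  have h2 : 1 ≤ Q ^ p * (1 + p * (Q⁻¹ - 1)) := by
    have := mul_le_mul_of_nonneg_left hu hq.le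
    rwa [mul_inv_cancel₀ hq.ne'] at this
  nlinarith [mul_le_mul_of_nonneg_right h2 hQ.le]

lemma mul_log_le_rpow (hQ : 0 < Q) : 1 + p * log Q ≤ Q ^ p := by
  rw [rpow_def_of_pos hQ]
  linarith [add_one_le_exp (log Q * p)]

lemma rpow_one_sub (hQ : 0 < Q) : Q ^ (1 - δ) = Q * exp (-(δ * log Q)) := by
  rw [rpow_def_of_pos hQ, show log Q * (1 - δ) = log Q + -(δ * log Q) by ring, exp_add,
    exp_log hQ]

/-- `Q^(1-δ) ≥ Q - δ Q log Q`, any real `δ`. -/
lemma le_rpow_one_sub (hQ : 0 < Q) : Q - δ * (Q * log Q) ≤ Q ^ (1 - δ) := by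
  rw [rpow_one_sub hQ]
  nlinarith [mul_le_mul_of_nonneg_left (add_one_le_exp (-(δ * log Q))) hQ.le]

lemma exp_le_quad_of_nonpos (hx : x ≤ 0) : exp x ≤ 1 + x + x ^ 2 / 2 := by
  have hmono : MonotoneOn (fun y : ℝ => exp y - y - y ^ 2 / 2) (Set.Iic 0) := by
    refine monotoneOn_of_hasDerivWithinAt_nonneg (convex_Iic 0) (by fun_prop)
      (f' := fun y => exp y - 1 - y) (fun y _ => ?_) fun y _ => by linarith [add_one_le_exp y]
    refine (((((hasDerivAt_exp y).sub (hasDerivAt_id y)).sub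
      ((hasDerivAt_pow 2 y).div_const 2))).congr_deriv ?_).hasDerivWithinAt
    norm_num
  have := hmono hx (Set.mem_Iic.2 le_rfl) hx
  simp only [exp_zero] at this
  linarith

lemma exp_le_quad (x : ℝ) : exp x ≤ 1 + x + x ^ 2 / 2 * max 1 (exp x) := by
  rcases le_or_gt x 0 with hx | hx
  · refine (exp_le_quad_of_nonpos hx).trans ?_
    nlinarith [mul_le_mul_of_nonneg_left (le_max_left 1 (exp x))
      (by positivity : 0 ≤ x ^ 2 / 2)]
  · have hmono : MonotoneOn (fun y : ℝ => 1 + y + y ^ 2 / 2 * exp y - exp y) (Set.Ici 0) := by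
      refine monotoneOn_of_hasDerivWithinAt_nonneg (convex_Ici 0) (by fun_prop)
        (f' := fun y => 1 + (y + y ^ 2 / 2 - 1) * exp y) (fun y _ => ?_) fun y hy => ?_
      · refine (((((hasDerivAt_id y).const_add 1).add
          (((hasDerivAt_pow 2 y).div_const 2).mul (hasDerivAt_exp y))).sub
            (hasDerivAt_exp y)).congr_deriv ?_).hasDerivWithinAt
        norm_num
        ring
      · have h1 := mul_le_mul_of_nonneg_right (add_one_le_exp (-y)) (exp_pos y).le
        rw [← exp_add, neg_add_cancel, exp_zero] at h1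
        nlinarith [mul_nonneg (sq_nonneg y) (exp_pos y).le]
    have := hmono (Set.mem_Ici.2 le_rfl) hx.le hx.le
    simp only [exp_zero] at this
    nlinarith [mul_le_mul_of_nonneg_left (le_max_right 1 (exp x))
      (by positivity : 0 ≤ x ^ 2 / 2)]

/-- Second-order upper bound for `Q^(1-δ)`. -/
lemma rpow_one_sub_le (hQ : 0 < Q) :
    Q ^ (1 - δ) ≤ Q - δ * (Q * log Q) + (δ * log Q) ^ 2 / 2 * max Q (Q ^ (1 - δ)) := by
  have h := mul_le_mul_of_nonneg_left (exp_le_quad (-(δ * log Q))) hQ.le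
  rw [rpow_one_sub hQ]
  have e : max Q (Q * exp (-(δ * log Q))) = Q * max 1 (exp (-(δ * log Q))) := by
    rw [mul_max_of_nonneg _ _ hQ.le, mul_one]
  rw [e]
  linarith

/-- `Q log Q - (Q-1) ≥ (Q-1)²/(Q+1)` for `Q ≥ 1`. -/
lemma sq_div_le_mul_log (hQ : 1 ≤ Q) : (Q - 1) ^ 2 / (Q + 1) ≤ Q * log Q - (Q - 1) := by
  have h := le_log_one_add_of_nonneg (x := Q - 1) (by linarith)
  rw [show 1 + (Q - 1) = Q by ring, show Q - 1 + 2 = Q + 1 by ring] at h
  rw [div_le_iff₀ (by linarith)] at h ⊢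
  nlinarith [mul_le_mul_of_nonneg_left h (by linarith : 0 ≤ Q)]

/-- `Q log Q - (Q-1) ≥ (Q-1)²/2` for `Q ≤ 1`. -/
lemma sq_le_mul_log (h0 : 0 < Q) (hQ : Q ≤ 1) : (Q - 1) ^ 2 / 2 ≤ Q * log Q - (Q - 1) := by
  have hmono : AntitoneOn (fun y : ℝ => y * log y - (y - 1) - (y - 1) ^ 2 / 2) (Set.Ioi 0) := by
    refine antitoneOn_of_hasDerivWithinAt_nonpos (convex_Ioi 0)
      (f' := fun y => log y - (y - 1)) ?_ (fun y hy => ?_) fun y hy => ?_
    · exact ContinuousOn.sub (ContinuousOn.sub (continuous_mul_log.continuousOn) (by fun_prop))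
        (by fun_prop)
    · have hy : (0 : ℝ) < y := by simpa using hy
      refine (((((hasDerivAt_id y).mul (hasDerivAt_log hy.ne')).sub
        ((hasDerivAt_id y).sub_const 1)).sub
          ((((hasDerivAt_id y).sub_const 1).pow 2).div_const 2)).congr_deriv ?_).hasDerivWithinAt
      norm_num
      field_simp
      ring
    · linarith [log_le_sub_one_of_pos (show (0 : ℝ) < y by simpa using hy)]
  have := hmono (Set.mem_Ioi.2 h0) (Set.mem_Ioi.2 one_pos) hQ
  simp only [log_one, sub_self] at this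
  nlinarith

/-- `Q log Q - (Q-1) ≥ (Q-1)²/(2 max 1 Q)` for all `Q > 0`. -/
lemma sq_div_max_le_mul_log (h0 : 0 < Q) :
    (Q - 1) ^ 2 / (2 * max 1 Q) ≤ Q * log Q - (Q - 1) := by
  rcases le_total Q 1 with h | h
  · rw [max_eq_left h, mul_one]
    exact sq_le_mul_log h0 h
  · rw [max_eq_right h]
    exact le_trans (div_le_div_of_nonneg_left (sq_nonneg _) (by linarith) (by linarith))
      (sq_div_le_mul_log h)

lemma mul_log_le_sq (h0 : 0 < Q) : Q * log Q - (Q - 1) ≤ (Q - 1) ^ 2 := by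
  nlinarith [mul_le_mul_of_nonneg_left (log_le_sub_one_of_pos h0) h0.le]

/-- The product power of the scalar part is above its log tangent. -/
lemma le_rpow_one_sub_mul {Y : ℝ} (hQ : 0 < Q) (hY : 0 < Y) :
    Q + δ * Q * (log Y - log Q) ≤ Q ^ (1 - δ) * Y ^ δ := by
  rw [rpow_one_sub hQ, rpow_def_of_pos hY, mul_assoc Q, ← exp_add]
  nlinarith [mul_le_mul_of_nonneg_left
    (add_one_le_exp (-(δ * log Q) + log Y * δ)) hQ.le]

/-- The tangent gap of `u ↦ u^p`: `p(1-p)x²/2 ≤ (1+(2-p)x/3)(1+px-(1+x)^p)` for all `x > -1`;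
exact to third order. -/
lemma rpow_gap_ge (h0 : 0 ≤ p) (h1 : p ≤ 1) (hx : -1 < x) :
    p * (1 - p) * x ^ 2 / 2 ≤ (1 + (2 - p) / 3 * x) * (1 + p * x - (1 + x) ^ p) := by
  set a : ℝ := (2 - p) / 3 with ha
  set c : ℝ := p * (1 - p) with hc
  have hp : ∀ y : ℝ, -1 < y → ∀ q : ℝ,
      HasDerivAt (fun u : ℝ => (1 + u) ^ q) (q * (1 + y) ^ (q - 1)) y := fun y hy q => by
    refine (((hasDerivAt_id y).const_add 1).rpow_const (p := q)
      (Or.inl (by simp only [id]; linarith))).congr_deriv ?_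
    simp only [id, one_mul]
  let g : ℝ → ℝ := fun y => (1 + a * y) * (1 + p * y - (1 + y) ^ p) - c * y ^ 2 / 2
  let g1 : ℝ → ℝ := fun y => a * (1 + p * y - (1 + y) ^ p) +
    (1 + a * y) * (p - p * (1 + y) ^ (p - 1)) - c * y
  let g2 : ℝ → ℝ := fun y => 2 * a * (p - p * (1 + y) ^ (p - 1)) +
    (1 + a * y) * (c * (1 + y) ^ (p - 2)) - c
  let g3 : ℝ → ℝ := fun y => c * (1 + y) ^ (p - 3) * ((p + 1) * a * y)
  have d0 : ∀ y, -1 < y → HasDerivAt g (g1 y) y := fun y hy => by
    refine (((((hasDerivAt_id y).const_mul a).const_add 1).mul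
      ((((hasDerivAt_id y).const_mul p).const_add 1).sub (hp y hy p))).sub
        (((hasDerivAt_pow 2 y).const_mul c).div_const 2)).congr_deriv ?_
    simp only [g1, id]
    norm_num
    ring
  have d1 : ∀ y, -1 < y → HasDerivAt g1 (g2 y) y := fun y hy => by
    refine ((((((hasDerivAt_id y).const_mul p).const_add 1).sub (hp y hy p)).const_mul a).add
      ((((hasDerivAt_id y).const_mul a).const_add 1).mul
        (((hp y hy (p - 1)).const_mul p).const_sub p)) |>.sub
          ((hasDerivAt_id y).const_mul c)).congr_deriv ?_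
    simp only [g2, id, hc]
    rw [show p - 1 - 1 = p - 2 by ring]
    ring
  have d2 : ∀ y, -1 < y → HasDerivAt g2 (g3 y) y := fun y hy => by
    refine ((((hp y hy (p - 1)).const_mul p).const_sub p).const_mul (2 * a) |>.add
      ((((hasDerivAt_id y).const_mul a).const_add 1).mul
        ((hp y hy (p - 2)).const_mul c)) |>.sub_const c).congr_deriv ?_
    have e : (1 + y) ^ (p - 2) = (1 + y) ^ (p - 3) * (1 + y) := by
      rw [show p - 2 = p - 3 + 1 by ring, rpow_add_one (by linarith)]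
    simp only [g3, id, hc, show p - 1 - 1 = p - 2 by ring, show p - 2 - 1 = p - 3 by ring]
    rw [e, ha]
    ring
  have v0 : g 0 = 0 := by simp [g]
  have v1 : g1 0 = 0 := by simp [g1]
  have v2 : g2 0 = 0 := by simp [g2]
  have hsign : ∀ y, -1 < y → 0 ≤ c * (1 + y) ^ (p - 3) * ((p + 1) * a) := fun y hy => by
    have : 0 ≤ (1 + y) ^ (p - 3) := rpow_nonneg (by linarith) _
    have : 0 ≤ a := by rw [ha]; linarith
    have : 0 ≤ c := by rw [hc]; nlinarith
    positivity
  rcases le_total 0 x with hx0 | hx0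
  · have hlt : ∀ y ∈ Set.Ici (0 : ℝ), -1 < y := fun y hy => lt_of_lt_of_le (by norm_num) hy
    have up : ∀ f f' : ℝ → ℝ, (∀ y, -1 < y → HasDerivAt f (f' y) y) →
        (∀ y, 0 ≤ y → 0 ≤ f' y) → f 0 = 0 → ∀ y, 0 ≤ y → 0 ≤ f y := fun f f' hd hf' h00 y hy => by
      have := monotoneOn_of_hasDerivWithinAt_nonneg (convex_Ici 0) (f := f) (f' := f')
        (fun u hu => (hd u (hlt u hu)).continuousAt.continuousWithinAt)
        (fun u hu => (hd u (hlt u (interior_subset hu))).hasDerivWithinAt)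
        (fun u hu => hf' u (interior_subset hu)) Set.self_mem_Ici (Set.mem_Ici.2 hy) hy
      rwa [h00] at this
    have := up g g1 d0 (up g1 g2 d1 (up g2 g3 d2 (fun y hy => by
      have := mul_nonneg (hsign y (hlt y hy)) hy
      simp only [g3]; linarith) v2) v1) v0 x hx0
    simp only [g] at this
    linarith
  · have hlt : ∀ y ∈ Set.Icc x 0, -1 < y := fun y hy => lt_of_lt_of_le hx hy.1
    have dn : ∀ f f' : ℝ → ℝ, (∀ y, -1 < y → HasDerivAt f (f' y) y) → ∀ s : ℝ,
        (∀ y ∈ Set.Icc x 0, 0 ≤ s * f' y) → f 0 = 0 → ∀ y ∈ Set.Icc x 0, s * f y ≤ 0 :=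
      fun f f' hd s hf' h00 y hy => by
      have := monotoneOn_of_hasDerivWithinAt_nonneg (convex_Icc x 0) (f := fun u => s * f u)
        (f' := fun u => s * f' u)
        (fun u hu => ((hd u (hlt u hu)).const_mul s).continuousAt.continuousWithinAt)
        (fun u hu => ((hd u (hlt u (interior_subset hu))).const_mul s).hasDerivWithinAt)
        (fun u hu => hf' u (interior_subset hu)) hy (Set.right_mem_Icc.2 hx0) hy.2
      simpa [h00] using this
    have h2 := dn g2 g3 d2 (-1) (fun y hy => by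
      have := mul_nonpos_of_nonneg_of_nonpos (hsign y (hlt y hy)) hy.2
      simp only [g3]; linarith) v2
    have h1' := dn g1 g2 d1 1 (fun y hy => by linarith [h2 y hy]) v1
    have := dn g g1 d0 (-1) (fun y hy => by linarith [h1' y hy]) v0 x ⟨le_rfl, hx0⟩
    simp only [g] at this
    linarith

/-- The term `R = x - ((1+x)^p - 1)/p` of the scalar part, `p = (k-1)/k`. -/
lemma tangent_gap_ge {k : ℝ} (hk : 1 < k) (hx : -1 < x) :
    x ^ 2 / (2 * k * (1 + (k + 1) / (3 * k) * x)) ≤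
      x - k / (k - 1) * ((1 + x) ^ ((k - 1) / k) - 1) := by
  have hk0 : 0 < k := by linarith
  have h := rpow_gap_ge (p := (k - 1) / k) (div_nonneg (by linarith) hk0.le)
    ((div_le_one hk0).2 (by linarith)) hx
  rw [show (2 - (k - 1) / k) / 3 = (k + 1) / (3 * k) by field_simp; ring] at h
  set a : ℝ := (k + 1) / (3 * k) with ha
  have ha0 : 0 ≤ a := by rw [ha]; positivity
  have ha1 : a ≤ 1 := by rw [ha, div_le_one (by positivity)]; linarith
  have hpos : 0 < 1 + a * x := by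
    rcases le_total 0 x with h' | h'
    · linarith [mul_nonneg ha0 h']
    · nlinarith
  set P : ℝ := (1 + x) ^ ((k - 1) / k)
  have e : x - k / (k - 1) * (P - 1) = k / (k - 1) * (1 + (k - 1) / k * x - P) := by
    have : k - 1 ≠ 0 := by linarith
    field_simp
    ring
  rw [e, div_le_iff₀ (by positivity)]
  have e2 : x ^ 2 = k / (k - 1) * ((k - 1) / k * (1 - (k - 1) / k) * x ^ 2 / 2) * (2 * k) := by
    have : k - 1 ≠ 0 := by linarith
    field_simp
    ring
  rw [e2]
  have hc : 0 ≤ k / (k - 1) * (2 * k) := by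
    have : (0 : ℝ) < k - 1 := by linarith
    positivity
  nlinarith [mul_le_mul_of_nonneg_left h hc]

end Vale.Agent.P237.Cal
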