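import Vale.Agent.P237.Cal.Assemble
import Vale.Agent.P237.Cal.Values
import Vale.Agent.P237.Cal.LowMoment
import Vale.Agent.P237.Cal.Tangent
import Vale.Agent.P237.Cal.ScalarQ

/-!
# P237: the scalar inequality for a small excess

With `p = 1/Y`, `d = q - 1`, `k = m + 1`, `A = (m + 4)/r²` the scalar plus the moment of the tangent
weight against `lo` is exactly `G(p)` at `d = 0`, where
`G = k ω p^k (1 - p²)² + 2 - (k+2) p^k + k p^(k+2) ≥ k (ω + (k+2)/4) p^k (1 - p²)²`.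
-/

open MeasureTheory Set Real

namespace Vale.Agent.P237.Cal

variable {m : ℕ}

/-- The second order at `q = 1`. -/
theorem poly_second (k : ℕ) {p : ℝ} (h0 : 0 ≤ p) (h1 : p ≤ 1) :
    (k : ℝ) * ((k : ℝ) + 2) / 4 * p ^ k * (1 - p ^ 2) ^ 2 ≤
      2 - ((k : ℝ) + 2) * p ^ k + (k : ℝ) * p ^ (k + 2) := by
  induction k using Nat.twoStepInduction with
  | zero => simp
  | one =>
    have e : (0 : ℝ) ≤ (1 - p) ^ 2 * (2 + p - 3 / 4 * p * (1 + p) ^ 2) := by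
      refine mul_nonneg (sq_nonneg _) ?_
      have : (1 + p) ^ 2 ≤ 4 := by nlinarith
      have := mul_le_mul_of_nonneg_left this (by positivity : (0 : ℝ) ≤ 3 / 4 * p)
      linarith
    have e2 : (1 - p) ^ 2 * (2 + p - 3 / 4 * p * (1 + p) ^ 2) =
        2 - 3 * p + p ^ 3 - 1 * (1 + 2) / 4 * p * (1 - p ^ 2) ^ 2 := by ring
    push_cast
    norm_num
    linarith
  | more k ih _ =>
    have h2 : p ^ 2 ≤ 1 := by nlinarith
    have hs : 0 ≤ p ^ k * (1 - p ^ 2) ^ 2 := by positivity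
    have h4 : p ^ (k + 2) * (1 - p ^ 2) ^ 2 ≤ p ^ k * (1 - p ^ 2) ^ 2 :=
      mul_le_mul_of_nonneg_right (pow_le_pow_of_le_one h0 h1 (by omega)) (sq_nonneg _)
    have h5 := mul_le_mul_of_nonneg_left h4
      (by positivity : (0 : ℝ) ≤ ((k : ℝ) + 2) * ((k : ℝ) + 4) / 4)
    push_cast at ih ⊢
    rw [show p ^ (k + 2 + 2) = p ^ k * p ^ 4 by ring, show p ^ (k + 2) = p ^ k * p ^ 2 by ring]
    rw [show p ^ (k + 2) = p ^ k * p ^ 2 by ring] at ih h5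
    linarith

/-- `log` below `sinh`. -/
lemma log_le_sub_sq {q : ℝ} (hq : 1 ≤ q) : log q ≤ (q - 1) - (q - 1) ^ 2 / (2 * q) := by
  have h0 : 0 < q := by linarith
  have h := self_le_sinh_iff.2 (log_nonneg hq)
  rw [sinh_log h0] at h
  refine h.trans (le_of_eq ?_)
  field_simp
  ring

/-- `q^a` to the second order. -/
theorem rpow_le_quad {q q₁ a : ℝ} (hq : 1 ≤ q) (hq₁ : q ≤ q₁) (ha : 0 ≤ a) (ha1 : a ≤ 1) :
    q ^ a ≤ 1 + a * (q - 1) - a * (1 - a * q₁ ^ 2) / (2 * q₁) * (q - 1) ^ 2 := by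
  have h0 : 0 < q := by linarith
  have hL := log_le_sub_sq hq
  have hL0 := log_nonneg hq
  set L := log q with hLd
  set d := q - 1 with hd
  have hd0 : 0 ≤ d := by rw [hd]; linarith
  have hLd1 : L ≤ d := by
    have : 0 ≤ d ^ 2 / (2 * q) := by positivity
    linarith
  have he : exp (a * L) ≤ q₁ := by
    refine le_trans ?_ hq₁
    calc exp (a * L) ≤ exp L := exp_le_exp.2 (by nlinarith)
      _ = q := exp_log h0
  have h := exp_le_quad (a * L)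
  rw [show exp (a * L) = q ^ a by rw [rpow_def_of_pos h0, mul_comm]] at h he
  have hm : max 1 (q ^ a) ≤ q₁ := max_le (by linarith) he
  have h2 : (a * L) ^ 2 / 2 * max 1 (q ^ a) ≤ (a * d) ^ 2 / 2 * q₁ := by
    refine mul_le_mul (div_le_div_of_nonneg_right (pow_le_pow_left₀ (by positivity)
      (mul_le_mul_of_nonneg_left hLd1 ha) 2) (by norm_num)) hm (by positivity) (by positivity)
  have h3 : a * L ≤ a * (d - d ^ 2 / (2 * q₁)) := by
    refine mul_le_mul_of_nonneg_left (hL.trans (sub_le_sub_left ?_ _)) ha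
    exact div_le_div_of_nonneg_left (sq_nonneg _) (by linarith) (by linarith)
  have hq10 : q₁ ≠ 0 := by linarith
  have e : 1 + a * (d - d ^ 2 / (2 * q₁)) + (a * d) ^ 2 / 2 * q₁ =
      1 + a * d - a * (1 - a * q₁ ^ 2) / (2 * q₁) * d ^ 2 := by
    field_simp
    ring
  linarith

lemma mom_two_step (m : ℕ) : mom 0 (m + 6) = ((m : ℝ) + 3) / ((m : ℝ) + 4) * mom 0 (m + 4) := by
  have h := mom_exp (a := 0) (m := m + 4) (by omega)
  push_cast at h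
  rw [show m + 4 + 2 = m + 6 from rfl] at h
  field_simp at h ⊢
  linarith

/-- The moment of the tangent weight against `lo`, `m = j + 1`. -/
theorem integral_ell_loD {j : ℕ} {ε lam Y : ℝ} (hY : 1 ≤ Y) :
    IntegrableOn (fun T => ell (j + 1) ε (muT (j + 1) ε (rr (j + 2)))
        (aT (j + 1) ε (rr (j + 2)) lam) T * loD Y T) (Ioi 0) ∧
      (∫ T in Ioi (0 : ℝ), ell (j + 1) ε (muT (j + 1) ε (rr (j + 2)))
          (aT (j + 1) ε (rr (j + 2)) lam) T * loD Y T) / semiMom (j + 1) 1 =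
        (1 + ε) * (-2 * ((j : ℝ) + 2) * ((j : ℝ) + 5) / (rr (j + 2) ^ 2 * ((j : ℝ) + 1)) *
              (1 - 1 / Y ^ (j + 1)) +
            3 * ((j : ℝ) + 5) / rr (j + 2) ^ 2 * (1 - 1 / Y ^ (j + 2)) -
            ((j : ℝ) + 2) * (1 - 1 / Y ^ (j + 4))) - lam * (1 - 1 / Y ^ (j + 2)) := by
  obtain ⟨i3, v3⟩ := integral_loD (m := j) hY
  obtain ⟨i2, v2⟩ := integral_loD (m := j + 1) hY
  obtain ⟨i0, v0⟩ := integral_loD (m := j + 3) hY
  set r := rr (j + 2) with hr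
  have hr0 : 0 < r := div_pos (mom_zero_pos _) (mom_zero_pos _)
  have e : (fun T => ell (j + 1) ε (muT (j + 1) ε r) (aT (j + 1) ε r lam) T * loD Y T) = fun T =>
      (((j : ℝ) + 2) * ((j : ℝ) + 5) * (1 + ε) * 2 / r ^ 3) *
        (T / √(1 + T ^ 2) ^ (j + 4) * loD Y T) +
      ((((j : ℝ) + 2) * (-(((j : ℝ) + 5) * (1 + ε) * (3 / r ^ 2)) + lam)) *
        (T / √(1 + T ^ 2) ^ (j + 1 + 4) * loD Y T) +
      (((j : ℝ) + 2) * ((j : ℝ) + 5) * (1 + ε)) *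
        (T / √(1 + T ^ 2) ^ (j + 3 + 4) * loD Y T)) := by
    funext T
    have hw := w_pos T
    rw [ell_tangent hr0.ne']
    rw [show j + 1 + 6 = j + 4 + 3 from by ring, show j + 1 + 4 = j + 4 + 1 from by ring,
      show j + 3 + 4 = j + 4 + 3 from by ring]
    simp only [pow_add]
    push_cast
    field_simp
    ring
  rw [e]
  refine ⟨(i3.const_mul _).add ((i2.const_mul _).add (i0.const_mul _)), ?_⟩
  have j20 : Integrable (fun T : ℝ =>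
      ((j : ℝ) + 2) * (-(((j : ℝ) + 5) * (1 + ε) * (3 / r ^ 2)) + lam) *
        (T / √(1 + T ^ 2) ^ (j + 1 + 4) * loD Y T) +
      ((j : ℝ) + 2) * ((j : ℝ) + 5) * (1 + ε) *
        (T / √(1 + T ^ 2) ^ (j + 3 + 4) * loD Y T)) (volume.restrict (Ioi 0)) :=
    (i2.const_mul _).add (i0.const_mul _)
  rw [integral_add (i3.const_mul _) j20,
    integral_add (i2.const_mul _) (i0.const_mul _), MeasureTheory.integral_const_mul,
    MeasureTheory.integral_const_mul, MeasureTheory.integral_const_mul, v3, v2, v0]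
  have hV : 0 < mom 0 (j + 5) := mom_zero_pos (j + 3)
  have hP : mom 0 (j + 4) = r * mom 0 (j + 5) := by
    rw [hr, rr, show j + 2 + 2 = j + 4 from rfl, show j + 2 + 3 = j + 5 from rfl,
      div_mul_cancel₀ _ hV.ne']
  have hS := mom_two_step (j + 1)
  rw [semiMom_one, show j + 1 + 4 = j + 5 from rfl, show j + 3 + 4 = j + 1 + 6 from by ring, hS,
    show j + 1 + 4 = j + 5 from rfl, hP]
  push_cast
  field_simp
  ring

/-- The exact form, `m = j + 1`. -/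
theorem scalar_exact {j : ℕ} {ε ω δ δb lam p q r : ℝ} (hr : r ≠ 0)
    (hε : ε = ω * p ^ 2 * (1 + δ)) :
    (1 - aT (j + 1) ε r lam * ((j : ℝ) + 1 + 2) / ((j : ℝ) + 1 + 1)) * (1 - q * p ^ (j + 2)) +
      ((j : ℝ) + 1 + 1) * (ω * (q * p ^ (j + 2)) - ε) -
      muT (j + 1) ε r * (((j : ℝ) + 1 + 1) / ((j : ℝ) + 1)) * r * ((1 + δb) * p ^ (j + 1) - 1) +
      ((1 + ε) * (-2 * ((j : ℝ) + 2) * ((j : ℝ) + 5) / (r ^ 2 * ((j : ℝ) + 1)) *
              (1 - p ^ (j + 1)) +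
            3 * ((j : ℝ) + 5) / r ^ 2 * (1 - p ^ (j + 2)) -
            ((j : ℝ) + 2) * (1 - p ^ (j + 4))) - lam * (1 - p ^ (j + 2))) =
      (((j : ℝ) + 2) * ω * p ^ (j + 2) * (1 - p ^ 2) ^ 2 +
          (2 - ((j : ℝ) + 4) * p ^ (j + 2) + ((j : ℝ) + 2) * p ^ (j + 2 + 2))) +
      (q - 1) * p ^ (j + 2) * (3 * (((j : ℝ) + 5) / r ^ 2) * (1 + ε) - lam - ((j : ℝ) + 4) -
          2 * ((j : ℝ) + 2) * ε + ((j : ℝ) + 2) * ω) -
      ((j : ℝ) + 2) * ω * p ^ 2 * (2 - p ^ 2) * p ^ (j + 2) * δ -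
      2 * (((j : ℝ) + 5) / r ^ 2) * (1 + ε) * (((j : ℝ) + 2) / ((j : ℝ) + 1)) *
        p ^ (j + 1) * δb := by
  rw [hε]
  simp only [muT, aT]
  push_cast
  field_simp
  ring

/-- The bound of the terms linear in `q - 1`. -/
theorem coef_bound {k A n m ω p p₀ P ε δ δb d κa κb L B C Kc c : ℝ} (hk : 0 < k) (hm : 0 < m)
    (hn : 0 < n) (hA : 0 ≤ A) (hA2 : A ≤ 2 * k) (hω : 0 ≤ ω) (hp₀ : 0 < p₀) (hpp : p₀ ≤ p)
    (hp1 : p ≤ 1) (hP : 0 ≤ P) (hd : 0 ≤ d) (hκa : 0 ≤ κa) (hκb : 0 ≤ κb) (hδ : 0 ≤ δ)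
    (hδ1 : δ ≤ 2 / n * d - κa * d ^ 2) (hδb1 : δb ≤ m / k * d - κb * d ^ 2)
    (hε : ε = ω * p ^ 2 * (1 + δ))
    (hB : B ≤ (1 + ω) * A - L - c - k * ω - 2 / n * (k * ω))
    (hC : A * (ω + 2 * (1 + ω) / (p₀ * (1 + p₀))) - 2 * (k * ω) ≤ C)
    (hK : Kc ≤ ω * (2 / n) * (A * (3 - 2 / p₀) - 2 * k) +
      2 * A * (1 + ω * p₀ ^ 2) * (k / m) * κb + k * ω * p₀ ^ 2 * κa) :
    P * (d * (B - C * (1 - p ^ 2)) + d ^ 2 * Kc) ≤
      d * P * (3 * A * (1 + ε) - L - c - 2 * k * ε + k * ω) -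
      k * ω * p ^ 2 * (2 - p ^ 2) * P * δ -
      2 * A * (1 + ε) * (k / m) * (P / p) * δb := by
  have hp0 : 0 < p := hp₀.trans_le hpp
  set x := 1 - p ^ 2 with hx
  have hp21 : p ^ 2 ≤ 1 := pow_le_one₀ hp0.le hp1
  have hx0 : 0 ≤ x := by rw [hx]; linarith
  have hp2 : 0 ≤ 2 - p ^ 2 := by linarith
  have hωp : 0 ≤ ω * p ^ 2 := mul_nonneg hω (sq_nonneg _)
  have hε0 : 0 ≤ ε := by rw [hε]; exact mul_nonneg hωp (by linarith)
  have s1 : k * ω * p ^ 2 * (2 - p ^ 2) * P * δ ≤ k * ω * p ^ 2 * (2 - p ^ 2) * P *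
      (2 / n * d - κa * d ^ 2) := mul_le_mul_of_nonneg_left hδ1 (by positivity)
  have s2 : 2 * A * (1 + ε) * (k / m) * (P / p) * δb ≤
      2 * A * (1 + ε) * (P / p) * d - 2 * A * (1 + ε) * (k / m) * (P / p) * (κb * d ^ 2) := by
    refine (mul_le_mul_of_nonneg_left hδb1 (by positivity)).trans (le_of_eq ?_)
    field_simp
  have i1 : 2 / p ≤ 2 + 2 * x / (p₀ * (1 + p₀)) := by
    have e : 2 / p - 2 = 2 * x / (p * (1 + p)) := by rw [hx]; field_simp; ring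
    have : 2 * x / (p * (1 + p)) ≤ 2 * x / (p₀ * (1 + p₀)) := by gcongr
    linarith
  have i2 : A * (3 - 2 / p₀) - 2 * k ≤ A * (3 - 2 / p) - 2 * k := by
    have := mul_le_mul_of_nonneg_left (div_le_div_of_nonneg_left two_pos.le hp₀ hpp) hA
    linarith
  have i3 : A * (3 - 2 / p₀) - 2 * k ≤ 0 := by
    have h1 : 3 - 2 / p₀ ≤ 1 := by
      have : 2 ≤ 2 / p₀ := by rw [le_div_iff₀ hp₀]; linarith
      linarith
    have := mul_le_mul_of_nonneg_left h1 hA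
    linarith
  have i4 : ω * (2 / n) * (A * (3 - 2 / p₀) - 2 * k) * d ≤
      ω * p ^ 2 * δ * (A * (3 - 2 / p) - 2 * k) := by
    have a1 : ω * p ^ 2 * δ ≤ ω * (2 / n * d) := by
      refine mul_le_mul (mul_le_of_le_one_right hω hp21) ?_ hδ hω
      have := mul_nonneg hκa (sq_nonneg d)
      linarith
    have a2 := mul_le_mul_of_nonpos_right a1 i3
    have a3 := mul_le_mul_of_nonneg_left i2 (mul_nonneg hωp hδ)
    linarith
  have i5 : B - C * x ≤ (1 + ω * p ^ 2) * A * (3 - 2 / p) - 2 * k * (ω * p ^ 2) + k * ω - L -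
      c - 2 / n * (k * ω * p ^ 2 * (2 - p ^ 2)) := by
    have hp2x : p ^ 2 = 1 - x := by rw [hx]; ring
    have a1 := mul_le_mul_of_nonneg_left i1 (mul_nonneg (by linarith : 0 ≤ 1 + ω * p ^ 2) hA)
    have a2 : (1 + ω * p ^ 2) * A * (2 * x / (p₀ * (1 + p₀))) ≤
        (1 + ω) * A * (2 * x / (p₀ * (1 + p₀))) := by
      gcongr
      exact mul_le_of_le_one_right hω hp21
    have a3 := mul_le_mul_of_nonneg_right hC hx0
    have a4 : 0 ≤ 2 / n * (k * ω) * x ^ 2 := by positivity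
    rw [hp2x] at a1 a2 ⊢
    have e2 : A * (ω + 2 * (1 + ω) / (p₀ * (1 + p₀))) * x =
        A * ω * x + A * ((1 + ω) * (2 * x / (p₀ * (1 + p₀)))) := by ring
    linarith
  have b1 : 2 * A * (1 + ω * p₀ ^ 2) * (k / m) * κb + k * ω * p₀ ^ 2 * κa ≤
      2 * A * (1 + ε) * (k / m) * (1 / p) * κb + k * ω * (p ^ 2 * (2 - p ^ 2)) * κa := by
    have c1 : 1 + ω * p₀ ^ 2 ≤ 1 + ε := by
      rw [hε]
      have := mul_le_mul_of_nonneg_left (pow_le_pow_left₀ hp₀.le hpp 2) hω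
      have := mul_nonneg hωp hδ
      linarith
    have c2 : p₀ ^ 2 ≤ p ^ 2 * (2 - p ^ 2) :=
      (pow_le_pow_left₀ hp₀.le hpp 2).trans (le_mul_of_one_le_right (sq_nonneg _) (by linarith))
    refine add_le_add (mul_le_mul_of_nonneg_right ?_ hκb) (mul_le_mul_of_nonneg_right ?_ hκa)
    · refine le_trans (mul_le_mul_of_nonneg_right (mul_le_mul_of_nonneg_left c1 (by positivity))
        (by positivity)) (le_mul_of_one_le_right (by positivity) ?_)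
      rw [le_div_iff₀ hp0]; linarith
    · exact mul_le_mul_of_nonneg_left c2 (by positivity)
  have b2 := mul_le_mul_of_nonneg_left i5 (mul_nonneg hP hd)
  have b3 := mul_le_mul_of_nonneg_left i4 (mul_nonneg hP hd)
  have b4 := mul_le_mul_of_nonneg_left b1 (mul_nonneg hP (sq_nonneg d))
  have b5 := mul_le_mul_of_nonneg_left hK (mul_nonneg hP (sq_nonneg d))
  have e1 : d * P * (3 * A * (1 + ε) - L - c - 2 * k * ε + k * ω) -
      2 * A * (1 + ε) * (P / p) * d =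
      P * d * ((1 + ω * p ^ 2) * A * (3 - 2 / p) - 2 * k * (ω * p ^ 2) + k * ω - L - c) +
        P * d * (ω * p ^ 2 * δ * (A * (3 - 2 / p) - 2 * k)) := by
    rw [hε]; ring
  have e2 : 2 * A * (1 + ε) * (k / m) * (P / p) * (κb * d ^ 2) =
      P * d ^ 2 * (2 * A * (1 + ε) * (k / m) * (1 / p) * κb) := by ring
  linarith

/-- The absorption of the cross term. -/
theorem absorb {k P R cR p₀ p x d d₀ B C Kc α P₀ g : ℝ} (hd : 0 < d) (hd₀ : d ≤ d₀) (hP₀ : P₀ ≤ P)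
    (hP0 : 0 ≤ P) (hP1 : P ≤ 1) (hx : 0 ≤ x) (hα : 0 < α) (hB : 0 ≤ B) (hK : Kc ≤ 0) (hk : 0 ≤ k)
    (hR : R ≤ cR / p₀ ^ 4 * x ^ 2) (hα1 : α ≤ k * P₀ - cR / p₀ ^ 4)
    (hG : k * P * x ^ 2 ≤ g) (hc : P * (d * (B - C * x) + d ^ 2 * Kc) ≤ p)
    (hfin : 0 < B * P₀ + d₀ * Kc - C ^ 2 * d₀ / (4 * α)) : 0 < g + p - R := by
  have g1 : (α + cR / p₀ ^ 4) * x ^ 2 ≤ k * P * x ^ 2 := by
    refine mul_le_mul_of_nonneg_right ?_ (sq_nonneg _)
    linarith [mul_le_mul_of_nonneg_left hP₀ hk]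
  have g2 : -((C * d) ^ 2 / (4 * α)) ≤ α * x ^ 2 - |C| * d * x := by
    have e : α * x ^ 2 - |C| * d * x + (C * d) ^ 2 / (4 * α) =
        (2 * α * x - |C| * d) ^ 2 / (4 * α) := by
      rw [mul_pow C, ← sq_abs C]; field_simp; ring
    have : 0 ≤ (2 * α * x - |C| * d) ^ 2 / (4 * α) := by positivity
    linarith
  have g3 : P * (d * (C * x)) ≤ |C| * d * x := by
    calc P * (d * (C * x)) ≤ P * (d * (|C| * x)) := by
          gcongr
          exact le_abs_self C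
      _ ≤ 1 * (d * (|C| * x)) := mul_le_mul_of_nonneg_right hP1 (by positivity)
      _ = |C| * d * x := by ring
  have f1 := mul_le_mul_of_nonneg_left hP₀ (mul_nonneg hd.le hB)
  have f2 : d * (d₀ * Kc) ≤ P * d ^ 2 * Kc := by
    rw [show d * (d₀ * Kc) = d * d₀ * Kc by ring]
    refine mul_le_mul_of_nonpos_right ?_ hK
    calc P * d ^ 2 ≤ 1 * d ^ 2 := mul_le_mul_of_nonneg_right hP1 (sq_nonneg _)
      _ ≤ d * d₀ := by rw [one_mul, sq]; exact mul_le_mul_of_nonneg_left hd₀ hd.le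
  have f3 : (C * d) ^ 2 / (4 * α) ≤ d * (C ^ 2 * d₀ / (4 * α)) := by
    rw [mul_div_assoc']
    refine div_le_div_of_nonneg_right ?_ (by positivity)
    linarith [mul_le_mul_of_nonneg_left hd₀ (mul_nonneg (sq_nonneg C) hd.le)]
  have hpos := mul_pos hd hfin
  linarith

/-- **The scalar.** `cR` prices the second-order loss, `A = (m+4)/r²`. -/
theorem scalar_small {q Y Q ε ω lam d₀ p₀ q₁ cR R B C Kc α : ℝ} (hm : 3 ≤ m) (hq : 1 < q)
    (hq₁ : q ≤ q₁) (hd₀ : q - 1 ≤ d₀) (hY : 1 ≤ Y) (hp₀ : 0 < p₀) (hYp : Y ≤ 1 / p₀)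
    (hω : 0 ≤ ω) (hA2 : ((m : ℝ) + 4) / rr (m + 1) ^ 2 ≤ 2 * ((m : ℝ) + 1))
    (hQ : Q = q / Y ^ (m + 1)) (hε : ε = ω * q ^ (2 / ((m : ℝ) + 2)) / Y ^ 2)
    (hcR : 0 ≤ cR) (hR : R ≤ cR * (Y ^ 2 - 1) ^ 2)
    (hB : B ≤ (1 + ω) * (((m : ℝ) + 4) / rr (m + 1) ^ 2) - lam - ((m : ℝ) + 3) -
      ((m : ℝ) + 1) * ω - 2 / ((m : ℝ) + 2) * (((m : ℝ) + 1) * ω)) (hB0 : 0 ≤ B)
    (hC : (((m : ℝ) + 4) / rr (m + 1) ^ 2) * (ω + 2 * (1 + ω) / (p₀ * (1 + p₀))) -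
      2 * (((m : ℝ) + 1) * ω) ≤ C)
    (hK : Kc ≤ ω * (2 / ((m : ℝ) + 2)) *
        ((((m : ℝ) + 4) / rr (m + 1) ^ 2) * (3 - 2 / p₀) - 2 * ((m : ℝ) + 1)) +
      2 * (((m : ℝ) + 4) / rr (m + 1) ^ 2) * (1 + ω * p₀ ^ 2) * (((m : ℝ) + 1) / (m : ℝ)) *
        (((m : ℝ) / ((m : ℝ) + 1)) * (1 - (m : ℝ) / ((m : ℝ) + 1) * q₁ ^ 2) / (2 * q₁)) +
      ((m : ℝ) + 1) * ω * p₀ ^ 2 *
        ((2 / ((m : ℝ) + 2)) * (1 - 2 / ((m : ℝ) + 2) * q₁ ^ 2) / (2 * q₁)))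
    (hK0 : Kc ≤ 0) (hκa : 2 / ((m : ℝ) + 2) * q₁ ^ 2 ≤ 1)
    (hκb : (m : ℝ) / ((m : ℝ) + 1) * q₁ ^ 2 ≤ 1) (hα : 0 < α)
    (hα1 : α ≤ ((m : ℝ) + 1) * (ω + ((m : ℝ) + 3) / 4) * p₀ ^ (m + 1) - cR / p₀ ^ 4)
    (hfin : 0 < B * p₀ ^ (m + 1) + d₀ * Kc - C ^ 2 * d₀ / (4 * α)) :
    0 < (1 - aT m ε (rr (m + 1)) lam * ((m : ℝ) + 2) / ((m : ℝ) + 1)) * (1 - Q) +
      ((m : ℝ) + 1) * (ω * Q - ε) -
      muT m ε (rr (m + 1)) * (((m : ℝ) + 1) / (m : ℝ)) * rr (m + 1) *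
        (Q ^ ((m : ℝ) / ((m : ℝ) + 1)) - 1) +
      ((∫ T in Ioi (0 : ℝ), ell m ε (muT m ε (rr (m + 1))) (aT m ε (rr (m + 1)) lam) T *
        loD Y T) / semiMom m 1 - R) := by
  obtain ⟨j, rfl⟩ := Nat.exists_eq_add_of_le' (show 1 ≤ m by omega)
  rw [show j + 1 + 1 = j + 2 from rfl] at hA2 hB hC hK ⊢
  rw [(integral_ell_loD (ε := ε) (lam := lam) hY).2]
  push_cast at hA2 hB hC hK hκa hκb hα1 hfin hε ⊢
  set r := rr (j + 2) with hr
  have hr0 : 0 < r := div_pos (mom_zero_pos _) (mom_zero_pos _)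
  have hY0 : 0 < Y := by linarith
  set p := 1 / Y with hp
  have hp1 : p ≤ 1 := by rw [hp, div_le_one hY0]; exact hY
  have hpp : p₀ ≤ p := by rw [hp, le_div_iff₀ hY0]; rw [le_div_iff₀ hp₀] at hYp; linarith
  have hp0 : 0 < p := hp₀.trans_le hpp
  have hYj : ∀ i : ℕ, 1 / Y ^ i = p ^ i := fun i => by rw [hp, div_pow, one_pow]
  set k : ℝ := (j : ℝ) + 1 + 1 with hk
  set A : ℝ := ((j : ℝ) + 1 + 4) / r ^ 2 with hA
  set d := q - 1 with hd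
  have hd0 : 0 < d := by rw [hd]; linarith
  set δ := q ^ (2 / ((j : ℝ) + 1 + 2)) - 1 with hδ
  set δb := q ^ (((j : ℝ) + 1) / ((j : ℝ) + 1 + 1)) - 1 with hδb
  set κa := 2 / ((j : ℝ) + 1 + 2) * (1 - 2 / ((j : ℝ) + 1 + 2) * q₁ ^ 2) / (2 * q₁) with hκad
  set κb := ((j : ℝ) + 1) / k * (1 - ((j : ℝ) + 1) / k * q₁ ^ 2) / (2 * q₁) with hκbd
  have hq10 : 0 < q₁ := by linarith
  have hκa0 : 0 ≤ κa := by
    rw [hκad]; exact div_nonneg (mul_nonneg (by positivity) (by linarith)) (by linarith)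
  have hκb0 : 0 ≤ κb := by
    rw [hκbd]; exact div_nonneg (mul_nonneg (by positivity) (by linarith)) (by linarith)
  have hδ0 : 0 ≤ δ := by rw [hδ, sub_nonneg]; exact one_le_rpow hq.le (by positivity)
  have hδ1 : δ ≤ 2 / ((j : ℝ) + 1 + 2) * d - κa * d ^ 2 := by
    have := rpow_le_quad hq.le hq₁ (by positivity : (0 : ℝ) ≤ 2 / ((j : ℝ) + 1 + 2))
      (by rw [div_le_one (by positivity)]; linarith [(Nat.cast_nonneg j : (0 : ℝ) ≤ j)])
    rw [hδ, hκad]; linarith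
  have hδb1 : δb ≤ ((j : ℝ) + 1) / k * d - κb * d ^ 2 := by
    have := rpow_le_quad hq.le hq₁ (by positivity : (0 : ℝ) ≤ ((j : ℝ) + 1) / k)
      (by rw [div_le_one (by positivity)]; linarith)
    rw [hδb, hκbd]; linarith
  have hQp : Q = q * p ^ (j + 2) := by rw [hQ, ← hYj]; ring
  have hQb : Q ^ (((j : ℝ) + 1) / k) = (1 + δb) * p ^ (j + 1) := by
    have e := rpow_frac_pow (m := j + 1) hp0.le (Q := p ^ (j + 1 + 1)) rfl
    push_cast at e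
    rw [hQp, mul_rpow (by linarith) (by positivity), hk, e, hδb]
    ring
  have hεp : ε = ω * p ^ 2 * (1 + δ) := by rw [hε, hδ, hp]; field_simp; ring
  rw [hQb, hYj, hYj, hYj, hQp, ← add_sub_assoc, hk, scalar_exact hr0.ne' hεp, ← hd]
  have hk' : k = (j : ℝ) + 2 := by rw [hk]; ring
  have hj5 : ((j : ℝ) + 1 + 4) = (j : ℝ) + 5 := by ring
  rw [hj5] at hA
  rw [← hk', show (j : ℝ) + 4 = k + 2 by rw [hk']; ring, ← hA]
  have hG := poly_second (j + 2) hp0.le hp1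
  have ek : (((j + 2 : ℕ) : ℝ)) = k := by rw [hk']; push_cast; ring
  rw [ek] at hG
  have hk4 : ((j : ℝ) + 1 + 3) / 4 = (k + 2) / 4 := by rw [hk']; ring
  rw [hk4] at hα1
  have hA0 : 0 ≤ A := by rw [hA]; positivity
  have hx0 : 0 ≤ 1 - p ^ 2 := sub_nonneg.2 (pow_le_one₀ hp0.le hp1)
  have hR2 : R ≤ cR / p₀ ^ 4 * (1 - p ^ 2) ^ 2 := by
    refine hR.trans ?_
    have e : Y ^ 2 - 1 = (1 - p ^ 2) / p ^ 2 := by rw [hp]; field_simp
    rw [e, div_pow, ← pow_mul, mul_div_assoc', div_mul_eq_mul_div]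
    exact div_le_div_of_nonneg_left (by positivity) (by positivity) (pow_le_pow_left₀ hp₀.le hpp 4)
  have hc := coef_bound (k := k) (n := (j : ℝ) + 1 + 2) (m := (j : ℝ) + 1) (P := p ^ (j + 2))
    (ω := ω) (A := A) (L := lam) (c := k + 2) (B := B) (C := C) (Kc := Kc)
    (by rw [hk']; positivity) (by positivity) (by positivity) hA0 hA2 hω hp₀
    hpp hp1 (by positivity) hd0.le hκa0 hκb0 hδ0 hδ1 hδb1 hεp
    (hB.trans (le_of_eq (by rw [hk]; ring))) hC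
    hK
  rw [show p ^ (j + 2) / p = p ^ (j + 1) by field_simp; ring] at hc
  refine lt_of_lt_of_le (absorb (g := k * ω * p ^ (j + 2) * (1 - p ^ 2) ^ 2 +
      (2 - (k + 2) * p ^ (j + 2) + k * p ^ (j + 2 + 2))) (k := k * (ω + (k + 2) / 4)) hd0 hd₀
    (pow_le_pow_left₀ hp₀.le hpp (j + 2)) (by positivity) (pow_le_one₀ hp0.le hp1) hx0 hα hB0 hK0
    (by rw [hk']; positivity) hR2 hα1 ?_ hc hfin) (le_of_eq ?_)
  · linarith
  · ring

end Vale.Agent.P237.Cal
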