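import Vale.Agent.P237.Cal.SmallCell
import Vale.Agent.P237.Cal.SmallScalar
import Vale.Agent.P237.Cal.RangeBounds

/-!
# P237: the calibration for a small excess on a range of dimensions

`windowOk` is one rational test; `window_sound` turns it into the calibration for every `m` of the
range, every `1 < q ≤ q₁` and every admissible central value.
-/

open Real Set MeasureTheory Filter Topology

namespace Vale.Agent.P237.Cal.Small

open RangeBounds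

/-- The data of a range: constants, scalar data, enclosures of the moments, cells. -/
structure Win where
  P : Par
  om : ℚ
  lc : ℚ
  p0 : ℚ
  moms : List (ℕ × ℕ)
  rows : List Row
  wl : ℕ

/-- The chain of cells and the tail. -/
def chainOk (P : Par) : ℕ → List Row → ℕ → Bool
  | T0, [], wl => tailOk P T0 wl
  | T0, r :: l, wl => cellOk P T0 r && chainOk P r.T l wl

/-- The lower bound of `V₀` from the row of the next moment. -/
def vLo (b : ℕ × ℕ) : ℚ := (b.1 : ℚ) / 4294967296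

/-- The upper bound of `V₀`. -/
def vHi (b : ℕ × ℕ) : ℚ := (b.2 : ℚ) / 4294967296

/-- The scalar test of one dimension. -/
def scalarOk (W : Win) (m : ℕ) (a b : ℕ × ℕ) : Bool :=
  let k : ℚ := (m : ℚ) + 1
  let n : ℚ := (m : ℚ) + 2
  let rl : ℚ := (a.1 : ℚ) / b.2
  let rh : ℚ := (a.2 : ℚ) / b.1
  let Al : ℚ := ((m : ℚ) + 4) / rh ^ 2
  let Ah : ℚ := ((m : ℚ) + 4) / rl ^ 2
  let q := W.P.q1
  let p := W.p0
  let ω := W.om
  let cR : ℚ := k * W.P.c0 + W.P.c1 + k * W.P.E * W.P.se * (8 / 5) / vLo b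
  let B : ℚ := (1 + ω) * Al - W.lc / n - ((m : ℚ) + 3) - k * ω - 2 / n * (k * ω)
  let C : ℚ := Ah * (ω + 2 * (1 + ω) / (p * (1 + p))) - 2 * (k * ω)
  let κa : ℚ := (2 / n) * (1 - 2 / n * q ^ 2) / (2 * q)
  let κb : ℚ := ((m : ℚ) / k) * (1 - (m : ℚ) / k * q ^ 2) / (2 * q)
  let K : ℚ := min 0 (ω * (2 / n) * (min (Al * (3 - 2 / p)) (Ah * (3 - 2 / p)) - 2 * k) +
    2 * Al * (1 + ω * p ^ 2) * (k / (m : ℚ)) * κb + k * ω * p ^ 2 * κa)
  let α : ℚ := k * (ω + ((m : ℚ) + 3) / 4) * p ^ (m + 1) - cR / p ^ 4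
  decide (0 < a.1 ∧ 0 < b.1 ∧ W.P.rlo ≤ rl ∧ rh ≤ W.P.rhi ∧ n * vHi b ≤ W.P.nv ∧
    vHi b ≤ W.P.vhi ∧ Ah ≤ 2 * k ∧ 0 ≤ B ∧ 2 / n * q ^ 2 ≤ 1 ∧ (m : ℚ) / k * q ^ 2 ≤ 1 ∧
    0 < α ∧ 0 < B * p ^ (m + 1) + (q - 1) * K - C ^ 2 * (q - 1) / (4 * α) ∧
    W.P.e0 ≤ ω * p ^ 2 ∧ ω * (1 + 2 / n * (q - 1)) ≤ W.P.e1 ∧ W.P.L ≤ W.lc / n ∧
    (q - 1) * vHi b < k * p ^ m * ((W.P.se * p) ^ 3 / 6))

/-- The whole test. -/
def windowOk (W : Win) : Bool :=
  parOk W.P &&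
  decide (3 ≤ W.P.m0 ∧ 0 ≤ W.om ∧ 0 ≤ W.lc ∧ 0 < W.p0 ∧ W.p0 ^ 2 * (1 + W.P.se ^ 2) ≤ 1 ∧
    W.moms.length = W.P.m1 + 2 - W.P.m0) &&
  ((List.range W.moms.length).zip W.moms).all (fun x => momTest (W.P.m0 + 1 + x.1) x.2.1 x.2.2) &&
  (List.range (W.P.m1 + 1 - W.P.m0)).all (fun i =>
    scalarOk W (W.P.m0 + i) (W.moms.getD i (0, 0)) (W.moms.getD (i + 1) (0, 0))) &&
  chainOk W.P 0 W.rows W.wl

variable {W : Win} {m : ℕ} {V Y ε lam T σ h X : ℝ}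

theorem chain_sound {P : Par} (hP : parOk P = true) (H : Hyp P m V Y ε lam) :
    ∀ (l : List Row) (T0 wl : ℕ), chainOk P T0 l wl = true → ((unit T0 : ℚ) : ℝ) ≤ T →
      RegC Y T σ h → XBox m V Y T σ X → Exc m V Y T σ →
    Pw3 m ε (muT m ε (rr (m + 1))) (aT m ε (rr (m + 1)) lam) 0 (fun _ => 0) (fun _ => 0)
      (fun _ => 0) (fun _ => 0) (fun _ => 0) (fun _ => 0) (fun _ => 0) (fun _ => 0) (fun _ => 0)
      (fun _ => 0)
      (fun x => ell m ε (muT m ε (rr (m + 1))) (aT m ε (rr (m + 1)) lam) x * loD Y x -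
        (Y ^ 2 - 1) ^ 2 * lossW m (P.c0 : ℝ) (P.c1 : ℝ) (P.E : ℝ) ((P.se : ℝ) ^ 2) x) T σ h X
  | [], T0, wl, hk, hT, hR, _, _ => tailOk_sound hP H (by simpa [chainOk] using hk) hT hR
  | r :: l, T0, wl, hk, hT, hR, hB, hE => by
    simp only [chainOk, Bool.and_eq_true] at hk
    rcases le_total T ((unit r.T : ℚ) : ℝ) with h1 | h1
    · exact cellOk_sound hP H hk.1 ⟨hT, h1⟩ hR hB hE
    · exact chain_sound hP H l r.T wl hk.2 h1 hR hB hE

lemma continuous_ell (ε μ a : ℝ) : Continuous (ell m ε μ a) := by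
  unfold ell
  exact Continuous.div (by fun_prop) (by fun_prop) fun T => pow_ne_zero _ (w_pos T).ne'

/-- The moments from a row. -/
lemma row_moms {a b : ℕ × ℕ} (ha : momTest (m + 1) a.1 a.2 = true)
    (hb : momTest (m + 2) b.1 b.2 = true) (ha0 : 0 < a.1) (hb0 : 0 < b.1) :
    ((vLo b : ℝ) ≤ semiMom m 1 ∧ semiMom m 1 ≤ (vHi b : ℝ)) ∧
      (((a.1 : ℚ) / b.2 : ℚ) : ℝ) ≤ rr (m + 1) ∧
      rr (m + 1) ≤ (((a.2 : ℚ) / b.1 : ℚ) : ℝ) ∧ 0 < ((vLo b : ℚ) : ℝ) := by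
  obtain ⟨a1, a2⟩ := momTest_sound ha
  obtain ⟨b1, b2⟩ := momTest_sound hb
  have hV : semiMom m 1 = mom 0 (m + 2 + 2) := semiMom_one m
  have hr : rr (m + 1) = mom 0 (m + 1 + 2) / mom 0 (m + 2 + 2) := rfl
  have hp : (0 : ℝ) < mom 0 (m + 2 + 2) := mom_zero_pos _
  have hb' : (0 : ℝ) < b.1 := Nat.cast_pos.2 hb0
  have hb2' : (0 : ℝ) < b.2 := by
    have : (0 : ℝ) < (b.2 : ℝ) / 2 ^ 32 := hp.trans_le b2
    exact (div_pos_iff_of_pos_right (by norm_num)).1 this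
  have ha' : (0 : ℝ) ≤ a.1 := Nat.cast_nonneg _
  refine ⟨⟨?_, ?_⟩, ?_, ?_, ?_⟩
  · rw [hV, vLo]; push_cast; norm_num at b1 ⊢; linarith
  · rw [hV, vHi]; push_cast; norm_num at b2 ⊢; linarith
  · rw [hr]; push_cast
    refine le_trans (le_of_eq ?_) (div_le_div₀ (mom_zero_pos _).le a1 hp b2)
    field_simp
  · rw [hr]; push_cast
    refine le_trans (div_le_div₀ (by positivity) a2 (by positivity) b1) (le_of_eq ?_)
    field_simp
  · rw [vLo]; push_cast; positivity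

/-- The range of the central value. -/
theorem eta_bound {m : ℕ} {V Y se p₀ d vhi : ℝ} (hY : 1 ≤ Y) (hse : 0 < se) (hp₀ : 0 < p₀)
    (hp : p₀ ^ 2 * (1 + se ^ 2) ≤ 1) (hH : hullTan m Y ≤ V) (hV : V - semiMom m 1 ≤ d * vhi)
    (hbig : d * vhi < ((m : ℝ) + 1) * p₀ ^ m * ((se * p₀) ^ 3 / 6)) :
    Y ^ 2 - 1 ≤ se ^ 2 := by
  set Y₁ := √(1 + se ^ 2) with hY₁
  have hsq : Y₁ ^ 2 = 1 + se ^ 2 := sq_sqrt (by positivity)
  have hY1 : 1 < Y₁ := by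
    rw [hY₁, lt_sqrt zero_le_one]; linarith [pow_pos hse 2]
  have hp1 : p₀ ≤ 1 / Y₁ := by
    rw [le_div_iff₀ (by linarith)]
    refine (pow_le_pow_iff_left₀ (by positivity) zero_le_one two_ne_zero).1 ?_
    rw [mul_pow, hsq, one_pow]; exact hp
  have ht : se * p₀ ≤ tanPt Y₁ := by
    refine le_sqrt_of_sq_le ?_
    rw [hsq, one_sub_div (by positivity : (1 : ℝ) + se ^ 2 ≠ 0), le_div_iff₀ (by positivity)]
    linarith [mul_le_mul_of_nonneg_left hp (sq_nonneg se)]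
  have hlt := Y_lt_of_bump hY1 hH (lt_of_le_of_lt hV (lt_of_lt_of_le hbig ?_))
  · linarith [pow_le_pow_left₀ (by linarith : (0 : ℝ) ≤ Y) hlt.le 2]
  · gcongr

/-- The small window gives the calibration. -/
theorem window_sound (hW : windowOk W = true) (h0 : W.P.m0 ≤ m) (h1 : m ≤ W.P.m1) {q ρ Q : ℝ}
    (hq : 1 < q) (hq₁ : q ≤ (W.P.q1 : ℝ)) (hY : 1 ≤ Y)
    (hH : hullTan m Y ≤ q * semiMom m 1) (hQ : Q = q / Y ^ (m + 1))
    (hε : ε = (W.om : ℝ) * q ^ (2 / ((m : ℝ) + 2)) / Y ^ 2)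
    (hρ : (W.om : ℝ) * ρ ^ 2 = ε * Y ^ 2) :
    ∃ (lam : ℝ) (Φ : ℝ × ℝ × ℝ → ℝ) (dΦ : ℝ × ℝ × ℝ → (ℝ × ℝ × ℝ →L[ℝ] ℝ)),
      IsCalY m (q * semiMom m 1) ρ (W.om : ℝ) Y lam Φ dΦ := by
  simp only [windowOk, Bool.and_eq_true, decide_eq_true_eq, List.all_eq_true] at hW
  obtain ⟨⟨⟨⟨hP, hm3, hom, hlc, hp0, hp02, hlen⟩, hmom⟩, hsc⟩, hch⟩ := hW
  obtain ⟨i, rfl⟩ := Nat.exists_eq_add_of_le h0
  have hi : i + 1 < W.moms.length := by omega
  have hrow := hsc i (List.mem_range.2 (by omega))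
  have get : ∀ (l : ℕ) (hl : l < W.moms.length),
      momTest (W.P.m0 + 1 + l) (W.moms[l]).1 (W.moms[l]).2 = true :=
    fun l hl => hmom (l, W.moms[l]) (List.mem_iff_getElem.2 ⟨l, by simp [hl], by simp⟩)
  have ha := get i (by omega)
  have hb := get (i + 1) hi
  rw [← List.getElem_eq_getD (h := by omega) (0, 0),
    ← List.getElem_eq_getD (h := hi) (0, 0)] at hrow
  generalize W.moms[i] = a at ha hrow
  generalize W.moms[i + 1] = b at hb hrow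
  rw [show W.P.m0 + 1 + i = W.P.m0 + i + 1 by omega] at ha
  rw [show W.P.m0 + 1 + (i + 1) = W.P.m0 + i + 2 by omega] at hb
  simp only [scalarOk, decide_eq_true_eq] at hrow
  obtain ⟨s0, s0', sr1, sr2, sn, sv, sA, sB, sk1, sk2, sα, sfin, se0, se1, sL, sη⟩ := hrow
  obtain ⟨⟨hv1, hv2⟩, hr1, hr2, hvpos⟩ := row_moms ha hb s0 s0'
  set m := W.P.m0 + i with hm
  have hPr := hP
  simp only [parOk, decide_eq_true_eq] at hP
  obtain ⟨-, -, -, prl, -, pq, -, pc0, pc1, pE, pse⟩ := hP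
  have pq : 1 ≤ (W.P.q1 : ℝ) := by exact_mod_cast pq
  have pse : 0 < (W.P.se : ℝ) := Rat.cast_pos.2 pse
  have pE : 0 ≤ (W.P.E : ℝ) := Rat.cast_nonneg.2 pE
  have pc0 : 0 ≤ (W.P.c0 : ℝ) := Rat.cast_nonneg.2 pc0
  have pc1 : 0 ≤ (W.P.c1 : ℝ) := Rat.cast_nonneg.2 pc1
  have hlc : 0 ≤ (W.lc : ℝ) := Rat.cast_nonneg.2 hlc
  have hom : 0 ≤ (W.om : ℝ) := Rat.cast_nonneg.2 hom
  have hp0 : 0 < (W.p0 : ℝ) := Rat.cast_pos.2 hp0
  have q0 := (Rat.cast_le (K := ℝ)).2 hp02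
  have t1 := (Rat.cast_le (K := ℝ)).2 sr1
  have t2 := (Rat.cast_le (K := ℝ)).2 sr2
  have t3 := (Rat.cast_le (K := ℝ)).2 sn
  have t4 := (Rat.cast_le (K := ℝ)).2 sv
  have t5 := (Rat.cast_le (K := ℝ)).2 sA
  have t6 := (Rat.cast_le (K := ℝ)).2 sB
  have t7 := (Rat.cast_le (K := ℝ)).2 sk1
  have t8 := (Rat.cast_le (K := ℝ)).2 sk2
  have t9 := (Rat.cast_lt (K := ℝ)).2 sα
  have t10 := (Rat.cast_lt (K := ℝ)).2 sfin
  have t11 := (Rat.cast_le (K := ℝ)).2 se0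
  have t12 := (Rat.cast_le (K := ℝ)).2 se1
  have t13 := (Rat.cast_le (K := ℝ)).2 sL
  have t14 := (Rat.cast_lt (K := ℝ)).2 sη
  push_cast at q0 t1 t2 t3 t4 t5 t6 t7 t8 t9 t10 t11 t12 t13 t14 hr1 hr2
  have hV0 : 0 < semiMom m 1 := hvpos.trans_le hv1
  have hr : 0 < rr (m + 1) := div_pos (mom_zero_pos _) (mom_zero_pos _)
  have hY0 : 0 < Y := by linarith
  -- the central value
  have hη : Y ^ 2 - 1 ≤ (W.P.se : ℝ) ^ 2 := by
    refine eta_bound (d := (W.P.q1 : ℝ) - 1) (vhi := (vHi b : ℝ)) hY pse hp0 q0 hH ?_ t14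
    exact le_trans (by linarith only [mul_le_mul_of_nonneg_right hq₁ hV0.le])
      (mul_le_mul_of_nonneg_left hv2 (sub_nonneg.2 pq))
  have hYp : Y ≤ 1 / (W.p0 : ℝ) := by
    rw [le_div_iff₀ hp0]
    refine (pow_le_pow_iff_left₀ (by positivity) zero_le_one two_ne_zero).1 ?_
    rw [mul_pow, one_pow, mul_comm]
    exact le_trans (mul_le_mul_of_nonneg_left (by linarith : Y ^ 2 ≤ 1 + (W.P.se : ℝ) ^ 2)
      (sq_nonneg _)) q0
  have hp1 : (W.p0 : ℝ) ≤ 1 := by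
    have := hY.trans hYp
    rwa [le_div_iff₀ hp0, one_mul] at this
  -- the range of ε
  have hqa : 1 ≤ q ^ (2 / ((m : ℝ) + 2)) := one_le_rpow hq.le (by positivity)
  have hqb : q ^ (2 / ((m : ℝ) + 2)) ≤ 1 + 2 / ((m : ℝ) + 2) * ((W.P.q1 : ℝ) - 1) := by
    refine (rpow_le_tangent (by linarith) (by positivity) ?_).trans ?_
    · rw [div_le_one (by positivity)]; linarith [(Nat.cast_nonneg m : (0 : ℝ) ≤ m)]
    · gcongr
  have he0 : (W.P.e0 : ℝ) ≤ ε := by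
    refine t11.trans ?_
    rw [hε, le_div_iff₀ (by positivity), mul_assoc]
    refine mul_le_mul_of_nonneg_left (le_trans ?_ hqa) hom
    rw [← mul_pow]
    rw [le_div_iff₀ hp0, mul_comm] at hYp
    exact pow_le_one₀ (by positivity) hYp
  have he1 : ε ≤ (W.P.e1 : ℝ) := by
    refine le_trans ?_ t12
    rw [hε]
    exact (div_le_self (by positivity) (one_le_pow₀ hY)).trans
      (mul_le_mul_of_nonneg_left hqb hom)
  have H : Hyp W.P m (q * semiMom m 1) Y ε ((W.lc : ℝ) / ((m : ℝ) + 2)) :=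
    { m_ge := Nat.le_add_right _ _
      m_le := h1
      one_le := hY
      eta_le := hη
      e_ge := he0
      e_le := he1
      r_ge := t1.trans hr1
      r_le := hr2.trans t2
      nv_ge := (mul_le_mul_of_nonneg_left hv2 (by positivity)).trans t3
      vhi_ge := hv2.trans t4
      V_ge := le_mul_of_one_le_left hV0.le hq.le
      V_le := mul_le_mul_of_nonneg_right hq₁ hV0.le
      lam_ge := t13 }
  obtain ⟨hLi, hLint⟩ := integral_lossW (m := m) (c₀ := (W.P.c0 : ℝ)) (c₁ := (W.P.c1 : ℝ)) pE pse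
  obtain ⟨j, hj⟩ := Nat.exists_eq_add_of_le' (show 1 ≤ m by omega)
  have hEi : IntegrableOn (fun T => ell m ε (muT m ε (rr (m + 1)))
      (aT m ε (rr (m + 1)) ((W.lc : ℝ) / ((m : ℝ) + 2))) T * loD Y T) (Ioi 0) := by
    rw [hj]; exact (integral_ell_loD hY).1
  have hc : Continuous (fun T => ell m ε (muT m ε (rr (m + 1)))
      (aT m ε (rr (m + 1)) ((W.lc : ℝ) / ((m : ℝ) + 2))) T * loD Y T -
      (Y ^ 2 - 1) ^ 2 * lossW m (W.P.c0 : ℝ) (W.P.c1 : ℝ) (W.P.E : ℝ) ((W.P.se : ℝ) ^ 2) T) := by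
    refine ((continuous_ell _ _ _).mul (by unfold loD; fun_prop)).sub
      (continuous_const.mul (continuous_lossW (by positivity)))
  refine isCalY_of_field (Q := Q) (μ := muT m ε (rr (m + 1)))
    (a := aT m ε (rr (m + 1)) ((W.lc : ℝ) / ((m : ℝ) + 2))) (K := 0) (uinf := 0) (g := fun _ => 0) (P := fun _ => 0)
    (C := fun _ => 0) (S := fun _ => 0) (U := fun _ => 0) (g' := fun _ => 0) (P' := fun _ => 0)
    (C' := fun _ => 0) (S' := fun _ => 0) (U' := fun _ => 0) (by omega) hY (by positivity) hρ ?_ hc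
    (hEi.sub (hLi.const_mul _))
    continuous_const continuous_const continuous_const continuous_const continuous_const
    (fun T _ => hasDerivAt_const T 0) (fun T _ => hasDerivAt_const T 0)
    (fun T _ => hasDerivAt_const T 0) (fun T _ => hasDerivAt_const T 0)
    (fun T _ => hasDerivAt_const T 0) (by simp) (by simp) (by simp) (by simp) (by simp)
    le_rfl le_rfl le_rfl ?_ (by rw [hQ]; field_simp) ?_
  · have : 0 ≤ ε := by rw [hε]; positivity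
    unfold muT; positivity
  · exact fun T σ h X hR hB hE => chain_sound hPr H W.rows 0 W.wl hch
      (by simpa [unit] using hR.T_pos.le) hR hB hE
  simp only [zero_mul, sub_zero]
  rw [integral_sub hEi (hLi.const_mul _), MeasureTheory.integral_const_mul, sub_div]
  have hAl : ((m : ℝ) + 4) / ((a.2 : ℝ) / (b.1 : ℝ)) ^ 2 ≤ ((m : ℝ) + 4) / rr (m + 1) ^ 2 :=
    div_le_div_of_nonneg_left (by positivity) (by positivity) (pow_le_pow_left₀ hr.le hr2 2)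
  have hrlo : 0 < (a.1 : ℝ) / (b.2 : ℝ) := lt_of_lt_of_le (Rat.cast_pos.2 prl) t1
  have hAh : ((m : ℝ) + 4) / rr (m + 1) ^ 2 ≤ ((m : ℝ) + 4) / ((a.1 : ℝ) / (b.2 : ℝ)) ^ 2 :=
    div_le_div_of_nonneg_left (by positivity) (by positivity) (pow_le_pow_left₀ hrlo.le hr1 2)
  set A := ((m : ℝ) + 4) / rr (m + 1) ^ 2 with hA
  set Al := ((m : ℝ) + 4) / ((a.2 : ℝ) / (b.1 : ℝ)) ^ 2 with hAld
  set Ah := ((m : ℝ) + 4) / ((a.1 : ℝ) / (b.2 : ℝ)) ^ 2 with hAhd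
  refine scalar_small (d₀ := (W.P.q1 : ℝ) - 1) (p₀ := (W.p0 : ℝ)) (q₁ := (W.P.q1 : ℝ))
    (cR := ((m : ℝ) + 1) * (W.P.c0 : ℝ) + (W.P.c1 : ℝ) +
      ((m : ℝ) + 1) * (W.P.E : ℝ) * (W.P.se : ℝ) * (8 / 5) / (vLo b : ℝ))
    (by omega) hq hq₁ (by linarith) hY hp0 hYp hom (hAh.trans t5) hQ hε ?_ ?_
    (le_trans ?_ (sub_le_sub_right (sub_le_sub_right (sub_le_sub_right (sub_le_sub_right
      (mul_le_mul_of_nonneg_left hAl (by linarith : (0 : ℝ) ≤ 1 + (W.om : ℝ))) _) _) _) _))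
    t6 (C := Ah * ((W.om : ℝ) + 2 * (1 + (W.om : ℝ)) / ((W.p0 : ℝ) * (1 + (W.p0 : ℝ)))) -
      2 * (((m : ℝ) + 1) * (W.om : ℝ))) ?_ ?_ (min_le_left _ _) t7 t8 t9 le_rfl t10
  · positivity
  · rw [mul_div_assoc, mul_comm]
    refine mul_le_mul_of_nonneg_right ?_ (sq_nonneg _)
    refine (div_le_div_of_nonneg_right hLint hV0.le).trans ?_
    rw [add_div, mul_div_cancel_left₀ _ hV0.ne']
    refine add_le_add le_rfl ?_
    have hpi : π / 2 ≤ 8 / 5 := by linarith [pi_lt_d2]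
    rw [mul_assoc _ (W.P.se : ℝ)]
    exact div_le_div₀ (by positivity)
      (mul_le_mul_of_nonneg_left (mul_le_mul_of_nonneg_left hpi pse.le) (by positivity)) hvpos hv1
  · exact le_rfl
  · gcongr
  · refine (min_le_right _ _).trans ?_
    gcongr
    · rcases le_total 0 (3 - 2 / (W.p0 : ℝ)) with hs | hs
      · exact (min_le_left _ _).trans (mul_le_mul_of_nonneg_right hAl hs)
      · exact (min_le_right _ _).trans (mul_le_mul_of_nonpos_right hAh hs)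

end Vale.Agent.P237.Cal.Small
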