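import Vale.Agent.P237.Cal.StateG

/-!
# P237: the least state with the decay of the weight

`∫₀^T W^(-(m+4)) ≤ T/√(1 + n T²/3)` and the weighted form of `X₀ - XL ≤ k d T/2`:
`X₀ - XL ≤ k d/2 · T/√(1 + n T²/3)`, `n = m + 2`.
-/

open MeasureTheory Set Real intervalIntegral

namespace Vale.Agent.P237.Cal

variable {m : ℕ} {Y T : ℝ}

lemma continuous_wInv (j : ℕ) : Continuous fun u : ℝ => 1 / √(1 + u ^ 2) ^ j := by
  simpa using mom_continuous 0 j

/-- The weight is decreasing. -/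
lemma wInv_deriv_nonpos (j : ℕ) {u : ℝ} (hu : 0 ≤ u) :
    -((j : ℝ) * (u / √(1 + u ^ 2) ^ (j + 2))) ≤ 0 := by
  have : 0 ≤ (j : ℝ) * (u / √(1 + u ^ 2) ^ (j + 2)) := by positivity
  linarith

/-- `∫₀^T W^(-(m+4)) ≤ T/√(1 + n T²/3)`. -/
lemma wInv_integral_le (hm : 2 ≤ m) (hT : 0 ≤ T) :
    ∫ u in (0 : ℝ)..T, 1 / √(1 + u ^ 2) ^ (m + 4) ≤ T / √(1 + ((m : ℝ) + 2) * T ^ 2 / 3) := by
  have hpos : ∀ u : ℝ, 0 < 1 + ((m : ℝ) + 2) * u ^ 2 / 3 := fun u => by positivity
  have hd : ∀ u : ℝ, HasDerivAt (fun v => v / √(1 + ((m : ℝ) + 2) * v ^ 2 / 3))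
      (1 / (√(1 + ((m : ℝ) + 2) * u ^ 2 / 3) * (1 + ((m : ℝ) + 2) * u ^ 2 / 3))) u := fun u => by
    have h := (((hasDerivAt_pow 2 u).const_mul ((m : ℝ) + 2)).div_const 3).const_add (1 : ℝ)
    refine ((hasDerivAt_id u).fun_div (h.sqrt (hpos u).ne') (sqrt_pos.2 (hpos u)).ne').congr_deriv ?_
    have := (sqrt_pos.2 (hpos u)).ne'
    have := (hpos u).ne'
    simp only [id_eq]
    push_cast
    field_simp
    rw [sq_sqrt (by positivity)]
    field_simp
    ring
  have hc : Continuous fun u : ℝ =>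
      1 / (√(1 + ((m : ℝ) + 2) * u ^ 2 / 3) * (1 + ((m : ℝ) + 2) * u ^ 2 / 3)) :=
    continuous_const.div (by fun_prop) fun u =>
      (mul_pos (sqrt_pos.2 (hpos u)) (hpos u)).ne'
  have e : ∫ u in (0 : ℝ)..T,
      1 / (√(1 + ((m : ℝ) + 2) * u ^ 2 / 3) * (1 + ((m : ℝ) + 2) * u ^ 2 / 3)) =
      T / √(1 + ((m : ℝ) + 2) * T ^ 2 / 3) := by
    rw [integral_eq_sub_of_hasDerivAt (fun u _ => hd u) (hc.intervalIntegrable _ _)]
    simp
  rw [← e]
  refine integral_mono_on hT ((continuous_wInv _).intervalIntegrable _ _)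
    (hc.intervalIntegrable _ _) fun u _ => ?_
  refine one_div_le_one_div_of_le (mul_pos (sqrt_pos.2 (hpos u)) (hpos u)) ?_
  set W := √(1 + u ^ 2) with hW
  have hW1 := one_le_w u
  set A := 1 + ((m : ℝ) + 2) * u ^ 2 / 3
  have hA0 : 0 ≤ A := (hpos u).le
  -- both sides to the power two
  refine le_of_pow_le_pow_left₀ two_ne_zero (by positivity) ?_
  rw [mul_pow, sq_sqrt hA0, ← pow_mul, show (m + 4) * 2 = 2 * (m + 4) by ring, pow_mul, w_sq]
  have hb := one_add_mul_le_pow (a := u ^ 2) (by linarith [sq_nonneg u]) (m + 4)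
  have h3 : A ^ 3 ≤ (1 + u ^ 2) ^ (m + 4) := by
    rcases Nat.lt_or_ge (m + 4) (3 * 2) with h | h
    · omega
    obtain ⟨q, hq⟩ : ∃ q, m + 4 = 3 * q ∨ m + 4 = 3 * q + 1 ∨ m + 4 = 3 * q + 2 :=
      ⟨(m + 4) / 3, by omega⟩
    have hq1 : ((m : ℝ) + 2) / 3 ≤ q := by
      have : m + 2 ≤ 3 * q := by omega
      have : ((m + 2 : ℕ) : ℝ) ≤ ((3 * q : ℕ) : ℝ) := by exact_mod_cast this
      push_cast at this
      linarith
    have hA : A ≤ (1 + u ^ 2) ^ q := by
      refine le_trans ?_ (one_add_mul_le_pow (a := u ^ 2) (by linarith [sq_nonneg u]) q)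
      have := mul_le_mul_of_nonneg_right hq1 (sq_nonneg u)
      simp only [A]
      linarith
    calc A ^ 3 ≤ ((1 + u ^ 2) ^ q) ^ 3 := pow_le_pow_left₀ hA0 hA 3
      _ = (1 + u ^ 2) ^ (3 * q) := by rw [← pow_mul, mul_comm]
      _ ≤ (1 + u ^ 2) ^ (m + 4) := pow_le_pow_right₀ (by linarith [sq_nonneg u]) (by omega)
  calc A * A ^ 2 = A ^ 3 := by ring
    _ ≤ _ := h3

/-- **The least state, linear bound with decay.** -/
theorem X0_sub_XL_le_decay (hm : 2 ≤ m) (hY : 1 ≤ Y) (hT : 0 ≤ T) :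
    X0 m T - XL m Y T ≤
      ((m : ℝ) + 1) * (Y ^ 2 - 1) / 2 * (T / √(1 + ((m : ℝ) + 2) * T ^ 2 / 3)) := by
  have hd0 : 0 ≤ Y ^ 2 - 1 := by linarith [one_le_pow₀ (n := 2) hY]
  set f := fun u : ℝ => u * (u - √(1 + u ^ 2 - Y ^ 2)) - (Y ^ 2 - 1) / 2 with hf
  set w := fun u : ℝ => 1 / √(1 + u ^ 2) ^ (m + 4) with hw
  set w' := fun u : ℝ => -(((m + 4 : ℕ) : ℝ) * (u / √(1 + u ^ 2) ^ (m + 4 + 2))) with hw'
  have hfc : Continuous f := by fun_prop
  have hwc : Continuous w := continuous_wInv _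
  have hwd : ∀ u, HasDerivAt w (w' u) u := fun u => (hasDerivAt_w_inv (m + 4) u).congr_deriv (by simp only [hw']; ring)
  set G := fun u : ℝ => ∫ v in (0 : ℝ)..u, f v with hG
  have hG0 : ∀ u, 0 ≤ u → G u ≤ 0 := fun u hu => by
    simp only [hG, hf]
    rw [intervalIntegral.integral_sub (Continuous.intervalIntegrable (by fun_prop) _ _)
      intervalIntegrable_const, integral_low_plain hY hu, intervalIntegral.integral_const,
      smul_eq_mul]
    have h2 := cube_gap (T := u) (d := Y ^ 2 - 1) (sqrt_nonneg (1 + u ^ 2 - Y ^ 2))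
      (sqrt_low_le hY hu) (by
        rcases le_total 0 (1 + u ^ 2 - Y ^ 2) with h | h
        · rw [sq_sqrt h]; linarith
        · rw [sqrt_eq_zero'.2 h]; linarith)
    linarith
  have hGd : ∀ u, HasDerivAt G (f u) u := fun u =>
    (hfc.integral_hasStrictDerivAt 0 u).hasDerivAt
  have hH : ∀ u, HasDerivAt (fun v => (∫ x in (0 : ℝ)..v, f x * w x) - G v * w v)
      (f u * w u - (f u * w u + G u * w' u)) u := fun u =>
    ((hfc.mul hwc).integral_hasStrictDerivAt 0 u).hasDerivAt.fun_sub ((hGd u).fun_mul (hwd u))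
  have hmono : AntitoneOn (fun v => (∫ x in (0 : ℝ)..v, f x * w x) - G v * w v) (Ici 0) := by
    refine antitoneOn_of_hasDerivWithinAt_nonpos (convex_Ici 0)
      (fun u _ => (hH u).continuousAt.continuousWithinAt) (fun u _ => (hH u).hasDerivWithinAt)
      fun u hu => ?_
    rw [interior_Ici] at hu
    have hu0 : 0 ≤ u := le_of_lt hu
    have h1 := mul_nonneg_of_nonpos_of_nonpos (hG0 u hu0) (wInv_deriv_nonpos (m + 4) hu0)
    simp only [hw']
    linarith
  have h1 := hmono self_mem_Ici hT hT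
  simp only [hG, intervalIntegral.integral_same, zero_mul, sub_zero] at h1
  have h2 : (∫ x in (0 : ℝ)..T, f x * w x) ≤ 0 := by
    have := mul_nonpos_of_nonpos_of_nonneg (hG0 T hT) (show 0 ≤ w T by positivity)
    simp only [hG] at this
    linarith
  have e : ∫ x in (0 : ℝ)..T, f x * w x =
      (∫ x in (0 : ℝ)..T, x * (x - √(1 + x ^ 2 - Y ^ 2)) * w x) -
        (Y ^ 2 - 1) / 2 * ∫ x in (0 : ℝ)..T, w x := by
    rw [← intervalIntegral.integral_const_mul, ← intervalIntegral.integral_sub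
      (Continuous.intervalIntegrable (by fun_prop) _ _) ((hwc.const_mul _).intervalIntegrable _ _)]
    refine integral_congr fun x _ => ?_
    simp only [hf]; ring
  rw [e] at h2
  have h3 : X0 m T - XL m Y T =
      ((m : ℝ) + 1) * ∫ x in (0 : ℝ)..T, x * (x - √(1 + x ^ 2 - Y ^ 2)) * w x := by
    rw [← neg_sub, XL_sub_X0, ← intervalIntegral.integral_neg,
      ← intervalIntegral.integral_const_mul]
    refine integral_congr fun x _ => ?_
    simp only [muX, hw]; ring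
  rw [h3, mul_div_assoc, mul_assoc]
  refine mul_le_mul_of_nonneg_left ?_ (by positivity)
  have h4 := mul_le_mul_of_nonneg_left (wInv_integral_le (T := T) hm hT)
    (show 0 ≤ (Y ^ 2 - 1) / 2 by linarith)
  simp only [hw] at h2 ⊢
  linarith

end Vale.Agent.P237.Cal
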