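import Vale.Agent.P237.Cal.LargeStep

/-!
# P237: the sharp step in dimensions `n ≥ 127`

Stated over `ProfileCal m` for `m ≥ 126`.
-/

open MeasureTheory Set Metric Real
open scoped RealInnerProductSpace Pointwise

namespace Vale.Agent.P237.Cal.Step127

open Exact Full Uniform LargeStep

variable (hC : ∀ m, 126 ≤ m → ProfileCal m)
include hC

/-- The step for `n ≥ 127`. -/
theorem stepProp_from {j : ℕ} (hj : 125 ≤ j) : StepProp (j + 1) :=
  stepProp_of_profileCal (by omega) (hC _ (by omega))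

/-- A factor valid in dimension `j + 2 ≥ 127` is valid above. -/
theorem pettyWith_mono {j : ℕ} {a : ℝ} (hj : 125 ≤ j) (ha0 : 0 < a) (ha1 : a ≤ 1)
    (h : PettyWith a j) : ∀ i, PettyWith a (j + i)
  | 0 => h
  | i + 1 => pettyWith_step ha0 ha1 (pettyWith_mono hj ha0 ha1 h i)
      (stepProp_from hC (le_trans hj (Nat.le_add_right j i)))

omit hC in
/-- The constant of every dimension. -/
noncomputable def cAll : ℝ := exp (-(5 / 8) * (1 / 3 - 1 / 126))

omit hC in
lemma cAll_bounds : 815 / 1000 ≤ cAll ∧ cAll ≤ 1 := by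
  refine ⟨?_, exp_le_one_iff.2 (by norm_num)⟩
  have h : cAll = (exp ((5 / 8) * (1 / 3 - 1 / 126)))⁻¹ := by
    rw [cAll, ← exp_neg]; congr 1; ring
  rw [h, le_inv_comm₀ (by norm_num) (exp_pos _)]
  refine (exp_bound' (by norm_num) (by norm_num) (n := 6) (by norm_num)).trans ?_
  norm_num [Finset.sum_range_succ, Nat.factorial]

/-- One factor for every dimension `≥ 4`. -/
theorem pettyWith_all (j : ℕ) : PettyWith cAll (j + 2) := by
  rcases le_or_gt j 123 with hj | hj
  · refine pettyWith_weaken (exp_le_exp.2 ?_) (pettyWith_four j)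
    have h1 : (1 : ℝ) / 126 ≤ 1 / ((j : ℝ) + 3) := by
      refine one_div_le_one_div_of_le (by positivity) ?_
      have : (j : ℝ) ≤ 123 := by exact_mod_cast hj
      linarith
    linarith
  · obtain ⟨i, rfl⟩ : ∃ i, j = 123 + i := ⟨j - 123, by omega⟩
    have h0 : PettyWith cAll 125 := by
      have h := pettyWith_four 123
      have e : facFour 123 = cAll := by rw [facFour, cAll]; norm_num
      rw [e] at h
      exact h
    rw [show 123 + i + 2 = 125 + i by omega]
    exact pettyWith_mono hC le_rfl (exp_pos _) cAll_bounds.2 h0 i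

open Statement

/-- A factor in one dimension `≥ 127` holds in every higher one. -/
theorem ineq_mono {n N : ℕ} {a : ℝ} (hn : 127 ≤ n) (hN : n ≤ N) (ha0 : 0 < a) (ha1 : a ≤ 1)
    (h : Ineq a n) : Ineq a N := by
  obtain ⟨j, rfl⟩ : ∃ j, n = j + 2 := ⟨n - 2, by omega⟩
  obtain ⟨i, rfl⟩ : ∃ i, N = j + i + 2 := ⟨N - j - 2, by omega⟩
  rw [ineq_iff] at h ⊢
  exact pettyWith_mono hC (by omega) ha0 ha1 h i

/-- The inequality with the equality case, one dimension above. -/
theorem equality_step {n : ℕ} (hn : 127 ≤ n) (h : Ineq 1 n) (K : Set (Space (n + 1)))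
    (hK : IsConvexBody K) :
    pettyConst (n + 1) * vol K ^ n ≤ vol (projectionBody K) ∧
      (vol (projectionBody K) = pettyConst (n + 1) * vol K ^ n ↔
        ∃ (a : Space (n + 1)) (T : Space (n + 1) →ₗ[ℝ] Space (n + 1)),
          Function.Injective T ∧ K = (fun x => a + T x) '' closedBall 0 1) := by
  obtain ⟨j, rfl⟩ : ∃ j, n = j + 2 := ⟨n - 2, by omega⟩
  rw [ineq_iff] at h
  have hlow : PettyBound j := fun L hL hLi => by simpa using h L hL hLi
  obtain ⟨hc, hk, hi⟩ := hK
  obtain ⟨h1, heq⟩ := Exact.petty_step hlow (stepProp_from hC (by omega)) ⟨hc, hk⟩ hi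
  have hV : 0 < (volume K).toReal := ENNReal.toReal_pos
    ((isOpen_interior.measure_pos volume hi).trans_le (measure_mono interior_subset)).ne'
    hk.measure_lt_top.ne
  have hp : petty (j + 1) = pettyConst (j + 2 + 1) := rfl
  rw [projectionBody_eq, vol, vol]
  rw [ratio, show j + 3 - 1 = j + 2 from rfl, hp] at h1 heq
  rw [le_div_iff₀ (pow_pos hV _)] at h1
  rw [div_eq_iff (pow_pos hV _).ne'] at heq
  refine ⟨h1, heq.trans (exists_congr fun a => exists_congr fun T => and_congr_right fun _ => ?_)⟩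
  rw [← image_vadd, image_image]
  rfl

/-- One factor in every dimension. -/
theorem ineq_all {n : ℕ} (hn : 3 ≤ n) : Ineq cAll n := by
  obtain ⟨j, rfl⟩ : ∃ j, n = j + 2 := ⟨n - 2, by omega⟩
  rw [ineq_iff]
  rcases j with - | - | j
  · omega
  · exact pettyWith_weaken cAll_bounds.2 Uniform.pettyWith_three
  · exact pettyWith_all hC j

/-- The statement of the hand-in: monotone factor, equality step, reduction, uniform factor. -/
theorem summary :
    (∀ (a : ℝ), 0 < a → a ≤ 1 → ∀ n N : ℕ, 127 ≤ n → n ≤ N → Ineq a n → Ineq a N) ∧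
    (∀ n : ℕ, 127 ≤ n → Ineq 1 n → ∀ N : ℕ, n < N → ∀ K : Set (Space N), IsConvexBody K →
      pettyConst N * vol K ^ (N - 1) ≤ vol (projectionBody K) ∧
        (vol (projectionBody K) = pettyConst N * vol K ^ (N - 1) ↔
          ∃ (a : Space N) (T : Space N →ₗ[ℝ] Space N),
            Function.Injective T ∧ K = (fun x => a + T x) '' closedBall 0 1)) ∧
    ∀ n : ℕ, 3 ≤ n → Ineq (exp (-(5 / 8) * (1 / 3 - 1 / 126))) n := by
  refine ⟨fun a ha0 ha1 n N hn hN h => ineq_mono hC hn hN ha0 ha1 h, ?_, fun n hn => ineq_all hC hn⟩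
  intro n hn h N hN
  obtain ⟨M, rfl⟩ : ∃ M, N = M + 1 := ⟨N - 1, by omega⟩
  intro K hK
  exact equality_step hC (by omega) (ineq_mono hC hn (by omega) one_pos le_rfl h) K hK

end Vale.Agent.P237.Cal.Step127
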