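import Vale.Agent.P237.Cal.PosTan

/-!
# P237: a rational box behind the tangent multiplier

T, σ, ε in a box, `-p ∈ [P0, P1]`, `η/T² = Λ es` with `Λ ∈ [0, 1]`. The vertex expression is
concave in `Λ` and in `-p`, so a box is a finite list of inequalities between numbers.
-/

open Real

namespace Vale.Agent.P237.Cal

/-- The four-vertex expression of a box. -/
def boxF {K : Type*} [CommRing K] (C0 c N0 n x k d P lam : K) : K :=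
  (C0 - c * lam) * (N0 - 2 * P * d - n * lam) - (x - 2 * P - k * lam) ^ 2

lemma boxF_nonneg {C0 c N0 n x k d P P0 P1 lam : ℝ} (hP0 : P0 ≤ P) (hP1 : P ≤ P1)
    (hl0 : 0 ≤ lam) (hl1 : lam ≤ 1) (hck : c * n ≤ k ^ 2)
    (h00 : 0 ≤ boxF C0 c N0 n x k d P0 0) (h10 : 0 ≤ boxF C0 c N0 n x k d P1 0)
    (h01 : 0 ≤ boxF C0 c N0 n x k d P0 1) (h11 : 0 ≤ boxF C0 c N0 n x k d P1 1) :
    0 ≤ boxF C0 c N0 n x k d P lam := by
  have key : ∀ Q, 0 ≤ boxF C0 c N0 n x k d Q 0 → 0 ≤ boxF C0 c N0 n x k d Q 1 →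
      0 ≤ boxF C0 c N0 n x k d Q lam := fun Q a b => by
    have e : boxF C0 c N0 n x k d Q lam = (1 - lam) * boxF C0 c N0 n x k d Q 0 +
        lam * boxF C0 c N0 n x k d Q 1 + (k ^ 2 - c * n) * (lam * (1 - lam)) := by
      simp only [boxF]; ring
    rw [e]
    have := mul_nonneg (sub_nonneg.2 hck) (mul_nonneg hl0 (sub_nonneg.2 hl1))
    have := mul_nonneg (sub_nonneg.2 hl1) a
    have := mul_nonneg hl0 b
    linarith
  have h0 := key P0 h00 h01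
  have h1 := key P1 h10 h11
  rcases eq_or_lt_of_le (hP0.trans hP1) with e | hlt
  · rwa [le_antisymm (hP1.trans e.ge) hP0]
  · have hd : 0 < P1 - P0 := sub_pos.2 hlt
    have e : (P1 - P0) * boxF C0 c N0 n x k d P lam = (P1 - P) * boxF C0 c N0 n x k d P0 lam +
        (P - P0) * boxF C0 c N0 n x k d P1 lam + 4 * ((P1 - P0) * ((P1 - P) * (P - P0))) := by
      simp only [boxF]; ring
    refine nonneg_of_mul_nonneg_right ?_ hd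
    rw [e]
    have := mul_nonneg (sub_nonneg.2 hP1) h0
    have := mul_nonneg (sub_nonneg.2 hP0) h1
    have := mul_nonneg hd.le (mul_nonneg (sub_nonneg.2 hP1) (sub_nonneg.2 hP0))
    linarith

/-- The numbers of a box: ranges of `T, σ, ε, -p`, lower bounds `A, L` of the coefficients of
`D², D` over the prefactor, the bound `es` of `η/T²`, `gl` of `-G₂`, the multiplier `b` and the
derived numbers `ω, lbd, pe, k0, k1`. -/
structure TanBox where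
  /-- `T ≥ T0` -/
  T0 : ℚ
  /-- `T ≤ T1` -/
  T1 : ℚ
  /-- `σ ≥ u0` -/
  u0 : ℚ
  /-- `σ ≤ u1` -/
  u1 : ℚ
  /-- `ε ≥ e0` -/
  e0 : ℚ
  /-- `ε ≤ e1` -/
  e1 : ℚ
  /-- `-p ≥ P0` -/
  P0 : ℚ
  /-- `-p ≤ P1` -/
  P1 : ℚ
  /-- lower bound of the coefficient of `D²` -/
  A : ℚ
  /-- lower bound of the coefficient of `D` -/
  L : ℚ
  /-- upper bound of `η/T²` -/
  es : ℚ
  /-- upper bound of `-G₂` -/
  gl : ℚ
  /-- the multiplier -/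
  b : ℚ
  /-- the share of the loss -/
  om : ℚ
  /-- the linear part over `D` -/
  lbd : ℚ
  /-- the part of `η` over `D²` -/
  pe : ℚ
  /-- slope of the vertex in `Λ`, from below -/
  k0 : ℚ
  /-- slope of the vertex in `Λ`, from above -/
  k1 : ℚ

namespace TanBox

variable (q : TanBox)

/-- `C` at `Λ = 0`. -/
def C0 : ℚ := q.A - (q.e1 - q.b) + q.lbd

/-- `N - ω` at `Λ = 0`, without the field. -/
def N0 : ℚ := 2 * (1 + q.b) - (q.e1 - q.b) * (q.u1 ^ 2 + q.T1 ^ 2) - q.gl - q.om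

/-- The largest `D`. -/
def D1 : ℚ := q.u1 - q.T0

/-- The upper line of `a`. -/
def xhi : ℚ := (q.e1 - q.b) * (q.u1 + q.T1)

/-- The lower line of `a`. -/
def xlo : ℚ := (q.e0 - q.b) * (q.u0 + q.T0)

/-- The four vertices of the upper line. -/
def upOK : Bool :=
  decide (0 ≤ boxF q.C0 q.pe q.N0 (q.b * q.es) q.xhi q.k0 q.D1 q.P0 0) &&
  decide (0 ≤ boxF q.C0 q.pe q.N0 (q.b * q.es) q.xhi q.k0 q.D1 q.P1 0) &&
  decide (0 ≤ boxF q.C0 q.pe q.N0 (q.b * q.es) q.xhi q.k0 q.D1 q.P0 1) &&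
  decide (0 ≤ boxF q.C0 q.pe q.N0 (q.b * q.es) q.xhi q.k0 q.D1 q.P1 1)

/-- The four vertices of the lower line. -/
def loOK : Bool :=
  decide (0 ≤ boxF q.C0 q.pe q.N0 (q.b * q.es) q.xlo q.k1 q.D1 q.P0 0) &&
  decide (0 ≤ boxF q.C0 q.pe q.N0 (q.b * q.es) q.xlo q.k1 q.D1 q.P1 0) &&
  decide (0 ≤ boxF q.C0 q.pe q.N0 (q.b * q.es) q.xlo q.k1 q.D1 q.P0 1) &&
  decide (0 ≤ boxF q.C0 q.pe q.N0 (q.b * q.es) q.xlo q.k1 q.D1 q.P1 1)

/-- The side conditions. -/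
def sideOK : Bool :=
  decide (0 < q.T0) && decide (q.T1 < q.u0) && decide (0 ≤ q.b) && decide (q.b ≤ q.e0) &&
  decide ((q.e1 - q.b) * q.u1 ^ 2 ≤ 1 + q.b) && decide (0 ≤ q.L) && decide (0 ≤ q.P0) &&
  decide (0 ≤ q.pe) && decide (0 < q.om) && decide (0 ≤ q.es) &&
  decide (q.pe ≤ q.C0) &&
  decide (0 ≤ q.N0 - 2 * q.P1 * q.D1 - q.b * q.es) &&
  decide (0 ≤ (1 + q.b) - (q.e1 - q.b) * q.T1 ^ 2 - 2 * q.P1 * q.D1 - q.gl -
    q.b * q.es * (1 + q.T1 ^ 2)) &&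
  decide (q.lbd * q.D1 ≤ q.L - 2 * q.b / q.T0) &&
  decide (q.lbd * (q.u0 - q.T1) ≤ q.L - 2 * q.b / q.T0) &&
  decide ((q.b - q.L * q.T0 / 2) * q.es ≤ q.pe * (q.u0 - q.T1) ^ 2) &&
  decide (0 ≤ q.k0) && decide (q.k0 ≤ q.k1) &&
  decide (q.k0 * q.D1 ≤ q.b * q.es * (2 * q.T0 ^ 2 + 1)) &&
  decide (q.b * q.es * (2 * q.T1 ^ 2 + 1) ≤ q.k1 * (q.u0 - q.T1)) &&
  decide (q.pe * (q.b * q.es) ≤ q.k0 ^ 2)

/-- The check of a box. -/
def ok : Bool := q.sideOK && q.upOK && q.loOK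

/-- The slope of `a` in `Λ`. -/
lemma slope_bounds {T0 T1 u0 u1 b es k0 k1 T D s lam : ℝ} (c1 : 0 < T0) (c3 : 0 ≤ b)
    (c10 : 0 ≤ es) (c17 : 0 ≤ k0) (c18 : k0 ≤ k1)
    (c19 : k0 * (u1 - T0) ≤ b * es * (2 * T0 ^ 2 + 1))
    (c20 : b * es * (2 * T1 ^ 2 + 1) ≤ k1 * (u0 - T1)) (hl0 : 0 ≤ lam) (hlam : s = lam * es)
    (hT0 : T0 ≤ T) (hT1 : T ≤ T1) (hD0 : u0 - T1 ≤ D) (hD1 : D ≤ u1 - T0) (hDp : 0 < D) :
    k0 * lam ≤ b * s * (2 * T ^ 2 + 1) / D ∧ b * s * (2 * T ^ 2 + 1) / D ≤ k1 * lam := by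
  rw [le_div_iff₀ hDp, div_le_iff₀ hDp, hlam]
  have h1 : T0 ^ 2 ≤ T ^ 2 := pow_le_pow_left₀ c1.le hT0 2
  have h2' : T ^ 2 ≤ T1 ^ 2 := pow_le_pow_left₀ (c1.le.trans hT0) hT1 2
  have hbe : 0 ≤ b * es * lam := mul_nonneg (mul_nonneg c3 c10) hl0
  have h2 := mul_le_mul_of_nonneg_left (by linarith : 2 * T0 ^ 2 + 1 ≤ 2 * T ^ 2 + 1) hbe
  have h3 := mul_le_mul_of_nonneg_left (by linarith : 2 * T ^ 2 + 1 ≤ 2 * T1 ^ 2 + 1) hbe
  have h4 := mul_le_mul_of_nonneg_right c19 hl0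
  have h5 := mul_le_mul_of_nonneg_right c20 hl0
  have h6 := mul_le_mul_of_nonneg_left hD1 (mul_nonneg c17 hl0)
  have h7 := mul_le_mul_of_nonneg_left hD0 (mul_nonneg (c17.trans c18) hl0)
  constructor <;> linarith

/-- The budget: the quadratic and linear coefficients pay for the multiplier. -/
lemma budget {T0 T1 u0 u1 A L es b lbd pe π' l Cw Sl T D s lam E : ℝ} (hπ : 0 ≤ π') (c1 : 0 < T0)
    (c3 : 0 ≤ b) (c6 : 0 ≤ L) (c8 : 0 ≤ pe) (c10 : 0 ≤ es)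
    (c14 : lbd * (u1 - T0) ≤ L - 2 * b / T0) (c15 : lbd * (u0 - T1) ≤ L - 2 * b / T0)
    (c16 : (b - L * T0 / 2) * es ≤ pe * (u0 - T1) ^ 2) (hl0 : 0 ≤ lam) (hlam : s = lam * es)
    (hT0 : T0 ≤ T) (hD0 : u0 - T1 ≤ D) (hD1 : D ≤ u1 - T0) (hDp : 0 < D) (hu : 0 ≤ u0 - T1)
    (hA : π' * A ≤ Cw) (hL : π' * L ≤ l) (hSl : l * (s * T / 2) ≤ Sl)
    (hE : E ≤ A + lbd - pe * lam) :
    π' * (E * D ^ 2 + 2 * b * D / T + b * s) ≤ D * l + D ^ 2 * Cw + Sl := by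
  have hT : 0 < T := c1.trans_le hT0
  have hbT : 2 * b / T ≤ 2 * b / T0 := div_le_div_of_nonneg_left (by linarith) c1 hT0
  have hlin : lbd * D ≤ L - 2 * b / T := by
    rcases le_total 0 lbd with h0 | h0
    · linarith [mul_le_mul_of_nonneg_left hD1 h0]
    · linarith [mul_le_mul_of_nonpos_left hD0 h0]
  have hpen : b * s ≤ L * (s * T / 2) + pe * lam * D ^ 2 := by
    rw [hlam]
    have h1 := mul_le_mul_of_nonneg_right c16 hl0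
    have h2 := mul_le_mul_of_nonneg_left (pow_le_pow_left₀ hu hD0 2) (mul_nonneg c8 hl0)
    have h3 := mul_le_mul_of_nonneg_left hT0 (mul_nonneg c6 (mul_nonneg c10 hl0))
    linarith
  have hs : 0 ≤ s * T / 2 := by rw [hlam]; positivity
  have hSl' : π' * (L * (s * T / 2)) ≤ Sl := by
    refine le_trans ?_ hSl
    rw [← mul_assoc]
    exact mul_le_mul_of_nonneg_right hL hs
  have h4 := mul_le_mul_of_nonneg_left hlin hDp.le
  have h5 := mul_le_mul_of_nonneg_right hE (sq_nonneg D)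
  have h6 := mul_le_mul_of_nonneg_left (add_le_add (add_le_add h5 h4) hpen) hπ
  have h7 := mul_le_mul_of_nonneg_right hA (sq_nonneg D)
  have h8 := mul_le_mul_of_nonneg_right hL hDp.le
  have e2 : 2 * b * D / T = D * (2 * b / T) := by ring
  rw [e2]
  linarith

/-- Soundness in real numbers: the side conditions. -/
structure Real' (T0 T1 u0 u1 e0 e1 P0 P1 A L es gl b om lbd pe k0 k1 : ℝ) : Prop where
  c1 : 0 < T0
  c2 : T1 < u0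
  c3 : 0 ≤ b
  c4 : b ≤ e0
  c5 : (e1 - b) * u1 ^ 2 ≤ 1 + b
  c6 : 0 ≤ L
  c7 : 0 ≤ P0
  c8 : 0 ≤ pe
  c9 : 0 < om
  c10 : 0 ≤ es
  c11 : pe ≤ A - (e1 - b) + lbd
  c12 : 0 ≤ 2 * (1 + b) - (e1 - b) * (u1 ^ 2 + T1 ^ 2) - gl - om - 2 * P1 * (u1 - T0) - b * es
  c13 : 0 ≤ (1 + b) - (e1 - b) * T1 ^ 2 - 2 * P1 * (u1 - T0) - gl - b * es * (1 + T1 ^ 2)
  c14 : lbd * (u1 - T0) ≤ L - 2 * b / T0
  c15 : lbd * (u0 - T1) ≤ L - 2 * b / T0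
  c16 : (b - L * T0 / 2) * es ≤ pe * (u0 - T1) ^ 2
  c17 : 0 ≤ k0
  c18 : k0 ≤ k1
  c19 : k0 * (u1 - T0) ≤ b * es * (2 * T0 ^ 2 + 1)
  c20 : b * es * (2 * T1 ^ 2 + 1) ≤ k1 * (u0 - T1)
  c21 : pe * (b * es) ≤ k0 ^ 2
  up : ∀ P lam, (P = P0 ∨ P = P1) → (lam = 0 ∨ lam = 1) →
    0 ≤ boxF (A - (e1 - b) + lbd) pe
      (2 * (1 + b) - (e1 - b) * (u1 ^ 2 + T1 ^ 2) - gl - om) (b * es)
      ((e1 - b) * (u1 + T1)) k0 (u1 - T0) P lam
  lo : ∀ P lam, (P = P0 ∨ P = P1) → (lam = 0 ∨ lam = 1) →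
    0 ≤ boxF (A - (e1 - b) + lbd) pe
      (2 * (1 + b) - (e1 - b) * (u1 ^ 2 + T1 ^ 2) - gl - om) (b * es)
      ((e0 - b) * (u0 + T0)) k1 (u1 - T0) P lam

/-- **Soundness for real numbers.** -/
theorem sound_real {T0 T1 u0 u1 e0 e1 P0 P1 A L es gl b om lbd pe k0 k1 π' l Cw Sl Y T σ h ε p G₂ : ℝ}
    (q : Real' T0 T1 u0 u1 e0 e1 P0 P1 A L es gl b om lbd pe k0 k1) (hπ : 0 < π')
    (hR : RegC Y T σ h) (hY : 1 ≤ Y) (hT0 : T0 ≤ T) (hT1 : T ≤ T1) (hu0 : u0 ≤ σ) (hu1 : σ ≤ u1)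
    (he0 : e0 ≤ ε) (he1 : ε ≤ e1) (hp0 : p ≤ -P0) (hp1 : -P1 ≤ p) (hA : π' * A ≤ Cw)
    (hL : π' * L ≤ l) (hes : (Y ^ 2 - 1) / T ^ 2 ≤ es) (hg : -gl ≤ G₂)
    (hSl : l * ((Y ^ 2 - 1) / (2 * T)) ≤ Sl) :
    ∃ L, L ≤ valQ ε T σ h + (2 * p * (σ - T) + G₂) * (h - 1) ∧
      -(π' * (G₂ ^ 2 / om)) ≤ π' * L + (σ - T) * l + (σ - T) ^ 2 * Cw + Sl := by
  obtain ⟨c1, c2, c3, c4, c5, c6, c7, c8, c9, c10, c11, c12, c13, c14, c15, c16, c17, c18, c19,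
    c20, c21, up, lo'⟩ := q
  have hT : 0 < T := c1.trans_le hT0
  have hη : 0 ≤ Y ^ 2 - 1 := by nlinarith
  set s := (Y ^ 2 - 1) / T ^ 2 with hsdef
  have hs0 : 0 ≤ s := div_nonneg hη (sq_nonneg T)
  obtain ⟨lam, hl0, hl1, hlam⟩ : ∃ lam, 0 ≤ lam ∧ lam ≤ 1 ∧ s = lam * es := by
    rcases eq_or_lt_of_le c10 with e | e
    · exact ⟨0, le_rfl, zero_le_one, by rw [zero_mul]; linarith⟩
    · exact ⟨s / es, div_nonneg hs0 e.le, (div_le_one e).2 hes, by field_simp⟩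
  set D := σ - T with hD
  have hD0 : u0 - T1 ≤ D := by linarith
  have hDp : 0 < D := lt_of_lt_of_le (by linarith) hD0
  have hD1 : D ≤ u1 - T0 := by linarith
  have hσ0 : 0 ≤ σ := hR.σ_pos.le
  have hE0 : 0 ≤ ε - b := by linarith
  have hσ2 : σ ^ 2 ≤ u1 ^ 2 := pow_le_pow_left₀ hσ0 hu1 2
  have hT2 : T ^ 2 ≤ T1 ^ 2 := pow_le_pow_left₀ hT.le hT1 2
  have hEσ := mul_le_mul (by linarith : ε - b ≤ e1 - b) hσ2 (sq_nonneg σ) (by linarith)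
  have hET := mul_le_mul (by linarith : ε - b ≤ e1 - b) hT2 (sq_nonneg T) (by linarith)
  have hP : 0 ≤ -p := by linarith
  have hPD : -p * D ≤ -p * (u1 - T0) := mul_le_mul_of_nonneg_left hD1 hP
  have hPD1 : -p * (u1 - T0) ≤ P1 * (u1 - T0) :=
    mul_le_mul_of_nonneg_right (by linarith) (by linarith)
  have hes' : s ≤ es := hes
  have eη : ∀ c : ℝ, b * (Y ^ 2 - 1) * (c + 1 / T ^ 2) = b * s * (c * T ^ 2 + 1) := fun c => by
    rw [hsdef]; field_simp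
  have hbη : 0 ≤ b * (Y ^ 2 - 1) := mul_nonneg c3 hη
  have hA' : 0 ≤ tanA ε b (Y ^ 2 - 1) σ := by unfold tanA; linarith
  have hBη : b * s * (1 * T ^ 2 + 1) ≤ b * es * (1 * T1 ^ 2 + 1) :=
    mul_le_mul (mul_le_mul_of_nonneg_left hes c3) (by linarith) (by positivity)
      (mul_nonneg c3 c10)
  have hB' : 0 ≤ tanB ε b (Y ^ 2 - 1) T (2 * p * D + G₂) := by
    unfold tanB; rw [eη]; linarith
  have eN : tanA ε b (Y ^ 2 - 1) σ + tanB ε b (Y ^ 2 - 1) T (2 * p * D + G₂) =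
      2 * (1 + b) - (ε - b) * σ ^ 2 - (ε - b) * T ^ 2 + 2 * p * D + G₂ - b * s := by
    unfold tanA tanB; rw [hsdef]; field_simp; ring
  set C := (A - (e1 - b) + lbd) - pe * lam with hC
  have hCn : 0 ≤ C := by
    have := mul_le_mul_of_nonneg_left hl1 c8
    linarith
  set a := (ε - b) * (σ + T) + 2 * p - b * (Y ^ 2 - 1) * (2 + 1 / T ^ 2) / D with hadef
  obtain ⟨hk0, hk1⟩ := slope_bounds c1 c3 c10 c17 c18 c19 c20 hl0 hlam hT0 hT1 hD0 hD1 hDp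
  have ea : a = (ε - b) * (σ + T) - 2 * (-p) - b * s * (2 * T ^ 2 + 1) / D := by
    rw [hadef, eη]; ring
  have hb0 := mul_le_mul (by linarith : e0 - b ≤ ε - b)
    (by linarith : u0 + T0 ≤ σ + T) (by linarith) hE0
  have hb1 := mul_le_mul (by linarith : ε - b ≤ e1 - b)
    (by linarith : σ + T ≤ u1 + T1) (by linarith) (by linarith)
  set hi := (e1 - b) * (u1 + T1) - 2 * (-p) - k0 * lam with hhi
  set lo := (e0 - b) * (u0 + T0) - 2 * (-p) - k1 * lam with hlo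
  have ha1 : a ≤ hi := by rw [ea]; linarith
  have ha0 : lo ≤ a := by rw [ea]; linarith
  have hck1 : pe * (b * es) ≤ k1 ^ 2 :=
    c21.trans (pow_le_pow_left₀ c17 c18 2)
  have f1 := boxF_nonneg (lam := lam) (P := -p) (by linarith : P0 ≤ -p)
    (by linarith : -p ≤ P1) hl0 hl1 c21 (up _ _ (.inl rfl) (.inl rfl)) (up _ _ (.inr rfl) (.inl rfl)) (up _ _ (.inl rfl) (.inr rfl))
    (up _ _ (.inr rfl) (.inr rfl))
  have f0 := boxF_nonneg (lam := lam) (P := -p) (by linarith : P0 ≤ -p)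
    (by linarith : -p ≤ P1) hl0 hl1 hck1 (lo' _ _ (.inl rfl) (.inl rfl)) (lo' _ _ (.inr rfl) (.inl rfl)) (lo' _ _ (.inl rfl) (.inr rfl))
    (lo' _ _ (.inr rfl) (.inr rfl))
  simp only [boxF] at f1 f0
  set N0' := 2 * (1 + b) - (e1 - b) * (u1 ^ 2 + T1 ^ 2) - gl - om -
    2 * -p * (u1 - T0) - b * es * lam with hN0'
  have hN0 : 0 ≤ N0' := by
    have := mul_le_mul_of_nonneg_left hl1 (mul_nonneg c3 c10)
    linarith
  have hN : N0' ≤ tanA ε b (Y ^ 2 - 1) σ + tanB ε b (Y ^ 2 - 1) T (2 * p * D + G₂) - om := by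
    rw [eN, hlam]; linarith
  have hsq : a ^ 2 ≤ C * N0' := by
    rcases le_total 0 a with h0 | h0
    · have := pow_le_pow_left₀ h0 ha1 2
      linarith
    · have := pow_le_pow_left₀ (neg_nonneg.2 h0) (neg_le_neg ha0) 2
      simp only [neg_sq] at this
      linarith
  refine posX_tan (a := a) (C := C) (b := b) hπ.le c3 hR c9 hCn hDp hA' hB' hadef
    (by linarith) (hsq.trans (mul_le_mul_of_nonneg_left hN hCn)) ?_
  rw [show b * (Y ^ 2 - 1) / T ^ 2 = b * s by rw [hsdef]; ring]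
  refine budget hπ.le c1 c3 c6 c8 c10 c14 c15 c16 hl0 hlam hT0 hD0 hD1 hDp (by linarith) hA hL ?_
    (by linarith)
  refine le_trans (le_of_eq ?_) hSl
  rw [hsdef]; field_simp

/-- **Soundness**: `Sl ≥ l η/(2T)` is the slack. -/
theorem sound {q : TanBox} {π' l Cw Sl Y T σ h ε p G₂ : ℝ} (hq : q.ok = true) (hπ : 0 < π')
    (hR : RegC Y T σ h) (hY : 1 ≤ Y) (hT0 : (q.T0 : ℝ) ≤ T) (hT1 : T ≤ q.T1)
    (hu0 : (q.u0 : ℝ) ≤ σ) (hu1 : σ ≤ q.u1) (he0 : (q.e0 : ℝ) ≤ ε) (he1 : ε ≤ q.e1)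
    (hp0 : p ≤ -(q.P0 : ℝ)) (hp1 : -(q.P1 : ℝ) ≤ p) (hA : π' * q.A ≤ Cw) (hL : π' * q.L ≤ l)
    (hes : (Y ^ 2 - 1) / T ^ 2 ≤ q.es) (hg : -(q.gl : ℝ) ≤ G₂)
    (hSl : l * ((Y ^ 2 - 1) / (2 * T)) ≤ Sl) :
    ∃ L, L ≤ valQ ε T σ h + (2 * p * (σ - T) + G₂) * (h - 1) ∧
      -(π' * (G₂ ^ 2 / q.om)) ≤ π' * L + (σ - T) * l + (σ - T) ^ 2 * Cw + Sl := by
  simp only [ok, sideOK, upOK, loOK, Bool.and_eq_true, decide_eq_true_eq, and_assoc] at hq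
  obtain ⟨c1, c2, c3, c4, c5, c6, c7, c8, c9, c10, c11, c12, c13, c14, c15, c16, c17, c18, c19,
    c20, c21, v1, v2, v3, v4, w1, w2, w3, w4⟩ := hq
  simp only [C0, N0, D1, xhi, xlo, boxF] at c11 c12 c13 c14 c15 c19 v1 v2 v3 v4 w1 w2 w3 w4
  refine sound_real (T0 := q.T0) (T1 := q.T1) (u0 := q.u0) (u1 := q.u1) (e0 := q.e0) (e1 := q.e1)
    (A := q.A) (L := q.L) (es := q.es) (gl := q.gl) (b := q.b) (lbd := q.lbd) (pe := q.pe)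
    (k0 := q.k0) (k1 := q.k1) ⟨?_, ?_, ?_, ?_, ?_, ?_, ?_, ?_, ?_, ?_, ?_, ?_, ?_, ?_, ?_, ?_, ?_,
      ?_, ?_, ?_, ?_, ?_, ?_⟩ hπ hR hY hT0 hT1 hu0 hu1 he0 he1 hp0 hp1 hA hL hes hg hSl
  any_goals
    intro P lam hP hl
    rcases hP with rfl | rfl <;> rcases hl with rfl | rfl <;> simp only [boxF]
  all_goals exact_mod_cast (by assumption)

end TanBox

end Vale.Agent.P237.Cal
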