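import Vale.Agent.P237.Cal.TanCover

/-!
# P237: case A of zone II (`1 ≤ Q ≤ 1.6488`)
-/

namespace Vale.Agent.P237.Cal

/-- Case A. -/
def caseA : TanCase := ⟨20667/10000, 3/4, (-3/5), 997/250, 4011/1000⟩

/-- The cell of zone II in case A. -/
def cellA : TanCell := ⟨1/50, 47/100, 243/500, 553/500⟩

end Vale.Agent.P237.Cal
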