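import Vale.Agent.P237.Cal.TanRow

/-!
# P237: covers of zone II by cells of rows

In a cell the mass bound `v σ ≤ Qc z/(W+1) (1 + 1/expM5 x)` bounds `v` from below; the rows cover
all larger `v`.
-/

open Real

namespace Vale.Agent.P237.Cal

/-- `expM5` over a field. -/
def em5 {K : Type*} [Field K] (x : K) : K :=
  x * (1 + x / 2 * (1 + x / 3 * (1 + x / 4 * (1 + x / 5))))

/-- A cover of a cell. -/
inductive TanTree where
  | leaf (w0 wm v1 v2 : ℚ) (rows : List TanRow)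
  | empty
  | splitT (x : ℚ) (l r : TanTree)
  | splitU (x : ℚ) (l r : TanTree)

/-- One step of the lower bound of `v`. -/
def vstep (c : TanCase) (B : TanCell) (w0 v v' : ℚ) : Bool :=
  decide (v' ≤ v) ||
    decide (v' * B.T1 ^ 2 *
      (c.Qc * (1 + 1 / em5 (v ^ 2 * B.T0 ^ 2 / 2 / (1 + B.T1 ^ 2 / 2))) / (w0 + 1)) ≤ B.u0)

/-- The rows cover all `v ≥ lo`. -/
def chainOK (c : TanCase) (B : TanCell) (wm : ℚ) : List TanRow → ℚ → Bool
  | [], _ => false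
  | w :: rest, lo => decide (w.vlo ≤ lo) && w.ok c B wm &&
      (decide (w.vhi = 0) || chainOK c B wm rest w.vhi)

/-- A lower bound of `√n` for `n ≥ 384`. -/
def vBase : ℚ := 19595 / 1000

/-- The check of a cover. -/
def TanTree.ok (c : TanCase) : TanTree → TanCell → Bool
  | .leaf w0 wm v1 v2 rows, B =>
      decide (0 ≤ w0) && decide (w0 ^ 2 ≤ 1 + B.T0 ^ 2) && decide (0 ≤ wm) &&
      decide (1 + B.T1 ^ 2 ≤ wm ^ 2) && decide (0 < B.T0) && decide (0 < c.Qc) &&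
      vstep c B w0 vBase v1 && vstep c B w0 (max vBase v1) v2 &&
      chainOK c B wm rows (max (max vBase v1) v2)
  | .empty, B => decide (0 ≤ B.u0) && decide (1 + B.T1 ^ 2 < B.u0 ^ 2)
  | .splitT x l r, B => l.ok c { B with T1 := x } && r.ok c { B with T0 := x }
  | .splitU x l r, B => l.ok c { B with u1 := x } && r.ok c { B with u0 := x }

variable {m : ℕ}

lemma vstep_sound {c : TanCase} {B : TanCell} {w0 v0 v' : ℚ} {T σ v : ℝ}
    (h : vstep c B w0 v0 v' = true) (hQ : 0 < c.Qc) (hw0 : (0 : ℝ) ≤ w0)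
    (hw : (w0 : ℝ) ≤ √(1 + T ^ 2)) (hT00 : 0 < B.T0) (hT0 : (B.T0 : ℝ) ≤ T) (hT1 : T ≤ B.T1)
    (hu0 : (B.u0 : ℝ) ≤ σ) (hv00 : 0 < v0) (hv0 : (v0 : ℝ) ≤ v)
    (hS : v * σ ≤ c.Qc * (v ^ 2 * T ^ 2 / (√(1 + T ^ 2) + 1) *
      (1 + 1 / expM5 (v ^ 2 * T ^ 2 / 2 / (1 + T ^ 2 / 2))))) :
    (v' : ℝ) ≤ v := by
  simp only [vstep, Bool.or_eq_true, decide_eq_true_eq] at h
  rcases h with h | h
  · exact le_trans (by exact_mod_cast h) hv0
  have hT00' : (0 : ℝ) < B.T0 := by exact_mod_cast hT00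
  have hv00' : (0 : ℝ) < v0 := by exact_mod_cast hv00
  have hQ' : (0 : ℝ) < c.Qc := by exact_mod_cast hQ
  have hv : 0 < v := hv00'.trans_le hv0
  have hT : 0 < T := hT00'.trans_le hT0
  set xl : ℝ := (v0 : ℝ) ^ 2 * (B.T0 : ℝ) ^ 2 / 2 / (1 + (B.T1 : ℝ) ^ 2 / 2) with hxl
  set x : ℝ := v ^ 2 * T ^ 2 / 2 / (1 + T ^ 2 / 2) with hx
  set K : ℝ := c.Qc * (1 + 1 / expM5 xl) / ((w0 : ℝ) + 1) with hK
  have h' : (v' : ℝ) * (B.T1 : ℝ) ^ 2 * K ≤ B.u0 := by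
    have h2 : ((v' * B.T1 ^ 2 *
        (c.Qc * (1 + 1 / em5 (v0 ^ 2 * B.T0 ^ 2 / 2 / (1 + B.T1 ^ 2 / 2))) / (w0 + 1)) : ℚ) : ℝ) ≤
        ((B.u0 : ℚ) : ℝ) := Rat.cast_le.2 h
    simp only [em5] at h2
    push_cast at h2
    simp only [hK, hxl, expM5]
    exact h2
  have hxl0 : 0 < xl := by rw [hxl]; positivity
  have hxx : xl ≤ x := by
    refine div_le_div₀ (by positivity) (div_le_div_of_nonneg_right (mul_le_mul
      (pow_le_pow_left₀ hv00'.le hv0 2) (pow_le_pow_left₀ hT00'.le hT0 2) (by positivity)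
      (by positivity)) zero_le_two) (by positivity) ?_
    linarith [pow_le_pow_left₀ hT.le hT1 2]
  have h1 : 1 + 1 / expM5 x ≤ 1 + 1 / expM5 xl :=
    add_le_add_right (one_div_le_one_div_of_le (expM5_pos hxl0) (expM5_mono hxl0.le hxx)) 1
  have hxp := expM5_pos (hxl0.trans_le hxx)
  have hK0 : 0 < K := by have := expM5_pos hxl0; rw [hK]; positivity
  have h2 : v * σ ≤ K * (v ^ 2 * T ^ 2) := by
    refine hS.trans ?_
    have h3 : v ^ 2 * T ^ 2 / (√(1 + T ^ 2) + 1) ≤ v ^ 2 * T ^ 2 / ((w0 : ℝ) + 1) :=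
      div_le_div_of_nonneg_left (by positivity) (by linarith) (by linarith)
    refine (mul_le_mul_of_nonneg_left (mul_le_mul h3 h1 (by positivity) (by positivity))
      hQ'.le).trans (le_of_eq ?_)
    rw [hK]; field_simp
  have h4 : (B.u0 : ℝ) ≤ K * (v * T ^ 2) := by
    refine hu0.trans (le_of_mul_le_mul_left ?_ hv)
    linarith
  have hT12 : T ^ 2 ≤ (B.T1 : ℝ) ^ 2 := pow_le_pow_left₀ hT.le hT1 2
  have h5 : (v' : ℝ) * ((B.T1 : ℝ) ^ 2 * K) ≤ v * ((B.T1 : ℝ) ^ 2 * K) := by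
    have := mul_le_mul_of_nonneg_left hT12 (mul_nonneg hK0.le hv.le)
    linarith
  exact le_of_mul_le_mul_right h5 (mul_pos (pow_pos (hT.trans_le hT1) 2) hK0)

/-- The rows of a chain reach every `v ≥ lo`. -/
lemma chain_sound {c : TanCase} {B : TanCell} {wm : ℚ} {v : ℝ} :
    ∀ {rows : List TanRow} {lo : ℚ}, chainOK c B wm rows lo = true → (lo : ℝ) ≤ v →
      ∃ w : TanRow, w.ok c B wm = true ∧ (w.vlo : ℝ) ≤ v ∧ (w.vhi = 0 ∨ v ≤ (w.vhi : ℝ))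
  | [], lo, h, _ => by simp [chainOK] at h
  | w :: rest, lo, h, hv => by
    simp only [chainOK, Bool.and_eq_true, Bool.or_eq_true, decide_eq_true_eq] at h
    obtain ⟨⟨h1, h2⟩, h3⟩ := h
    have hlo : (w.vlo : ℝ) ≤ v := le_trans (by exact_mod_cast h1) hv
    rcases h3 with h3 | h3
    · exact ⟨w, h2, hlo, Or.inl h3⟩
    rcases le_total v (w.vhi : ℝ) with h4 | h4
    · exact ⟨w, h2, hlo, Or.inr h4⟩
    · exact chain_sound h3 h4

/-- **Soundness of a cover.** -/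
theorem TanTree.sound {c : TanCase} {Y T σ h ε kap p G₂ Sl v : ℝ} :
    ∀ (t : TanTree) (B : TanCell), t.ok c B = true → 382 ≤ m → v = √((m : ℝ) + 2) →
      RegC Y T σ h → 1 ≤ Y → (B.T0 : ℝ) ≤ T → T ≤ B.T1 → (B.u0 : ℝ) ≤ σ → σ ≤ B.u1 →
      (c.e0 : ℝ) ≤ ε → ε ≤ c.e1 → 0 ≤ kap → kap ≤ 1 / 2 →
      ((m : ℝ) + 1) * log Y ≤ c.al * log ((m : ℝ) + 2) + c.be →
      v * σ ≤ c.Qc * (v ^ 2 * T ^ 2 / (√(1 + T ^ 2) + 1) *
        (1 + 1 / expM5 (v ^ 2 * T ^ 2 / 2 / (1 + T ^ 2 / 2)))) →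
      shP m (9 / 5 * ε / v) (6 / 5 * ε * v) T / pre m T ≤ p → p ≤ -(4 / 5 * ε / v) →
      -(21 / 5 * ε / v * (1 + T ^ 2) * min ((Y ^ 2 - 1) / T) (2 * T / 3)) ≤ G₂ →
      ellFlat m ε kap (rr (m + 1)) T * ((Y ^ 2 - 1) / (2 * T)) ≤ Sl →
      ∃ L, L ≤ valQ ε T σ h + (2 * p * (σ - T) + G₂) * (h - 1) ∧
        -(pre m T * ((33 / 50 + 3 / 250 * (v ^ 2 * T ^ 2) ^ 2) * G₂ ^ 2)) ≤ pre m T * L + (σ - T) * ellFlat m ε kap (rr (m + 1)) T +
          (σ - T) ^ 2 * (shP' m (9 / 5 * ε / v) (6 / 5 * ε * v) T +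
            2 * muX m T * shS m (9 / 5 * ε / v) (6 / 5 * ε * v) T) + Sl
  | .leaf w0 wm v1 v2 rows, B, hq, hm, hv, hR, hY, hT0, hT1, hu0, hu1, he0, he1, hk0, hk, hlog,
      hS, hpl, hph, hG, hSl => by
    simp only [TanTree.ok, Bool.and_eq_true, decide_eq_true_eq, and_assoc] at hq
    obtain ⟨d1, d2, d3, d4, d5, d6, d7, d8, d9⟩ := hq
    have hm' : (382 : ℝ) ≤ (m : ℝ) := by exact_mod_cast hm
    have hv16 : ((vBase : ℚ) : ℝ) ≤ v := by
      simp only [vBase]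
      push_cast
      rw [hv, le_sqrt (by norm_num) (by linarith)]; norm_num; linarith
    rify at d1 d2 d3 d4
    have hT : 0 < T := hR.T_pos
    have hT00 : (0 : ℝ) < B.T0 := by exact_mod_cast d5
    have hwl : (w0 : ℝ) ≤ √(1 + T ^ 2) := by
      rw [le_sqrt d1 (by positivity)]
      linarith [pow_le_pow_left₀ hT00.le hT0 2]
    have hwh : √(1 + T ^ 2) ≤ (wm : ℝ) := by
      rw [sqrt_le_left d3]
      linarith [pow_le_pow_left₀ hT.le hT1 2]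
    have s1 := vstep_sound d7 d6 d1 hwl d5 hT0 hT1 hu0 (by norm_num [vBase]) hv16 hS
    have hm1 : ((max vBase v1 : ℚ) : ℝ) ≤ v := by rw [Rat.cast_max]; exact max_le hv16 s1
    have s2 := vstep_sound d8 d6 d1 hwl d5 hT0 hT1 hu0 (by norm_num [vBase]) hm1 hS
    have hm2 : ((max (max vBase v1) v2 : ℚ) : ℝ) ≤ v := by rw [Rat.cast_max]; exact max_le hm1 s2
    obtain ⟨w, hw, hwlo, hwhi⟩ := chain_sound d9 hm2
    exact TanRow.sound hw (by omega) hv hR hY hT0 hT1 hu0 hu1 he0 he1 hwh hwlo hwhi hk0 hk hlog hpl hph hG hSl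
  | .empty, B, hq, _, _, hR, _, _, hT1, hu0, _, _, _, _, _, _, _, _, _, _, _ => by
    simp only [TanTree.ok, Bool.and_eq_true, decide_eq_true_eq] at hq
    obtain ⟨h1, h2⟩ := hq
    rify at h1 h2
    have h3 := pow_le_pow_left₀ h1 (hu0.trans hR.σ_le) 2
    rw [w_sq] at h3
    linarith [pow_le_pow_left₀ hR.T_pos.le hT1 2]
  | .splitT x l r, B, hq, hm, hv, hR, hY, hT0, hT1, hu0, hu1, he0, he1, hk0, hk, hlog, hS, hpl, hph,
      hG, hSl => by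
    simp only [TanTree.ok, Bool.and_eq_true] at hq
    rcases le_total T (x : ℝ) with hx | hx
    · exact TanTree.sound l _ hq.1 hm hv hR hY hT0 hx hu0 hu1 he0 he1 hk0 hk hlog hS hpl hph hG hSl
    · exact TanTree.sound r _ hq.2 hm hv hR hY hx hT1 hu0 hu1 he0 he1 hk0 hk hlog hS hpl hph hG hSl
  | .splitU x l r, B, hq, hm, hv, hR, hY, hT0, hT1, hu0, hu1, he0, he1, hk0, hk, hlog, hS, hpl, hph,
      hG, hSl => by
    simp only [TanTree.ok, Bool.and_eq_true] at hq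
    rcases le_total σ (x : ℝ) with hx | hx
    · exact TanTree.sound l _ hq.1 hm hv hR hY hT0 hT1 hu0 hx he0 he1 hk0 hk hlog hS hpl hph hG hSl
    · exact TanTree.sound r _ hq.2 hm hv hR hY hT0 hT1 hx hu1 he0 he1 hk0 hk hlog hS hpl hph hG hSl

end Vale.Agent.P237.Cal
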