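import Vale.Agent.P237.Cal.TanCaseA

/-!
# P237: cover data of zone II, case A, part 2

Generated (greedy bisection); `decide +kernel` checks it.
-/

namespace Vale.Agent.P237.Cal


/-- The cover of part 2 of case A. -/
def treeA2 : TanTree :=
  .splitT (143/400) (.splitU (199/250) (.splitT (753/2500) (.splitU (641/1000) (.leaf (2059/2000) (2611/2500) (3919/200) (3919/200) [⟨461/1000, 3919/200, 0, 8, 10273/500000⟩]) (.leaf (2059/2000) (2611/2500) (3919/200) (3919/200) [⟨189/200, 3919/200, 0, 8, 10273/500000⟩])) (.splitU (641/1000) (.leaf (10443/10000) (531/500) (3919/200) (3919/200) [⟨461/1000, 3919/200, 0, 8, 10273/500000⟩]) (.leaf (10443/10000) (531/500) (3919/200) (3919/200) [⟨189/200, 3919/200, 0, 8, 10273/500000⟩]))) (.splitT (753/2500) (.splitU (951/1000) (.leaf (2059/2000) (2611/2500) (3919/200) (3919/200) [⟨1381/1000, 3919/200, 0, 8, 10273/500000⟩]) (.leaf (2059/2000) (2611/2500) (3919/200) (3919/200) [⟨1759/1000, 3919/200, 0, 8, 10273/500000⟩])) (.splitU (951/1000) (.leaf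 (10443/10000) (531/500) (3919/200) (3919/200) [⟨1381/1000, 3919/200, 0, 8, 10273/500000⟩]) (.leaf (10443/10000) (531/500) (3919/200) (3919/200) [⟨1759/1000, 3919/200, 0, 8, 10273/500000⟩])))) (.splitU (199/250) (.splitT (4137/10000) (.splitU (641/1000) (.leaf (10619/10000) (5411/5000) (3919/200) (3919/200) [⟨461/1000, 3919/200, 0, 8, 10273/500000⟩]) (.leaf (10619/10000) (5411/5000) (3919/200) (3919/200) [⟨189/200, 3919/200, 0, 8, 10273/500000⟩])) (.splitU (641/1000) (.leaf (10821/10000) (221/200) (3919/200) (3919/200) [⟨461/1000, 3919/200, 0, 8, 10273/500000⟩]) (.leaf (10821/10000) (221/200) (3919/200) (3919/200) [⟨189/200, 3919/200, 0, 8, 10273/500000⟩]))) (.splitT (4137/10000) (.splitU (951/1000) (.leaf (10619/10000) (5411/5000) (3919/200) (3919/200) [⟨1381/1000, 3919/200, 0, 8, 10273/500000⟩]) (.leaf (10619/10000) (5411/5000) (3919/200) (3919/200) [⟨1759/1000, 3919/200, 0, 8, 10273/500000⟩])) (.splitU (951/1000) (.leaf (10821/10000) (221/200) (3919/200) (3919/200) [⟨1381/1000,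 3919/200, 0, 8, 10273/500000⟩]) (.leaf (10821/10000) (221/200) (3919/200) (3919/200) [⟨1759/1000, 3919/200, 0, 8, 10273/500000⟩]))))

theorem treeA2_ok : treeA2.ok caseA ⟨49/200, 47/100, 243/500, 553/500⟩ = true := by
  decide +kernel

end Vale.Agent.P237.Cal
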