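import Vale.Agent.P237.Cal.TanDataA1
import Vale.Agent.P237.Cal.TanDataA2
import Vale.Agent.P237.Cal.TanDataA3
import Vale.Agent.P237.Cal.TanDataA4

/-!
# P237: the cover of case A of zone II
-/

namespace Vale.Agent.P237.Cal

/-- The cover of case A. -/
def treeA : TanTree :=
  .splitT (49/200) (.splitT (53/400) treeA1 (.splitU (199/250) treeA3 treeA4)) treeA2

theorem treeA_ok : treeA.ok caseA cellA = true := by
  simp only [treeA, TanTree.ok, cellA, Bool.and_eq_true]
  exact ⟨⟨treeA1_ok, ⟨treeA3_ok, treeA4_ok⟩⟩, treeA2_ok⟩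

end Vale.Agent.P237.Cal
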