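import Vale.Agent.P237.Cal.CapRange
import Vale.Agent.P237.Cal.Mass

/-!
# P237: the bounds of `k log Y` used in zone II
-/

open Real

namespace Vale.Agent.P237.Cal

variable {m : ℕ}

lemma exp_twelve_fifths : exp (12 / 5) ≤ 1109 / 100 := by
  have h := exp_bound' (x := (2 : ℝ) / 5) (by norm_num) (by norm_num) (n := 5) (by norm_num)
  simp only [Finset.sum_range_succ, Finset.sum_range_zero, Nat.factorial, Nat.succ_eq_add_one] at h
  norm_num at h
  calc exp (12 / 5) = exp (2 / 5) ^ 6 := by rw [← exp_nat_mul]; norm_num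
    _ ≤ (1492 / 1000) ^ 6 := pow_le_pow_left₀ (exp_pos _).le (by linarith) 6
    _ ≤ _ := by norm_num

/-- `log (q)` under the cap: `4 log q ≤ 3 log n - 12/5`. -/
lemma log_q_le {q : ℝ} (hm : 382 ≤ m) (hq : 0 < q) (hcap : q * semiMom m 1 ≤ capB m) :
    log q ≤ 3 / 4 * log ((m : ℝ) + 2) - 6 / 10 := by
  have hm' : (382 : ℝ) ≤ (m : ℝ) := by exact_mod_cast hm
  set n := (m : ℝ) + 2 with hn
  have hn0 : 0 < n := by linarith
  have hb := (semiMom_sq_bounds m).1
  rw [← hn] at hb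
  have hV0 : 1568 / 1000 ≤ n * semiMom m 1 ^ 2 := by
    refine le_trans ?_ (mul_le_mul_of_nonneg_left hb hn0.le)
    rw [← mul_div_assoc, le_div_iff₀ (by positivity)]
    have h1 : 1 / (4 * n) ≤ 1 / 4 := by
      rw [div_le_iff₀ (by positivity)]; linarith
    nlinarith [pi_gt_d4]
  have hV : 0 < semiMom m 1 := by
    rcases eq_or_lt_of_le (show (0 : ℝ) ≤ semiMom m 1 from
      intervalIntegral.integral_nonneg zero_le_one fun x _ => by positivity) with e | e
    · rw [← e] at hV0; linarith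
    · exact e
  have h4 : q ^ 4 * (1568 / 1000) ^ 2 ≤ 11 / 50 * n ^ 3 := by
    have h1 := (pow_le_pow_left₀ (by positivity) hcap 4).trans (capB_le (by omega))
    rw [← hn] at h1
    have h2 := pow_le_pow_left₀ (by norm_num) hV0 2
    calc q ^ 4 * (1568 / 1000) ^ 2 ≤ q ^ 4 * (n * semiMom m 1 ^ 2) ^ 2 :=
          mul_le_mul_of_nonneg_left h2 (by positivity)
      _ = n ^ 2 * (q * semiMom m 1) ^ 4 := by ring
      _ ≤ n ^ 2 * (11 / 50 * n) := mul_le_mul_of_nonneg_left h1 (by positivity)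
      _ = _ := by ring
  have h5 : q ^ 4 * exp (12 / 5) ≤ n ^ 3 := by
    have h := mul_le_mul_of_nonneg_left exp_twelve_fifths (by positivity : 0 ≤ q ^ 4)
    have : q ^ 4 * (1109 / 100) * (11 / 50) ≤ q ^ 4 * (1568 / 1000) ^ 2 := by
      rw [mul_assoc]
      exact mul_le_mul_of_nonneg_left (by norm_num) (by positivity)
    nlinarith
  have h6 := log_le_log (by positivity) h5
  rw [log_mul (by positivity) (exp_pos _).ne', log_exp, log_pow, log_pow] at h6
  push_cast at h6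
  linarith

/-- **Case A**: `k log Y ≤ (3/4) log n - 3/5` when `Y^k ≤ q`. -/
theorem logY_le_A {q Y : ℝ} (hm : 382 ≤ m) (hY : 1 ≤ Y) (hq : Y ^ (m + 1) ≤ q)
    (hcap : q * semiMom m 1 ≤ capB m) :
    ((m : ℝ) + 1) * log Y ≤ 3 / 4 * log ((m : ℝ) + 2) - 6 / 10 := by
  have hp : 0 < Y ^ (m + 1) := pow_pos (lt_of_lt_of_le one_pos hY) _
  have h := log_le_log hp hq
  rw [log_pow] at h
  push_cast at h
  exact h.trans (log_q_le hm (hp.trans_le hq) hcap)

/-- **Case B**: `k log Y ≤ log n + log 2` when `Y^k ≤ 2n`. -/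
theorem logY_le_B {Y : ℝ} (hY : 1 ≤ Y) (hYk : Y ^ (m + 1) ≤ 2 * ((m : ℝ) + 2)) :
    ((m : ℝ) + 1) * log Y ≤ log ((m : ℝ) + 2) + 6932 / 10000 := by
  have h := log_le_log (pow_pos (lt_of_lt_of_le one_pos hY) _) hYk
  rw [log_pow, log_mul two_ne_zero (by positivity)] at h
  push_cast at h
  linarith [log_two_lt_d9]

end Vale.Agent.P237.Cal
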