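import Vale.Agent.P237.Cal.TanDataA
import Vale.Agent.P237.Cal.TanDataB
import Vale.Agent.P237.Cal.ChordTight

/-!
# P237: zone II (`ε σ² > 19/20`) of the side `σ ≥ T` for `n ≥ 384`, `T ∈ [1/50, 47/100]`
-/

open Real

namespace Vale.Agent.P237.Cal

variable {m : ℕ}

/-- The hypothesis on the state part of the coefficient of `h - 1`. -/
def tanG (Y T ε v G₂ : ℝ) : Prop :=
  -(21 / 5 * ε / v * (1 + T ^ 2) * min ((Y ^ 2 - 1) / T) (2 * T / 3)) ≤ G₂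

/-- The range of the field: from the shape to `-(4/5) ε/√n`. -/
def tanP (m : ℕ) (ε T p : ℝ) : Prop :=
  let v := √((m : ℝ) + 2)
  shP m (9 / 5 * ε / v) (6 / 5 * ε * v) T / pre m T ≤ p ∧ p ≤ -(4 / 5 * ε / v)

/-- The weight of the square of `G`. -/
noncomputable def tanLoss (m : ℕ) (T : ℝ) : ℝ :=
  33 / 50 + 3 / 250 * (((m : ℝ) + 2) * T ^ 2) ^ 2

/-- The conclusion of zone II at a point, with the slack `Sl`. -/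
def tanGoal (m : ℕ) (ε kap T σ h p G₂ Sl : ℝ) : Prop :=
  let v := √((m : ℝ) + 2)
  ∃ L, L ≤ valQ ε T σ h + (2 * p * (σ - T) + G₂) * (h - 1) ∧
    -(pre m T * (tanLoss m T * G₂ ^ 2)) ≤ pre m T * L + (σ - T) * ellFlat m ε kap (rr (m + 1)) T +
      (σ - T) ^ 2 * (shP' m (9 / 5 * ε / v) (6 / 5 * ε * v) T +
        2 * muX m T * shS m (9 / 5 * ε / v) (6 / 5 * ε * v) T) + Sl

/-- A cover of the whole cell gives the zone. -/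
lemma zone_of_cover {c : TanCase} {B : TanCell} {t : TanTree} (ht : t.ok c B = true)
    {V Y Q T σ h ε kap p G₂ Sl : ℝ} (hm : 382 ≤ m) (hR : RegC Y T σ h) (hY : 1 ≤ Y)
    (hE : Exc m V Y T σ) (hQ : V / Y ^ (m + 1) = Q * semiMom m 1) (hQ0 : 0 ≤ Q)
    (hQc : Q * (12534 / 10000) ≤ (c.Qc : ℝ)) (hT0 : (B.T0 : ℝ) ≤ T) (hT1 : T ≤ B.T1)
    (hu0 : (B.u0 : ℝ) ≤ σ) (hu1 : σ ≤ B.u1) (he0 : (c.e0 : ℝ) ≤ ε) (he1 : ε ≤ c.e1)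
    (hk0 : 0 ≤ kap) (hk : kap ≤ 1 / 2)
    (hlog : ((m : ℝ) + 1) * log Y ≤ c.al * log ((m : ℝ) + 2) + c.be)
    (hP : tanP m ε T p) (hG : tanG Y T ε (√((m : ℝ) + 2)) G₂)
    (hSl : ellFlat m ε kap (rr (m + 1)) T * ((Y ^ 2 - 1) / (2 * T)) ≤ Sl) :
    tanGoal m ε kap T σ h p G₂ Sl := by
  have hT := hR.T_pos
  have hv2 : √((m : ℝ) + 2) ^ 2 = (m : ℝ) + 2 := sq_sqrt (by positivity)
  refine ((TanTree.sound t B ht hm rfl hR hY hT0 hT1 hu0 hu1 he0 he1 hk0 hk hlog ?_ hP.1 hP.2 hG hSl).imp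
    fun L hL => ⟨hL.1, le_of_eq_of_le (by rw [tanLoss, hv2]) hL.2⟩)
  rw [hv2]
  refine (sigma_le_rat hY hR hE hQ hQ0).trans (mul_le_mul_of_nonneg_right hQc ?_)
  have := expM5_pos (x := ((m : ℝ) + 2) * T ^ 2 / 2 / (1 + T ^ 2 / 2)) (by positivity)
  positivity

lemma sig_le_top {Y T σ h : ℝ} (hR : RegC Y T σ h) (hT1 : T ≤ 47 / 100) : σ ≤ 553 / 500 := by
  refine hR.σ_le.trans ?_
  rw [sqrt_le_left (by norm_num)]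
  have := pow_le_pow_left₀ hR.T_pos.le hT1 2
  linarith

lemma sig_ge_low {σ ε E u : ℝ} (hσ : 0 < σ) (hz : 19 / 20 < ε * σ ^ 2) (he : ε ≤ E)
    (hu : E * u ^ 2 ≤ 19 / 20) : u ≤ σ := by
  by_contra h
  push Not at h
  have h1 : σ ^ 2 ≤ u ^ 2 := pow_le_pow_left₀ hσ.le h.le 2
  have h2 := mul_le_mul_of_nonneg_right he (sq_nonneg σ)
  have hE : 0 ≤ E := by
    by_contra hE
    push Not at hE
    nlinarith
  have h3 := mul_le_mul_of_nonneg_left h1 hE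
  linarith

/-- **Zone II, case A**: `1 ≤ Q ≤ 1.6488`. -/
theorem posX_zoneII_A {V Y Q T σ h ε kap p G₂ Sl : ℝ} (hm : 382 ≤ m) (hR : RegC Y T σ h)
    (hY : 1 ≤ Y) (hE : Exc m V Y T σ) (hQ : V / Y ^ (m + 1) = Q * semiMom m 1) (hQ0 : 0 ≤ Q)
    (hQ1 : Q ≤ 16488 / 10000) (hT0 : 1 / 50 ≤ T) (hT1 : T ≤ 47 / 100)
    (hz : 19 / 20 < ε * σ ^ 2) (he0 : 3988 / 1000 ≤ ε) (he1 : ε ≤ 4011 / 1000) (hk0 : 0 ≤ kap)
    (hk : kap ≤ 1 / 2) (hlog : ((m : ℝ) + 1) * log Y ≤ 3 / 4 * log ((m : ℝ) + 2) - 6 / 10)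
    (hP : tanP m ε T p) (hG : tanG Y T ε (√((m : ℝ) + 2)) G₂)
    (hSl : ellFlat m ε kap (rr (m + 1)) T * ((Y ^ 2 - 1) / (2 * T)) ≤ Sl) :
    tanGoal m ε kap T σ h p G₂ Sl := by
  have hσ0 := sig_ge_low (u := 243 / 500) hR.σ_pos hz he1 (by norm_num)
  have hσ1 := sig_le_top hR hT1
  refine zone_of_cover treeA_ok hm hR hY hE hQ hQ0 ?_ ?_ ?_ ?_ ?_ ?_ ?_ hk0 hk ?_ hP hG hSl
  all_goals simp only [caseA, cellA]
  all_goals push_cast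
  all_goals linarith

/-- **Zone II, case B**: `Q ≤ 1`. -/
theorem posX_zoneII_B {V Y Q T σ h ε kap p G₂ Sl : ℝ} (hm : 382 ≤ m) (hR : RegC Y T σ h)
    (hY : 1 ≤ Y) (hE : Exc m V Y T σ) (hQ : V / Y ^ (m + 1) = Q * semiMom m 1) (hQ0 : 0 ≤ Q)
    (hQ1 : Q ≤ 1) (hT0 : 1 / 50 ≤ T) (hT1 : T ≤ 47 / 100) (hz : 19 / 20 < ε * σ ^ 2)
    (he0 : 3799 / 1000 ≤ ε) (he1 : ε ≤ 4) (hk0 : 0 ≤ kap) (hk : kap ≤ 1 / 2)
    (hlog : ((m : ℝ) + 1) * log Y ≤ log ((m : ℝ) + 2) + 6932 / 10000)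
    (hP : tanP m ε T p) (hG : tanG Y T ε (√((m : ℝ) + 2)) G₂)
    (hSl : ellFlat m ε kap (rr (m + 1)) T * ((Y ^ 2 - 1) / (2 * T)) ≤ Sl) :
    tanGoal m ε kap T σ h p G₂ Sl := by
  have hσ0 := sig_ge_low (u := 487 / 1000) hR.σ_pos hz he1 (by norm_num)
  have hσ1 := sig_le_top hR hT1
  refine zone_of_cover treeB_ok hm hR hY hE hQ hQ0 ?_ ?_ ?_ ?_ ?_ ?_ ?_ hk0 hk ?_ hP hG hSl
  all_goals simp only [caseB, cellB]
  all_goals push_cast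
  all_goals linarith

end Vale.Agent.P237.Cal
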