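import Vale.Agent.P237.Cal.PosWeight

/-!
# P237: the linear weight behind the multiplier, `n ≥ 256`
-/

open Real

namespace Vale.Agent.P237.Cal

variable {m : ℕ}

/-- The constant of the weight at `W ≤ w`. -/
def tanCL {K : Type*} [Field K] (w : K) : K :=
  (2 * w + 1002 / 1000) / ((w + 1002 / 1000) ^ 2 * (1002 / 1000) ^ 3) - 381 / 1000

lemma rr_le_tan (hm : 254 ≤ m) : rr (m + 1) ≤ 1002 / 1000 := by
  have hm' : (254 : ℝ) ≤ (m : ℝ) := by exact_mod_cast hm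
  have h := rr_le (k := m + 1) (by omega)
  push_cast at h
  have := one_div_le_one_div_of_le (by norm_num : (0 : ℝ) < 511)
    (by linarith : (511 : ℝ) ≤ 2 * ((m : ℝ) + 1) + 1)
  linarith

/-- `n flatB ≥ tanCL(w) (z - 101/100)²`. -/
lemma flat_tanw {N W r s kap w : ℝ} (hN : 256 ≤ N) (hs : W ^ 2 = 1 + s) (hW : 1 ≤ W) (hw : W ≤ w)
    (hz : 5 / 2 ≤ N * s) (hr1 : 1 ≤ r) (hr2 : r ≤ 1002 / 1000)
    (hr3 : |N * (r ^ 2 - 1) - 1| ≤ 1 / N) (hk0 : 0 ≤ kap) (hk : kap ≤ 1 / 2) :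
    tanCL w * (N * s - 101 / 100) ^ 2 ≤
      N * ((N + 2) * ((W - r) ^ 2 * (2 * W + r) / r ^ 3) +
        kap / N * (-(3 / 4) * (N * s - 1) ^ 2 + s * (3 / 2 * (N * s) - 15 / 4))) := by
  have hN0 : 0 < N := by linarith
  have hr0 : 0 < r := by linarith
  have hb : N * (r ^ 2 - 1) ≤ 101 / 100 := by
    have h6 : 1 / N ≤ 1 / 256 := one_div_le_one_div_of_le (by norm_num) hN
    linarith [(abs_le.1 hr3).2]
  have hs0 : 0 ≤ s := by nlinarith
  set z := N * s with hzdef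
  set R : ℝ := 1002 / 1000 with hR
  set c := (2 * w + R) / ((w + R) ^ 2 * R ^ 3) with hcdef
  have hw0 : 0 < w := by linarith
  have hR0 : 0 < R := by rw [hR]; norm_num
  have hc : c ≤ (2 * W + r) / ((W + r) ^ 2 * r ^ 3) := by
    have h1 : (2 * w + R) / (w + R) ^ 2 ≤ (2 * W + r) / (W + r) ^ 2 := by
      have key : ∀ a b : ℝ, 0 < a → 0 < b → (2 * a + b) / (a + b) ^ 2 = (1 + a / (a + b)) / (a + b) :=
        fun a b ha hb => by field_simp; ring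
      rw [div_le_div_iff₀ (by positivity) (by positivity)]
      nlinarith [mul_nonneg (mul_nonneg (sub_nonneg.2 hw) (by linarith : (0 : ℝ) ≤ W)) hw0.le,
        mul_nonneg (mul_nonneg (sub_nonneg.2 hr2) (by linarith : (0 : ℝ) ≤ W)) hw0.le,
        mul_nonneg (mul_nonneg (sub_nonneg.2 hw) hr0.le) hR0.le,
        mul_nonneg (mul_nonneg (sub_nonneg.2 hr2) hr0.le) hR0.le,
        mul_nonneg (mul_nonneg (sub_nonneg.2 hw) (by linarith : (0 : ℝ) ≤ W)) hR0.le,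
        mul_nonneg (mul_nonneg (sub_nonneg.2 hr2) hr0.le) hw0.le,
        mul_nonneg (mul_nonneg (sub_nonneg.2 hw) hr0.le) hw0.le,
        mul_nonneg (mul_nonneg (sub_nonneg.2 hr2) (by linarith : (0 : ℝ) ≤ W)) hR0.le]
    have h2 : r ^ 3 ≤ R ^ 3 := pow_le_pow_left₀ hr0.le hr2 3
    rw [hcdef, ← div_div, ← div_div]
    exact div_le_div₀ (div_nonneg (by linarith) (sq_nonneg _)) h1 (by positivity) h2
  have hc0 : 0 ≤ c := by rw [hcdef]; positivity
  have h1 : c * (z - 101 / 100) ^ 2 ≤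
      N * ((N + 2) * ((W - r) ^ 2 * (2 * W + r) / r ^ 3)) := by
    have h3 : (z - 101 / 100) ^ 2 ≤ (N * (W ^ 2 - r ^ 2)) ^ 2 := by
      refine pow_le_pow_left₀ (by linarith) ?_ 2
      have e : N * (W ^ 2 - r ^ 2) = z - N * (r ^ 2 - 1) := by rw [hs, hzdef]; ring
      linarith
    have e : N * ((N + 2) * ((W - r) ^ 2 * (2 * W + r) / r ^ 3)) =
        (1 + 2 / N) * ((N * (W ^ 2 - r ^ 2)) ^ 2 * ((2 * W + r) / ((W + r) ^ 2 * r ^ 3))) := by
      field_simp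
      ring
    rw [e]
    refine le_trans ?_ (le_mul_of_one_le_left (by positivity) (by
      have : 0 ≤ 2 / N := by positivity
      linarith))
    rw [mul_comm c]
    exact mul_le_mul h3 hc hc0 (sq_nonneg _)
  have h4 : -(381 / 1000 * (z - 101 / 100) ^ 2) ≤
      kap * (-(3 / 4) * (z - 1) ^ 2 + s * (3 / 2 * z - 15 / 4)) := by
    have hz0 : 0 ≤ kap * (s * (3 / 2 * z - 15 / 4)) :=
      mul_nonneg hk0 (mul_nonneg hs0 (by linarith))
    have h5 := mul_le_mul_of_nonneg_right hk (sq_nonneg (z - 1))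
    nlinarith [sq_nonneg (z - 5 / 2)]
  have e : N * (kap / N * (-(3 / 4) * (z - 1) ^ 2 + s * (3 / 2 * z - 15 / 4))) =
      kap * (-(3 / 4) * (z - 1) ^ 2 + s * (3 / 2 * z - 15 / 4)) := by field_simp
  rw [mul_add N, e, tanCL, ← hR, ← hcdef]
  linarith

/-- **The weight**: at least `tanCL(w) (1+ε) T (z - 101/100)²/(z W²)` times the prefactor. -/
theorem ellFlat_tan {ε kap T w : ℝ} (hm : 254 ≤ m) (hε : 0 ≤ ε) (hk0 : 0 ≤ kap)
    (hk : kap ≤ 1 / 2) (hT : 0 < T) (hz : 5 / 2 ≤ ((m : ℝ) + 2) * T ^ 2)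
    (hw : √(1 + T ^ 2) ≤ w) :
    pre m T * ((1 + ε) * tanCL w * T * (((m : ℝ) + 2) * T ^ 2 - 101 / 100) ^ 2 /
      (((m : ℝ) + 2) * T ^ 2 * (1 + T ^ 2))) ≤ ellFlat m ε kap (rr (m + 1)) T := by
  have hm' : (254 : ℝ) ≤ (m : ℝ) := by exact_mod_cast hm
  have hr1 := (one_lt_rr (k := m + 1) (by omega)).le
  have hr0 : 0 < rr (m + 1) := one_pos.trans_le hr1
  have h := flat_tanw (N := (m : ℝ) + 2) (kap := kap) (by linarith) (w_sq T) (one_le_w T) hw hz hr1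
    (rr_le_tan hm) (rr_sq_near (by omega)) hk0 hk
  rw [show (m : ℝ) + 2 + 2 = (m : ℝ) + 4 by ring] at h
  rw [ellFlat_eq hr0.ne' T]
  have h1 := mul_le_mul_of_nonneg_left h (by linarith : (0 : ℝ) ≤ 1 + ε)
  have h2 := mul_le_mul_of_nonneg_left h1
    (by positivity : 0 ≤ ((m : ℝ) + 1) * T / (((m : ℝ) + 2) * √(1 + T ^ 2) ^ (m + 6)))
  refine le_trans (le_of_eq ?_) (h2.trans (le_of_eq ?_))
  · simp only [pre]
    rw [show √(1 + T ^ 2) ^ (m + 6) = √(1 + T ^ 2) ^ (m + 4) * √(1 + T ^ 2) ^ 2 from pow_add _ _ 2,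
      w_sq]
    field_simp
  · simp only [flatB]
    field_simp

end Vale.Agent.P237.Cal
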