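import Vale.Agent.P237.Cal.TanBox
import Vale.Agent.P237.Cal.TanWeight
import Vale.Agent.P237.Cal.PosMid

/-!
# P237: a row of zone II for `n ≥ 256`

A row fixes the multiplier `b`, a range `[vlo, vhi]` of `v = √n` (`vhi = 0`: unbounded) and a
bound `r` of `2 log Y`; the numbers of the box follow from these.
-/

open Real

namespace Vale.Agent.P237.Cal

/-- A case: `σ`-constant `Qc`, `k log Y ≤ al log n + be`, `ε ∈ [e0, e1]`. -/
structure TanCase where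
  /-- `Q` times `12534/10000` -/
  Qc : ℚ
  /-- coefficient of `log n` -/
  al : ℚ
  /-- constant -/
  be : ℚ
  /-- `ε ≥ e0` -/
  e0 : ℚ
  /-- `ε ≤ e1` -/
  e1 : ℚ

/-- A row. -/
structure TanRow where
  /-- the multiplier -/
  b : ℚ
  /-- `v ≥ vlo` -/
  vlo : ℚ
  /-- `v ≤ vhi`, unless `0` -/
  vhi : ℚ
  /-- the anchor `2^j` of the logarithm -/
  j : ℕ
  /-- the bound of `2 log Y` -/
  r : ℚ

/-- A cell of the plane T, σ with `wm ≥ √(1+T²)`. -/
structure TanCell where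
  /-- `T ≥ T0` -/
  T0 : ℚ
  /-- `T ≤ T1` -/
  T1 : ℚ
  /-- `σ ≥ u0` -/
  u0 : ℚ
  /-- `σ ≤ u1` -/
  u1 : ℚ

namespace TanRow

/-- The box of a row. -/
def box (c : TanCase) (B : TanCell) (wm : ℚ) (w : TanRow) : TanBox :=
  let z0 := w.vlo ^ 2 * B.T0 ^ 2
  let L := (1 + c.e0) * tanCL wm * B.T0 * (z0 - 101 / 100) ^ 2 / (z0 * (1 + B.T1 ^ 2))
  let es := w.r / (1 - w.r) / B.T0 ^ 2
  let D0 := B.u0 - B.T1
  let D1 := B.u1 - B.T0
  { T0 := B.T0, T1 := B.T1, u0 := B.u0, u1 := B.u1, e0 := c.e0, e1 := c.e1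
    P0 := if w.vhi = 0 then 0 else c.e0 * (4 / 5) / w.vhi
    P1 := c.e1 * (6 / 5 + 21 / 5 * (1 / z0 + 1 / 100)) / w.vlo
    A := c.e0 * ((if w.vhi = 0 then 0 else 9 / 5 / (w.vhi * B.T1)) +
      6 / 5 * w.vlo * B.T0 / (1 + B.T1 ^ 2))
    L := L
    es := es
    gl := 21 / 5 * c.e1 * (1 + B.T1 ^ 2) / w.vlo * min (es * B.T1) (2 / 3 * B.T1)
    b := w.b, om := 1 / (33 / 50 + 3 / 250 * z0 ^ 2)
    lbd := min ((L - 2 * w.b / B.T0) / D1) ((L - 2 * w.b / B.T0) / D0)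
    pe := max 0 ((w.b - L * B.T0 / 2) * es / D0 ^ 2)
    k0 := w.b * es * (2 * B.T0 ^ 2 + 1) / D1
    k1 := w.b * es * (2 * B.T1 ^ 2 + 1) / D0 }

/-- The check of a row. -/
def ok (c : TanCase) (B : TanCell) (wm : ℚ) (w : TanRow) : Bool :=
  decide (0 < w.vlo) && decide (0 ≤ w.vhi) && decide (5 / 2 ≤ w.vlo ^ 2 * B.T0 ^ 2) &&
  decide (0 ≤ w.r) && decide (w.r < 1) && decide (1 < w.vlo ^ 2) && decide (0 ≤ c.al) &&
  decide (2 * (c.al * ((w.j : ℚ) * (6932 / 10000) + w.vlo ^ 2 / (2 : ℚ) ^ w.j - 1) + c.be) ≤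
    w.r * (w.vlo ^ 2 - 1)) &&
  decide (2 * c.al ≤ w.r * (2 : ℚ) ^ w.j) && decide (0 ≤ tanCL wm) && (box c B wm w).ok

end TanRow

variable {m : ℕ}

/-- `η ≤ r/(1-r)` from the bound of `k log Y` and the line above `log n`. -/
lemma eta_le {Y al be r V : ℝ} {j : ℕ} (hY : 1 ≤ Y) (hal : 0 ≤ al) (hr : r < 1) (_hV1 : 1 < V)
    (hV : V ≤ (m : ℝ) + 2)
    (hlog : ((m : ℝ) + 1) * log Y ≤ al * log ((m : ℝ) + 2) + be)
    (hat : 2 * (al * ((j : ℝ) * (6932 / 10000) + V / 2 ^ j - 1) + be) ≤ r * (V - 1))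
    (hslope : 2 * al ≤ r * 2 ^ j) : Y ^ 2 - 1 ≤ r / (1 - r) := by
  have hp : (0 : ℝ) < 2 ^ j := by positivity
  set N := (m : ℝ) + 2 with hN
  have hN0 : 0 < N := by linarith
  have h1 : log N ≤ (j : ℝ) * (6932 / 10000) + N / 2 ^ j - 1 := by
    have h2 := log_le_sub_one_of_pos (div_pos hN0 hp)
    rw [log_div hN0.ne' hp.ne', log_pow] at h2
    have h3 := mul_le_mul_of_nonneg_left (log_two_lt_d9.le.trans (by norm_num :
      (0.6931471808 : ℝ) ≤ 6932 / 10000)) (Nat.cast_nonneg (α := ℝ) j)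
    linarith
  have h2 : 2 * al / 2 ^ j ≤ r := by rw [div_le_iff₀ hp]; linarith
  have h3 := mul_le_mul_of_nonneg_right h2 (sub_nonneg.2 hV)
  have h4 := mul_le_mul_of_nonneg_left h1 hal
  have h5 : ((m : ℝ) + 1) * (2 * log Y) ≤ ((m : ℝ) + 1) * r := by
    have e : 2 * al / 2 ^ j * (N - V) = 2 * (al * (N / 2 ^ j)) - 2 * (al * (V / 2 ^ j)) := by ring
    have e2 : (m : ℝ) + 1 = N - 1 := by rw [hN]; ring
    rw [e2] at hlog ⊢
    linarith
  have h6 : 2 * log Y ≤ r := le_of_mul_le_mul_left h5 (by positivity)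
  have h7 : Y ^ 2 ≤ exp r := by
    have hY0 : 0 < Y := lt_of_lt_of_le one_pos hY
    rw [show Y ^ 2 = exp (2 * log Y) by
      rw [show (2 : ℝ) * log Y = log Y + log Y by ring, exp_add, exp_log hY0, sq]]
    exact exp_le_exp.2 h6
  have h8 : exp r ≤ 1 / (1 - r) := by
    rw [le_div_iff₀ (by linarith)]
    have h9 := add_one_le_exp (-r)
    calc exp r * (1 - r) ≤ exp r * exp (-r) :=
          mul_le_mul_of_nonneg_left (by linarith) (exp_pos r).le
      _ = 1 := by rw [← exp_add, add_neg_cancel, exp_zero]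
  have e : r / (1 - r) = 1 / (1 - r) - 1 := by
    field_simp [(by linarith : (1 - r) ≠ 0)]
    ring
  linarith

/-- `T (z - a)²/(z (1 + T²))` from below on a cell. -/
lemma weight_mono {T T0 T1 z z0 a : ℝ} (ha : 0 ≤ a) (hT0 : 0 < T0) (h0 : T0 ≤ T) (h1 : T ≤ T1)
    (hz0 : a ≤ z0) (hz0' : 0 < z0) (hz : z0 ≤ z) :
    T0 * (z0 - a) ^ 2 / (z0 * (1 + T1 ^ 2)) ≤ T * (z - a) ^ 2 / (z * (1 + T ^ 2)) := by
  have hz' : 0 < z := hz0'.trans_le hz
  have h2 : (z0 - a) ^ 2 / z0 ≤ (z - a) ^ 2 / z := by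
    rw [div_le_div_iff₀ hz0' hz']
    have h3 : 0 ≤ z * z0 - a ^ 2 := by
      have := mul_le_mul (hz0.trans hz) hz0 ha hz'.le
      linarith
    have := mul_nonneg (sub_nonneg.2 hz) h3
    linarith
  have h4 : T0 / (1 + T1 ^ 2) ≤ T / (1 + T ^ 2) :=
    div_le_div₀ (hT0.le.trans h0) h0 (by positivity)
      (by linarith [pow_le_pow_left₀ (hT0.le.trans h0) h1 2])
  have h5 := mul_le_mul h4 h2 (by positivity) (div_nonneg (hT0.le.trans h0) (by positivity))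
  calc T0 * (z0 - a) ^ 2 / (z0 * (1 + T1 ^ 2)) = T0 / (1 + T1 ^ 2) * ((z0 - a) ^ 2 / z0) := by
        field_simp
    _ ≤ T / (1 + T ^ 2) * ((z - a) ^ 2 / z) := h5
    _ = _ := by field_simp

/-- The weight of the square over the prefactor. -/
lemma shapes_A {ε v T c₀ c₁ : ℝ} (hv : 0 < v) (hT : 0 < T) (hc₀ : c₀ = 9 / 5 * ε / v)
    (hc₁ : c₁ = 6 / 5 * ε * v) :
    shP' m c₀ c₁ T + 2 * muX m T * shS m c₀ c₁ T =
      pre m T * (ε * (9 / 5 / (v * T) + 6 / 5 * v * T / (1 + T ^ 2))) := by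
  have hmu : muX m T * (c₀ + c₁ * (T ^ 2 / √(1 + T ^ 2) ^ 2)) =
      pre m T * ((c₀ + c₁ * (T ^ 2 / √(1 + T ^ 2) ^ 2)) / T) := by
    simp only [muX, pre]; field_simp
  rw [shP'_add, hmu, w_sq, hc₀, hc₁]
  congr 1
  field_simp

/-- **Soundness of a row**: the field `p` may lie anywhere above `shP/pre` up to `-(4/5) ε/v`. -/
theorem TanRow.sound {c : TanCase} {B : TanCell} {wm : ℚ} {w : TanRow}
    {Y T σ h ε kap p G₂ Sl v : ℝ}
    (hq : w.ok c B wm = true) (hm : 254 ≤ m) (hv : v = √((m : ℝ) + 2)) (hR : RegC Y T σ h)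
    (hY : 1 ≤ Y) (hT0 : (B.T0 : ℝ) ≤ T) (hT1 : T ≤ B.T1) (hu0 : (B.u0 : ℝ) ≤ σ) (hu1 : σ ≤ B.u1)
    (he0 : (c.e0 : ℝ) ≤ ε) (he1 : ε ≤ c.e1) (hw : √(1 + T ^ 2) ≤ (wm : ℝ))
    (hvlo : (w.vlo : ℝ) ≤ v) (hvhi : w.vhi = 0 ∨ v ≤ (w.vhi : ℝ)) (hk0 : 0 ≤ kap)
    (hk : kap ≤ 1 / 2)
    (hlog : ((m : ℝ) + 1) * log Y ≤ c.al * log ((m : ℝ) + 2) + c.be)
    (hpl : shP m (9 / 5 * ε / v) (6 / 5 * ε * v) T / pre m T ≤ p)
    (hph : p ≤ -(4 / 5 * ε / v))
    (hG : -(21 / 5 * ε / v * (1 + T ^ 2) * min ((Y ^ 2 - 1) / T) (2 * T / 3)) ≤ G₂)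
    (hSl : ellFlat m ε kap (rr (m + 1)) T * ((Y ^ 2 - 1) / (2 * T)) ≤ Sl) :
    ∃ L, L ≤ valQ ε T σ h + (2 * p * (σ - T) + G₂) * (h - 1) ∧
      -(pre m T * ((33 / 50 + 3 / 250 * (v ^ 2 * T ^ 2) ^ 2) * G₂ ^ 2)) ≤ pre m T * L + (σ - T) * ellFlat m ε kap (rr (m + 1)) T +
        (σ - T) ^ 2 * (shP' m (9 / 5 * ε / v) (6 / 5 * ε * v) T +
          2 * muX m T * shS m (9 / 5 * ε / v) (6 / 5 * ε * v) T) + Sl := by
  simp only [TanRow.ok, Bool.and_eq_true, decide_eq_true_eq, and_assoc] at hq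
  obtain ⟨d1, d2, d3, d4, d5, d6, d7, d8, d9, d10, hbox⟩ := hq
  have hb := hbox
  simp only [TanBox.ok, TanBox.sideOK, Bool.and_eq_true, decide_eq_true_eq, and_assoc] at hb
  have hb1 : (0 : ℝ) < B.T0 := by exact_mod_cast (show 0 < B.T0 from hb.1)
  have hb4 : (0 : ℝ) ≤ c.e0 := by
    exact_mod_cast (show 0 ≤ c.e0 from le_trans hb.2.2.1 hb.2.2.2.1)
  rify at d1 d2 d3 d4 d5 d6 d7 d8 d9
  have hm' : (254 : ℝ) ≤ (m : ℝ) := by exact_mod_cast hm
  have hv2 : v ^ 2 = (m : ℝ) + 2 := by rw [hv]; exact sq_sqrt (by linarith)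
  have hv10 : 10 ≤ v := by
    rw [hv, le_sqrt (by norm_num) (by linarith)]; norm_num; linarith
  have hv0 : 0 < v := by linarith
  have hT : 0 < T := hb1.trans_le hT0
  have hε : 0 ≤ ε := hb4.trans he0
  have hη : 0 ≤ Y ^ 2 - 1 := by nlinarith
  set Tl := (B.T0 : ℝ) with hTl
  set Th := (B.T1 : ℝ) with hTh
  set vl := (w.vlo : ℝ) with hvl
  set z := v ^ 2 * T ^ 2 with hz
  have hz0 : vl ^ 2 * Tl ^ 2 ≤ z :=
    mul_le_mul (pow_le_pow_left₀ d1.le hvlo 2) (pow_le_pow_left₀ hb1.le hT0 2) (by positivity)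
      (by positivity)
  have hzpos : 0 < vl ^ 2 * Tl ^ 2 := by positivity
  have hes : (Y ^ 2 - 1) / T ^ 2 ≤ (w.r : ℝ) / (1 - w.r) / Tl ^ 2 := by
    have h1 := eta_le (V := vl ^ 2) (j := w.j) hY d7 d5 d6
      (by rw [← hv2]; exact pow_le_pow_left₀ d1.le hvlo 2) hlog d8 d9
    exact div_le_div₀ (div_nonneg d4 (by linarith)) h1 (by positivity)
      (pow_le_pow_left₀ hb1.le hT0 2)
  have hwT : 1 + T ^ 2 ≤ 1 + Th ^ 2 := by linarith [pow_le_pow_left₀ hT.le hT1 2]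
  have hpre : 0 < pre m T := by unfold pre; positivity
  have hP1 := mid_P (m := m) (T := T) hε hv10 hv2 rfl rfl hpre hT hzpos hz0
  refine TanBox.sound (q := TanRow.box c B wm w) (π' := pre m T) hbox hpre hR hY ?_ ?_ ?_ ?_ ?_ ?_
    ?_ ?_ ?_ ?_ ?_ ?_ ?_ |>.imp fun L hL => ⟨hL.1, le_trans ?_ hL.2⟩
  rotate_right
  · simp only [TanRow.box]
    push_cast
    rw [div_div_eq_mul_div, div_one, mul_comm (G₂ ^ 2)]
    have h1 := mul_le_mul_of_nonneg_left (pow_le_pow_left₀ hzpos.le hz0 2)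
      (by norm_num : (0 : ℝ) ≤ 3 / 250)
    have h2 := mul_le_mul_of_nonneg_left (mul_le_mul_of_nonneg_right (add_le_add_right h1 (33 / 50))
      (sq_nonneg G₂)) hpre.le
    linarith
  · simpa [TanRow.box] using hT0
  · simpa [TanRow.box] using hT1
  · simpa [TanRow.box] using hu0
  · simpa [TanRow.box] using hu1
  · simpa [TanRow.box] using he0
  · simpa [TanRow.box] using he1
  · rcases eq_or_ne w.vhi 0 with e | e
    · have h3 : 0 ≤ 4 / 5 * ε / v := by positivity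
      simp [TanRow.box, e]
      linarith
    · have hvh := hvhi.resolve_left e
      simp only [TanRow.box, if_neg e]
      push_cast
      refine hph.trans (neg_le_neg ?_)
      rw [mul_comm (c.e0 : ℝ)]
      exact div_le_div₀ (by positivity) (mul_le_mul_of_nonneg_left he0 (by norm_num)) hv0 hvh
  · simp only [TanRow.box]
    push_cast
    refine le_trans (le_trans (neg_le_neg ?_) hP1) hpl
    exact div_le_div₀ (mul_nonneg (hε.trans he1) (by positivity))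
      (mul_le_mul_of_nonneg_right he1 (by positivity)) d1 hvlo
  · simp only [TanRow.box]
    push_cast
    rw [shapes_A hv0 hT rfl rfl]
    refine mul_le_mul_of_nonneg_left ?_ hpre.le
    have hB1 : vl * Tl / (1 + Th ^ 2) ≤ v * T / (1 + T ^ 2) :=
      div_le_div₀ (by positivity) (mul_le_mul hvlo hT0 hb1.le hv0.le) (by positivity) hwT
    have hB0 : ((if w.vhi = 0 then (0 : ℚ) else 9 / 5 / (w.vhi * B.T1) : ℚ) : ℝ) ≤
        9 / 5 / (v * T) := by
      split_ifs with e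
      · simp; positivity
      · push_cast
        refine div_le_div_of_nonneg_left (by norm_num) (by positivity) ?_
        exact mul_le_mul (hvhi.resolve_left e) hT1 hT.le d2
    have h3 := mul_le_mul_of_nonneg_left hB1 (by norm_num : (0 : ℝ) ≤ 6 / 5)
    have hA1 : 0 ≤ 6 / 5 * (vl * Tl / (1 + Th ^ 2)) := by positivity
    have hA0 : (0 : ℝ) ≤ ((if w.vhi = 0 then (0 : ℚ) else 9 / 5 / (w.vhi * B.T1) : ℚ) : ℝ) := by
      split_ifs with e
      · simp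
      · have : 0 < (w.vhi : ℝ) := hv0.trans_le (hvhi.resolve_left e)
        push_cast
        have : 0 < Th := hT.trans_le hT1
        positivity
    refine le_trans (mul_le_mul he0 (add_le_add hB0 ?_) (add_nonneg hA0 (by positivity)) hε)
      le_rfl
    calc 6 / 5 * vl * Tl / (1 + Th ^ 2) = 6 / 5 * (vl * Tl / (1 + Th ^ 2)) := by ring
      _ ≤ _ := h3.trans (le_of_eq (by ring))
  · simp only [TanRow.box, tanCL]
    push_cast
    refine le_trans (mul_le_mul_of_nonneg_left ?_ hpre.le)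
      (ellFlat_tan hm hε hk0 hk hT (by rw [← hv2]; linarith) hw)
    rw [← hv2]
    have h1 := weight_mono (a := 101 / 100) (by norm_num) hb1 hT0 hT1 (by linarith) hzpos hz0
    have hc : (0 : ℝ) ≤ tanCL (wm : ℝ) := by
      have : ((0 : ℚ) : ℝ) ≤ ((tanCL wm : ℚ) : ℝ) := Rat.cast_le.2 d10
      simp only [tanCL] at this ⊢
      push_cast at this
      exact this
    have h2 := mul_le_mul (mul_le_mul_of_nonneg_right
      (by linarith : (1 : ℝ) + c.e0 ≤ 1 + ε) hc) h1 (by positivity) (by positivity)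
    simp only [tanCL] at h2 ⊢
    refine le_trans (le_of_eq ?_) (h2.trans (le_of_eq ?_))
    · ring
    · ring
  · simpa [TanRow.box] using hes
  · simp only [TanRow.box]
    push_cast
    refine le_trans (neg_le_neg ?_) hG
    have h1 : (Y ^ 2 - 1) / T ≤ (w.r : ℝ) / (1 - w.r) / Tl ^ 2 * Th := by
      calc (Y ^ 2 - 1) / T = (Y ^ 2 - 1) / T ^ 2 * T := by field_simp
        _ ≤ _ := mul_le_mul hes hT1 hT.le (le_trans (div_nonneg hη (sq_nonneg T)) hes)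
    have h2 : min ((Y ^ 2 - 1) / T) (2 * T / 3) ≤
        min ((w.r : ℝ) / (1 - w.r) / Tl ^ 2 * Th) (2 / 3 * Th) := min_le_min h1 (by linarith)
    refine mul_le_mul ?_ h2 (le_min (by positivity) (by positivity)) ?_
    · calc 21 / 5 * ε / v * (1 + T ^ 2) ≤ 21 / 5 * (c.e1 : ℝ) / vl * (1 + Th ^ 2) :=
            mul_le_mul (div_le_div₀ (by linarith [hε.trans he1]) (by linarith) d1 hvlo) hwT
              (by positivity) (div_nonneg (by linarith [hε.trans he1]) d1.le)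
        _ = _ := by ring
    · have := hε.trans he1
      positivity
  · exact hSl

end Vale.Agent.P237.Cal
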