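import Vale.Agent.P237.Cal.TanMid
import Vale.Agent.P237.Cal.StateShift

/-!
# P237: zone II for the whole coefficient `g + 2 S (X - X₀)/pre`
-/

open Real

namespace Vale.Agent.P237.Cal

variable {m : ℕ} {V Y Q T σ h X ε kap g Sl : ℝ}

/-- The state part of the coefficient of `h - 1`, in the shapes. -/
noncomputable def tanState (m : ℕ) (ε T X : ℝ) : ℝ :=
  2 * shS m (9 / 5 * ε / √((m : ℝ) + 2)) (6 / 5 * ε * √((m : ℝ) + 2)) T * (X - X0 m T) / pre m T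

lemma shUM_tan (hε : 0 ≤ ε) :
    0 ≤ shUM m (9 / 5 * ε / √((m : ℝ) + 2)) (6 / 5 * ε * √((m : ℝ) + 2)) ∧
      shUM m (9 / 5 * ε / √((m : ℝ) + 2)) (6 / 5 * ε * √((m : ℝ) + 2)) ≤
        21 / 5 * ε / √((m : ℝ) + 2) := by
  set v := √((m : ℝ) + 2) with hv
  have hv0 : 0 < v := by rw [hv]; positivity
  have hv2 : v ^ 2 = (m : ℝ) + 2 := sq_sqrt (by positivity)
  refine ⟨by unfold shUM; positivity, ?_⟩
  unfold shUM
  have h : 2 * (6 / 5 * ε * v) / ((m : ℝ) + 4) ≤ 12 / 5 * ε / v := by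
    rw [div_le_div_iff₀ (by positivity) hv0]
    calc 2 * (6 / 5 * ε * v) * v = 12 / 5 * ε * ((m : ℝ) + 2) := by rw [← hv2]; ring
      _ ≤ _ := mul_le_mul_of_nonneg_left (by linarith) (by positivity)
  have e : 21 / 5 * ε / v = 9 / 5 * ε / v + 12 / 5 * ε / v := by ring
  linarith

/-- Either value of `G'` meets `tanG`. -/
lemma tanG_of_shift {G' : ℝ} (hY : 1 ≤ Y) (hT : 0 < T) (hε : 0 ≤ ε) (hg : 0 ≤ g)
    (hB : XBox m V Y T σ X) (hV : semiMom m 1 ≤ V)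
    (hG : G' = g + tanState m ε T X ∨ G' = g + stateUp m V Y (9 / 5 * ε / √((m : ℝ) + 2))
      (6 / 5 * ε * √((m : ℝ) + 2)) T) :
    tanG Y T ε (√((m : ℝ) + 2)) G' := by
  obtain ⟨hU0, hU⟩ := shUM_tan (m := m) hε
  have hη : 0 ≤ Y ^ 2 - 1 := by linarith [one_le_pow₀ (n := 2) hY]
  have hmin : 0 ≤ min ((Y ^ 2 - 1) / T) (2 * T / 3) :=
    le_min (div_nonneg hη hT.le) (by positivity)
  unfold tanG
  rcases hG with rfl | rfl
  · have h1 := stateG_low hY hT hU0 hB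
    have h2 := mul_le_mul_of_nonneg_right (mul_le_mul_of_nonneg_right hU
      (by positivity : (0 : ℝ) ≤ 1 + T ^ 2)) hmin
    unfold tanState
    linarith
  · have h1 : 0 ≤ stateUp m V Y (9 / 5 * ε / √((m : ℝ) + 2))
        (6 / 5 * ε * √((m : ℝ) + 2)) T := by
      have : 0 ≤ (V - semiMom m 1) / Y ^ (m + 1) :=
        div_nonneg (sub_nonneg.2 hV) (pow_nonneg (by linarith) _)
      unfold stateUp
      positivity
    have h2 : 0 ≤ 21 / 5 * ε / √((m : ℝ) + 2) * (1 + T ^ 2) *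
        min ((Y ^ 2 - 1) / T) (2 * T / 3) := mul_nonneg (by positivity) hmin
    linarith

/-- **Zone II with the state**: the loss is the weight times the square of `G'`. -/
theorem posX_zoneII_state (hm : 382 ≤ m) (hR : RegC Y T σ h) (hY : 1 ≤ Y) (hσ : T ≤ σ)
    (hB : XBox m V Y T σ X) (hV : semiMom m 1 ≤ V) (hε : 0 ≤ ε) (hg : 0 ≤ g)
    (zone : ∀ p G', tanP m ε T p → tanG Y T ε (√((m : ℝ) + 2)) G' →
      tanGoal m ε kap T σ h p G' Sl) :
    ∃ G', G' ≤ g + stateUp m V Y (9 / 5 * ε / √((m : ℝ) + 2)) (6 / 5 * ε * √((m : ℝ) + 2)) T ∧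
      tanG Y T ε (√((m : ℝ) + 2)) G' ∧
      ∃ L, L ≤ valQ ε T σ h +
          (2 * (shP m (9 / 5 * ε / √((m : ℝ) + 2)) (6 / 5 * ε * √((m : ℝ) + 2)) T / pre m T) *
            (σ - T) + (g + tanState m ε T X)) * (h - 1) ∧
        -(pre m T * (tanLoss m T * G' ^ 2)) ≤ pre m T * L +
          (σ - T) * ellFlat m ε kap (rr (m + 1)) T +
          (σ - T) ^ 2 * (shP' m (9 / 5 * ε / √((m : ℝ) + 2)) (6 / 5 * ε * √((m : ℝ) + 2)) T +
            2 * muX m T * shS m (9 / 5 * ε / √((m : ℝ) + 2)) (6 / 5 * ε * √((m : ℝ) + 2)) T) +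
          Sl := by
  obtain ⟨hU0, -⟩ := shUM_tan (m := m) hε
  obtain ⟨δ, G', hδ0, hδ, he, hup, hor⟩ :=
    state_shift (g := g) (by omega) hY hR.T_pos hσ hU0 hB
  have hGt := tanG_of_shift hY hR.T_pos hε hg hB hV hor
  have hp : tanP m ε T
      (shP m (9 / 5 * ε / √((m : ℝ) + 2)) (6 / 5 * ε * √((m : ℝ) + 2)) T / pre m T + δ) :=
    ⟨le_add_of_nonneg_right hδ0, shifted_field_le (by omega) hε rfl rfl hR.T_pos hδ⟩
  obtain ⟨L, hL, hle⟩ := zone _ G' hp hGt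
  refine ⟨G', hup, hGt, L, hL.trans (le_of_eq ?_), hle⟩
  rw [tanState, he]
  ring

end Vale.Agent.P237.Cal
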