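import Vale.Agent.P237.Cal.AtomCert
import Vale.Agent.P237.Cal.Tri

/-!
# P237: `Quad` along `(D, X)` from Bernstein control values

A polynomial with the monomials `1, D, D², D³, X, DX, X²` is a combination with nonnegative weights
summing to one of its twelve control values on `[l, h] × [x₀, x₁]`, so `Quad` at these values gives
`Quad` at every point of the rectangle.
-/

open Set Real

namespace Vale.Agent.P237.Cal.AtomCert

/-- A polynomial in `(D, X)` with the monomials `1, D, D², D³, X, DX, X²`. -/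
structure Pol where
  c0 : ℝ
  c1 : ℝ
  c2 : ℝ
  c3 : ℝ
  cx : ℝ
  cdx : ℝ
  cxx : ℝ

/-- The value. -/
def Pol.eval (p : Pol) (D X : ℝ) : ℝ :=
  p.c0 + p.c1 * D + p.c2 * D ^ 2 + p.c3 * D ^ 3 + p.cx * X + p.cdx * (D * X) + p.cxx * X ^ 2

/-- Three times the control abscissa. -/
def ctlD1 (l h : ℝ) : Fin 4 → ℝ := ![3 * l, 2 * l + h, l + 2 * h, 3 * h]

/-- Three times the control value of `D²`. -/
def ctlD2 (l h : ℝ) : Fin 4 → ℝ := ![3 * l ^ 2, l ^ 2 + 2 * l * h, 2 * l * h + h ^ 2, 3 * h ^ 2]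

/-- The control value of `D³`. -/
def ctlD3 (l h : ℝ) : Fin 4 → ℝ := ![l ^ 3, l ^ 2 * h, l * h ^ 2, h ^ 3]

/-- Twice the control value of `X`. -/
def ctlX1 (x₀ x₁ : ℝ) : Fin 3 → ℝ := ![2 * x₀, x₀ + x₁, 2 * x₁]

/-- The control value of `X²`. -/
def ctlX2 (x₀ x₁ : ℝ) : Fin 3 → ℝ := ![x₀ ^ 2, x₀ * x₁, x₁ ^ 2]

/-- Six times the control value `(i, j)`: a linear form in the coefficients. -/
def Pol.ctl (p : Pol) (l h x₀ x₁ : ℝ) (i : Fin 4) (j : Fin 3) : ℝ :=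
  6 * p.c0 + 2 * ctlD1 l h i * p.c1 + 2 * ctlD2 l h i * p.c2 + 6 * ctlD3 l h i * p.c3 +
    3 * ctlX1 x₀ x₁ j * p.cx + ctlD1 l h i * ctlX1 x₀ x₁ j * p.cdx + 6 * ctlX2 x₀ x₁ j * p.cxx

/-- The Bernstein weights in `D`. -/
def wD (u : ℝ) : Fin 4 → ℝ := ![(1 - u) ^ 3, 3 * u * (1 - u) ^ 2, 3 * u ^ 2 * (1 - u), u ^ 3]

/-- The Bernstein weights in `X`. -/
def wX (v : ℝ) : Fin 3 → ℝ := ![(1 - v) ^ 2, 2 * v * (1 - v), v ^ 2]

lemma Pol.eval_eq (p : Pol) (l h x₀ x₁ u v : ℝ) :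
    6 * p.eval ((1 - u) * l + u * h) ((1 - v) * x₀ + v * x₁) =
      ∑ i : Fin 4, ∑ j : Fin 3, wD u i * wX v j * p.ctl l h x₀ x₁ i j := by
  simp only [Fin.sum_univ_four, Fin.sum_univ_three, Pol.ctl, Pol.eval, wD, wX, ctlD1, ctlD2,
    ctlD3, ctlX1, ctlX2, Matrix.cons_val_zero, Matrix.cons_val_one, Matrix.head_cons,
    Matrix.cons_val_two, Matrix.cons_val_three, Matrix.tail_cons, Matrix.cons_val]
  ring

lemma Quad.zero : Quad 0 0 0 0 := ⟨le_rfl, le_rfl, le_rfl, by simp⟩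

lemma Quad.sum {ι : Type*} (s : Finset ι) {a b N d w : ι → ℝ} (hw : ∀ i ∈ s, 0 ≤ w i)
    (h : ∀ i ∈ s, Quad (a i) (b i) (N i) (d i)) :
    Quad (∑ i ∈ s, w i * a i) (∑ i ∈ s, w i * b i) (∑ i ∈ s, w i * N i) (∑ i ∈ s, w i * d i) := by
  classical
  induction s using Finset.induction_on with
  | empty => simpa using Quad.zero
  | @insert i t hi ih =>
    simp only [Finset.sum_insert hi]
    exact ((h i (Finset.mem_insert_self i t)).smul (hw i (Finset.mem_insert_self i t))).add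
      (ih (fun j hj => hw j (Finset.mem_insert_of_mem hj))
        (fun j hj => h j (Finset.mem_insert_of_mem hj)))

lemma exists_param {a b x : ℝ} (hx : x ∈ Icc a b) :
    ∃ u ∈ Icc (0 : ℝ) 1, x = (1 - u) * a + u * b := by
  rcases (hx.1.trans hx.2).eq_or_lt with h | h
  · exact ⟨0, ⟨le_rfl, zero_le_one⟩, by simp; linarith [hx.1, hx.2]⟩
  · refine ⟨(x - a) / (b - a), ⟨div_nonneg (by linarith [hx.1]) (by linarith),
      (div_le_one (by linarith)).2 (by linarith [hx.2])⟩, ?_⟩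
    field_simp [(sub_pos.2 h).ne']
    ring

/-- **Twelve control quadruples give `Quad` on the rectangle.** -/
theorem Quad.tensor {l h x₀ x₁ D X : ℝ} {a b N d : Pol} (hD : D ∈ Icc l h)
    (hX : X ∈ Icc x₀ x₁)
    (hc : ∀ i j, Quad (a.ctl l h x₀ x₁ i j) (b.ctl l h x₀ x₁ i j) (N.ctl l h x₀ x₁ i j)
      (d.ctl l h x₀ x₁ i j)) :
    Quad (a.eval D X) (b.eval D X) (N.eval D X) (d.eval D X) := by
  obtain ⟨u, hu, rfl⟩ := exists_param hD
  obtain ⟨v, hv, rfl⟩ := exists_param hX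
  have hu1 : 0 ≤ 1 - u := sub_nonneg.2 hu.2
  have hv1 : 0 ≤ 1 - v := sub_nonneg.2 hv.2
  have hu0 := hu.1
  have hv0 := hv.1
  have hwD : ∀ i, 0 ≤ wD u i := fun i => by fin_cases i <;> simp [wD] <;> positivity
  have hwX : ∀ j, 0 ≤ wX v j := fun j => by fin_cases j <;> simp [wX] <;> positivity
  have H := Quad.sum (Finset.univ : Finset (Fin 4 × Fin 3))
    (w := fun p => wD u p.1 * wX v p.2) (fun p _ => mul_nonneg (hwD p.1) (hwX p.2))
    (fun p _ => hc p.1 p.2)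
  simp only [Fintype.sum_prod_type, ← Pol.eval_eq] at H
  have := H.smul (show (0 : ℝ) ≤ 1 / 6 by norm_num)
  simpa [← mul_assoc] using this

/-- The cone from the control quadruples of `N = A + B + C` and `d = A - B`. -/
theorem tri_of_tensor {l h x₀ x₁ D X A B C : ℝ} {a b N d : Pol} (hD : D ∈ Icc l h)
    (hX : X ∈ Icc x₀ x₁) (ea : A = a.eval D X) (eb : B = b.eval D X)
    (eN : A + B + C = N.eval D X) (ed : A - B = d.eval D X)
    (hc : ∀ i j, Quad (a.ctl l h x₀ x₁ i j) (b.ctl l h x₀ x₁ i j) (N.ctl l h x₀ x₁ i j)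
      (d.ctl l h x₀ x₁ i j)) : Tri A B C := by
  have hq := Quad.tensor hD hX hc
  rw [← ea, ← eb, ← eN, ← ed] at hq
  exact ⟨hq.ha, hq.hb, hq.core⟩

end Vale.Agent.P237.Cal.AtomCert
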