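import Vale.Agent.P237.Cal.Vertex
import Vale.Agent.P237.Cal.Tensor

/-!
# P237: the vertex condition from twelve control quadruples

The coefficients of `vxA`, `vxB`, `vxA + vxB + vxR` and `vxA - vxB` in `(D, Xc)`, `D = σ - T`.
-/

open Set Real

namespace Vale.Agent.P237.Cal

open AtomCert

variable {m : ℕ}

/-- The coefficients of `vxA`. -/
noncomputable def polA (m : ℕ) (ε η θ φ T : ℝ) : Pol where
  c0 := preT m T * (1 + φ + θ * (1 + η) + (θ - ε) * T ^ 2)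
  c1 := 2 * T * preT m T * (θ - ε)
  c2 := preT m T * (θ - ε)
  c3 := 0
  cx := 0
  cdx := 0
  cxx := 0

/-- The coefficients of `vxB`. -/
noncomputable def polB (m : ℕ) (p : Loc) (ε η θ T : ℝ) : Pol where
  c0 := preT m T * (1 - ε * T ^ 2) + muX m T / T * (θ * (1 + T ^ 2) * (1 + T ^ 2 - (1 + η))) + p.g
  c1 := 2 * p.P
  c2 := 3 * p.C
  c3 := 0
  cx := 2 * p.S
  cdx := 0
  cxx := 0

/-- The coefficients of `vxR`. -/
noncomputable def polR (m : ℕ) (p : Loc) (ε θ φ ν T : ℝ) : Pol where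
  c0 := preT m T * (-2 + 2 * ε * T ^ 2 - φ * (√(1 + T ^ 2) / T)) -
    2 * muX m T * θ * (1 + T ^ 2) * T - p.g - p.LB
  c1 := 2 * ε * T * preT m T - 2 * muX m T * θ * (1 + T ^ 2) - 2 * p.P +
    (ell m ε p.μ p.a T + p.dg + p.K * muX m T) - 2 * T * ν
  c2 := -3 * p.C + (p.dP + 2 * muX m T * p.S) - ν
  c3 := p.dC
  cx := -2 * p.S
  cdx := 2 * (p.dS + muX m T * p.U)
  cxx := p.dU

/-- The coefficients of `vxA + vxB + vxR`. -/
noncomputable def polN (m : ℕ) (p : Loc) (ε η θ φ ν T : ℝ) : Pol where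
  c0 := (polA m ε η θ φ T).c0 + (polB m p ε η θ T).c0 + (polR m p ε θ φ ν T).c0
  c1 := (polA m ε η θ φ T).c1 + (polB m p ε η θ T).c1 + (polR m p ε θ φ ν T).c1
  c2 := (polA m ε η θ φ T).c2 + (polB m p ε η θ T).c2 + (polR m p ε θ φ ν T).c2
  c3 := (polR m p ε θ φ ν T).c3
  cx := (polB m p ε η θ T).cx + (polR m p ε θ φ ν T).cx
  cdx := (polR m p ε θ φ ν T).cdx
  cxx := (polR m p ε θ φ ν T).cxx

/-- The coefficients of `vxA - vxB`. -/
noncomputable def polD (m : ℕ) (p : Loc) (ε η θ φ T : ℝ) : Pol where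
  c0 := (polA m ε η θ φ T).c0 - (polB m p ε η θ T).c0
  c1 := (polA m ε η θ φ T).c1 - (polB m p ε η θ T).c1
  c2 := (polA m ε η θ φ T).c2 - (polB m p ε η θ T).c2
  c3 := 0
  cx := -(polB m p ε η θ T).cx
  cdx := 0
  cxx := 0

/-- **Twelve control quadruples give the vertex condition on a rectangle of `(D, Xc)`.** -/
theorem vxOk_of_ctl {p : Loc} {ε η θ φ ν T σ Xc l h x₀ x₁ : ℝ} (hD : σ - T ∈ Icc l h)
    (hX : Xc ∈ Icc x₀ x₁)
    (hc : ∀ i j, Quad ((polA m ε η θ φ T).ctl l h x₀ x₁ i j)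
      ((polB m p ε η θ T).ctl l h x₀ x₁ i j) ((polN m p ε η θ φ ν T).ctl l h x₀ x₁ i j)
      ((polD m p ε η θ φ T).ctl l h x₀ x₁ i j)) :
    VxOk m p ε η θ φ ν T σ Xc := by
  refine tri_of_tensor hD hX ?_ ?_ ?_ ?_ hc <;>
    simp only [vxA, vxB, vxR, vxGc, polA, polB, polR, polN, polD, Pol.eval] <;> ring

end Vale.Agent.P237.Cal
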