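import Vale.Agent.P237.Cal.BoxScalar
import Vale.Agent.P237.Cal.Coords
import Vale.Agent.P237.Cal.SmallU
import Vale.Agent.P237.Cal.SemiUp

/-!
# P237: windows and boxes cover the admissible range

A list of windows of `q = V/V₀`, each with its weight and a chain of boxes in `η = Y² - 1`, gives
`ProfileCal` when the last window passes the cap and every chain passes the range of `Y`.
-/

open Set Real

namespace Vale.Agent.P237.Cal.Windows

open Full MomQ BoxScalar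

/-- A calibration at every admissible point of the box `q ∈ [q0, q1]`, `η ∈ [f0, f1]`. -/
def BoxCalY (m : ℕ) (om q0 q1 f0 f1 : ℚ) : Prop :=
  ∀ V ρ Y : ℝ, 0 ≤ V → 0 < ρ →
    Statement.ballVol (m + 2) * ρ ^ (m + 2) = 2 * Statement.ballVol (m + 1) * V →
    (q0 : ℝ) ≤ V / semiMom m 1 → V / semiMom m 1 ≤ (q1 : ℝ) → 1 ≤ Y →
    (f0 : ℝ) ≤ Y ^ 2 - 1 → Y ^ 2 - 1 ≤ (f1 : ℝ) →
    V ≤ rr (m + 1) ^ (m + 1) * Y ^ (m + 1) * semiMom m 1 →
    ∃ (lam : ℝ) (Φ : ℝ × ℝ × ℝ → ℝ) (dΦ : ℝ × ℝ × ℝ → (ℝ × ℝ × ℝ →L[ℝ] ℝ)),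
      IsCalY m V ρ (om : ℝ) Y lam Φ dΦ

/-- Calibrations below `q0`. -/
def SmallCal (m : ℕ) (q0 : ℚ) : Prop :=
  ∀ V ρ : ℝ, semiMom m 1 < V → 0 < ρ →
    Statement.ballVol (m + 2) * ρ ^ (m + 2) = 2 * Statement.ballVol (m + 1) * V →
    V / semiMom m 1 ≤ (q0 : ℝ) →
    ∃ w : ℝ, 0 ≤ w ∧ ∀ Y : ℝ, 1 ≤ Y → hullMom m Y 0 ≤ V → hullTan m Y ≤ V →
      V ≤ rr (m + 1) ^ (m + 1) * Y ^ (m + 1) * semiMom m 1 →
      ∃ (lam : ℝ) (Φ : ℝ × ℝ × ℝ → ℝ) (dΦ : ℝ × ℝ × ℝ → (ℝ × ℝ × ℝ →L[ℝ] ℝ)),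
        IsCalY m V ρ w Y lam Φ dΦ

/-- A window: its upper end, its weight, the upper ends of the boxes in `η`, and the parameter
of the test value of the central value. -/
structure Win where
  q : ℚ
  om : ℚ
  fs : List ℚ
  t : ℚ

/-- The last element, from a first one. -/
def lastQ : ℚ → List ℚ → ℚ
  | a, [] => a
  | _, b :: l => lastQ b l

/-- The test value `Y = (1 + t²)/(1 - t²)` excludes larger central values. -/
def ymaxTest (m : ℕ) (q t f : ℚ) : Bool :=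
  let Y : ℚ := (1 + t ^ 2) / (1 - t ^ 2)
  let c : ℚ := 2 * t / (1 - t ^ 2)
  let a : ℚ := c / Y
  let lo : ℚ := (enc (mom0 (m + 4))).1
  let hi : ℚ := (enc (mom0 (m + 4))).2
  decide (0 < t) && decide (t < 1) && decide (c ^ 2 ≤ f) && decide (1 ≤ q) &&
    (decide ((q - 1) * hi < ((m : ℚ) + 1) * (1 / Y) ^ m * (a ^ 3 / 6)) ||
      decide (q * hi + SemiUp.semiUp m a - lo < (Y ^ (m + 2) - 1 / Y ^ (m + 2)) / (((m : ℚ) + 2) * c)))

/-- A lower bound of `κ_(j+1)`. -/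
def kapLo : ℕ → ℚ
  | 0 => 2
  | j + 1 => 2 * kapLo j * max 0 (enc (mom0 (j + 4))).1

/-- The last window passes the cap. -/
def capTest (m : ℕ) (q : ℚ) : Bool :=
  let r : ℚ := (enc (mom0 (m + 3))).2 / (enc (mom0 (m + 4))).1
  decide (0 < (enc (mom0 (m + 4))).1) && decide (0 < kapLo (m + 1)) &&
    decide ((2 * r ^ (m + 1) * (enc (mom0 (m + 4))).2) ^ (m + 2) ≤ q * kapLo (m + 1))

/-- The windows are consecutive, cover the range of `Y` and pass the cap. -/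
def winsTest (m : ℕ) : ℚ → List Win → Bool
  | q0, [] => capTest m q0
  | _, w :: l => decide (0 ≤ w.om) && ymaxTest m w.q w.t (lastQ 0 w.fs) && winsTest m w.q l

/-- Calibrations on a chain of boxes. -/
def ChainCal (m : ℕ) (om q0 q1 : ℚ) : ℚ → List ℚ → Prop
  | _, [] => True
  | a, b :: l => BoxCalY m om q0 q1 a b ∧ ChainCal m om q0 q1 b l

/-- Calibrations on all boxes of the windows. -/
def WinsCal (m : ℕ) : ℚ → List Win → Prop
  | _, [] => True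
  | q0, w :: l => ChainCal m w.om q0 w.q 0 w.fs ∧ WinsCal m w.q l

variable {m : ℕ}

/-- A calibration on a box serves every smaller box. -/
theorem BoxCalY.mono {om q0 q1 f0 f1 a0 a1 g0 g1 : ℚ} (h : BoxCalY m om q0 q1 f0 f1)
    (h0 : q0 ≤ a0) (h1 : a1 ≤ q1) (h2 : f0 ≤ g0) (h3 : g1 ≤ f1) :
    BoxCalY m om a0 a1 g0 g1 := fun V ρ Y hV hρ hb k0 k1 hY l0 l1 hR =>
  h V ρ Y hV hρ hb ((Rat.cast_le.2 h0).trans k0) (k1.trans (Rat.cast_le.2 h1)) hY
    ((Rat.cast_le.2 h2).trans l0) (l1.trans (Rat.cast_le.2 h3)) hR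

/-- The same from one test. -/
theorem BoxCalY.fit {om q0 q1 f0 f1 om' a0 a1 g0 g1 : ℚ} (h : BoxCalY m om q0 q1 f0 f1)
    (e : (decide (om = om') && decide (q0 ≤ a0) && decide (a1 ≤ q1) && decide (f0 ≤ g0) &&
      decide (g1 ≤ f1)) = true) : BoxCalY m om' a0 a1 g0 g1 := by
  simp only [Bool.and_eq_true, decide_eq_true_eq] at e
  obtain ⟨⟨⟨⟨rfl, e0⟩, e1⟩, e2⟩, e3⟩ := e
  exact h.mono e0 e1 e2 e3

lemma V0_pos (m : ℕ) : 0 < semiMom m 1 := by rw [semiMom_one]; exact mom_zero_pos (m + 2)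

lemma V0_bounds (m : ℕ) :
    ((enc (mom0 (m + 4))).1 : ℝ) ≤ semiMom m 1 ∧ semiMom m 1 ≤ ((enc (mom0 (m + 4))).2 : ℝ) := by
  rw [semiMom_one, mom0_sound _ (by omega)]
  exact enc_le _

theorem ymaxTest_sound {q t f : ℚ} (h : ymaxTest m q t f = true) {V Y : ℝ} (hY : 1 ≤ Y)
    (hH : hullTan m Y ≤ V) (hq : V / semiMom m 1 ≤ (q : ℝ)) : Y ^ 2 - 1 ≤ (f : ℝ) := by
  simp only [ymaxTest, Bool.and_eq_true, Bool.or_eq_true, decide_eq_true_eq] at h
  obtain ⟨⟨⟨⟨ht0, ht1⟩, hf⟩, hq1⟩, hor⟩ := h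
  have ht0' : (0 : ℝ) < t := by exact_mod_cast ht0
  have ht1' : (t : ℝ) < 1 := by exact_mod_cast ht1
  have hd : (0 : ℝ) < 1 - (t : ℝ) ^ 2 := by nlinarith
  have hq1' : (1 : ℝ) ≤ q := by exact_mod_cast hq1
  have hv := V0_pos m
  obtain ⟨hlo, hhi⟩ := V0_bounds m
  rw [div_le_iff₀ hv] at hq
  set Y₁ : ℝ := (1 + (t : ℝ) ^ 2) / (1 - (t : ℝ) ^ 2) with hY₁d
  set c : ℝ := 2 * (t : ℝ) / (1 - (t : ℝ) ^ 2) with hcd
  have hc0 : 0 < c := by positivity
  have hY₁ : 1 < Y₁ := by rw [hY₁d, one_lt_div hd]; nlinarith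
  have hY₁0 : 0 < Y₁ := by linarith
  have hc2 : Y₁ ^ 2 - 1 = c ^ 2 := by rw [hY₁d, hcd]; field_simp; ring
  have hsc : √(Y₁ ^ 2 - 1) = c := by rw [hc2, sqrt_sq hc0.le]
  have ha : tanPt Y₁ = c / Y₁ := by
    rw [← hsc, ← mul_tanPt hY₁.le]; field_simp
  have hlt : Y < Y₁ := by
    rcases hor with h1 | h1
    · have h1' := (Rat.cast_lt (K := ℝ)).2 h1
      push_cast at h1'
      rw [← hY₁d, ← hcd] at h1'
      refine Y_lt_of_bump hY₁ hH ?_
      rw [ha]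
      calc V - semiMom m 1 ≤ ((q : ℝ) - 1) * semiMom m 1 := by linarith
        _ ≤ ((q : ℝ) - 1) * ((enc (mom0 (m + 4))).2 : ℝ) :=
          mul_le_mul_of_nonneg_left hhi (by linarith)
        _ < _ := h1'
    · have h1' := (Rat.cast_lt (K := ℝ)).2 h1
      push_cast at h1'
      rw [← hY₁d, ← hcd] at h1'
      refine lt_of_hullTan hY₁ hH ?_
      obtain ⟨a0, a1⟩ := tanPt_mem hY₁.le
      have hs : ∀ a b : ℝ, IntervalIntegrable (fun x : ℝ => √(1 - x ^ 2) ^ (m + 1))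
          MeasureTheory.volume a b := fun a b => Continuous.intervalIntegrable (by fun_prop) a b
      have e := intervalIntegral.integral_add_adjacent_intervals (hs 0 (tanPt Y₁)) (hs (tanPt Y₁) 1)
      have ec : ((2 * t / (1 - t ^ 2) / ((1 + t ^ 2) / (1 - t ^ 2)) : ℚ) : ℝ) = tanPt Y₁ := by
        rw [ha]; push_cast; rw [← hY₁d, ← hcd]
      have h2 := SemiUp.semiMom_le_semiUp (m := m)
        (a := 2 * t / (1 - t ^ 2) / ((1 + t ^ 2) / (1 - t ^ 2))) (ec ▸ a0) (ec ▸ a1)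
      rw [ec] at h2
      rw [hullTan_eq hY₁, hullTan_line hY₁, hsc]
      simp only [semiMom] at h2 hlo hhi hq ⊢
      rw [ha] at e h2 ⊢
      have h3 := mul_le_mul_of_nonneg_left hhi (by linarith : (0 : ℝ) ≤ (q : ℝ))
      linarith
  have hf' := (Rat.cast_le (K := ℝ)).2 hf
  push_cast at hf'
  rw [← hcd] at hf'
  nlinarith

lemma kapLo_le : ∀ j : ℕ, (kapLo j : ℝ) ≤ Statement.ballVol (j + 1)
  | 0 => by simp [kapLo, ballVol_one]
  | j + 1 => by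
    have h := integral_semi_pow (Nat.succ_pos j)
    simp only [Nat.succ_eq_add_one, half_semi, semi_eq_mom (j + 1),
      show j + 1 + 3 = j + 4 from rfl] at h
    rw [show j + 1 + 1 = j + 2 from rfl] at h
    have hκ : 0 < Statement.ballVol (j + 1) := ballVol_pos' (Nat.succ_pos j)
    have ih := kapLo_le j
    have hmom := (enc_le (mom0 (j + 4))).1
    rw [← mom0_sound _ (by omega)] at hmom
    have hmom' : ((max 0 (enc (mom0 (j + 4))).1 : ℚ) : ℝ) ≤ mom 0 (j + 4) := by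
      push_cast
      exact max_le (mom_zero_pos (j + 2)).le hmom
    simp only [kapLo, Rat.cast_mul, Rat.cast_ofNat]
    calc 2 * (kapLo j : ℝ) * ((max 0 (enc (mom0 (j + 4))).1 : ℚ) : ℝ)
        ≤ 2 * Statement.ballVol (j + 1) * mom 0 (j + 4) :=
          mul_le_mul (by linarith) hmom' (by exact_mod_cast le_max_left 0 _) (by positivity)
      _ = Statement.ballVol (j + 2) := by rw [← h]; ring

theorem capTest_sound {q : ℚ} (h : capTest m q = true) {V : ℝ} (hV : 0 ≤ V)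
    (hcap : 2 * Statement.ballVol (m + 1) * V ≤ Full.profileConst m ^ (m + 2)) :
    V / semiMom m 1 ≤ (q : ℝ) := by
  simp only [capTest, Bool.and_eq_true, decide_eq_true_eq] at h
  obtain ⟨⟨h0, hk⟩, hc⟩ := h
  have hv := V0_pos m
  obtain ⟨hlo, hhi⟩ := V0_bounds m
  have h0' : (0 : ℝ) < ((enc (mom0 (m + 4))).1 : ℝ) := by exact_mod_cast h0
  have hk' : (0 : ℝ) < (kapLo (m + 1) : ℝ) := by exact_mod_cast hk
  have hc' := (Rat.cast_le (K := ℝ)).2 hc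
  push_cast at hc'
  have hr : rr (m + 1) ≤ ((enc (mom0 (m + 3))).2 : ℝ) / ((enc (mom0 (m + 4))).1 : ℝ) := by
    rw [rr, show m + 1 + 2 = m + 3 from rfl, show m + 1 + 3 = m + 4 from rfl, ← semiMom_one]
    have := (enc_le (mom0 (m + 3))).2
    rw [← mom0_sound _ (by omega)] at this
    exact div_le_div₀ ((mom_zero_pos (m + 1)).le.trans this) this h0' hlo
  have hr0 : 0 < rr (m + 1) := div_pos (mom_zero_pos _) (mom_zero_pos _)
  have e := integral_semi_pow (Nat.succ_pos m)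
  simp only [Nat.succ_eq_add_one, half_semi, show m + 1 + 1 = m + 2 from rfl] at e
  have h1 : V / semiMom m 1 * Statement.ballVol (m + 2) ≤
      (2 * rr (m + 1) ^ (m + 1) * semiMom m 1) ^ (m + 2) := by
    rw [← profileConst_eq]
    refine le_trans (le_of_eq ?_) hcap
    rw [← e]
    simp only [semiMom] at hv ⊢
    generalize (∫ t in (0 : ℝ)..1, √(1 - t ^ 2) ^ (m + 1)) = I at hv ⊢
    field_simp
  have h2 : (2 * rr (m + 1) ^ (m + 1) * semiMom m 1) ^ (m + 2) ≤ (q : ℝ) * (kapLo (m + 1) : ℝ) :=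
    le_trans (pow_le_pow_left₀ (mul_nonneg (by positivity) hv.le) (mul_le_mul (mul_le_mul_of_nonneg_left
      (pow_le_pow_left₀ hr0.le hr _) zero_le_two) hhi hv.le
      (mul_nonneg zero_le_two (pow_nonneg (hr0.le.trans hr) _))) _) hc'
  have h3 := mul_le_mul_of_nonneg_left (kapLo_le (m + 1)) (div_nonneg hV hv.le)
  exact le_of_mul_le_mul_right (h3.trans (h1.trans h2)) hk'

theorem chain_cal {om q0 q1 : ℚ} : ∀ {a : ℚ} {l : List ℚ}, ChainCal m om q0 q1 a l →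
    ∀ V ρ Y : ℝ, 0 ≤ V → 0 < ρ →
      Statement.ballVol (m + 2) * ρ ^ (m + 2) = 2 * Statement.ballVol (m + 1) * V →
      (q0 : ℝ) ≤ V / semiMom m 1 → V / semiMom m 1 ≤ (q1 : ℝ) → 1 ≤ Y →
      (a : ℝ) < Y ^ 2 - 1 → Y ^ 2 - 1 ≤ (lastQ a l : ℝ) →
      V ≤ rr (m + 1) ^ (m + 1) * Y ^ (m + 1) * semiMom m 1 →
      ∃ (lam : ℝ) (Φ : ℝ × ℝ × ℝ → ℝ) (dΦ : ℝ × ℝ × ℝ → (ℝ × ℝ × ℝ →L[ℝ] ℝ)),
        IsCalY m V ρ (om : ℝ) Y lam Φ dΦ
  | a, [], _, _, _, _, _, _, _, _, _, _, h1, h2, _ => absurd h2 (not_le.2 h1)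
  | a, b :: l, h, V, ρ, Y, hV, hρ, hb, hq, hq', hY, h1, h2, hR => by
    rcases le_or_gt (Y ^ 2 - 1) (b : ℝ) with hle | hgt
    · exact h.1 V ρ Y hV hρ hb hq hq' hY h1.le hle hR
    · exact chain_cal h.2 V ρ Y hV hρ hb hq hq' hY hgt h2 hR

theorem wins_cal : ∀ {q0 : ℚ} {ws : List Win}, winsTest m q0 ws = true → WinsCal m q0 ws →
    ∀ V ρ : ℝ, 0 ≤ V → 0 < ρ →
      Statement.ballVol (m + 2) * ρ ^ (m + 2) = 2 * Statement.ballVol (m + 1) * V →
      2 * Statement.ballVol (m + 1) * V ≤ Full.profileConst m ^ (m + 2) →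
      (q0 : ℝ) < V / semiMom m 1 →
      ∃ w : ℝ, 0 ≤ w ∧ ∀ Y : ℝ, 1 ≤ Y → hullTan m Y ≤ V →
        V ≤ rr (m + 1) ^ (m + 1) * Y ^ (m + 1) * semiMom m 1 →
        ∃ (lam : ℝ) (Φ : ℝ × ℝ × ℝ → ℝ) (dΦ : ℝ × ℝ × ℝ → (ℝ × ℝ × ℝ →L[ℝ] ℝ)),
          IsCalY m V ρ w Y lam Φ dΦ
  | q0, [], h, _, V, ρ, hV, _, _, hcap, hq =>
    absurd (capTest_sound (by simpa [winsTest] using h) hV hcap) (not_le.2 hq)
  | q0, w :: l, h, hc, V, ρ, hV, hρ, hb, hcap, hq => by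
    simp only [winsTest, Bool.and_eq_true, decide_eq_true_eq] at h
    obtain ⟨⟨hom, hy⟩, hl⟩ := h
    rcases le_or_gt (V / semiMom m 1) (w.q : ℝ) with hle | hgt
    · refine ⟨w.om, by exact_mod_cast hom, fun Y hY hH hR => ?_⟩
      have hf := ymaxTest_sound hy hY hH hle
      rcases eq_or_lt_of_le (show (0 : ℝ) ≤ Y ^ 2 - 1 by nlinarith) with h0 | h0
      · -- `η = 0` lies in the first box
        cases hfs : w.fs with
        | nil =>
          simp only [ymaxTest, hfs, lastQ, Bool.and_eq_true, decide_eq_true_eq] at hy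
          obtain ⟨⟨⟨⟨ht0, ht1⟩, hcf⟩, -⟩, -⟩ := hy
          have hd : (0 : ℚ) < 1 - w.t ^ 2 := by nlinarith
          have hpos : 0 < (2 * w.t / (1 - w.t ^ 2)) ^ 2 := by positivity
          linarith
        | cons b r =>
          obtain ⟨hc1, -⟩ := hc
          rw [hfs] at hc1
          have hb0 : (0 : ℝ) ≤ (b : ℝ) → Y ^ 2 - 1 ≤ (b : ℝ) := fun hb0 => by linarith
          rcases le_or_gt (0 : ℝ) (b : ℝ) with h1 | h1
          · exact hc1.1 V ρ Y hV hρ hb hq.le hle hY (by simp [← h0]) (hb0 h1) hR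
          · refine chain_cal hc1.2 V ρ Y hV hρ hb hq.le hle hY (by linarith) ?_ hR
            simpa [hfs, lastQ] using hf
      · exact chain_cal hc.1 V ρ Y hV hρ hb hq.le hle hY (by simpa using h0) hf hR
    · exact wins_cal hl hc.2 V ρ hV hρ hb hcap hgt

/-- **`ProfileCal` from windows and the range below them.** -/
theorem profileCal_of_windows {q0 : ℚ} {ws : List Win} (h : winsTest m q0 ws = true)
    (hs : SmallCal m q0) (hc : WinsCal m q0 ws) : ProfileCal m := by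
  refine profileCal_of_rules fun V ρ hV hρ hb hcap => ?_
  have hv := V0_pos m
  rcases le_or_gt (V / semiMom m 1) (q0 : ℝ) with hle | hgt
  · exact hs V ρ hV hρ hb hle
  · obtain ⟨w, hw, hY⟩ := wins_cal h hc V ρ (hv.le.trans hV.le) hρ hb hcap hgt
    exact ⟨w, hw, fun Y h1 _ h3 h4 => hY Y h1 h3 h4⟩

end Vale.Agent.P237.Cal.Windows
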